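import Vale.Agent.P019Q.BilC

/-!
# The bilinear form, the two steps
-/

namespace Vale.Agent.P019P

open Vale.Agent.P019

set_option linter.style.haveILetI false
set_option linter.unusedSectionVars false

open Polynomial Filter

theorem bl_two {R : Type*} [CommRing R] {P : R[X]} {N : ℕ} (hN : N ≠ 0)
    (h : ∀ e, e ≠ 0 → e ≠ N → P.coeff e = 0) : P = C (P.coeff N) * X ^ N + C (P.coeff 0) := by
  ext e
  rw [coeff_add, coeff_C_mul, coeff_X_pow, coeff_C]
  by_cases h0 : e = 0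
  · subst h0
    rw [if_neg hN.symm, if_pos rfl]
    simp
  · by_cases hN' : e = N
    · subst hN'
      rw [if_pos rfl, if_neg h0]
      simp
    · rw [if_neg hN', if_neg h0, h e h0 hN']
      simp

theorem bl_cop {L : Type*} [Field L] {l : Subfield L} {P Q U V : l[X][X]} {D : l[X]}
    (hUV : U * P + V * Q = C D) {β : l} (hD : D.eval β ≠ 0) :
    IsCoprime (P.map (evalRingHom β)) (Q.map (evalRingHom β)) := by
  have h1 := congrArg (fun F : l[X][X] => F.map (evalRingHom β)) hUV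
  simp only [Polynomial.map_add, Polynomial.map_mul, map_C, coe_evalRingHom] at h1
  refine ⟨C (D.eval β)⁻¹ * U.map (evalRingHom β), C (D.eval β)⁻¹ * V.map (evalRingHom β), ?_⟩
  calc C (D.eval β)⁻¹ * U.map (evalRingHom β) * P.map (evalRingHom β) +
        C (D.eval β)⁻¹ * V.map (evalRingHom β) * Q.map (evalRingHom β) =
      C (D.eval β)⁻¹ * (U.map (evalRingHom β) * P.map (evalRingHom β) +
        V.map (evalRingHom β) * Q.map (evalRingHom β)) := by ring
    _ = C (D.eval β)⁻¹ * C (D.eval β) := by rw [h1]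
    _ = 1 := by rw [← C_mul, inv_mul_cancel₀ hD, C_1]

/-- coprimality on the fibres of the other projection. -/
theorem bl_cop_ae {l : Type*} [Field l] [IsAlgClosed l] {p₁ p₀ q₁ q₀ u₁ u₀ v₁ v₀ : l[X]}
    (hb : u₁ * p₁ + u₀ * p₀ + v₁ * q₁ + v₀ * q₀ = 1) (hd : p₁ * q₀ - p₀ * q₁ ≠ 0) {N : ℕ}
    (hN : N ≠ 0) : ∃ F : l[X], F ≠ 0 ∧ ∀ α : l, F.eval α ≠ 0 →
      IsCoprime (C (α ^ N) * p₁ + p₀) (C (α ^ N) * q₁ + q₀) := by
  classical
  set F : l → l[X] := fun x => if p₁.eval x ≠ 0 ∨ p₀.eval x ≠ 0 then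
    C (p₁.eval x) * X ^ N + C (p₀.eval x) else C (q₁.eval x) * X ^ N + C (q₀.eval x) with hF
  have hlin : ∀ a b : l, (a ≠ 0 ∨ b ≠ 0) → (C a * X ^ N + C b : l[X]) ≠ 0 := by
    intro a b hab h0
    have h1 : (C a * X ^ N + C b : l[X]).coeff N = 0 := by rw [h0]; simp
    have h2 : (C a * X ^ N + C b : l[X]).coeff 0 = 0 := by rw [h0]; simp
    rw [bl_coeff, if_pos rfl, if_neg hN, add_zero] at h1
    rw [bl_coeff, if_pos rfl, if_neg hN.symm, zero_add] at h2
    rcases hab with h | h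
    · exact h h1
    · exact h h2
  have hF0 : ∀ x, F x ≠ 0 := by
    intro x
    by_cases hx : p₁.eval x ≠ 0 ∨ p₀.eval x ≠ 0
    · have : F x = C (p₁.eval x) * X ^ N + C (p₀.eval x) := if_pos hx
      rw [this]
      exact hlin _ _ hx
    · have : F x = C (q₁.eval x) * X ^ N + C (q₀.eval x) := if_neg hx
      rw [this]
      apply hlin
      by_contra hcon
      rw [not_or, not_not, not_not] at hx hcon
      have h1 := congrArg (eval x) hb
      rw [eval_add, eval_add, eval_add, eval_mul, eval_mul, eval_mul, eval_mul, hx.1, hx.2,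
        hcon.1, hcon.2] at h1
      simp at h1
  refine ⟨∏ x ∈ (p₁ * q₀ - p₀ * q₁).roots.toFinset, F x,
    Finset.prod_ne_zero_iff.2 fun x _ => hF0 x, ?_⟩
  intro α hα
  refine (isCoprime_iff_aeval_ne_zero_of_isAlgClosed (k := l) l _ _).2 fun x => ?_
  rw [coe_aeval_eq_eval]
  by_contra hcon
  rw [not_or, not_not, not_not] at hcon
  obtain ⟨h1, h2⟩ := hcon
  rw [eval_add, eval_mul, eval_C] at h1 h2
  have hx : x ∈ (p₁ * q₀ - p₀ * q₁).roots.toFinset := by
    rw [Multiset.mem_toFinset, mem_roots hd, IsRoot.def, eval_sub, eval_mul, eval_mul]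
    linear_combination (q₀.eval x) * 0 + (-(q₁.eval x)) * h1 + (p₁.eval x) * h2
  rw [eval_prod, Finset.prod_ne_zero_iff] at hα
  apply hα x hx
  by_cases hx : p₁.eval x ≠ 0 ∨ p₀.eval x ≠ 0
  · have : F x = C (p₁.eval x) * X ^ N + C (p₀.eval x) := if_pos hx
    rw [this]
    simp only [eval_add, eval_mul, eval_C, eval_pow, eval_X]
    linear_combination h1
  · have : F x = C (q₁.eval x) * X ^ N + C (q₀.eval x) := if_neg hx
    rw [this]
    simp only [eval_add, eval_mul, eval_C, eval_pow, eval_X]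
    linear_combination h2

variable {K L : Type*} [Field K] [Field L] [PerfectField K] [PerfectField L] {ℓ : ℕ}
  [Fact ℓ.Prime] [NeZero (ℓ : K)] [NeZero (ℓ : L)]
  {k : Subfield K} {l : Subfield L} {Θ : V ℓ K ≃ₗ[ZMod ℓ] V ℓ L}

theorem bl_shift (hk : IsAlgClosed k) {t : K} (ht : t ∉ k) (s : K) :
    Shift ℓ k s t (t + s) (fun a b => a + b) := by
  have := shift_add (ℓ := ℓ) hk ht s
  rwa [add_comm s t] at this

/-- the fibre relations determine the form of the polynomials. -/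
theorem bl_core (hk : IsAlgClosed k) (hl : IsAlgClosed l) {s : K} {t' s' z' : L}
    (hs : Rt k l Θ s s') {ψs : K → L} {es : K → ZMod ℓ} (ps : Psi k l Θ s s' ψs es)
    (hfib : ∀ᶠ b in ae k, ψs b ∈ l ∧ ∃ (i j : ℕ) (A B C' D : l), A * D - B * C' ≠ 0 ∧
      ∀ (n : ℕ) (Ps Qs : L) (P₁ Q₁ : l[X]),
        (∀ W : ValuationSubring L, TrivOn W l → t' ∈ W → s' ∈ W → W.valuation (s' - ψs b) < 1 →
          blR W Ps (aeval t' P₁) ∧ blR W Qs (aeval t' Q₁)) →
        z' ^ (ringExpChar L) ^ n * Qs = Ps →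
        P₁ ^ (ringExpChar l) ^ i *
            (C C' * X ^ (ringExpChar l) ^ j + C D) ^ (ringExpChar l) ^ n =
          Q₁ ^ (ringExpChar l) ^ i *
            (C A * X ^ (ringExpChar l) ^ j + C B) ^ (ringExpChar l) ^ n)
    {n : ℕ} {P Q : l[X][X]} (hPQ0 : P ≠ 0 ∨ Q ≠ 0)
    (hcop : ∀ᶠ b in ae k, ∀ hb : ψs b ∈ l,
      IsCoprime (P.map (evalRingHom ⟨ψs b, hb⟩)) (Q.map (evalRingHom ⟨ψs b, hb⟩)))
    (hPQ : z' ^ (ringExpChar L) ^ n * blE l s' t' Q = blE l s' t' P) :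
    ∃ r : ℕ, (∀ e, e ≠ 0 → e ≠ (ringExpChar l) ^ r → P.coeff e = 0 ∧ Q.coeff e = 0) ∧
      P.coeff ((ringExpChar l) ^ r) * Q.coeff 0 -
        P.coeff 0 * Q.coeff ((ringExpChar l) ^ r) ≠ 0 := by
  haveI := hl
  haveI := ae_neBot_of_isAlgClosed hk
  have htop := bl_top hPQ0
  generalize hN : max P.natDegree Q.natDegree = N at htop
  have hPN : P.natDegree ≤ N := by rw [← hN]; exact le_max_left _ _
  have hQN : Q.natDegree ≤ N := by rw [← hN]; exact le_max_right _ _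
  have htop' : ∀ᶠ b in ae k, ∀ hb : ψs b ∈ l, (P.coeff N).eval ⟨ψs b, hb⟩ ≠ 0 ∨
      (Q.coeff N).eval ⟨ψs b, hb⟩ ≠ 0 := by
    rcases htop with h | h
    · filter_upwards [bl_ae_ne hk hl hs ps h] with b hb' hb using Or.inl (hb' hb)
    · filter_upwards [bl_ae_ne hk hl hs ps h] with b hb' hb using Or.inr (hb' hb)
  have h1 : ∀ᶠ b in ae k, (∃ m : ℕ, N = (ringExpChar l) ^ m) ∧ ∀ hb : ψs b ∈ l,
      (∀ e, e ≠ 0 → e ≠ N → (P.coeff e).eval ⟨ψs b, hb⟩ = 0 ∧
        (Q.coeff e).eval ⟨ψs b, hb⟩ = 0) ∧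
      (P.coeff N * Q.coeff 0 - P.coeff 0 * Q.coeff N).eval ⟨ψs b, hb⟩ ≠ 0 := by
    filter_upwards [hfib, hcop, htop'] with b hb hDb htb
    obtain ⟨hβ, i, j, A, B, C', D', hdet, hid⟩ := hb
    have hid' := hid n (blE l s' t' P) (blE l s' t' Q) (P.map (evalRingHom ⟨ψs b, hβ⟩))
      (Q.map (evalRingHom ⟨ψs b, hβ⟩)) (by
        intro W hWl htW hsW hlt
        rw [← blE_eval, ← blE_eval]
        have hx : blR W s' (ψs b) := ⟨hsW, hWl _ hβ, hlt⟩
        exact ⟨blR.blE hWl hx (blR.refl htW) P, blR.blE hWl hx (blR.refl htW) Q⟩) hPQ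
    have h2 := bl_fib (N := N) (hDb hβ) hdet hid' (natDegree_map_le.trans hPN)
      (natDegree_map_le.trans hQN) (by
        rw [coeff_map, coeff_map]
        exact htb hβ)
    simp only [coeff_map, coe_evalRingHom] at h2
    refine ⟨h2.1, fun _ => ⟨h2.2.1, ?_⟩⟩
    rw [eval_sub, eval_mul, eval_mul]
    exact h2.2.2
  obtain ⟨b, ⟨⟨r, hr⟩, hb1⟩, hb2⟩ := (h1.and ps.cor).exists
  refine ⟨r, ?_⟩
  rw [← hr]
  refine ⟨fun e he0 heN => ⟨?_, ?_⟩, ?_⟩
  · exact bl_ae_zero hk hl hs ps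
      (by filter_upwards [h1] with b h hb using ((h.2 hb).1 e he0 heN).1)
  · exact bl_ae_zero hk hl hs ps
      (by filter_upwards [h1] with b h hb using ((h.2 hb).1 e he0 heN).2)
  · intro h0
    apply (hb1 hb2.1).2
    rw [h0, eval_zero]

/-- first step: linear in `t' ^ q^r`. -/
theorem Hyp.bl_step1 (H : Hyp ℓ k l Θ) {t s : K} {t' s' z' : L}
    (hst : Ind k s t) (ht : Rt k l Θ t t') (hs : Rt k l Θ s s')
    (hz : Rt k l Θ (t + s) z') {ψt ψs ψz : K → L}
    {et es ez : K → ZMod ℓ} (pt : Psi k l Θ t t' ψt et) (ps : Psi k l Θ s s' ψs es)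
    (pz : Psi k l Θ (t + s) z' ψz ez) :
    ∃ (n r : ℕ) (P₁ P₀ Q₁ Q₀ : l[X]), P₁ * Q₀ - P₀ * Q₁ ≠ 0 ∧
      z' ^ (ringExpChar L) ^ n * (aeval s' Q₁ * t' ^ (ringExpChar l) ^ r + aeval s' Q₀) =
        aeval s' P₁ * t' ^ (ringExpChar l) ^ r + aeval s' P₀ := by
  have hk := H.ack
  have hl := H.acl
  have hts : ¬ IsAlgebraic (adj k s) t := hst.2
  have hts' : ¬ IsAlgebraic (adj k t) s := (hst.symm hk).2
  have hzm : z' ∈ adj (adj l s') t' := H.z_mem hts ht hs hz (shift_add hk hs.good.1 t)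
  obtain ⟨n, P, Q, U, V, D, hD, hUV, hPQ⟩ := bl_rep hl hs.good'.1 hzm
  have hfib := H.bl_fibre hts' hs ht hz (bl_shift hk ht.good.1 s) ps pt pz
  have hPQ0 : P ≠ 0 ∨ Q ≠ 0 := by
    by_contra hcon
    rw [not_or, not_not, not_not] at hcon
    rw [hcon.1, hcon.2, mul_zero, mul_zero, add_zero] at hUV
    exact hD (C_eq_zero.1 hUV.symm)
  obtain ⟨r, hr1, hr2⟩ := bl_core hk hl hs ps (by
    filter_upwards [hfib] with b hb
    obtain ⟨hβ, i, j, A, B, C', D', hdet, -, hid⟩ := hb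
    exact ⟨hβ, i, j, A, B, C', D', hdet, hid⟩) hPQ0 (by
    filter_upwards [bl_ae_ne hk hl hs ps hD] with b hb hb' using bl_cop hUV (hb hb')) hPQ
  have hN0 : (ringExpChar l) ^ r ≠ 0 := (pow_pos (expChar_pos l _) r).ne'
  have hP2 := bl_two hN0 fun e h0 hN => (hr1 e h0 hN).1
  have hQ2 := bl_two hN0 fun e h0 hN => (hr1 e h0 hN).2
  refine ⟨n, r, P.coeff ((ringExpChar l) ^ r), P.coeff 0, Q.coeff ((ringExpChar l) ^ r),
    Q.coeff 0, hr2, ?_⟩
  rw [hP2, hQ2] at hPQ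
  simp only [map_add, map_mul, map_pow, blE_C, blE_X] at hPQ
  exact hPQ

theorem blE_mapC (x y : L) (p : l[X]) : blE l x y (p.map C) = aeval y p := by
  induction p using Polynomial.induction_on' with
  | add p q hp hq => rw [Polynomial.map_add, map_add, map_add, hp, hq]
  | monomial n a =>
    rw [map_monomial, blE_monomial, aeval_monomial, aeval_C]

/-- second step: the bilinear form. -/
theorem Hyp.bl_step2 (H : Hyp ℓ k l Θ) {t s : K} {t' s' z' : L}
    (hst : Ind k s t) (ht : Rt k l Θ t t') (hs : Rt k l Θ s s')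
    (hz : Rt k l Θ (t + s) z') {ψt ψs ψz : K → L}
    {et es ez : K → ZMod ℓ} (pt : Psi k l Θ t t' ψt et) (ps : Psi k l Θ s s' ψs es)
    (pz : Psi k l Θ (t + s) z' ψz ez) :
    ∃ (n r r' : ℕ) (p : Fin 4 → l[X]), p 0 * p 3 - p 1 * p 2 ≠ 0 ∧
      (∀ i, p i = C ((p i).coeff ((ringExpChar l) ^ r')) * X ^ (ringExpChar l) ^ r' +
        C ((p i).coeff 0)) ∧
      z' ^ (ringExpChar L) ^ n * (aeval s' (p 2) * t' ^ (ringExpChar l) ^ r + aeval s' (p 3)) =
        aeval s' (p 0) * t' ^ (ringExpChar l) ^ r + aeval s' (p 1) := by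
  have hk := H.ack
  have hl := H.acl
  haveI := hl
  obtain ⟨n, r, P₁, P₀, Q₁, Q₀, hdet, hrel⟩ := H.bl_step1 hst ht hs hz pt ps pz
  obtain ⟨g, p₁, p₀, q₁, q₀, u₁, u₀, v₁, v₀, hg0, hp₁, hp₀, hq₁, hq₀, hbez, hdet'⟩ :=
    bl_gcd4 hdet
  have hgs : aeval s' g ≠ 0 := line_aeval_ne hl hs.good'.1 hg0
  set N := (ringExpChar l) ^ r with hN
  have hN0 : N ≠ 0 := (pow_pos (expChar_pos l _) r).ne'
  have hrel' : z' ^ (ringExpChar L) ^ n * (aeval s' q₁ * t' ^ N + aeval s' q₀) =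
      aeval s' p₁ * t' ^ N + aeval s' p₀ := by
    apply mul_left_cancel₀ hgs
    rw [hp₁, hp₀, hq₁, hq₀] at hrel
    simp only [map_mul] at hrel
    linear_combination hrel
  -- the polynomials with the roles of the variables exchanged
  set P : l[X][X] := p₁.map C * C (X ^ N) + p₀.map C with hP
  set Q : l[X][X] := q₁.map C * C (X ^ N) + q₀.map C with hQ
  have hcoef : ∀ (p q : l[X]) (e : ℕ), (p.map C * C (X ^ N) + q.map C : l[X][X]).coeff e =
      C (p.coeff e) * X ^ N + C (q.coeff e) := by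
    intro p q e
    rw [coeff_add, coeff_mul_C, coeff_map, coeff_map]
  have hmap : ∀ (p q : l[X]) (α : l), (p.map C * C (X ^ N) + q.map C : l[X][X]).map
      (evalRingHom α) = C (α ^ N) * p + q := by
    intro p q α
    have hid : (evalRingHom α).comp (C : l →+* l[X]) = RingHom.id l := by
      ext x
      simp
    rw [Polynomial.map_add, Polynomial.map_mul, Polynomial.map_map, Polynomial.map_map, hid,
      Polynomial.map_id, Polynomial.map_id, map_C, coe_evalRingHom, eval_pow, eval_X, mul_comm]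
  have hblE : ∀ p q : l[X], blE l t' s' (p.map C * C (X ^ N) + q.map C) =
      aeval s' p * t' ^ N + aeval s' q := by
    intro p q
    rw [map_add, map_mul, blE_mapC, blE_mapC, blE_C, map_pow, aeval_X]
  have hPQ : z' ^ (ringExpChar L) ^ n * blE l t' s' Q = blE l t' s' P := by
    rw [hP, hQ, hblE, hblE]
    exact hrel'
  have hlin : ∀ a b : l, (C a * X ^ N + C b : l[X]) = 0 → a = 0 ∧ b = 0 := by
    intro a b h0
    have h1 : (C a * X ^ N + C b : l[X]).coeff N = 0 := by rw [h0]; simp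
    have h2 : (C a * X ^ N + C b : l[X]).coeff 0 = 0 := by rw [h0]; simp
    rw [bl_coeff, if_pos rfl, if_neg hN0, add_zero] at h1
    rw [bl_coeff, if_pos rfl, if_neg hN0.symm, zero_add] at h2
    exact ⟨h1, h2⟩
  have hPQ0 : P ≠ 0 ∨ Q ≠ 0 := by
    by_contra hcon
    rw [not_or, not_not, not_not] at hcon
    have key : ∀ (p q : l[X]), (p.map C * C (X ^ N) + q.map C : l[X][X]) = 0 → p = 0 ∧ q = 0 := by
      intro p q h0
      have h1 : ∀ e, p.coeff e = 0 ∧ q.coeff e = 0 := by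
        intro e
        apply hlin
        rw [← hcoef, h0, coeff_zero]
      exact ⟨Polynomial.ext fun e => by rw [(h1 e).1, coeff_zero],
        Polynomial.ext fun e => by rw [(h1 e).2, coeff_zero]⟩
    obtain ⟨e1, e2⟩ := key p₁ p₀ hcon.1
    obtain ⟨e3, e4⟩ := key q₁ q₀ hcon.2
    rw [e1, e2, e3, e4] at hbez
    simp at hbez
  obtain ⟨F, hF0, hF⟩ := bl_cop_ae hbez hdet' hN0
  have hfib := H.bl_fibre hst.2 ht hs hz (shift_add hk hs.good.1 t) pt ps pz
  obtain ⟨r', hr1, -⟩ := bl_core hk hl ht pt (by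
    filter_upwards [hfib] with b hb
    obtain ⟨hβ, i, j, A, B, C', D', hdet, -, hid⟩ := hb
    exact ⟨hβ, i, j, A, B, C', D', hdet, hid⟩) hPQ0 (by
    filter_upwards [bl_ae_ne hk hl ht pt hF0] with a ha ha'
    rw [hP, hQ, hmap, hmap]
    exact hF _ (ha ha')) hPQ
  have hM0 : (ringExpChar l) ^ r' ≠ 0 := (pow_pos (expChar_pos l _) r').ne'
  have h4 : ∀ e, e ≠ 0 → e ≠ (ringExpChar l) ^ r' → (p₁.coeff e = 0 ∧ p₀.coeff e = 0) ∧
      (q₁.coeff e = 0 ∧ q₀.coeff e = 0) := by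
    intro e he0 heN
    obtain ⟨h5, h6⟩ := hr1 e he0 heN
    rw [hP, hcoef] at h5
    rw [hQ, hcoef] at h6
    exact ⟨hlin _ _ h5, hlin _ _ h6⟩
  refine ⟨n, r, r', ![p₁, p₀, q₁, q₀], hdet', ?_, hrel'⟩
  intro i
  fin_cases i
  · exact bl_two hM0 fun e h0 hN => (h4 e h0 hN).1.1
  · exact bl_two hM0 fun e h0 hN => (h4 e h0 hN).1.2
  · exact bl_two hM0 fun e h0 hN => (h4 e h0 hN).2.1
  · exact bl_two hM0 fun e h0 hN => (h4 e h0 hN).2.2

end Vale.Agent.P019P
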