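import Vale.Agent.P019P.Sigma1

/-!
# Pencils of Moebius transformations
-/

namespace Vale.Agent.P019P

open Vale.Agent.P019

set_option linter.style.haveILetI false
set_option linter.unusedSectionVars false

open Filter

/-- a quadratic polynomial with three different roots is zero -/
theorem pcl_quad {l : Type*} [Field l] {p q r x₁ x₂ x₃ : l} (h12 : x₁ ≠ x₂) (h13 : x₁ ≠ x₃)
    (h32 : x₃ ≠ x₂) (h1 : p * x₁ ^ 2 + q * x₁ + r = 0) (h2 : p * x₂ ^ 2 + q * x₂ + r = 0)
    (h3 : p * x₃ ^ 2 + q * x₃ + r = 0) : p = 0 ∧ q = 0 ∧ r = 0 := by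
  have e1 : p * (x₁ + x₂) + q = 0 := by
    have : (x₁ - x₂) * (p * (x₁ + x₂) + q) = 0 := by linear_combination h1 - h2
    exact (mul_eq_zero.1 this).resolve_left (sub_ne_zero.2 h12)
  have e2 : p * (x₁ + x₃) + q = 0 := by
    have : (x₁ - x₃) * (p * (x₁ + x₃) + q) = 0 := by linear_combination h1 - h3
    exact (mul_eq_zero.1 this).resolve_left (sub_ne_zero.2 h13)
  have e3 : p = 0 := by
    have : (x₃ - x₂) * p = 0 := by linear_combination e2 - e1
    exact (mul_eq_zero.1 this).resolve_left (sub_ne_zero.2 h32)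
  have e4 : q = 0 := by rw [e3] at e1; linear_combination e1
  refine ⟨e3, e4, ?_⟩
  rw [e3, e4] at h1
  linear_combination h1

/-- the matrix of a Moebius transformation is unique up to a scalar -/
theorem pcl_unique {k l : Type*} [Field k] [Field l] [Infinite k] {g y : k → l}
    (hg : ∃ S : Set k, S.Finite ∧ Set.InjOn g Sᶜ) {A B C D A' B' C' D' : l}
    (hd : A * D - B * C ≠ 0) (hd' : A' * D' - B' * C' ≠ 0)
    (h : ∀ᶠ a in cofinite, MobRel A B C D (g a) (y a) ∧ MobRel A' B' C' D' (g a) (y a)) :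
    ∃ t : l, t ≠ 0 ∧ A = t * A' ∧ B = t * B' ∧ C = t * C' ∧ D = t * D' := by
  have hq : ∀ᶠ a in cofinite, (A' * C - A * C') * g a ^ 2 +
      (A' * D + B' * C - A * D' - B * C') * g a + (B' * D - B * D') = 0 := by
    filter_upwards [h] with a ha
    obtain ⟨h1, h2⟩ := ha
    unfold MobRel at h1 h2
    linear_combination (C' * g a + D') * h1 - (C * g a + D) * h2
  obtain ⟨b₁, b₂, b₃, p1, p2, p3, n12, n13, n32⟩ := Sg.three_pts hg hq
  obtain ⟨e1, e2, e3⟩ := pcl_quad n12 n13 n32 p1 p2 p3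
  obtain ⟨d, hdd⟩ : ∃ d : l, d = A' * D' - B' * C' := ⟨_, rfl⟩
  rw [← hdd] at hd'
  have f1 : A = (A * D' - B' * C) / d * A' := by
    rw [div_mul_eq_mul_div, eq_div_iff hd', hdd]
    linear_combination B' * e1
  have f2 : B = (A * D' - B' * C) / d * B' := by
    rw [div_mul_eq_mul_div, eq_div_iff hd', hdd]
    linear_combination -A' * e3 + B' * e2
  have f3 : C = (A * D' - B' * C) / d * C' := by
    rw [div_mul_eq_mul_div, eq_div_iff hd', hdd]
    linear_combination D' * e1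
  have f4 : D = (A * D' - B' * C) / d * D' := by
    rw [div_mul_eq_mul_div, eq_div_iff hd', hdd]
    linear_combination -C' * e3 + D' * e2
  refine ⟨(A * D' - B' * C) / d, ?_, f1, f2, f3, f4⟩
  intro h0
  rw [h0, zero_mul] at f1 f2
  apply hd
  rw [f1, f2]
  ring

theorem pcl_inj {l : Type*} [Field l] {A B C D x y z : l} (hd : A * D - B * C ≠ 0)
    (h1 : MobRel A B C D x z) (h2 : MobRel A B C D y z) : x = y := by
  unfold MobRel at h1 h2
  by_contra hne
  have e1 : z * C = A := by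
    have : (x - y) * (z * C - A) = 0 := by linear_combination h1 - h2
    have := (mul_eq_zero.1 this).resolve_left (sub_ne_zero.2 hne)
    linear_combination this
  have e2 : z * D = B := by
    linear_combination h1 - x * e1
  apply hd
  rw [← e1, ← e2]
  ring

section

variable {k l : Type*} [Field k] [Field l] [Infinite k] {f g h : k → l} {X Y : Fin 4 → l}

/-- the good points -/
def PclOK (f g h : k → l) (X Y : Fin 4 → l) (b : k) : Prop :=
  (f b * X 0 + Y 0) * (f b * X 3 + Y 3) - (f b * X 1 + Y 1) * (f b * X 2 + Y 2) ≠ 0 ∧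
      ∀ᶠ a in cofinite, MobRel (f b * X 0 + Y 0) (f b * X 1 + Y 1) (f b * X 2 + Y 2)
        (f b * X 3 + Y 3) (g a) (h (a + b))

theorem pcl_shift {b c : k} (hb : PclOK f g h X Y b) :
    ∀ᶠ a in cofinite, MobRel (f b * X 0 + Y 0) (f b * X 1 + Y 1) (f b * X 2 + Y 2)
        (f b * X 3 + Y 3) (g (a + c)) (h (a + (b + c))) := by
  filter_upwards [Sg.ae_add c hb.2] with a ha
  rw [show a + c + b = a + (b + c) by ring] at ha
  exact ha

theorem pcl_indep (hg : ∃ S : Set k, S.Finite ∧ Set.InjOn g Sᶜ) {b c : k} (hc : c ≠ 0)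
    (hb : PclOK f g h X Y b) (hbc : PclOK f g h X Y (b + c)) {s t : l}
    (hst : ∀ i, s * X i + t * Y i = 0) : s = 0 ∧ t = 0 := by
  by_contra hne
  obtain ⟨r, hr⟩ : ∃ r : l, r = t * f b - s := ⟨_, rfl⟩
  obtain ⟨r', hr'⟩ : ∃ r' : l, r' = t * f (b + c) - s := ⟨_, rfl⟩
  -- the matrices are proportional
  have hp : ∀ i, r' * (f b * X i + Y i) = r * (f (b + c) * X i + Y i) := by
    intro i
    have e1 : t * (r' * (f b * X i + Y i) - r * (f (b + c) * X i + Y i)) = 0 := by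
      rw [hr, hr']
      linear_combination (t * f (b + c) - t * f b) * hst i
    have e2 : s * (r' * (f b * X i + Y i) - r * (f (b + c) * X i + Y i)) = 0 := by
      rw [hr, hr']
      linear_combination (s * f (b + c) - s * f b) * hst i
    rcases mul_eq_zero.1 e1 with h1 | h1
    · rcases mul_eq_zero.1 e2 with h2 | h2
      · exact absurd ⟨h2, h1⟩ hne
      · exact sub_eq_zero.1 h2
    · exact sub_eq_zero.1 h1
  have hr0 : r' ≠ 0 := by
    intro h0
    have e0 : ∀ i, f (b + c) * X i + Y i = 0 := by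
      intro i
      have e1 : t * (f (b + c) * X i + Y i) = 0 := by
        have : t * (f (b + c) * X i + Y i) = r' * X i + (s * X i + t * Y i) := by
          rw [hr']; ring
        rw [this, h0, hst i]; ring
      have e2 : s * (f (b + c) * X i + Y i) = 0 := by
        have : s * (f (b + c) * X i + Y i) = f (b + c) * (s * X i + t * Y i) - r' * Y i := by
          rw [hr']; ring
        rw [this, h0, hst i]; ring
      rcases mul_eq_zero.1 e1 with h1 | h1
      · rcases mul_eq_zero.1 e2 with h2 | h2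
        · exact absurd ⟨h2, h1⟩ hne
        · exact h2
      · exact h1
    apply hbc.1
    rw [e0 0, e0 1]
    ring
  have hr1 : r ≠ 0 := by
    intro h0
    have e0 : ∀ i, f b * X i + Y i = 0 := by
      intro i
      have e1 := hp i
      rw [h0, zero_mul] at e1
      exact (mul_eq_zero.1 e1).resolve_left hr0
    apply hb.1
    rw [e0 0, e0 1]
    ring
  obtain ⟨S, hS, hinj⟩ := hg
  have h1 : ∀ᶠ a in cofinite, a ∈ Sᶜ := hS.compl_mem_cofinite
  obtain ⟨a, ⟨ha1, ha2⟩, ha3, ha4⟩ :=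
    ((h1.and (Sg.ae_add c h1)).and ((pcl_shift (c := c) hb).and hbc.2)).exists
  have ha5 : MobRel (f b * X 0 + Y 0) (f b * X 1 + Y 1) (f b * X 2 + Y 2)
        (f b * X 3 + Y 3) (g a) (h (a + (b + c))) := by
    unfold MobRel at ha4 ⊢
    have : r' * (h (a + (b + c)) * ((f b * X 2 + Y 2) * g a + (f b * X 3 + Y 3)) -
        ((f b * X 0 + Y 0) * g a + (f b * X 1 + Y 1))) = 0 := by
      linear_combination r * ha4 + h (a + (b + c)) * (g a * hp 2 + hp 3) - g a * hp 0 - hp 1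
    exact sub_eq_zero.1 ((mul_eq_zero.1 this).resolve_left hr0)
  have ha6 := hinj ha1 ha2 (pcl_inj hb.1 ha5 ha3)
  apply hc
  linear_combination -ha6

end

theorem pencil {k l : Type*} [Field k] [Field l] [Infinite k] (f g h : k → l)
    (hf : ∃ S : Set k, S.Finite ∧ Set.InjOn f Sᶜ) (hg : ∃ S : Set k, S.Finite ∧ Set.InjOn g Sᶜ)
    (X Y : Fin 4 → l)
    (h1 : ∀ᶠ b in cofinite,
      (f b * X 0 + Y 0) * (f b * X 3 + Y 3) - (f b * X 1 + Y 1) * (f b * X 2 + Y 2) ≠ 0 ∧
      ∀ᶠ a in cofinite, MobRel (f b * X 0 + Y 0) (f b * X 1 + Y 1) (f b * X 2 + Y 2)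
        (f b * X 3 + Y 3) (g a) (h (a + b))) :
    ∃ S : Set k, S.Finite ∧ ∀ c : k, ∃ A B C D : l, A * D - B * C ≠ 0 ∧
      ∀ b, b ∉ S → b + c ∉ S → MobRel A B C D (f b) (f (b + c)) := by
  obtain ⟨Sf, hSf, hfinj⟩ := hf
  have h1' : ∀ᶠ b in cofinite, PclOK f g h X Y b := h1
  have hP : {b | ¬ PclOK f g h X Y b}.Finite := h1'
  refine ⟨{b | ¬ PclOK f g h X Y b} ∪ Sf, hP.union hSf, ?_⟩
  obtain ⟨S, hS⟩ : ∃ S : Set k, S = {b | ¬ PclOK f g h X Y b} ∪ Sf := ⟨_, rfl⟩
  rw [← hS]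
  have hSfin : S.Finite := by rw [hS]; exact hP.union hSf
  have hok : ∀ b, b ∉ S → PclOK f g h X Y b := by
    intro b hb
    by_contra hc
    exact hb (by rw [hS]; exact Or.inl hc)
  have hinj : ∀ b b', b ∉ S → b' ∉ S → b ≠ b' → f b ≠ f b' := by
    intro b b' hb hb' hne he
    refine hne (hfinj ?_ ?_ he)
    · intro hc; exact hb (by rw [hS]; exact Or.inr hc)
    · intro hc; exact hb' (by rw [hS]; exact Or.inr hc)
  have hev : ∀ᶠ b in cofinite, b ∉ S := hSfin.compl_mem_cofinite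
  intro c
  by_cases hc : c = 0
  · refine ⟨1, 0, 0, 1, by simp, ?_⟩
    intro b _ _
    rw [hc, add_zero]
    unfold MobRel
    ring
  -- the matrix N
  obtain ⟨b₀, hb₀, hb₀c⟩ := (hev.and (Sg.ae_add c hev)).exists
  have k0 := hok _ hb₀
  have k1 := hok _ hb₀c
  obtain ⟨n0, n1, n2, n3, hnd, hn⟩ : ∃ n0 n1 n2 n3 : l, n0 * n3 - n1 * n2 ≠ 0 ∧
      ∀ᶠ a in cofinite, MobRel n0 n1 n2 n3 (g a) (g (a + c)) := by
    refine ⟨_, _, _, _, sg1_comp_det k1.1 (sg1_inv_det k0.1), ?_⟩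
    filter_upwards [k1.2, pcl_shift (c := c) k0] with a e1 e2
    exact sg1_comp e1 (sg1_inv e2)
  -- the products with N
  let xn : Fin 4 → l := ![X 0 * n0 + X 1 * n2, X 0 * n1 + X 1 * n3, X 2 * n0 + X 3 * n2,
    X 2 * n1 + X 3 * n3]
  let yn : Fin 4 → l := ![Y 0 * n0 + Y 1 * n2, Y 0 * n1 + Y 1 * n3, Y 2 * n0 + Y 3 * n2,
    Y 2 * n1 + Y 3 * n3]
  have hmul : ∀ b, b ∉ S → b + c ∉ S → ∃ μ : l, μ ≠ 0 ∧
      ∀ i, f b * xn i + yn i = μ * (f (b + c) * X i + Y i) := by
    intro b hb hbc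
    have m0 := hok _ hb
    have m1 := hok _ hbc
    have hboth : ∀ᶠ a in cofinite,
        MobRel ((f b * X 0 + Y 0) * n0 + (f b * X 1 + Y 1) * n2)
          ((f b * X 0 + Y 0) * n1 + (f b * X 1 + Y 1) * n3)
          ((f b * X 2 + Y 2) * n0 + (f b * X 3 + Y 3) * n2)
          ((f b * X 2 + Y 2) * n1 + (f b * X 3 + Y 3) * n3) (g a) (h (a + (b + c))) ∧
        MobRel (f (b + c) * X 0 + Y 0) (f (b + c) * X 1 + Y 1) (f (b + c) * X 2 + Y 2)
          (f (b + c) * X 3 + Y 3) (g a) (h (a + (b + c))) := by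
      filter_upwards [hn, pcl_shift (c := c) m0, m1.2] with a e1 e2 e3
      exact ⟨sg1_comp e1 e2, e3⟩
    obtain ⟨μ, hμ, q0, q1, q2, q3⟩ := pcl_unique hg (sg1_comp_det hnd m0.1) m1.1 hboth
    refine ⟨μ, hμ, ?_⟩
    intro i
    fin_cases i
    · simp only [xn, yn, Fin.zero_eta, Matrix.cons_val_zero]
      linear_combination q0
    · simp only [xn, yn, Fin.mk_one, Matrix.cons_val_one, Matrix.cons_val_zero]
      linear_combination q1
    · simp only [xn, yn, Fin.reduceFinMk, Matrix.cons_val]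
      linear_combination q2
    · simp only [xn, yn, Fin.reduceFinMk, Matrix.cons_val]
      linear_combination q3
  -- two different points
  obtain ⟨b, hb, hbc⟩ := (hev.and (Sg.ae_add c hev)).exists
  have hne : ∀ᶠ b' in cofinite, b' ≠ b := (Set.finite_singleton b).compl_mem_cofinite
  obtain ⟨b', ⟨hb', hbc'⟩, hbb⟩ := ((hev.and (Sg.ae_add c hev)).and hne).exists
  have e1 : f b - f b' ≠ 0 := sub_ne_zero.2 (hinj _ _ hb hb' hbb.symm)
  have e2 : f (b + c) - f (b' + c) ≠ 0 :=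
    sub_ne_zero.2 (hinj _ _ hbc hbc' fun h0 => hbb (add_right_cancel h0).symm)
  obtain ⟨μ, hμ, hμi⟩ := hmul b hb hbc
  obtain ⟨μ', hμ', hμi'⟩ := hmul b' hb' hbc'
  refine ⟨μ * f (b + c) - μ' * f (b' + c), f b * μ' * f (b' + c) - f b' * μ * f (b + c),
    μ - μ', f b * μ' - f b' * μ, ?_, ?_⟩
  · have : (μ * f (b + c) - μ' * f (b' + c)) * (f b * μ' - f b' * μ) -
        (f b * μ' * f (b' + c) - f b' * μ * f (b + c)) * (μ - μ') =
        (f b - f b') * (μ * μ' * (f (b + c) - f (b' + c))) := by ring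
    rw [this]
    exact mul_ne_zero e1 (mul_ne_zero (mul_ne_zero hμ hμ') e2)
  · intro w hw hwc
    obtain ⟨ν, hν, hνi⟩ := hmul w hw hwc
    have hst := pcl_indep (s := (μ * f (b + c) - μ' * f (b' + c)) * f w +
      (f b * μ' * f (b' + c) - f b' * μ * f (b + c)) - (f b - f b') * ν * f (w + c))
      (t := (μ - μ') * f w + (f b * μ' - f b' * μ) - (f b - f b') * ν) hg hc k0 k1 (by
        intro i
        linear_combination (f b - f b') * hνi i - (f w - f b') * hμi i - (f b - f w) * hμi' i)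
    unfold MobRel
    linear_combination f (w + c) * hst.2 - hst.1

end Vale.Agent.P019P
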