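import Vale.Agent.P019P.RelB
import Vale.Agent.P019P.LemZ
import Vale.Agent.P019P.RatDesc
import Vale.Agent.P019P.GenB

/-!
# The coordinate of the sum is a rational function
-/

namespace Vale.Agent.P019P

open Vale.Agent.P019

set_option linter.style.haveILetI false
set_option linter.unusedSectionVars false

open Polynomial Filter

variable {K L : Type*} [Field K] [Field L] [PerfectField K] [PerfectField L] {ℓ : ℕ}
  [Fact ℓ.Prime] [NeZero (ℓ : K)] [NeZero (ℓ : L)]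
  {k : Subfield K} {l : Subfield L} {Θ : V ℓ K ≃ₗ[ZMod ℓ] V ℓ L}

/-- the Moebius relation on all fibres (compare `Hyp.rel`). -/
theorem Hyp.rel_all (H : Hyp ℓ k l Θ) {t s z : K} {t' s' z' : L}
    (hts : ¬ IsAlgebraic (adj k s) t) (ht : Rt k l Θ t t') (hs : Rt k l Θ s s')
    (hz : Rt k l Θ z z') {m : K → K → K} (hm : Shift ℓ k t s z m) {ψt ψs ψz : K → L}
    {et es ez : K → ZMod ℓ} (pt : Psi k l Θ t t' ψt et) (ps : Psi k l Θ s s' ψs es)
    (pz : Psi k l Θ z z' ψz ez) :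
    ∃ G' : Subfield L, Frame l G' t' s' ∧ ∀ᶠ a in ae k, ψt a ∈ l ∧
      ∀ W : ValuationSubring L, Over W (adj G' s') t' (ψt a) →
      ∃ i j : ℕ, ∃ A ∈ l, ∃ B ∈ l, ∃ C ∈ l, ∃ D ∈ l, A * D - B * C ≠ 0 ∧
        (∀ᶠ b in ae k,
          ψz (m a b) ^ (ringExpChar L) ^ i * (C * ψs b ^ (ringExpChar L) ^ j + D) =
            A * ψs b ^ (ringExpChar L) ^ j + B) ∧
          W.valuation (z' ^ (ringExpChar L) ^ i * (C * s' ^ (ringExpChar L) ^ j + D) -
            (A * s' ^ (ringExpChar L) ^ j + B)) < 1 := by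
  have hk := H.ack
  have hl := H.acl
  have hRl : RAC l := RAC_of_isAlgClosed l hl
  have hs'l : s' ∉ l := hs.good'.1
  have ht'l : t' ∉ l := ht.good'.1
  -- `t'` and `s'` are independent
  have ht's' : ¬ IsAlgebraic (adj l s') t' := by
    intro h
    have h1 : t' ∈ adj l s' := hs.good'.2 t' h
    have h2 : adj l t' = adj l s' :=
      Crv.eq hRl (Crv.of_good ht.good') (Crv.of_good hs.good') (mem_adj l t') h1 ht'l
    exact H.crv_ne hs.good.1 hts ht.map hs.map h2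
  obtain ⟨G', hfr⟩ := exists_frame H.fgl (fun h => hs'l (hRl _ h)) ht's'
  refine ⟨G', hfr, ?_⟩
  obtain ⟨θ, hθ⟩ := hfr.nice H.fgl
  have hlF : l ≤ adj G' s' := hfr.le.trans (le_adj G' s')
  have hθ' := (ae_mono hlF) hθ
  filter_upwards [ae_mem k, pt.cor, Psi.relb_pull hk hl ht pt hθ', hm.ev] with a ha hcor hnice hev
  obtain ⟨hα, he, hc⟩ := hcor
  obtain ⟨hinj, hsurj, hO⟩ := hev
  refine ⟨hα, fun W hWo => ?_⟩
  have hW : Nice W (adj G' s') (t' - ψt a) θ := hnice W hWo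
  have hfgF : FG l (adj G' s') := hfr.fg.adj s'
  have hWs : TrivOn W (adj l s') := hW.triv.mono (adj_mono hfr.le s')
  have hWl : TrivOn W l := hW.triv.mono hlF
  obtain ⟨O, hOk, hT⟩ := H.symm.exists_tr hlF hfgF hW hs.good' hWs
  have hys : ∀ v ∈ VS ℓ (adj l s'), Θ.symm v ∈ VS ℓ (adj k s) := by
    intro v hv
    refine (hs.map _).1 ?_
    rwa [LinearEquiv.apply_symm_apply]
  have hOs : TrivOn O (adj k s) :=
    H.symm.triv_crv hlF hfgF hW hOk hT hs'l hWs (Crv.of_good hs.good) hys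
  have hcen : O.valuation (t - a) < 1 := H.centre ht ha hα he hc hWl hW.unif hOk hT
  have hU := hO O hOs hcen
  have hUL : ∀ b ∈ k, Θ (cl ℓ (s - b)) - Θ (cl ℓ (z - m a b)) ∈ U1 ℓ W := by
    intro b hb
    rw [← map_sub]
    refine (hT.iff _).1 ?_
    rw [LinearEquiv.symm_apply_apply]
    exact hU b hb
  have hV1 : VS ℓ (adj k s) ≤ VS ℓ (adj k z) ⊔ U1 ℓ O :=
    VS_le_of_shift hk hs.good.1 (m a) (fun b hb => hm.mem a ha b hb) hU
  have hV2 : VS ℓ (adj k z) ≤ VS ℓ (adj k s) ⊔ U1 ℓ O := by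
    have h1 : ∀ c : K, ∃ b : K, c ∈ k → b ∈ k ∧ m a b = c := by
      intro c
      by_cases hc : c ∈ k
      · obtain ⟨b, hb, h⟩ := hsurj c hc
        exact ⟨b, fun _ => ⟨hb, h⟩⟩
      · exact ⟨0, fun h => absurd h hc⟩
    choose m' hm' using h1
    refine VS_le_of_shift hk hz.good.1 m' (fun c hc => (hm' c hc).1) ?_
    intro c hc
    have h2 := hU (m' c) (hm' c hc).1
    rw [(hm' c hc).2] at h2
    rw [← neg_mem_iff, neg_sub]
    exact h2
  obtain ⟨hWz, hV⟩ := H.symm.rat_of hfr.le hfr.fg hW hT hs.good.1 hV2 hV1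
    (fun v hv => (hs.map v).2 hv) (Crv.of_good hz.good') hz.map
  obtain ⟨i, j, A, hA, B, hB, C', hC, D, hD, hdet, hgen, hval⟩ := H.relb_at hs hz ps pz
    (μ := m a) (fun b hb => hm.mem a ha b hb) hinj hfr.le hfr.fg hfr.ss hW hWz hV hUL
  exact ⟨i, j, A, hA, B, hB, C', hC, D, hD, hdet, hgen.mono fun b hb => hb.1, hval⟩

/-- the denominator does not vanish. -/
theorem relca_den_ne (hl : IsAlgClosed l) {x : L} (hx : x ∉ l) {A B C D : L} (hC : C ∈ l)
    (hD : D ∈ l) (hdet : A * D - B * C ≠ 0) (j : ℕ) :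
    C * x ^ (ringExpChar L) ^ j + D ≠ 0 := by
  intro h
  by_cases hC0 : C = 0
  · rw [hC0, zero_mul, zero_add] at h
    apply hdet
    rw [hC0, h, mul_zero, mul_zero, sub_zero]
  · haveI := hl
    have h1 : x ^ (ringExpChar L) ^ j ∈ l := by
      have h2 : x ^ (ringExpChar L) ^ j = -D / C := by
        rw [eq_div_iff hC0]
        linear_combination h
      rw [h2]
      exact l.div_mem (l.neg_mem hD) hC
    exact hx (mem_of_pow_q h1)

/-- a polynomial identity holding at infinitely many points of `l` holds at `x`. -/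
theorem relca_ident {A B C D A' B' C' D' : L} {n₁ n₂ n₃ n₄ : ℕ}
    (hinf : {x : L | x ∈ l ∧ (A * x ^ n₁ + B) ^ n₂ * (C' * x ^ n₃ + D') ^ n₄ =
      (A' * x ^ n₃ + B') ^ n₄ * (C * x ^ n₁ + D) ^ n₂}.Infinite) (x : L) :
    (A * x ^ n₁ + B) ^ n₂ * (C' * x ^ n₃ + D') ^ n₄ =
      (A' * x ^ n₃ + B') ^ n₄ * (C * x ^ n₁ + D) ^ n₂ := by
  let F : L[X] := (Polynomial.C A * X ^ n₁ + Polynomial.C B) ^ n₂ *
      (Polynomial.C C' * X ^ n₃ + Polynomial.C D') ^ n₄ -
    (Polynomial.C A' * X ^ n₃ + Polynomial.C B') ^ n₄ *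
      (Polynomial.C C * X ^ n₁ + Polynomial.C D) ^ n₂
  have hev : ∀ y : L, F.eval y = (A * y ^ n₁ + B) ^ n₂ * (C' * y ^ n₃ + D') ^ n₄ -
      (A' * y ^ n₃ + B') ^ n₄ * (C * y ^ n₁ + D) ^ n₂ := by
    intro y
    simp only [F, eval_sub, eval_mul, eval_pow, eval_add, eval_C, eval_X]
  have hF : F = 0 := by
    refine Polynomial.eq_zero_of_infinite_isRoot F (hinf.mono ?_)
    rintro y ⟨-, hy⟩
    rw [Set.mem_ofPred_eq, IsRoot.def, hev, hy, sub_self]
  have h1 := hev x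
  rw [hF, eval_zero] at h1
  exact (sub_eq_zero.1 h1.symm)

/-- infinitely many values. -/
theorem relca_inf (hk : IsAlgClosed k) (hl : IsAlgClosed l) {s : K} {s' : L}
    (hR : Rt k l Θ s s') {ψ : K → L} {e : K → ZMod ℓ} (p : Psi k l Θ s s' ψ e) {P : L → Prop}
    (hP : ∀ᶠ b in ae k, P (ψ b)) : {x : L | x ∈ l ∧ P x}.Infinite := by
  intro hfin
  have h1 : ∀ᶠ β in ae l, ¬ P β := by
    rw [ae_iff]
    refine hfin.subset ?_
    rintro β ⟨hβ, h⟩
    exact ⟨hβ, not_not.1 h⟩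
  have h2 := Psi.relb_pull hk hl hR p h1
  haveI := ae_neBot_of_isAlgClosed hk
  obtain ⟨b, hb1, hb2⟩ := (hP.and h2).exists
  exact hb2 hb1

/-- comparison of two Moebius relations. -/
theorem relca_cmp {q : ℕ} {y x A B C D A' B' C' D' : L} {i i' j j' : ℕ}
    (h : y ^ q ^ i * (C * x ^ q ^ j + D) = A * x ^ q ^ j + B)
    (h' : y ^ q ^ i' * (C' * x ^ q ^ j' + D') = A' * x ^ q ^ j' + B') :
    (A * x ^ q ^ j + B) ^ q ^ i' * (C' * x ^ q ^ j' + D') ^ q ^ i =
      (A' * x ^ q ^ j' + B') ^ q ^ i * (C * x ^ q ^ j + D) ^ q ^ i' := by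
  rw [← h, ← h', mul_pow, mul_pow, ← pow_mul, ← pow_mul, mul_comm (q ^ i) (q ^ i')]
  ring

/-- the value of the coordinate at the fibre does not depend on the valuation. -/
theorem relca_same (hl : IsAlgClosed l) {x c : L} (hx : x ∉ l) {A B C D A' B' C' D' : L}
    {i i' j j' : ℕ} (hC : C ∈ l) (hD : D ∈ l) (hdet : A * D - B * C ≠ 0)
    (hc : c ^ (ringExpChar L) ^ i * (C * x ^ (ringExpChar L) ^ j + D) =
      A * x ^ (ringExpChar L) ^ j + B)
    (h : (A * x ^ (ringExpChar L) ^ j + B) ^ (ringExpChar L) ^ i' *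
        (C' * x ^ (ringExpChar L) ^ j' + D') ^ (ringExpChar L) ^ i =
      (A' * x ^ (ringExpChar L) ^ j' + B') ^ (ringExpChar L) ^ i *
        (C * x ^ (ringExpChar L) ^ j + D) ^ (ringExpChar L) ^ i') :
    c ^ (ringExpChar L) ^ i' * (C' * x ^ (ringExpChar L) ^ j' + D') =
      A' * x ^ (ringExpChar L) ^ j' + B' := by
  have hne := relca_den_ne hl hx hC hD hdet j
  refine pow_q_inj (n := i) ?_
  refine mul_right_cancel₀ (pow_ne_zero ((ringExpChar L) ^ i') hne) ?_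
  rw [← h, ← hc, mul_pow, mul_pow, ← pow_mul, ← pow_mul,
    mul_comm ((ringExpChar L) ^ i) ((ringExpChar L) ^ i')]
  ring

/-- the value of the coordinate at a generic fibre. -/
theorem Hyp.relca_val (H : Hyp ℓ k l Θ) {s : K} {s' z' : L} (hs : Rt k l Θ s s')
    {ψs : K → L} {es : K → ZMod ℓ} (ps : Psi k l Θ s s' ψs es) {f : K → L}
    {G' : Subfield L} (hlG : l ≤ G') {t' α : L} (hα : α ∈ l)
    (htt : ¬ IsAlgebraic (adj G' s') t')
    (hall : ∀ W : ValuationSubring L, Over W (adj G' s') t' α →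
      ∃ i j : ℕ, ∃ A ∈ l, ∃ B ∈ l, ∃ C ∈ l, ∃ D ∈ l, A * D - B * C ≠ 0 ∧
        (∀ᶠ b in ae k, f b ^ (ringExpChar L) ^ i * (C * ψs b ^ (ringExpChar L) ^ j + D) =
            A * ψs b ^ (ringExpChar L) ^ j + B) ∧
          W.valuation (z' ^ (ringExpChar L) ^ i * (C * s' ^ (ringExpChar L) ^ j + D) -
            (A * s' ^ (ringExpChar L) ^ j + B)) < 1) :
    ∃ c ∈ adj l s', ∀ W : ValuationSubring L, Over W (adj G' s') t' α →
      W.valuation (z' - c) < 1 := by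
  have hk := H.ack
  have hl := H.acl
  have hs'l : s' ∉ l := hs.good'.1
  have hlF : l ≤ adj G' s' := hlG.trans (le_adj G' s')
  obtain ⟨W₀, hW₀⟩ := exists_over htt (hlF hα)
  obtain ⟨i, j, A, hA, B, hB, C, hC, D, hD, hdet, hgen, -⟩ := hall W₀ hW₀
  have hne := relca_den_ne hl hs'l hC hD hdet j
  have hmem : (A * s' ^ (ringExpChar L) ^ j + B) / (C * s' ^ (ringExpChar L) ^ j + D) ∈
      adj l s' := by
    have h1 : s' ^ (ringExpChar L) ^ j ∈ adj l s' := (adj l s').pow_mem (mem_adj l s') _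
    exact (adj l s').div_mem
      ((adj l s').add_mem ((adj l s').mul_mem (le_adj l s' hA) h1) (le_adj l s' hB))
      ((adj l s').add_mem ((adj l s').mul_mem (le_adj l s' hC) h1) (le_adj l s' hD))
  obtain ⟨c, hc, hci⟩ := exists_root_q (adj l s') hmem i
  have hc' : c ^ (ringExpChar L) ^ i * (C * s' ^ (ringExpChar L) ^ j + D) =
      A * s' ^ (ringExpChar L) ^ j + B := by
    rw [hci, div_mul_cancel₀ _ hne]
  refine ⟨c, hc, fun W hW => ?_⟩
  obtain ⟨i', j', A', hA', B', hB', C', hC', D', hD', hdet', hgen', hval⟩ := hall W hW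
  have hinf := relca_inf (P := fun x => (A * x ^ (ringExpChar L) ^ j + B) ^ (ringExpChar L) ^ i' *
        (C' * x ^ (ringExpChar L) ^ j' + D') ^ (ringExpChar L) ^ i =
      (A' * x ^ (ringExpChar L) ^ j' + B') ^ (ringExpChar L) ^ i *
        (C * x ^ (ringExpChar L) ^ j + D) ^ (ringExpChar L) ^ i') hk hl hs ps
    (by
      filter_upwards [hgen, hgen'] with b h1 h2
      exact relca_cmp h1 h2)
  have h3 := relca_same hl hs'l hC hD hdet hc'
    (relca_ident hinf s')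
  have hne' := relca_den_ne hl hs'l hC' hD' hdet' j'
  have hden : C' * s' ^ (ringExpChar L) ^ j' + D' ∈ adj G' s' :=
    (adj G' s').add_mem ((adj G' s').mul_mem (hlF hC')
      ((adj G' s').pow_mem (mem_adj G' s') _)) (hlF hD')
  have h4 : z' ^ (ringExpChar L) ^ i' * (C' * s' ^ (ringExpChar L) ^ j' + D') -
      (A' * s' ^ (ringExpChar L) ^ j' + B') =
      (z' - c) ^ (ringExpChar L) ^ i' * (C' * s' ^ (ringExpChar L) ^ j' + D') := by
    rw [← h3, sub_pow_q]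
    ring
  rw [h4, map_mul, hW.triv.eq_one hden hne', mul_one, map_pow] at hval
  by_contra hcon
  exact absurd hval (not_lt.2 (one_le_pow₀ (not_lt.1 hcon)))

/-- the coordinate of the sum is rational. -/
theorem Hyp.z_mem (H : Hyp ℓ k l Θ) {t s z : K} {t' s' z' : L}
    (hts : ¬ IsAlgebraic (adj k s) t) (ht : Rt k l Θ t t') (hs : Rt k l Θ s s')
    (hz : Rt k l Θ z z') {m : K → K → K} (hm : Shift ℓ k t s z m) :
    z' ∈ adj (adj l s') t' := by
  have hk := H.ack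
  have hl := H.acl
  obtain ⟨ψt, et, pt⟩ := H.exists_psi ht
  obtain ⟨ψs, es, ps⟩ := H.exists_psi hs
  obtain ⟨ψz, ez, pz⟩ := H.exists_psi hz
  obtain ⟨G', hfr, hev⟩ := H.rel_all hts ht hs hz hm pt ps pz
  have hinf := relca_inf (P := fun β => ∃ c ∈ adj l s', ∀ W : ValuationSubring L,
    Over W (adj G' s') t' β → W.valuation (z' - c) < 1) hk hl ht pt
    (by
      filter_upwards [hev] with a ha
      exact H.relca_val hs ps hfr.le ha.1 hfr.tt ha.2)
  haveI := hfr.perfect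
  have hle : adj l s' ≤ adj G' s' := adj_mono hfr.le s'
  have h1 : z' ∈ adj (adj G' s') t' := by
    refine lemZ hfr.tt (hfr.alg z') (hinf.mono ?_)
    rintro β ⟨hβ, c, hc, hW⟩
    exact ⟨hle (le_adj l s' hβ), c, hle hc, hW⟩
  refine rat_descent hle hfr.tt h1 (hinf.mono ?_)
  rintro β ⟨hβ, c, hc, hW⟩
  exact ⟨le_adj l s' hβ, c, hc, hW⟩

end Vale.Agent.P019P
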