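import Vale.Agent.P019P.RelB
import Vale.Agent.P019P.LemZ
import Vale.Agent.P019P.RatDesc
import Vale.Agent.P019P.GenB
import Vale.Agent.P019P.SigR
import Vale.Agent.P019Q.Pencil
import Vale.Agent.P019Q.RelCa
import Vale.Agent.P019Q.BilD

/-!
# The coordinate of the sum is a bilinear function
-/

namespace Vale.Agent.P019P

open Vale.Agent.P019

set_option linter.style.haveILetI false
set_option linter.unusedSectionVars false

open Polynomial Filter

variable {K L : Type*} [Field K] [Field L] [PerfectField K] [PerfectField L] {ℓ : ℕ}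
  [Fact ℓ.Prime] [NeZero (ℓ : K)] [NeZero (ℓ : L)]
  {k : Subfield K} {l : Subfield L} {Θ : V ℓ K ≃ₗ[ZMod ℓ] V ℓ L}

/-- values of a twisted linear polynomial. -/
theorem bl_eval_lin {L : Type*} [Field L] {l : Subfield L} {p : l[X]} {m : ℕ}
    (hp : p = C (p.coeff ((ringExpChar l) ^ m)) * X ^ (ringExpChar l) ^ m + C (p.coeff 0))
    (β : l) : ((p.eval β : l) : L) = (β : L) ^ (ringExpChar L) ^ m *
      ((p.coeff ((ringExpChar l) ^ m) : l) : L) + ((p.coeff 0 : l) : L) := by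
  have h1 := congrArg (eval β) hp
  rw [eval_add, eval_mul, eval_C, eval_C, eval_pow, eval_X] at h1
  have h2 := congrArg (Subtype.val : l → L) h1
  rw [h2]
  change ((p.coeff ((ringExpChar l) ^ m) : l) : L) * (β : L) ^ (ringExpChar l) ^ m +
    ((p.coeff 0 : l) : L) = _
  rw [bl_q l]
  ring

/-- the bilinear form: `z' ^ q^n` is the quotient of bilinear functions of `t' ^ q^r`,
`s' ^ q^r'`, and the corresponding relation for the points. -/
theorem Hyp.bilin (H : Hyp ℓ k l Θ) {t s : K} {t' s' z' : L}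
    (hst : Ind k s t) (ht : Rt k l Θ t t') (hs : Rt k l Θ s s')
    (hz : Rt k l Θ (t + s) z') {ψt ψs ψz : K → L}
    {et es ez : K → ZMod ℓ} (pt : Psi k l Θ t t' ψt et) (ps : Psi k l Θ s s' ψs es)
    (pz : Psi k l Θ (t + s) z' ψz ez) :
    ∃ (n r r' : ℕ) (X Y : Fin 4 → L), (∀ i, X i ∈ l) ∧ (∀ i, Y i ∈ l) ∧
      ∀ᶠ b in ae k,
        (ψs b ^ (ringExpChar L) ^ r' * X 0 + Y 0) * (ψs b ^ (ringExpChar L) ^ r' * X 3 + Y 3) -
          (ψs b ^ (ringExpChar L) ^ r' * X 1 + Y 1) *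
            (ψs b ^ (ringExpChar L) ^ r' * X 2 + Y 2) ≠ 0 ∧
        ∀ᶠ a in ae k,
          ψz (a + b) ^ (ringExpChar L) ^ n *
            ((ψs b ^ (ringExpChar L) ^ r' * X 2 + Y 2) * ψt a ^ (ringExpChar L) ^ r +
              (ψs b ^ (ringExpChar L) ^ r' * X 3 + Y 3)) =
          (ψs b ^ (ringExpChar L) ^ r' * X 0 + Y 0) * ψt a ^ (ringExpChar L) ^ r +
              (ψs b ^ (ringExpChar L) ^ r' * X 1 + Y 1) := by
  have hk := H.ack
  have hl := H.acl
  haveI := hl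
  obtain ⟨n, r, r', p, hdet, hp, hrel⟩ := H.bl_step2 hst ht hs hz pt ps pz
  refine ⟨n, r, r', fun i => ((p i).coeff ((ringExpChar l) ^ r') : l),
    fun i => ((p i).coeff 0 : l), fun i => Subtype.coe_prop _, fun i => Subtype.coe_prop _, ?_⟩
  have hfib := H.bl_fibre (hst.symm hk).2 hs ht hz (bl_shift hk ht.good.1 s) ps pt pz
  filter_upwards [hfib, bl_ae_ne hk hl hs ps hdet] with b hb hdb
  obtain ⟨hβ, i, j, A, B, C', D, hAD, hgen, hid⟩ := hb
  set β : l := ⟨ψs b, hβ⟩ with hβd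
  have hβe : ψs b = (β : L) := rfl
  simp only [hβe, ← bl_eval_lin (hp _) β]
  have hdb' := hdb hβ
  rw [eval_sub, eval_mul, eval_mul] at hdb'
  refine ⟨fun h0 => hdb' (Subtype.ext h0), ?_⟩
  -- the identity of polynomials
  have hid' := hid n (aeval s' (p 0) * t' ^ (ringExpChar l) ^ r + aeval s' (p 1))
    (aeval s' (p 2) * t' ^ (ringExpChar l) ^ r + aeval s' (p 3))
    (C ((p 0).eval β) * X ^ (ringExpChar l) ^ r + C ((p 1).eval β))
    (C ((p 2).eval β) * X ^ (ringExpChar l) ^ r + C ((p 3).eval β)) (by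
      intro W hWl htW hsW hlt
      have hx : blR W s' (β : L) := ⟨hsW, hWl _ hβ, hlt⟩
      have hy : blR W (t' ^ (ringExpChar l) ^ r) (t' ^ (ringExpChar l) ^ r) :=
        blR.refl (pow_mem htW _)
      have key : ∀ i j, blR W (aeval s' (p i) * t' ^ (ringExpChar l) ^ r + aeval s' (p j))
          (aeval t' (C ((p i).eval β) * X ^ (ringExpChar l) ^ r + C ((p j).eval β))) := by
        intro i j
        rw [map_add, map_mul, aeval_C, aeval_C, map_pow, aeval_X]
        change blR W _ ((((p i).eval β : l) : L) * _ + (((p j).eval β : l) : L))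
        rw [← bl_aeval_coe, ← bl_aeval_coe]
        exact ((blR.aeval hWl hx (p i)).mul hy).add (blR.aeval hWl hx (p j))
      exact ⟨key 0 1, key 2 3⟩) hrel
  -- the denominator of the Moebius transformation
  have hden : (C C' * X ^ (ringExpChar l) ^ j + C D : l[X]) ≠ 0 := by
    intro h0
    have hJ : (ringExpChar l) ^ j ≠ 0 := (pow_pos (expChar_pos l _) j).ne'
    have h1 : (C C' * X ^ (ringExpChar l) ^ j + C D : l[X]).coeff ((ringExpChar l) ^ j) = 0 := by
      rw [h0]; simp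
    have h2 : (C C' * X ^ (ringExpChar l) ^ j + C D : l[X]).coeff 0 = 0 := by rw [h0]; simp
    rw [bl_coeff, if_pos rfl, if_neg hJ, add_zero] at h1
    rw [bl_coeff, if_pos rfl, if_neg hJ.symm, zero_add] at h2
    apply hAD
    rw [h1, h2]
    ring
  filter_upwards [hgen, pt.cor, bl_ae_ne hk hl ht pt hden] with a ha hα hda
  have hα' := hα.1
  set α : l := ⟨ψt a, hα'⟩ with hαd
  have hαe : ψt a = (α : L) := rfl
  have e1 := congrArg (eval α) hid'
  simp only [eval_mul, eval_pow, eval_add, eval_C, eval_X] at e1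
  have e2 := congrArg (Subtype.val : l → L) e1
  have e3 : ∀ (u v u' v' : l), ((u ^ (ringExpChar l) ^ i * v ^ (ringExpChar l) ^ n : l) : L) =
      (u : L) ^ (ringExpChar L) ^ i * (v : L) ^ (ringExpChar L) ^ n := by
    intro u v _ _
    rw [bl_q l]
    rfl
  rw [e3 _ _ 0 0, e3 _ _ 0 0] at e2
  have hda' := hda hα'
  simp only [eval_mul, eval_pow, eval_add, eval_C, eval_X] at hda'
  have hda2 : ((C' * α ^ (ringExpChar l) ^ j + D : l) : L) ≠ 0 := fun h0 =>
    hda' (Subtype.ext h0)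
  have ha' : ψz (a + b) ^ (ringExpChar L) ^ i * ((C' * α ^ (ringExpChar l) ^ j + D : l) : L) =
      ((A * α ^ (ringExpChar l) ^ j + B : l) : L) := by
    have h5 := ha
    rw [add_comm b a, hαe] at h5
    rw [bl_q l]
    exact h5
  rw [hαe]
  have e4 : ∀ i j : Fin 4, (((p i).eval β * α ^ (ringExpChar l) ^ r + (p j).eval β : l) : L) =
      (((p i).eval β : l) : L) * (α : L) ^ (ringExpChar L) ^ r + (((p j).eval β : l) : L) := by
    intro i j
    rw [bl_q l]
    rfl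
  rw [e4, e4] at e2
  generalize (((p 0).eval β : l) : L) * (α : L) ^ (ringExpChar L) ^ r +
    (((p 1).eval β : l) : L) = U at e2 ⊢
  generalize (((p 2).eval β : l) : L) * (α : L) ^ (ringExpChar L) ^ r +
    (((p 3).eval β : l) : L) = V at e2 ⊢
  rw [← ha', mul_pow, ← mul_assoc] at e2
  have e5 := mul_right_cancel₀ (pow_ne_zero _ hda2) e2
  apply pow_q_inj (n := i)
  rw [e5, mul_pow, ← pow_mul, ← pow_mul, mul_comm ((ringExpChar L) ^ n), mul_comm]

/-- injectivity of the correspondence off a finite set. -/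
theorem bl_inj (hk : IsAlgClosed k) (hl : IsAlgClosed l) {s : K} {s' : L}
    (hR : Rt k l Θ s s') {ψ : K → L} {e : K → ZMod ℓ} (p : Psi k l Θ s s' ψ e) (n : ℕ) :
    ∃ S : Set k, S.Finite ∧ Set.InjOn (fun b => rst k l ψ b ^ (ringExpChar l) ^ n) Sᶜ := by
  refine ⟨{b : k | ¬ (ψ b ∈ l ∧ e b ≠ 0 ∧ Cor k l Θ s s' (e b) b (ψ b))}, ?_, ?_⟩
  · exact ae_iff_sub.1 p.cor
  · intro b hb b' hb' hbb
    simp only [Set.mem_compl_iff, Set.mem_ofPred_eq, not_not] at hb hb'
    have h3 : rst k l ψ b = rst k l ψ b' := pow_q_inj hbb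
    have h4 := congrArg (Subtype.val : l → L) h3
    rw [sigb_rst_eq hb.1, sigb_rst_eq hb'.1] at h4
    have h5 := hb'.2.2
    rw [← h4] at h5
    exact Subtype.ext (Cor.inj hk hl hR hb.2.1 hb'.2.1 b.2 b'.2 hb.1 hb.2.2 h5)

/-- exact additive relations for the correspondence of points. -/
theorem Hyp.exact_add (H : Hyp ℓ k l Θ) {t s : K} {t' s' z' : L}
    (hst : Ind k s t) (ht : Rt k l Θ t t') (hs : Rt k l Θ s s')
    (hz : Rt k l Θ (t + s) z') {ψs : K → L}
    {es : K → ZMod ℓ} (ps : Psi k l Θ s s' ψs es) :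
    ∃ S : Set K, S.Finite ∧ ∀ c ∈ k, ∃ A ∈ l, ∃ B ∈ l, ∃ C ∈ l, ∃ D ∈ l, A * D - B * C ≠ 0 ∧
      ∀ b ∈ k, b ∉ S → b + c ∉ S → ψs b ∈ l ∧ ψs (b + c) * (C * ψs b + D) = A * ψs b + B := by
  have hk := H.ack
  have hl := H.acl
  haveI := hk
  haveI := hl
  obtain ⟨ψt, et, pt⟩ := H.exists_psi ht
  obtain ⟨ψz, ez, pz⟩ := H.exists_psi hz
  obtain ⟨n, r, r', X, Y, hX, hY, hb⟩ := H.bilin hst ht hs hz pt ps pz
  obtain ⟨S₀, hS₀, hpen⟩ := pencil (fun b : k => rst k l ψs b ^ (ringExpChar l) ^ r')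
    (fun a : k => rst k l ψt a ^ (ringExpChar l) ^ r)
    (fun c : k => rst k l ψz c ^ (ringExpChar l) ^ n) (bl_inj hk hl hs ps r')
    (bl_inj hk hl ht pt r) (fun i => ⟨X i, hX i⟩) (fun i => ⟨Y i, hY i⟩) (by
      filter_upwards [ae_iff_sub.1 hb, ae_iff_sub.1 ps.cor] with b hb1 hb2
      obtain ⟨h1, h2⟩ := hb1
      have hq := bl_q l
      refine ⟨?_, ?_⟩
      · intro h0
        apply h1
        have h3 := congrArg (Subtype.val : l → L) h0
        change ((rst k l ψs b : L) ^ (ringExpChar l) ^ r' * X 0 + Y 0) *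
          ((rst k l ψs b : L) ^ (ringExpChar l) ^ r' * X 3 + Y 3) -
          ((rst k l ψs b : L) ^ (ringExpChar l) ^ r' * X 1 + Y 1) *
            ((rst k l ψs b : L) ^ (ringExpChar l) ^ r' * X 2 + Y 2) = 0 at h3
        rw [sigb_rst_eq hb2.1, hq] at h3
        exact h3
      · filter_upwards [ae_iff_sub.1 h2, ae_iff_sub.1 pt.cor,
          ae_iff_sub.1 (ae_shift b.2 pz.cor)] with a ha1 ha2 ha3
        refine Subtype.ext ?_
        change (rst k l ψz (a + b) : L) ^ (ringExpChar l) ^ n *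
            (((rst k l ψs b : L) ^ (ringExpChar l) ^ r' * X 2 + Y 2) *
              (rst k l ψt a : L) ^ (ringExpChar l) ^ r +
              ((rst k l ψs b : L) ^ (ringExpChar l) ^ r' * X 3 + Y 3)) =
          ((rst k l ψs b : L) ^ (ringExpChar l) ^ r' * X 0 + Y 0) *
            (rst k l ψt a : L) ^ (ringExpChar l) ^ r +
              ((rst k l ψs b : L) ^ (ringExpChar l) ^ r' * X 1 + Y 1)
        have hzm : ψz ((a + b : k) : K) ∈ l := by
          have h5 := ha3.1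
          rw [add_comm] at h5
          exact h5
        rw [sigb_rst_eq hb2.1, sigb_rst_eq ha2.1, sigb_rst_eq hzm, hq]
        exact ha1)
  refine ⟨Subtype.val '' S₀ ∪ {b : K | b ∈ k ∧ ¬ (ψs b ∈ l ∧ es b ≠ 0 ∧
    Cor k l Θ s s' (es b) b (ψs b))}, (hS₀.image _).union (ae_iff.1 ps.cor), ?_⟩
  intro c hc
  obtain ⟨A, B, C', D, hd, hM⟩ := hpen ⟨c, hc⟩
  obtain ⟨A, rfl⟩ := exists_root A r'
  obtain ⟨B, rfl⟩ := exists_root B r'
  obtain ⟨C', rfl⟩ := exists_root C' r'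
  obtain ⟨D, rfl⟩ := exists_root D r'
  refine ⟨A, A.2, B, B.2, C', C'.2, D, D.2, ?_, ?_⟩
  · intro h0
    apply hd
    rw [sg1_det_pow]
    have h1 : A * D - B * C' = 0 := Subtype.ext h0
    rw [h1, zero_pow (pow_pos (expChar_pos l _) r').ne']
  · intro b hb hbS hbcS
    have hmem : ∀ x ∈ k, x ∉ Subtype.val '' S₀ ∪ {b : K | b ∈ k ∧ ¬ (ψs b ∈ l ∧ es b ≠ 0 ∧
        Cor k l Θ s s' (es b) b (ψs b))} → ψs x ∈ l := by
      intro x hx hxS
      by_contra hcon
      exact hxS (Or.inr ⟨hx, fun h => hcon h.1⟩)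
    have hb1 := hmem b hb hbS
    have hb2 := hmem (b + c) (add_mem hb hc) hbcS
    refine ⟨hb1, ?_⟩
    have h1 := hM ⟨b, hb⟩ (fun h => hbS (Or.inl ⟨_, h, rfl⟩)) (fun h => hbcS (Or.inl ⟨_, h, rfl⟩))
    have h2 := sg1_unpow r' h1
    have h3 := congrArg (Subtype.val : l → L) h2
    change (rst k l ψs (⟨b, hb⟩ + ⟨c, hc⟩) : L) * ((C' : L) * (rst k l ψs ⟨b, hb⟩ : L) + (D : L)) =
      (A : L) * (rst k l ψs ⟨b, hb⟩ : L) + (B : L) at h3
    have hb2' : ψs (((⟨b, hb⟩ : k) + (⟨c, hc⟩ : k) : k) : K) ∈ l := hb2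
    rw [sigb_rst_eq (b := ⟨b, hb⟩) hb1, sigb_rst_eq hb2'] at h3
    exact h3

end Vale.Agent.P019P
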