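import Vale.Agent.P019P.Sigma

/-!
# From exact Moebius relations to an isomorphism of fields (no uncountability)
-/

namespace Vale.Agent.P019P

open Vale.Agent.P019

set_option linter.style.haveILetI false
set_option linter.unusedSectionVars false

open Filter

open Sg in
theorem affine_exact {k l : Type*} [Field k] [Field l] [IsAlgClosed k] (φ : k → l) (S : Set k)
    (hS : S.Finite) (hinj : Set.InjOn φ Sᶜ)
    (hadd : ∀ c, ∃ α β : l, α ≠ 0 ∧ ∀ b, b ∉ S → b + c ∉ S → φ (b + c) = α * φ b + β)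
    (hmul : ∀ c, c ≠ 0 → ∃ α β : l, α ≠ 0 ∧ ∀ᶠ b in cofinite, φ (c * b) = α * φ b + β) :
    ∃ (σ : k →+* l) (p q : l), p ≠ 0 ∧ ∀ᶠ b in cofinite, φ b = p * σ b + q := by
  classical
  -- uniqueness of the affine map
  have huniq : ∀ (α β α' β' : l), (∀ᶠ b in cofinite, α * φ b + β = α' * φ b + β') →
      α = α' ∧ β = β' := by
    intro α β α' β' h
    obtain ⟨b₁, b₂, b₃, p1, p2, p3, n12, n13, n32⟩ := three_pts ⟨S, hS, hinj⟩ h
    have h1 : (α - α') * (φ b₁ - φ b₂) = 0 := by linear_combination p1 - p2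
    have h2 : α = α' := by
      rcases mul_eq_zero.1 h1 with h | h
      · exact sub_eq_zero.1 h
      · exact absurd (sub_eq_zero.1 h) n12
    refine ⟨h2, ?_⟩
    rw [h2] at p1
    linear_combination p1
  have hSae : ∀ᶠ b in cofinite, b ∈ Sᶜ := hS.compl_mem_cofinite
  choose al be hal0 habx using hadd
  have hab : ∀ c, ∀ᶠ b in cofinite, φ (b + c) = al c * φ b + be c := by
    intro c
    filter_upwards [hSae, ae_add c hSae] with b h1 h2
    exact habx c b h1 h2
  have hmul' : ∀ c, ∃ α β : l, c ≠ 0 → (α ≠ 0 ∧ ∀ᶠ b in cofinite, φ (c * b) = α * φ b + β) := by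
    intro c
    by_cases hc : c = 0
    · exact ⟨0, 0, fun h => absurd hc h⟩
    · obtain ⟨α, β, h⟩ := hmul c hc
      exact ⟨α, β, fun _ => h⟩
  choose m n hmn using hmul'
  -- composition of translations
  have hcomp : ∀ c c', al (c + c') = al c' * al c ∧ be (c + c') = al c' * be c + be c' := by
    intro c c'
    apply huniq
    filter_upwards [hab (c + c'), hab c, ae_add c (hab c')] with b h1 h2 h3
    rw [← h1, ← add_assoc, h3, h2]
    ring
  -- conjugation by dilations
  have hconj0 : ∀ lam c, lam ≠ 0 → al (lam * c) = al c ∧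
      al (lam * c) * n lam + be (lam * c) = m lam * be c + n lam := by
    intro lam c hlam
    have h1 := (hmn lam hlam).2
    have h2 : al (lam * c) * m lam = m lam * al c ∧
        al (lam * c) * n lam + be (lam * c) = m lam * be c + n lam := by
      apply huniq
      filter_upwards [h1, ae_mul hlam (hab (lam * c)), hab c, ae_add c h1] with b e1 e2 e3 e4
      rw [e1] at e2
      rw [mul_add, e2, e3] at e4
      linear_combination e4
    refine ⟨?_, h2.2⟩
    apply mul_right_cancel₀ (hmn lam hlam).1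
    rw [h2.1, mul_comm]
  have hal : ∀ d, al d = 1 := by
    have h01 : ∀ d, d ≠ 0 → al d = al 1 := by
      intro d hd
      have := (hconj0 d 1 hd).1
      rwa [mul_one] at this
    have h1 : al 1 = 1 := by
      obtain ⟨c', hc'⟩ : ∃ c' : k, c' ∉ ({0, -1} : Finset k) := Infinite.exists_notMem_finset _
      simp only [Finset.mem_insert, Finset.mem_singleton, not_or] at hc'
      have h5 := (hcomp 1 c').1
      have hne : (1 : k) + c' ≠ 0 := by
        intro h
        exact hc'.2 (eq_neg_of_add_eq_zero_right h)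
      rw [h01 _ hne, h01 _ hc'.1] at h5
      have h6 : al 1 * al 1 = 1 * al 1 := by rw [← h5, one_mul]
      exact mul_right_cancel₀ (hal0 1) h6
    intro d
    by_cases hd : d = 0
    · subst hd
      have h5 := (hcomp 0 0).1
      rw [add_zero] at h5
      have h6 : al 0 * al 0 = 1 * al 0 := by rw [← h5, one_mul]
      exact mul_right_cancel₀ (hal0 0) h6
    · rw [h01 d hd, h1]
  have hconj : ∀ lam c, lam ≠ 0 → al (lam * c) = al c ∧ be (lam * c) = m lam * be c := by
    intro lam c hlam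
    obtain ⟨h1, h2⟩ := hconj0 lam c hlam
    refine ⟨h1, ?_⟩
    rw [hal (lam * c)] at h2
    linear_combination h2
  have hbe_add : ∀ c c', be (c + c') = be c + be c' := by
    intro c c'
    rw [(hcomp c c').2, hal, one_mul]
  have htr : ∀ c, ∀ᶠ b in cofinite, φ (b + c) = φ b + be c := by
    intro c
    filter_upwards [hab c] with b hb
    rw [hb, hal, one_mul]
  have hbe_ne : ∀ c, c ≠ 0 → be c ≠ 0 := by
    intro c hc h0
    obtain ⟨b, h2, h3, h4⟩ := ((htr c).and (hSae.and (ae_add c hSae))).exists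
    rw [h0, add_zero] at h2
    have := hinj h4 h3 h2
    exact hc (by simpa using this)
  have hbe1 : be 1 ≠ 0 := hbe_ne 1 one_ne_zero
  have hm : ∀ lam, lam ≠ 0 → m lam = be lam / be 1 := by
    intro lam hlam
    have := (hconj lam 1 hlam).2
    rw [mul_one] at this
    rw [this]
    field_simp
  have hbe0 : be 0 = 0 := by
    have := hbe_add 0 0
    simpa using this
  let σ : k →+* l :=
    { toFun := fun c => be c / be 1
      map_one' := div_self hbe1
      map_mul' := by
        intro x y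
        by_cases hx : x = 0
        · simp [hx, hbe0]
        · rw [(hconj x y hx).2, hm x hx]
          ring
      map_zero' := by simp [hbe0]
      map_add' := by
        intro x y
        rw [hbe_add]
        ring }
  have hσ : ∀ c, be c = be 1 * σ c := by
    intro c
    change be c = be 1 * (be c / be 1)
    field_simp
  obtain ⟨a₀, ha₀⟩ := hSae.exists
  refine ⟨σ, be 1, φ a₀ - be 1 * σ a₀, hbe1, ?_⟩
  filter_upwards [hSae] with b hb
  have h1 := habx (b - a₀) a₀ ha₀ (by rw [add_sub_cancel]; exact hb)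
  rw [add_sub_cancel, hal, one_mul, hσ (b - a₀), map_sub] at h1
  rw [h1]
  ring

open Sg in
/-- as `sigma_exists`, with exact additive relations. -/
theorem sigma_exact {k l : Type*} [Field k] [Field l]
    [IsAlgClosed k] [IsAlgClosed l] (ψ₁ ψ₂ ψ₃ : k → l)
    (hinj₁ : ∃ S : Set k, S.Finite ∧ Set.InjOn ψ₁ Sᶜ) (hsurj₁ : (Set.range ψ₁)ᶜ.Finite)
    (hadd : ∀ᶠ a in cofinite, ∃ (i j : ℕ) (A B C D : l), A * D - B * C ≠ 0 ∧
      ∀ᶠ b in cofinite, MobRel A B C D (ψ₁ b ^ (ringExpChar l) ^ j)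
        (ψ₂ (a + b) ^ (ringExpChar l) ^ i))
    (hmul : ∀ᶠ a in cofinite, ∃ (i j : ℕ) (A B C D : l), A * D - B * C ≠ 0 ∧
      ∀ᶠ b in cofinite, MobRel A B C D (ψ₁ b ^ (ringExpChar l) ^ j)
        (ψ₃ (a * b) ^ (ringExpChar l) ^ i))
    (hex : ∃ S : Set k, S.Finite ∧ ∀ c : k, ∃ A B C D : l, A * D - B * C ≠ 0 ∧
      ∀ b, b ∉ S → b + c ∉ S → MobRel A B C D (ψ₁ b) (ψ₁ (b + c))) :
    ∃ (σ : k ≃+* l) (A B C D : l), A * D - B * C ≠ 0 ∧
      ∀ᶠ b in cofinite, MobRel A B C D (σ b) (ψ₁ b) := by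
  obtain ⟨S₀, hS₀, hex⟩ := hex
  have hgx : ∀ c, ∃ g : (l × l) ≃ₗ[l] (l × l),
      ∀ b, b ∉ S₀ → b + c ∉ S₀ → Act g (ψ₁ b) (ψ₁ (b + c)) := by
    intro c
    obtain ⟨A, B, C, D, h0, h1⟩ := hex c
    obtain ⟨g, hg⟩ := exists_of_matrix h0
    exact ⟨g, fun b hb hbc => hg _ _ (h1 b hb hbc)⟩
  choose g hgx using hgx
  have hS₀ae : ∀ᶠ b in cofinite, b ∈ S₀ᶜ := hS₀.compl_mem_cofinite
  have hg : ∀ c, ∀ᶠ b in cofinite, Act (g c) (ψ₁ b) (ψ₁ (b + c)) := by
    intro c
    filter_upwards [hS₀ae, ae_add c hS₀ae] with b h1 h2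
    exact hgx c b h1 h2
  have hh : ∀ c, ∃ g : (l × l) ≃ₗ[l] (l × l),
      c ≠ 0 → ∀ᶠ b in cofinite, Act g (ψ₁ b) (ψ₁ (c * b)) := by
    intro c
    by_cases hc : c = 0
    · exact ⟨LinearEquiv.refl _ _, fun h => absurd hc h⟩
    obtain ⟨A, B, C, D, h0, h1⟩ := untwist_mul ψ₁ ψ₃ hinj₁ hsurj₁ hmul c hc
    obtain ⟨g, hg⟩ := exists_of_matrix h0
    exact ⟨g, fun _ => h1.mono fun b hb => hg _ _ hb⟩
  choose h hh using hh
  obtain ⟨v, hv0, hgv, hhv⟩ := exists_common ψ₁ hinj₁ g h hg hh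
  obtain ⟨M, s, hs, hM⟩ := exists_move hv0
  have hM' : M.symm (1, 0) = s⁻¹ • v := by
    rw [LinearEquiv.symm_apply_eq, map_smul, hM, smul_smul, inv_mul_cancel₀ hs, one_smul]
  -- the moved function
  let φ : k → l := fun b => (M (ψ₁ b, 1)).1 / (M (ψ₁ b, 1)).2
  have hMφ : ∀ᶠ b in cofinite, Act M (ψ₁ b) (φ b) := by
    obtain ⟨S, hS, hinj⟩ := hinj₁
    have h1 : ∀ᶠ b in cofinite, b ∈ Sᶜ := hS.compl_mem_cofinite
    have h2 : {b | b ∈ Sᶜ ∧ (M (ψ₁ b, 1)).2 = 0}.Subsingleton := by
      rintro b ⟨hb, hb0⟩ b' ⟨hb', hb0'⟩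
      apply hinj hb hb'
      have e : ∀ x : l, (M (x, 1)).2 = 0 → ((x, 1) : l × l) = ((M (x, 1)).1 * s⁻¹) • v := by
        intro x hx
        rw [mul_smul, ← hM', ← map_smul, ← LinearEquiv.symm_apply_eq, LinearEquiv.symm_symm]
        ext
        · simp
        · simp [hx]
      have e1 := e _ hb0
      have e2 := e _ hb0'
      have f1 := congrArg Prod.snd e1
      have f2 := congrArg Prod.snd e2
      have g1 := congrArg Prod.fst e1
      have g2 := congrArg Prod.fst e2
      simp only [Prod.smul_snd, Prod.smul_fst, smul_eq_mul] at f1 f2 g1 g2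
      have hv2 : v.2 ≠ 0 := by
        intro h0
        rw [h0, mul_zero] at f1
        exact one_ne_zero f1
      have k1 : (M (ψ₁ b, 1)).1 * s⁻¹ = (M (ψ₁ b', 1)).1 * s⁻¹ := by
        apply mul_right_cancel₀ hv2
        rw [← f1, ← f2]
      rw [g1, g2, k1]
    have h3 : ∀ᶠ b in cofinite, ¬ (b ∈ Sᶜ ∧ (M (ψ₁ b, 1)).2 = 0) := by
      exact h2.finite.compl_mem_cofinite
    filter_upwards [h1, h3] with b hb1 hb3
    have hb : (M (ψ₁ b, 1)).2 ≠ 0 := fun h0 => hb3 ⟨hb1, h0⟩
    refine ⟨(M (ψ₁ b, 1)).2, hb, ?_⟩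
    ext
    · simp only [φ, Prod.smul_fst, smul_eq_mul]
      field_simp
    · simp
  obtain ⟨S₁, hS₁, hinjS⟩ := hinj₁
  have hTfin : (S₀ ∪ (S₁ ∪ {b | ¬ Act M (ψ₁ b) (φ b)})).Finite := hS₀.union (hS₁.union hMφ)
  have hφinj : Set.InjOn φ (S₀ ∪ (S₁ ∪ {b | ¬ Act M (ψ₁ b) (φ b)}))ᶜ := by
    intro b hb b' hb' hbb
    simp only [Set.mem_compl_iff, Set.mem_union, Set.mem_ofPred_eq, not_or, not_not] at hb hb'
    apply hinjS hb.2.1 hb'.2.1
    have := hb'.2.2
    rw [← hbb] at this
    exact hb.2.2.eq_left this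
  obtain ⟨σ, p, q, hp, hσ⟩ := affine_exact φ _ hTfin hφinj
    (by
      intro c
      obtain ⟨t, ht⟩ := hgv c
      obtain ⟨α, β, hα, hαβ⟩ := affine_of_fix (g := (M.symm.trans (g c)).trans M) (s := t) (by
        rw [LinearEquiv.trans_apply, LinearEquiv.trans_apply, hM', map_smul, ht, map_smul,
          map_smul, hM, smul_smul, smul_smul, mul_right_comm, inv_mul_cancel₀ hs, one_mul])
      refine ⟨α, β, hα, ?_⟩
      intro b hb hbc
      simp only [Set.mem_union, Set.mem_ofPred_eq, not_or, not_not] at hb hbc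
      exact hαβ _ _ ((hb.2.2.symm.comp (hgx c b hb.1 hbc.1)).comp hbc.2.2))
    (by
      intro c hc
      obtain ⟨t, ht⟩ := hhv c hc
      obtain ⟨α, β, hα, hαβ⟩ := affine_of_fix (g := (M.symm.trans (h c)).trans M) (s := t) (by
        rw [LinearEquiv.trans_apply, LinearEquiv.trans_apply, hM', map_smul, ht, map_smul,
          map_smul, hM, smul_smul, smul_smul, mul_right_comm, inv_mul_cancel₀ hs, one_mul])
      refine ⟨α, β, hα, ?_⟩
      filter_upwards [hMφ, ae_mul hc hMφ, hh c hc] with b e1 e2 e3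
      exact hαβ _ _ ((e1.symm.comp e3).comp e2))
  -- the composite Moebius transformation
  obtain ⟨N, hN⟩ := exists_of_matrix (A := p) (B := q) (C := 0) (D := 1) (l := l)
    (by simpa using hp)
  let K : (l × l) ≃ₗ[l] (l × l) := N.trans M.symm
  have hK : ∀ᶠ b in cofinite, Act K (σ b) (ψ₁ b) := by
    filter_upwards [hMφ, hσ] with b e1 e2
    have : Act N (σ b) (φ b) := hN _ _ (by unfold MobRel; rw [e2]; ring)
    exact this.comp e1.symm
  -- surjectivity
  have hrange : (Set.range σ)ᶜ.Finite := by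
    have hF : {b | ¬ Act K (σ b) (ψ₁ b)}.Finite := hK
    have hbad : ((Set.range ψ₁)ᶜ ∪ ψ₁ '' {b | ¬ Act K (σ b) (ψ₁ b)}).Finite :=
      hsurj₁.union (hF.image _)
    refine ((hbad.image (fun y => (K.symm (y, 1)).1 / (K.symm (y, 1)).2)).union
      (Set.finite_singleton ((K.symm (1, 0)).1 / (K.symm (1, 0)).2))).subset ?_
    intro w hw
    by_cases hT : (K (w, 1)).2 = 0
    · right
      have e : ((w, 1) : l × l) = (K (w, 1)).1 • K.symm (1, 0) := by
        rw [← map_smul, ← LinearEquiv.symm_apply_eq, LinearEquiv.symm_symm]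
        ext
        · simp
        · simp [hT]
      have e1 := congrArg Prod.fst e
      have e2 := congrArg Prod.snd e
      simp only [Prod.smul_fst, Prod.smul_snd, smul_eq_mul] at e1 e2
      have hne : (K.symm (1, 0)).2 ≠ 0 := by
        intro h0
        rw [h0, mul_zero] at e2
        exact one_ne_zero e2
      rw [Set.mem_singleton_iff, eq_div_iff hne, e1]
      linear_combination -(K.symm (1, 0)).1 * e2
    · left
      have hact : Act K w ((K (w, 1)).1 / (K (w, 1)).2) := by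
        refine ⟨(K (w, 1)).2, hT, ?_⟩
        ext
        · simp only [Prod.smul_fst, smul_eq_mul]
          field_simp
        · simp
      refine ⟨(K (w, 1)).1 / (K (w, 1)).2, ?_, ?_⟩
      · by_contra hnb
        simp only [Set.mem_union, Set.mem_compl_iff, Set.mem_image, not_or, not_not,
          Set.mem_ofPred_eq, Set.mem_range] at hnb
        obtain ⟨⟨b, hb⟩, h2⟩ := hnb
        have hb' : Act K (σ b) (ψ₁ b) := by
          by_contra hcon
          exact h2 ⟨b, hcon, hb⟩
        rw [hb] at hb'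
        exact hw ⟨b, hb'.eq_left hact⟩
      · obtain ⟨t, ht, e⟩ := hact.symm
        have e1 := congrArg Prod.fst e
        have e2 := congrArg Prod.snd e
        simp only [Prod.smul_fst, Prod.smul_snd, smul_eq_mul, mul_one] at e1 e2
        simp only
        rw [e1, e2]
        field_simp
  have hsurj : Function.Surjective σ := by
    intro y
    by_contra hy
    have h1 : (Set.range (fun z : k => y + σ z)).Infinite :=
      Set.infinite_range_of_injective (fun a b hab => σ.injective (add_left_cancel hab))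
    apply h1
    refine hrange.subset ?_
    rintro _ ⟨z, rfl⟩ ⟨w, hw⟩
    apply hy
    refine ⟨w - z, ?_⟩
    rw [map_sub, hw]
    simp
  obtain ⟨A, B, C, D, hdet, hmat⟩ := exists_matrix K
  refine ⟨RingEquiv.ofBijective σ ⟨σ.injective, hsurj⟩, A, B, C, D, hdet, ?_⟩
  filter_upwards [hK] with b hb
  exact hmat _ _ hb

end Vale.Agent.P019P
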