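import Vale.Agent.P019P.GenB
import Vale.Agent.P019P.PsiB
import Vale.Agent.P019P.RatB

/-!
# Special elements, all of whose points correspond
-/

namespace Vale.Agent.P019P

open Vale.Agent.P019

set_option linter.style.haveILetI false
set_option linter.unusedSectionVars false

open Polynomial Filter

variable {K L : Type*} [Field K] [Field L] [PerfectField K] [PerfectField L] {ℓ : ℕ}
  [Fact ℓ.Prime] [NeZero (ℓ : K)] [NeZero (ℓ : L)]
  {k : Subfield K} {l : Subfield L} {Θ : V ℓ K ≃ₗ[ZMod ℓ] V ℓ L}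

/-- the type of the point of the line of `z'` below a transferred valuation. -/
theorem Hyp.spec_point (H : Hyp ℓ k l Θ) {F : Subfield K} (hkF : k ≤ F) (hfg : FG k F)
    {W : ValuationSubring K} {π θ : K} (hN : Nice W F π θ) {y : K} (hy : Good k y)
    (hyW : TrivOn W (adj k y)) {z : K} {z' : L} (hR : Rt k l Θ z z') {v₀ : V ℓ K}
    (hv₀ : v₀ ∈ VS ℓ (adj k z)) (h₀ : hN.unif.fn ℓ v₀ ≠ 0) :
    (∃ β ∈ l, ∃ κ : ZMod ℓ, ∀ v ∈ VS ℓ (adj k z),
      hN.unif.fn ℓ v = κ * del ℓ l z' β (Θ v)) ∨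
    (∀ c ∈ l, ∀ c' ∈ l, hN.unif.fn ℓ (Θ.symm (cl ℓ (z' - c) - cl ℓ (z' - c'))) = 0) := by
  obtain ⟨O, hOl, hT⟩ := H.exists_tr hkF hfg hN hy hyW
  have hnt : ¬ TrivOn O (adj l z') := by
    intro hO
    obtain ⟨x, hx, hx0, hx1⟩ := (hR.map v₀).2 hv₀
    have h1 := hT.unit hN.unif x (hO.eq_one hx hx0)
    rw [← hx1, LinearEquiv.symm_apply_apply] at h1
    exact h₀ h1
  set f : V ℓ L →ₗ[ZMod ℓ] ZMod ℓ := (hN.unif.fn ℓ) ∘ₗ Θ.symm.toLinearMap with hf
  have hfv : ∀ v, f (Θ v) = hN.unif.fn ℓ v := by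
    intro v
    change hN.unif.fn ℓ (Θ.symm (Θ v)) = _
    rw [LinearEquiv.symm_apply_apply]
  have hfs : ∀ w, hN.unif.fn ℓ (Θ.symm w) = f w := fun w => rfl
  have hfu : ∀ z, O.valuation z = 1 → f (cl ℓ z) = 0 := fun z hz => hT.unit hN.unif z hz
  rcases exists_centre H.acl hR.good' hOl hnt with ⟨β, hβ, hβ1⟩ | hinf
  · left
    refine ⟨β, hβ, f (cl ℓ (z' - β)), fun v hv => ?_⟩
    rw [← hfv]
    exact del_of_kills H.acl hR.good' hOl hβ hβ1 f hfu ((hR.map v).2 hv)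
  · right
    have key : ∀ c ∈ l, f (cl ℓ (z' - c)) = f (cl ℓ z') := by
      intro c hc
      have hs0 : z' ≠ 0 := by
        rintro rfl
        rw [map_zero] at hinf
        exact absurd hinf (not_lt.2 zero_le_one)
      have hcle : O.valuation c < O.valuation z' := (hOl.le_one hc).trans_lt hinf
      have hval : O.valuation (z' - c) = O.valuation z' :=
        Valuation.map_sub_eq_of_lt_left _ hcle
      have hsc0 : z' - c ≠ 0 := by
        intro h
        rw [h, map_zero] at hval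
        exact (Valuation.ne_zero_iff O.valuation).2 hs0 hval.symm
      have h1 : O.valuation ((z' - c) / z') = 1 := by
        rw [map_div₀, hval, div_self ((Valuation.ne_zero_iff O.valuation).2 hs0)]
      have h2 := hfu _ h1
      rw [cl_div ℓ hsc0 hs0, map_sub, sub_eq_zero] at h2
      exact h2
    intro c hc c' hc'
    rw [hfs, map_sub, key c hc, key c' hc', sub_self]

/-- shifting the parameter. -/
theorem spec_ae_shift {P : K → Prop} (h : ∀ᶠ c in ae k, P c) : ∀ᶠ c in ae k, P (c - 1) := by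
  rw [ae_iff] at h ⊢
  refine (h.image (fun c => c + 1)).subset ?_
  rintro c ⟨hc, hc1⟩
  exact ⟨c - 1, ⟨k.sub_mem hc k.one_mem, hc1⟩, sub_add_cancel c 1⟩

/-- comparison of the coefficients of two points through the degree formula. -/
theorem Hyp.spec_compare (H : Hyp ℓ k l Θ) {z : K} {z' : L} (hR : Rt k l Θ z z')
    (hfin : ∀ b ∈ k,
      (∃ β ∈ l, ∃ κ : ZMod ℓ, ∀ v ∈ VS ℓ (adj k z), del ℓ k z b v = κ * del ℓ l z' β (Θ v)) ∨
      (∀ c ∈ l, ∀ c' ∈ l, del ℓ k z b (Θ.symm (cl ℓ (z' - c) - cl ℓ (z' - c'))) = 0))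
    {g : V ℓ K →ₗ[ZMod ℓ] ZMod ℓ} (hg : ∀ b ∈ k, g (cl ℓ (z - b)) = -1)
    (hinf :
      (∃ β ∈ l, ∃ κ : ZMod ℓ, ∀ v ∈ VS ℓ (adj k z), g v = κ * del ℓ l z' β (Θ v)) ∨
      (∀ c ∈ l, ∀ c' ∈ l, g (Θ.symm (cl ℓ (z' - c) - cl ℓ (z' - c'))) = 0))
    {b b' : K} (hb : b ∈ k) (hb' : b' ∈ k) {β β' : L} (hβ : β ∈ l) (hβ' : β' ∈ l)
    {e e' : ZMod ℓ} (he : e ≠ 0) (he' : e' ≠ 0) (h : Cor k l Θ z z' e b β)
    (h' : Cor k l Θ z z' e' b' β') : e = e' := by
  classical
  by_cases hββ : β = β'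
  · subst hββ
    have hbb := Cor.inj H.ack H.acl hR he he' hb hb' hβ h h'
    subst hbb
    exact (Cor.unique H.ack H.acl hR he hb hβ hβ h h').2
  have hbb : b ≠ b' := by
    rintro rfl
    exact hββ (Cor.unique H.ack H.acl hR he hb hβ hβ' h h').1
  have hz'k : ∀ c ∈ l, cl ℓ (z' - c) ∈ VS ℓ (adj l z') := fun c hc =>
    cl_mem_VS ((adj l z').sub_mem (mem_adj l z') (le_adj l z' hc))
  have hzk : ∀ c ∈ k, cl ℓ (z - c) ∈ VS ℓ (adj k z) := fun c hc =>
    cl_mem_VS ((adj k z).sub_mem (mem_adj k z) (le_adj k z hc))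
  set w : V ℓ L := cl ℓ (z' - β) - cl ℓ (z' - β') with hw
  have hwV : w ∈ VS ℓ (adj l z') := Submodule.sub_mem _ (hz'k β hβ) (hz'k β' hβ')
  set v : V ℓ K := Θ.symm w with hv
  have hΘv : Θ v = w := by rw [hv, LinearEquiv.apply_symm_apply]
  have hvV : v ∈ VS ℓ (adj k z) := by rw [← hR.map, hΘv]; exact hwV
  -- values of the functionals of the second line at `w`
  have hdw : ∀ γ ∈ l, γ ≠ β → γ ≠ β' → del ℓ l z' γ w = 0 := by
    intro γ hγ h1 h2
    rw [hw, map_sub, del_ne H.acl hR.good' hγ hβ (Ne.symm h1),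
      del_ne H.acl hR.good' hγ hβ' (Ne.symm h2), sub_self]
  have hdβ : del ℓ l z' β w = 1 := by
    rw [hw, map_sub, del_self H.acl hR.good' hβ, del_ne H.acl hR.good' hβ hβ' (Ne.symm hββ),
      sub_zero]
  have hdβ' : del ℓ l z' β' w = -1 := by
    rw [hw, map_sub, del_self H.acl hR.good' hβ', del_ne H.acl hR.good' hβ' hβ hββ, zero_sub]
  have hvb : del ℓ k z b v = e := by
    rw [h v hvV, hΘv, hdβ, mul_one]
  have hvb' : del ℓ k z b' v = -e' := by
    rw [h' v hvV, hΘv, hdβ', mul_neg, mul_one]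
  have hvo : ∀ c ∈ k, c ≠ b → c ≠ b' → del ℓ k z c v = 0 := by
    intro c hc hcb hcb'
    rcases hfin c hc with ⟨γ, hγ, κ, hκ⟩ | h1
    · have hκ0 : κ ≠ 0 := by
        rintro rfl
        have h2 := hκ _ (hzk c hc)
        rw [del_self H.ack hR.good hc, zero_mul] at h2
        exact one_ne_zero h2
      rw [hκ v hvV, hΘv]
      by_cases h1 : γ = β
      · subst h1
        exact absurd (Cor.inj H.ack H.acl hR hκ0 he hc hb hγ hκ h) hcb
      by_cases h2 : γ = β'
      · subst h2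
        exact absurd (Cor.inj H.ack H.acl hR hκ0 he' hc hb' hγ hκ h') hcb'
      rw [hdw γ hγ h1 h2, mul_zero]
    · exact h1 β hβ β' hβ'
  have hgv : g v = 0 := by
    rcases hinf with ⟨γ, hγ, κ, hκ⟩ | h1
    · -- a finite point is not proportional to the point of a finite point
      have hcontra : ∀ {b₁ b₂ : K} {e₁ : ZMod ℓ}, b₁ ∈ k → b₂ ∈ k → b₂ ≠ b₁ → e₁ ≠ 0 →
          Cor k l Θ z z' e₁ b₁ γ → False := by
        intro b₁ b₂ e₁ hb₁ hb₂ hne he₁ hC
        have h2 := hC _ (hzk b₂ hb₂)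
        rw [del_ne H.ack hR.good hb₁ hb₂ hne] at h2
        have h3 : del ℓ l z' γ (Θ (cl ℓ (z - b₂))) = 0 :=
          (mul_eq_zero.1 h2.symm).resolve_left he₁
        have h4 := hκ _ (hzk b₂ hb₂)
        rw [h3, mul_zero, hg b₂ hb₂] at h4
        exact one_ne_zero (neg_eq_zero.1 h4)
      rw [hκ v hvV, hΘv]
      by_cases h1 : γ = β
      · subst h1
        exact (hcontra hb hb' (Ne.symm hbb) he h).elim
      by_cases h2 : γ = β'
      · subst h2
        exact (hcontra hb' hb hbb he' h').elim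
      rw [hdw γ hγ h1 h2, mul_zero]
    · exact h1 β hβ β' hβ'
  -- the degree formula
  obtain ⟨T, n, hT, hvT⟩ := adj_factor H.ack hR.good.1 hvV
  have hdel : ∀ c ∈ k, del ℓ k z c v = if c ∈ T then n c else 0 := by
    intro c hc
    rw [hvT]
    exact del_eval H.ack hR.good T hT n hc
  have hgT : g v = -∑ c ∈ T, n c := by
    rw [hvT, map_sum, ← Finset.sum_neg_distrib]
    refine Finset.sum_congr rfl fun c hc => ?_
    rw [map_smul, hg c (hT c hc), smul_eq_mul, mul_neg, mul_one]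
  have hbT : b ∈ T := by
    by_contra hcon
    have h1 := hdel b hb
    rw [if_neg hcon, hvb] at h1
    exact he h1
  have hbT' : b' ∈ T := by
    by_contra hcon
    have h1 := hdel b' hb'
    rw [if_neg hcon, hvb'] at h1
    exact he' (neg_eq_zero.1 h1)
  have hsum : ∑ c ∈ T, n c = e - e' := by
    have h1 : ∀ c ∈ T, n c = (if c = b then e else 0) + (if c = b' then -e' else 0) := by
      intro c hc
      have h2 := hdel c (hT c hc)
      rw [if_pos hc] at h2
      by_cases h3 : c = b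
      · subst h3
        rw [if_pos rfl, if_neg hbb, add_zero, ← h2, hvb]
      by_cases h4 : c = b'
      · subst h4
        rw [if_neg h3, if_pos rfl, zero_add, ← h2, hvb']
      rw [if_neg h3, if_neg h4, add_zero, ← h2, hvo c (hT c hc) h3 h4]
    rw [Finset.sum_congr rfl h1, Finset.sum_add_distrib, Finset.sum_ite_eq', Finset.sum_ite_eq',
      if_pos hbT, if_pos hbT', sub_eq_add_neg]
  rw [hgv, hsum] at hgT
  have h5 : e - e' = 0 := neg_eq_zero.1 hgT.symm
  exact sub_eq_zero.1 h5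

/-- for every good `s` there is `t` such that the coefficients of the correspondence for `t + s`
are constant. -/
theorem Hyp.exists_special (H : Hyp ℓ k l Θ) {s : K} (hs : Good k s) :
    ∃ t, Good k t ∧ Good k (t + s) ∧ Ind k s t ∧ ∀ z', Rt k l Θ (t + s) z' →
      ∃ e₀ : ZMod ℓ, ∀ b ∈ k, ∀ β ∈ l, ∀ e : ZMod ℓ, e ≠ 0 →
        Cor k l Θ (t + s) z' e b β → e = e₀ := by
  classical
  have hRAC := RAC_of_isAlgClosed k H.ack
  have hne := ae_neBot_of_isAlgClosed H.ack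
  obtain ⟨x₁, hx₁, hx₁s⟩ := H.exists_indep hs
  have hsk : ¬ IsAlgebraic k s := fun h => hs.1 (hRAC s h)
  obtain ⟨G, hG⟩ := exists_frame H.fgk hsk hx₁s
  obtain ⟨θ, hθ⟩ := hG.nice H.fgk
  set F : Subfield K := adj G s with hF
  have hkF : k ≤ F := hG.le.trans (le_adj G s)
  have hsF : s ∈ F := mem_adj G s
  have hksF : adj k s ≤ F := adj_mono hG.le s
  have hfgF : FG k F := hG.fg.adj s
  have hθk : ∀ᶠ a in ae k, ∀ W : ValuationSubring K, Over W F x₁ a → Nice W F (x₁ - a) θ :=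
    ae_mono hkF hθ
  obtain ⟨a₀, ha₀, ha₀k⟩ := (hθk.and (ae_mem k)).exists
  have hxa : x₁ - a₀ ≠ 0 := fun h => hx₁.1 (by rw [sub_eq_zero.1 h]; exact ha₀k)
  set x : K := (x₁ - a₀)⁻¹ with hx
  have hx0 : x ≠ 0 := inv_ne_zero hxa
  have hx₁x : x₁ = x⁻¹ + a₀ := by rw [hx, inv_inv, sub_add_cancel]
  have hxs : ¬ IsAlgebraic (adj k s) x := by
    intro h
    apply hx₁s
    have h1 : x ∈ rac (adj k s) := mem_rac.2 h
    have h2 : x₁ ∈ rac (adj k s) := by
      rw [hx₁x]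
      exact (rac (adj k s)).add_mem ((rac (adj k s)).inv_mem h1) (le_rac _ (le_adj k s ha₀k))
    exact mem_rac.1 h2
  have hxk : x ∉ k := fun h => hxs (isAlgebraic_of_mem (le_adj k s h))
  have hsx : ¬ IsAlgebraic (adj k x) s := fun h => hxs (exchange hsk h)
  -- the exceptional parameters
  have hEx : ∀ᶠ c in ae k, ∀ b ∈ k, b - c * s ≠ 0 → ∀ W : ValuationSubring K,
      Over W F x₁ (a₀ + (b - c * s)⁻¹) → Nice W F (x₁ - (a₀ + (b - c * s)⁻¹)) θ := by
    rw [ae_iff] at hθ ⊢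
    refine (hθ.biUnion (t := fun a => {c : K | c ∈ k ∧ ∃ b ∈ k, b - c * s ≠ 0 ∧
      a₀ + (b - c * s)⁻¹ = a}) ?_).subset ?_
    · intro a _
      apply Set.Subsingleton.finite
      rintro c ⟨hc, b, hb, hbc, h1⟩ c' ⟨hc', b', hb', hbc', h1'⟩
      have h2 : b - c * s = b' - c' * s := by
        have h3 : (b - c * s)⁻¹ = (b' - c' * s)⁻¹ := by
          have h4 := h1.trans h1'.symm
          exact add_left_cancel h4
        exact inv_injective h3
      by_contra hcc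
      have hd : c - c' ≠ 0 := sub_ne_zero.2 hcc
      apply hs.1
      have h5 : s = (b - b') / (c - c') := by
        rw [eq_div_iff hd]
        linear_combination -h2
      rw [h5]
      exact k.div_mem (k.sub_mem hb hb') (k.sub_mem hc hc')
    · rintro c ⟨hc, hc1⟩
      push Not at hc1
      obtain ⟨b, hb, hbc, W, hW, hWn⟩ := hc1
      rw [Set.mem_iUnion₂]
      refine ⟨a₀ + (b - c * s)⁻¹, ⟨?_, fun h => hWn (h W hW)⟩, hc, b, hb, hbc, rfl⟩
      exact F.add_mem (hkF ha₀k) (F.inv_mem (F.sub_mem (hkF hb) (F.mul_mem (hkF hc) hsF)))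
  have hgood := H.bert x s hxk hsx
  have hgood' := spec_ae_shift hgood
  have hc0' : ∀ᶠ c in ae k, c ≠ 0 := by
    rw [ae_iff]
    refine (Set.finite_singleton (0 : K)).subset ?_
    rintro c ⟨_, hc⟩
    rw [not_not] at hc
    exact hc
  obtain ⟨c, ⟨⟨⟨⟨hc1, hc2⟩, hc3⟩, hc0⟩, hck⟩⟩ :=
    ((((hgood.and hgood').and hEx).and hc0').and (ae_mem k)).exists
  have htz : x + (c - 1) * s + s = x + c * s := by ring
  refine ⟨x + (c - 1) * s, hc2, by rw [htz]; exact hc1, ⟨hs.1, ?_⟩, ?_⟩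
  · intro h
    apply hxs
    have h1 : x + (c - 1) * s ∈ rac (adj k s) := mem_rac.2 h
    have h2 : (c - 1) * s ∈ rac (adj k s) :=
      le_rac _ ((adj k s).mul_mem (le_adj k s (k.sub_mem hck k.one_mem)) (mem_adj k s))
    have h3 := (rac (adj k s)).sub_mem h1 h2
    rw [add_sub_cancel_right] at h3
    exact mem_rac.1 h3
  rw [htz]
  intro z' hR
  set z : K := x + c * s with hz
  have hbcs : ∀ b ∈ k, b - c * s ≠ 0 := by
    intro b hb h
    apply hs.1
    have h1 : s = b / c := by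
      rw [eq_div_iff hc0]
      linear_combination -h
    rw [h1]
    exact k.div_mem hb hck
  have huF : ∀ b ∈ k, b - c * s ∈ F := fun b hb =>
    F.sub_mem (hkF hb) (F.mul_mem (hkF hck) hsF)
  have hzk : ∀ c ∈ k, cl ℓ (z - c) ∈ VS ℓ (adj k z) := fun c hc =>
    cl_mem_VS ((adj k z).sub_mem (mem_adj k z) (le_adj k z hc))
  -- finite points
  have hfin : ∀ b ∈ k,
      (∃ β ∈ l, ∃ κ : ZMod ℓ, ∀ v ∈ VS ℓ (adj k z), del ℓ k z b v = κ * del ℓ l z' β (Θ v)) ∨
      (∀ c ∈ l, ∀ c' ∈ l, del ℓ k z b (Θ.symm (cl ℓ (z' - c) - cl ℓ (z' - c'))) = 0) := by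
    intro b hb
    set u : K := b - c * s with hu
    have hu0 : u ≠ 0 := hbcs b hb
    have huF' : u ∈ F := huF b hb
    have haF : a₀ + u⁻¹ ∈ F := F.add_mem (hkF ha₀k) (F.inv_mem huF')
    obtain ⟨W, hW⟩ := exists_over hG.tt haF
    have hN := hc3 b hb hu0 W hW
    have hWF : TrivOn W F := hN.triv
    have hWk : TrivOn W k := hWF.mono hkF
    have hWs : TrivOn W (adj k s) := hWF.mono hksF
    have hvu : W.valuation u = 1 := hWF.eq_one huF' hu0
    have hvui : W.valuation u⁻¹ = 1 := by rw [map_inv₀, hvu, inv_one]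
    have hva : W.valuation (x₁ - a₀) = 1 := by
      have h1 : x₁ - a₀ = (x₁ - (a₀ + u⁻¹)) + u⁻¹ := by ring
      rw [h1, Valuation.map_add_eq_of_lt_right _ (by rw [hvui]; exact hW.lt), hvui]
    have hπ0 : x₁ - (a₀ + u⁻¹) ≠ 0 := hN.unif.ne
    have hzb : z - b = (-u * x) * (x₁ - (a₀ + u⁻¹)) := by
      rw [hz, hx, hu]
      have hu0' : b - c * s ≠ 0 := hu0
      field_simp
      ring
    have hvux : W.valuation (-u * x) = 1 := by
      rw [map_mul, Valuation.map_neg, hvu, hx, map_inv₀, hva, inv_one, one_mul]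
    have hux0 : -u * x ≠ 0 := mul_ne_zero (neg_ne_zero.2 hu0) hx0
    have hlt : W.valuation (z - b) < 1 := by
      rw [hzb, map_mul, hvux, one_mul]
      exact hW.lt
    have hfn1 : hN.unif.fn ℓ (cl ℓ (z - b)) = 1 := by
      rw [hzb, cl_mul ℓ hux0 hπ0, map_add, hN.unif.fn_unit ℓ _ hvux, hN.unif.fn_self ℓ, zero_add]
    have hfn : ∀ v ∈ VS ℓ (adj k z), hN.unif.fn ℓ v = del ℓ k z b v := by
      intro v hv
      rw [del_of_kills H.ack hR.good hWk hb hlt (hN.unif.fn ℓ)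
        (fun z hz => hN.unif.fn_unit ℓ z hz) hv, hfn1, one_mul]
    rcases H.spec_point hkF hfgF hN hs hWs hR (hzk b hb) (by rw [hfn1]; exact one_ne_zero)
      with ⟨β, hβ, κ, hκ⟩ | h1
    · left
      exact ⟨β, hβ, κ, fun v hv => by rw [← hfn v hv]; exact hκ v hv⟩
    · right
      intro d hd d' hd'
      rw [← hfn]
      · exact h1 d hd d' hd'
      · rw [← hR.map, LinearEquiv.apply_symm_apply]
        exact Submodule.sub_mem _
          (cl_mem_VS ((adj l z').sub_mem (mem_adj l z') (le_adj l z' hd)))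
          (cl_mem_VS ((adj l z').sub_mem (mem_adj l z') (le_adj l z' hd')))
  -- the pole
  obtain ⟨W, hW⟩ := exists_over hG.tt (hkF ha₀k)
  have hN := ha₀ W hW
  have hWF : TrivOn W F := hN.triv
  have hWs : TrivOn W (adj k s) := hWF.mono hksF
  have hg : ∀ b ∈ k, hN.unif.fn ℓ (cl ℓ (z - b)) = -1 := by
    intro b hb
    have huF' : b - c * s ∈ F := huF b hb
    have hlt : W.valuation ((b - c * s) * (x₁ - a₀)) < 1 := by
      rw [map_mul]
      refine (mul_le_mul_left (hWF.le_one huF') _).trans_lt ?_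
      rw [one_mul]
      exact hW.lt
    have h1 : W.valuation (1 - (b - c * s) * (x₁ - a₀)) = 1 := by
      rw [Valuation.map_one_sub_of_lt _ hlt]
    have h10 : 1 - (b - c * s) * (x₁ - a₀) ≠ 0 := by
      intro h0
      rw [h0, map_zero] at h1
      exact zero_ne_one h1
    have hzb : z - b = (1 - (b - c * s) * (x₁ - a₀)) / (x₁ - a₀) := by
      rw [hz, hx]
      field_simp
      ring
    rw [hzb, cl_div ℓ h10 hxa, map_sub, hN.unif.fn_unit ℓ _ h1, hN.unif.fn_self ℓ, zero_sub]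
  have hinf := H.spec_point hkF hfgF hN hs hWs hR (hzk 0 k.zero_mem)
    (by rw [hg 0 k.zero_mem]; exact neg_ne_zero.2 one_ne_zero)
  by_cases hex : ∃ b ∈ k, ∃ β ∈ l, ∃ e : ZMod ℓ, e ≠ 0 ∧ Cor k l Θ z z' e b β
  · obtain ⟨b₀, hb₀, β₀, hβ₀, e₀, he₀, hC₀⟩ := hex
    refine ⟨e₀, fun b hb β hβ e he hC => ?_⟩
    exact H.spec_compare hR hfin hg hinf hb hb₀ hβ hβ₀ he he₀ hC hC₀
  · refine ⟨0, fun b hb β hβ e he hC => ?_⟩
    exact absurd ⟨b, hb, β, hβ, e, he, hC⟩ hex

end Vale.Agent.P019P
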