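import Vale.Agent.P019.ExMdl
import Vale.Agent.P019P.Gal
import Vale.Agent.P019P.Kummer

/-!
# Relative algebraic closedness: algebraic base change
-/

namespace Vale.Agent.P019P

open Vale.Agent.P019

set_option linter.style.haveILetI false
set_option linter.unusedSectionVars false

open Polynomial

section ul1

open IntermediateField

variable {Ω : Type*} [Field Ω]

/-- degrees do not change under base change from `E` to `R`. -/
theorem ul1_natDegree {E R : Subfield Ω} (hER : E ≤ R)
    (hrac : ∀ z ∈ R, IsAlgebraic E z → z ∈ E) {γ : Ω} (hγ : IsAlgebraic E γ) :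
    (minpoly E γ).natDegree ≤ (minpoly R γ).natDegree := by
  letI : Algebra E R := (Subfield.inclusion hER).toAlgebra
  haveI : IsScalarTower E R Ω := IsScalarTower.of_algebraMap_eq' rfl
  have hi : IsIntegral E γ := hγ.isIntegral
  have hiR : IsIntegral R γ := hi.tower_top
  have h1 : minpoly R γ ∣ (minpoly E γ).map (algebraMap E R) := by
    apply minpoly.dvd
    rw [aeval_map_algebraMap, minpoly.aeval]
  have h2 := integralClosure.mem_lifts_of_monic_of_dvd_map R (minpoly.monic hi)
    (minpoly.monic hiR) h1
  have h3 : minpoly R γ ∈ Polynomial.lifts (algebraMap E R) := by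
    rw [Polynomial.lifts_iff_coeff_lifts] at h2 ⊢
    intro i
    obtain ⟨y, hy⟩ := h2 i
    have h4 : IsIntegral E (((minpoly R γ).coeff i : R) : Ω) := by
      rw [← hy]
      exact (y.2 : IsIntegral E (y : R)).algebraMap
    exact ⟨⟨_, hrac _ ((minpoly R γ).coeff i).2 h4.isAlgebraic⟩, Subtype.ext rfl⟩
  obtain ⟨q, hq, hqd, hqm⟩ := Polynomial.lifts_and_natDegree_eq_and_monic h3 (minpoly.monic hiR)
  rw [← hqd]
  apply Polynomial.natDegree_le_of_dvd _ hqm.ne_zero
  apply minpoly.dvd
  have h5 := minpoly.aeval R γ
  rw [← hq, aeval_map_algebraMap] at h5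
  exact h5

/-- primitive elements inside `Ω`. -/
theorem ul1_primitive {E : Subfield Ω} [PerfectField E] (C : Set Ω) (hC : C.Finite)
    (h : ∀ b ∈ C, IsAlgebraic E b) : ∃ b : Ω, IsAlgebraic E b ∧
      IntermediateField.adjoin E C = IntermediateField.adjoin E {b} := by
  haveI : Finite C := hC
  haveI : FiniteDimensional E (IntermediateField.adjoin E C) :=
    IntermediateField.finiteDimensional_adjoin fun x hx => (h x hx).isIntegral
  haveI : Algebra.IsSeparable E (IntermediateField.adjoin E C) := inferInstance
  obtain ⟨α, hα⟩ := Field.exists_primitive_element E (IntermediateField.adjoin E C)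
  refine ⟨(α : Ω), ?_, ?_⟩
  · have h1 : IsIntegral E α := IsIntegral.of_finite E α
    have h2 : IsIntegral E (α : Ω) := h1.map (IntermediateField.adjoin E C).val
    exact h2.isAlgebraic
  · have h1 := congrArg (fun F => F.map (IntermediateField.adjoin E C).val) hα
    simp only [IntermediateField.adjoin_map, Set.image_singleton] at h1
    rw [← AlgHom.fieldRange_eq_map, IntermediateField.fieldRange_val] at h1
    exact h1.symm

end ul1

/-- if `E` is relatively algebraically closed in `R` and `B` is algebraic over `E`, then `B` is
relatively algebraically closed in the compositum of `R` and `B`. -/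
theorem alg_sup {Ω : Type*} [Field Ω] [PerfectField Ω] {E R B : Subfield Ω} [PerfectField E]
    (hER : E ≤ R) (hEB : E ≤ B) (hrac : ∀ z ∈ R, IsAlgebraic E z → z ∈ E)
    (hB : ∀ b ∈ B, IsAlgebraic E b) {r : Ω} (hr : r ∈ R ⊔ B) (halg : IsAlgebraic E r) :
    r ∈ B := by
  classical
  rw [sup_comm, ← Subfield.closure_eq R] at hr
  obtain ⟨C, hC, hCN⟩ := mem_sup_finite hr
  obtain ⟨b, hb, hbC⟩ := ul1_primitive (E := E) (C : Set Ω) C.finite_toSet fun x hx => hB x (hC hx)
  obtain ⟨γ, hγ, hγC⟩ := ul1_primitive (E := E) {b, r} (Set.toFinite _) (by
    rintro x hx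
    rcases hx with rfl | rfl
    · exact hb
    · exact halg)
  have hbR : IsIntegral R b := by
    letI : Algebra E R := (Subfield.inclusion hER).toAlgebra
    haveI : IsScalarTower E R Ω := IsScalarTower.of_algebraMap_eq' rfl
    exact hb.isIntegral.tower_top
  -- everything lies in `R(b)`
  have hsub : ∀ x ∈ IntermediateField.adjoin E {b}, x ∈ IntermediateField.adjoin R {b} := by
    intro x hx
    induction hx using IntermediateField.adjoin_induction with
    | mem x hx => exact IntermediateField.subset_adjoin R _ hx
    | algebraMap x => exact (IntermediateField.adjoin R {b}).algebraMap_mem ⟨x, hER x.2⟩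
    | add x y _ _ hx hy => exact add_mem hx hy
    | inv x _ hx => exact inv_mem hx
    | mul x y _ _ hx hy => exact mul_mem hx hy
  have hrR : r ∈ IntermediateField.adjoin R {b} := by
    have h1 := hCN (IntermediateField.adjoin E (C : Set Ω)).toSubfield
      (IntermediateField.subset_adjoin E _)
    have h2 : (IntermediateField.adjoin E (C : Set Ω)).toSubfield ⊔ Subfield.closure (R : Set Ω) ≤
        (IntermediateField.adjoin R {b}).toSubfield := by
      refine sup_le ?_ ?_
      · intro x hx
        rw [hbC] at hx
        exact hsub x hx
      · rw [Subfield.closure_eq]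
        intro x hx
        exact (IntermediateField.adjoin R {b}).algebraMap_mem ⟨x, hx⟩
    exact h2 h1
  have hγR : γ ∈ IntermediateField.adjoin R {b} := by
    have h1 : γ ∈ IntermediateField.adjoin E {b, r} := by
      rw [hγC]; exact IntermediateField.mem_adjoin_simple_self E γ
    have h2 : ∀ x ∈ IntermediateField.adjoin E {b, r}, x ∈ IntermediateField.adjoin R {b} := by
      intro x hx
      induction hx using IntermediateField.adjoin_induction with
      | mem x hx =>
        rcases hx with rfl | hx
        · exact IntermediateField.mem_adjoin_simple_self R _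
        · rw [Set.mem_singleton_iff.1 hx]; exact hrR
      | algebraMap x => exact (IntermediateField.adjoin R {b}).algebraMap_mem ⟨x, hER x.2⟩
      | add x y _ _ hx hy => exact add_mem hx hy
      | inv x _ hx => exact inv_mem hx
      | mul x y _ _ hx hy => exact mul_mem hx hy
    exact h2 γ h1
  -- degrees
  have d1 := ul1_natDegree hER hrac hγ
  have d2 : (minpoly R γ).natDegree ≤ (minpoly R b).natDegree := by
    haveI : FiniteDimensional R (IntermediateField.adjoin R {b}) :=
      IntermediateField.adjoin.finiteDimensional hbR
    rw [← IntermediateField.adjoin.finrank hbR]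
    have h1 := minpoly.natDegree_le (A := R) (⟨γ, hγR⟩ : IntermediateField.adjoin R {b})
    rw [IntermediateField.minpoly_eq] at h1
    exact h1
  have d3 : (minpoly R b).natDegree ≤ (minpoly E b).natDegree := by
    letI : Algebra E R := (Subfield.inclusion hER).toAlgebra
    haveI : IsScalarTower E R Ω := IsScalarTower.of_algebraMap_eq' rfl
    have h1 : minpoly R b ∣ (minpoly E b).map (algebraMap E R) := by
      apply minpoly.dvd
      rw [aeval_map_algebraMap, minpoly.aeval]
    have h2 := Polynomial.natDegree_le_of_dvd h1
      ((minpoly.monic hb.isIntegral).map (algebraMap E R)).ne_zero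
    rwa [Polynomial.natDegree_map] at h2
  have hle : IntermediateField.adjoin E {b} ≤ IntermediateField.adjoin E {γ} := by
    rw [← hγC]
    exact IntermediateField.adjoin.mono E _ _ (by simp)
  haveI : FiniteDimensional E (IntermediateField.adjoin E {γ}) :=
    IntermediateField.adjoin.finiteDimensional hγ.isIntegral
  have heq : IntermediateField.adjoin E {b} = IntermediateField.adjoin E {γ} := by
    apply IntermediateField.eq_of_le_of_finrank_le hle
    rw [IntermediateField.adjoin.finrank hb.isIntegral,
      IntermediateField.adjoin.finrank hγ.isIntegral]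
    exact d1.trans (d2.trans d3)
  have hrb : r ∈ IntermediateField.adjoin E {b} := by
    rw [heq, ← hγC]
    exact IntermediateField.subset_adjoin E _ (by simp)
  rw [← hbC] at hrb
  have hfin : ∀ x ∈ IntermediateField.adjoin E (C : Set Ω), x ∈ B := by
    intro x hx
    induction hx using IntermediateField.adjoin_induction with
    | mem x hx => exact hC hx
    | algebraMap x => exact hEB x.2
    | add x y _ _ hx hy => exact add_mem hx hy
    | inv x _ hx => exact inv_mem hx
    | mul x y _ _ hx hy => exact mul_mem hx hy
  exact hfin r hrb

end Vale.Agent.P019P
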