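import Vale.Agent.P019P.Gal
import Vale.Agent.P019P.Im
import Vale.Agent.P019P.Line
import Vale.Agent.P019.ExMdl

/-!
# Free composita with algebraically closed fields
-/

namespace Vale.Agent.P019P

open Vale.Agent.P019

set_option linter.style.haveILetI false
set_option linter.unusedSectionVars false

open Polynomial

section fre

variable {K : Type*} [Field K]

/-- the relative algebraic closure of `l(T)`. -/
noncomputable def rcl (l : Subfield K) (T : Finset K) : Subfield K :=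
  rac (l ⊔ Subfield.closure (T : Set K))

theorem le_rcl (l : Subfield K) (T : Finset K) : l ≤ rcl l T := le_sup_left.trans (le_rac _)

theorem rcl_RAC (l : Subfield K) (T : Finset K) : RAC (rcl l T) := RAC_rac _

theorem mem_rcl {l : Subfield K} {T : Finset K} {c : K} (hc : c ∈ T) : c ∈ rcl l T :=
  (le_sup_right.trans (le_rac _) : Subfield.closure (T : Set K) ≤ rcl l T)
    (Subfield.subset_closure hc)

theorem rcl_le {l B : Subfield K} {T : Finset K} (hB : RAC B) (hlB : l ≤ B)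
    (hT : ∀ c ∈ T, c ∈ B) : rcl l T ≤ B :=
  hB.le (sup_le hlB (Subfield.closure_le.2 fun c hc => hT c hc))

theorem rcl_empty {l : Subfield K} (hl : RAC l) : rcl l ∅ = l :=
  le_antisymm (rcl_le hl le_rfl fun c hc => absurd hc (Finset.notMem_empty c)) (le_rcl l ∅)

theorem RAC_adj_le {N B : Subfield K} (hB : RAC B) (h : N ≤ B) {b : K} (hb : b ∈ B) :
    rac (adj N b) ≤ B := by
  rw [rac_adj]
  exact hB.le (Vale.Agent.P019.adj_le h hb)

theorem rcl_insert [DecidableEq K] (l : Subfield K) (T : Finset K) (b : K) :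
    rcl l (insert b T) = rac (adj (rcl l T) b) := by
  apply le_antisymm
  · refine rcl_le (RAC_rac _) ((le_rcl l T).trans ((le_adj _ b).trans (le_rac _))) ?_
    intro c hc
    rcases Finset.mem_insert.1 hc with rfl | hc
    · exact le_rac _ (mem_adj _ _)
    · exact le_rac _ (le_adj _ _ (mem_rcl hc))
  · refine RAC_adj_le (rcl_RAC _ _) (rcl_le (rcl_RAC _ _) (le_rcl _ _) ?_)
      (mem_rcl (Finset.mem_insert_self b T))
    intro c hc
    exact mem_rcl (Finset.mem_insert_of_mem hc)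

/-- going down a chain. -/
theorem chain_down {l B : Subfield K} (hl : RAC l) (p : Subfield K → Prop)
    (hstep : ∀ T : Finset K, (∀ c ∈ T, c ∈ B) → ∀ b ∈ B, b ∉ rcl l T →
      p (rac (adj (rcl l T) b)) → p (rcl l T))
    (T : Finset K) (hT : ∀ c ∈ T, c ∈ B) (h : p (rcl l T)) : p l := by
  classical
  induction T using Finset.induction_on with
  | empty => rwa [rcl_empty hl] at h
  | insert b T hbT ih =>
    rw [rcl_insert] at h
    have hTB : ∀ c ∈ T, c ∈ B := fun c hc => hT c (Finset.mem_insert_of_mem hc)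
    apply ih hTB
    by_cases hb : b ∈ rcl l T
    · have e : rac (adj (rcl l T) b) = rcl l T :=
        le_antisymm (RAC_adj_le (rcl_RAC _ _) le_rfl hb) ((le_adj _ _).trans (le_rac _))
      rwa [e] at h
    · exact hstep T hTB b (hT b (Finset.mem_insert_self b T)) hb h

/-- `A` and `B` are free over `l`. -/
def Fre (l A B : Subfield K) : Prop :=
  ∀ N : Subfield K, RAC N → l ≤ N → N ≤ B → ∀ a ∈ B, IsAlgebraic (A ⊔ N : Subfield K) a → a ∈ N

/-- relative algebraic closedness in free composita. -/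
theorem rac_sup_gen {l A B : Subfield K} (hl : RAC l) (hlA : l ≤ A) (hlB : l ≤ B)
    (hB : IsAlgClosed B) (hfree : Fre l A B) {h : K} (hh : h ∈ A ⊔ B) (hha : IsAlgebraic A h) :
    h ∈ A := by
  have hBR : RAC B := RAC_of_isAlgClosed B hB
  obtain ⟨C, hC, hCN⟩ := mem_sup_finite (k := B) (L := (A : Set K)) (z := h) (by
    rw [Subfield.closure_eq, sup_comm]
    exact hh)
  have h1 : h ∈ A ⊔ rcl l C := by
    have h2 := hCN (rcl l C) (fun c hc => mem_rcl hc)
    rw [Subfield.closure_eq, sup_comm] at h2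
    exact h2
  have h3 := chain_down (B := B) hl (fun N => h ∈ A ⊔ N) ?_ C (fun c hc => hC hc) h1
  · rwa [sup_eq_left.2 hlA] at h3
  · intro T hT b hb hbN hmem
    have hN := rcl_RAC l T
    have hlN := le_rcl l T
    have hNB := rcl_le hBR hlB hT
    set N := rcl l T with hNdef
    have hNac : IsAlgClosed N := isAlgClosed_of_RAC hB hN hNB
    refine rac_sup (l := N) (A := A ⊔ N) (B := rac (adj N b)) (y := b) hNac le_sup_right
      ((le_adj _ _).trans (le_rac _)) (le_rac _ (mem_adj _ _))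
      (fun h => hbN (hfree N hN hlN hNB b hb h)) (fun c hc => mem_rac.1 hc) ?_
      (isAlgebraic_mono le_sup_left hha)
    exact (sup_le_sup_right le_sup_left _ : A ⊔ rac (adj N b) ≤ _) hmem

theorem isAlgebraic_sup_of_adj {A N E : Subfield K} (hA : ∀ a ∈ A, IsAlgebraic E a) (hN : N ≤ E)
    {z : K} (hz : IsAlgebraic (A ⊔ N : Subfield K) z) : IsAlgebraic E z := by
  have h1 : A ⊔ N ≤ rac E := sup_le (fun a ha => mem_rac.2 (hA a ha)) (hN.trans (le_rac E))
  exact mem_rac.1 (RAC_rac E z (isAlgebraic_mono h1 hz))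

/-- freeness from one transcendental element. -/
theorem Fre.of_one {l A B : Subfield K} {y : K} (hA : ∀ a ∈ A, IsAlgebraic (adj l y) a)
    (hy : ¬ IsAlgebraic B y) : Fre l A B := by
  intro N hN hlN hNB a ha halg
  by_contra haN
  have h1 : IsAlgebraic (adj N y) a :=
    isAlgebraic_sup_of_adj (fun a ha => isAlgebraic_mono (adj_mono hlN y) (hA a ha))
      (le_adj _ _) halg
  have h2 := exchange (fun h => haN (hN a h)) h1
  have h3 : adj N a ≤ rac B := by
    have h4 : Vale.Agent.P019.adj N a ≤ B := Vale.Agent.P019.adj_le hNB ha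
    have h5 : rac (adj N a) ≤ rac B := by
      rw [rac_adj]
      exact rac_mono h4
    exact (le_rac _).trans h5
  exact hy (mem_rac.1 (RAC_rac B y (isAlgebraic_mono h3 h2)))

theorem adj_comm_alg {E : Subfield K} {x y z : K} (h : IsAlgebraic (adj (adj E x) y) z) :
    IsAlgebraic (adj (adj E y) x) z := by
  have h1 : adj (adj E x) y ≤ rac (adj (adj E y) x) := by
    have h2 : Vale.Agent.P019.adj E x ≤ adj (adj E y) x := by
      refine Vale.Agent.P019.adj_le ?_ (mem_adj _ _)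
      exact (le_adj E y).trans (le_adj _ x)
    have h3 : rac (adj E x) ≤ rac (adj (adj E y) x) := by
      rw [rac_adj]
      exact rac_mono h2
    have h4 : Vale.Agent.P019.adj (adj E x) y ≤ rac (adj (adj E y) x) := by
      refine Vale.Agent.P019.adj_le ((le_rac _).trans h3) (le_rac _ ?_)
      exact le_adj _ _ (mem_adj _ _)
    have h5 : rac (adj (adj E x) y) ≤ rac (adj (adj E y) x) := by
      rw [rac_adj]
      exact (RAC_rac _).le h4
    exact (le_rac _).trans h5
  exact mem_rac.1 (RAC_rac _ z (isAlgebraic_mono h1 h))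

/-- freeness from two algebraically independent elements. -/
theorem Fre.of_two {l A B : Subfield K} {x y : K}
    (hA : ∀ a ∈ A, IsAlgebraic (adj (adj l x) y) a) (hx : ¬ IsAlgebraic B x)
    (hy : ¬ IsAlgebraic (adj B x) y) : Fre l A B := by
  intro N hN hlN hNB a ha halg
  by_contra haN
  have hNa : adj N a ≤ rac B := by
    have h4 : Vale.Agent.P019.adj N a ≤ B := Vale.Agent.P019.adj_le hNB ha
    have h5 : rac (adj N a) ≤ rac B := by
      rw [rac_adj]
      exact rac_mono h4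
    exact (le_rac _).trans h5
  have h1 : IsAlgebraic (adj (adj N x) y) a :=
    isAlgebraic_sup_of_adj (fun a ha => isAlgebraic_mono (adj_mono (adj_mono hlN x) y) (hA a ha))
      ((le_adj _ _).trans (le_adj _ _)) halg
  have h2 : ¬ IsAlgebraic (adj N x) a := by
    intro h3
    have h4 := exchange (fun h => haN (hN a h)) h3
    exact hx (mem_rac.1 (RAC_rac B x (isAlgebraic_mono hNa h4)))
  have h3 := exchange h2 h1
  have h4 := adj_comm_alg h3
  apply hy
  have h5 : adj (adj N a) x ≤ rac (adj B x) := by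
    have h6 : rac B ≤ rac (adj B x) := rac_mono (le_adj B x)
    have h7 : Vale.Agent.P019.adj (adj N a) x ≤ rac (adj B x) :=
      Vale.Agent.P019.adj_le (hNa.trans h6) (le_rac _ (mem_adj _ _))
    have h8 : rac (adj (adj N a) x) ≤ rac (adj B x) := by
      rw [rac_adj]
      exact (RAC_rac _).le h7
    exact (le_rac _).trans h8
  exact mem_rac.1 (RAC_rac _ y (isAlgebraic_mono h5 h4))

/-- transcendence degree at most one. -/
def Td1 (N E : Subfield K) : Prop := ∀ u ∈ E, ∀ v ∈ E, u ∈ N ∨ IsAlgebraic (adj N u) v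

/-- one specialization step. -/
theorem spec_step [IsAlgClosed K] [PerfectField K] {ℓ : ℕ} {A N : Subfield K}
    (hN : IsAlgClosed N) {b : K}
    (hb : ¬ IsAlgebraic (A ⊔ N : Subfield K) b) {X : Set K} (hX : ∀ x ∈ X, x ∈ A ∧ x ≠ 0)
    {E : Subfield K} (hBE : rac (adj N b) ≤ E) (hEA : E ≤ A ⊔ rac (adj N b))
    (htd : Td1 (rac (adj N b)) E)
    (hXE : ∀ x ∈ X, ∃ e ∈ E, ∃ w ∈ A ⊔ rac (adj N b), x = e * w ^ ℓ) :
    ∃ E' : Subfield K, N ≤ E' ∧ E' ≤ A ⊔ N ∧ Td1 N E' ∧
      ∀ x ∈ X, ∃ e ∈ E', ∃ w ∈ A ⊔ N, x = e * w ^ ℓ := by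
  obtain ⟨P, hPA, hbO, -, hPB⟩ := exists_one (K := K) (Ω := K) hN
    (le_sup_right : N ≤ A ⊔ N) hb N.zero_mem
  simp only [Algebra.algebraMap_self_apply] at hPA hPB
  set B := rac (adj N b) with hB
  have hNB : N ≤ B := (le_adj _ _).trans (le_rac _)
  have hAO : ∀ a ∈ A ⊔ N, a ∈ P.O := fun a ha => (hPA a ha).1
  have hNO : ∀ a ∈ N, a ∈ P.O := fun a ha => hAO a ((le_sup_right : N ≤ A ⊔ N) ha)
  have hNev : ∀ a ∈ N, P.ev a = a := fun a ha => (hPA a ((le_sup_right : N ≤ A ⊔ N) ha)).2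
  have hBd : ∀ c ∈ B, c ∈ P.O → ∃ d ∈ N, P.ev c = P.ev d := by
    intro c hc hcO
    obtain ⟨d, hd, he⟩ := hPB c hcO (mem_rac.1 hc)
    exact ⟨d, hd, by rw [he, hNev d hd]⟩
  have hsup : A ⊔ B ≤ (A ⊔ N) ⊔ B := sup_le_sup_right le_sup_left B
  have hgauss : ∀ z ∈ A ⊔ B, z ≠ 0 → ∃ β ∈ B, β ≠ 0 ∧ P.U (β * z) ∧ P.ev (β * z) ∈ A ⊔ N := by
    intro z hz hz0
    obtain ⟨β, hβ, hβ0, hU, a, ha, hev⟩ := P.gauss (l := N) (A := A ⊔ N) (B := B) le_sup_right hNB
      hAO hBd (hsup hz) hz0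
    exact ⟨β, hβ, hβ0, hU, by rw [hev, (hPA a ha).2]; exact ha⟩
  have hinvO : ∀ e : K, e ∈ P.O → P.ev e ≠ 0 → P.U e := fun e he h => ⟨he, h⟩
  let E' : Subfield K :=
    { carrier := {z | ∃ e ∈ E, e ∈ P.O ∧ P.ev e = z}
      mul_mem' := by
        rintro _ _ ⟨e, he, heO, rfl⟩ ⟨f, hf, hfO, rfl⟩
        exact ⟨e * f, E.mul_mem he hf, P.O.mul_mem _ _ heO hfO, P.ev_mul heO hfO⟩
      one_mem' := ⟨1, E.one_mem, P.O.one_mem, P.ev_one⟩
      add_mem' := by
        rintro _ _ ⟨e, he, heO, rfl⟩ ⟨f, hf, hfO, rfl⟩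
        exact ⟨e + f, E.add_mem he hf, P.O.add_mem _ _ heO hfO, P.ev_add heO hfO⟩
      zero_mem' := ⟨0, E.zero_mem, P.O.zero_mem, P.ev_zero⟩
      neg_mem' := by
        rintro _ ⟨e, he, heO, rfl⟩
        exact ⟨-e, E.neg_mem he, P.O.neg_mem _ heO, P.ev_neg heO⟩
      inv_mem' := by
        rintro _ ⟨e, he, heO, rfl⟩
        by_cases h0 : P.ev e = 0
        · rw [h0, inv_zero]
          exact ⟨0, E.zero_mem, P.O.zero_mem, P.ev_zero⟩
        · have hU : P.U e := ⟨heO, h0⟩
          exact ⟨e⁻¹, E.inv_mem he, hU.inv_mem, hU.ev_inv⟩ }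
  have hmemE' : ∀ z, z ∈ E' ↔ ∃ e ∈ E, e ∈ P.O ∧ P.ev e = z := fun z => Iff.rfl
  have hNE' : N ≤ E' := fun c hc => ⟨c, hBE (hNB hc), hNO c hc, hNev c hc⟩
  refine ⟨E', hNE', ?_, ?_, ?_⟩
  · rintro _ ⟨e, he, heO, rfl⟩
    by_cases h0 : P.ev e = 0
    · rw [h0]; exact Subfield.zero_mem _
    have hUe : P.U e := ⟨heO, h0⟩
    obtain ⟨β, hβ, hβ0, hU, hev⟩ := hgauss e (hEA he) hUe.ne_zero
    have hUβ : P.U β := by
      have h1 : β = (β * e) / e := by
        have := hUe.ne_zero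
        field_simp
      rw [h1]; exact hU.div hUe
    obtain ⟨d, hd, hbd⟩ := hBd β hβ hUβ.1
    rw [P.ev_mul hUβ.1 heO] at hev
    have hd0 : P.ev β ≠ 0 := hUβ.2
    have h2 : P.ev e = (P.ev β * P.ev e) / P.ev β := by field_simp
    rw [h2]
    refine Subfield.div_mem _ hev ?_
    rw [hbd, hNev d hd]
    exact (le_sup_right : N ≤ A ⊔ N) hd
  · rintro _ ⟨e, he, heO, rfl⟩ _ ⟨f, hf, hfO, rfl⟩
    rcases htd e he f hf with h | h
    · left
      obtain ⟨d, hd, hbd⟩ := hBd e h heO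
      rw [hbd, hNev d hd]
      exact hd
    · by_cases hu : P.ev e ∈ N
      · exact Or.inl hu
      right
      -- the residue of `e` is transcendental
      have hNR : RAC N := RAC_of_isAlgClosed N hN
      have him : P.im N hNO = N := by
        ext z
        rw [P.mem_im]
        constructor
        · rintro ⟨c, hc, rfl⟩
          rw [hNev c hc]; exact hc
        · intro hz
          exact ⟨z, hz, hNev z hz⟩
      have htr : ¬ IsAlgebraic (P.im N hNO) (P.ev e) := by
        rw [him]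
        exact fun h' => hu (hNR _ h')
      have hadjO : ∀ x ∈ adj N e, x ∈ P.O := Pl.mem_adj_of_transcendental P N hNO heO htr
      have hadjev : ∀ x ∈ adj N e, P.ev x ∈ adj N (P.ev e) := by
        intro x hx
        haveI : PerfectField N := by
          haveI := hN
          infer_instance
        have h1 := Pl.im_adj P (A := adj N e) (E := N) hadjO (le_adj N e) (mem_adj N e)
        have h2 : P.ev x ∈ P.im (adj N e) hadjO := P.ev_mem_im hadjO hx
        have h3 : P.im (adj N e) hadjO = adj (P.im N hNO) (P.ev e) := h1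
        rw [h3, him] at h2
        exact h2
      refine P.isAlgebraic_ev (adj B e) (adj N (P.ev e)) ?_ h hfO
      intro x hx hxO
      by_cases h0 : P.ev x = 0
      · rw [h0]; exact Subfield.zero_mem _
      have hUx : P.U x := ⟨hxO, h0⟩
      -- pass to a power
      obtain ⟨n, hn⟩ := mem_adj_iff.1 hx
      have hUxn : P.U (x ^ ringExpChar K ^ n) := hUx.pow _
      have hmem : x ^ ringExpChar K ^ n ∈ adj N e ⊔ B := by
        refine (Vale.Agent.P019.adj_le ?_ ?_ : Vale.Agent.P019.adj B e ≤ adj N e ⊔ B) hn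
        · exact le_sup_right
        · exact (le_sup_left : adj N e ≤ _) (mem_adj N e)
      obtain ⟨β, hβ, hβ0, hU, a, ha, hev⟩ := P.gauss (l := N) (A := adj N e) (B := B)
        (le_adj N e) hNB hadjO hBd hmem hUxn.ne_zero
      have hUβ : P.U β := by
        have h1 : β = (β * x ^ ringExpChar K ^ n) / x ^ ringExpChar K ^ n := by
          have := hUxn.ne_zero
          field_simp
        rw [h1]; exact hU.div hUxn
      obtain ⟨d, hd, hbd⟩ := hBd β hβ hUβ.1
      rw [P.ev_mul hUβ.1 hUxn.1, P.ev_pow hxO] at hev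
      have hd0 : P.ev β ≠ 0 := hUβ.2
      have h2 : P.ev x ^ ringExpChar K ^ n = P.ev a / P.ev β := by
        rw [← hev]; field_simp
      have h3 : P.ev x ^ ringExpChar K ^ n ∈ adj N (P.ev e) := by
        rw [h2]
        refine Subfield.div_mem _ (hadjev a ha) ?_
        rw [hbd, hNev d hd]
        exact le_adj _ _ hd
      exact mem_of_pow_q h3
  · intro x hx
    obtain ⟨hxA, hx0⟩ := hX x hx
    obtain ⟨e, he, w, hw, hxe⟩ := hXE x hx
    have he0 : e ≠ 0 := by
      rintro rfl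
      rw [zero_mul] at hxe
      exact hx0 hxe
    have hUx : P.U x := by
      refine P.U_of_isAlgebraic (A ⊔ N) hAO (isAlgebraic_of_mem ?_) hx0
      exact (le_sup_left : A ≤ A ⊔ N) hxA
    have hevx : P.ev x = x := (hPA x ((le_sup_left : A ≤ A ⊔ N) hxA)).2
    by_cases hℓ : ℓ = 0
    · subst hℓ
      rw [pow_zero, mul_one] at hxe
      refine ⟨x, ⟨e, he, ?_, ?_⟩, 1, Subfield.one_mem _, by rw [pow_zero, mul_one]⟩
      · rw [← hxe]; exact hUx.1
      · rw [← hxe]; exact hevx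
    have hw0 : w ≠ 0 := by
      rintro rfl
      rw [zero_pow hℓ, mul_zero] at hxe
      exact hx0 hxe
    obtain ⟨β, hβ, hβ0, hUβ, hevβ⟩ := hgauss w hw hw0
    obtain ⟨γ, hγ, hγ0, hUγ, hevγ⟩ := hgauss e (hEA he) he0
    have hδ : P.U (β ^ ℓ * γ) := by
      have h1 : β ^ ℓ * γ = ((γ * e) * (β * w) ^ ℓ) / x := by
        rw [hxe, mul_pow]
        field_simp
      rw [h1]
      exact (hUγ.mul (hUβ.pow ℓ)).div hUx
    obtain ⟨d, hd, hbd⟩ := hBd _ (B.mul_mem (B.pow_mem hβ ℓ) hγ) hδ.1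
    have hd0 : P.ev (β ^ ℓ * γ) ≠ 0 := hδ.2
    have hkey : x * P.ev (β ^ ℓ * γ) = P.ev (γ * e) * P.ev (β * w) ^ ℓ := by
      rw [← P.ev_pow hUβ.1, ← P.ev_mul hUγ.1 (hUβ.pow ℓ).1]
      have h2 : γ * e * (β * w) ^ ℓ = x * (β ^ ℓ * γ) := by
        rw [hxe, mul_pow]; ring
      rw [h2, P.ev_mul hUx.1 hδ.1, hevx]
    have hdE : P.ev (β ^ ℓ * γ) ∈ E' := by
      rw [hbd, hNev d hd]
      exact hNE' hd
    refine ⟨P.ev (γ * e) / P.ev (β ^ ℓ * γ), E'.div_mem ?_ hdE, P.ev (β * w), hevβ, ?_⟩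
    · exact ⟨γ * e, E.mul_mem (hBE hγ) he, hUγ.1, rfl⟩
    · rw [div_mul_eq_mul_div, ← hkey]
      field_simp

end fre

end Vale.Agent.P019P
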