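import Vale.Agent.P019Q.UGer
import Vale.Agent.P019P.FinK
import Vale.Agent.P019P.Line

/-!
# Rational functions in an ultrapower
-/

namespace Vale.Agent.P019P

open Vale.Agent.P019

set_option linter.style.haveILetI false
set_option linter.unusedSectionVars false

open Polynomial Filter

section rat

/-- simple roots in the perfect closure. -/
theorem mem_of_simple_root {K : Type*} [Field K] {F : Subfield K} {ρ : K} (hρ : ρ ∈ pf F)
    {p : F[X]} (h0 : aeval ρ p = 0) (h1 : aeval ρ (derivative p) ≠ 0) : ρ ∈ F := by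
  have hp0 : p ≠ 0 := by
    rintro rfl
    rw [derivative_zero, map_zero] at h1
    exact h1 rfl
  have hint : IsIntegral F ρ := IsAlgebraic.isIntegral ⟨p, hp0, h0⟩
  obtain ⟨s, hs⟩ := minpoly.dvd F ρ h0
  have hder : derivative (minpoly F ρ) ≠ 0 := by
    intro h
    apply h1
    rw [hs, derivative_mul, h, zero_mul, zero_add, map_mul, minpoly.aeval, zero_mul]
  have hsep : (minpoly F ρ).Separable :=
    (separable_iff_derivative_ne_zero (minpoly.irreducible hint)).2 hder
  have h2 : (minpoly F ρ).natSepDegree = 1 := by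
    rw [minpoly.natSepDegree_eq_one_iff_pow_mem (ringExpChar K)]
    obtain ⟨n, hn⟩ := mem_pf.1 hρ
    exact ⟨n, ⟨⟨_, hn⟩, rfl⟩⟩
  rw [hsep.natSepDegree_eq_natDegree] at h2
  rw [minpoly.natDegree_eq_one_iff] at h2
  obtain ⟨y, hy⟩ := h2
  rw [← hy]
  exact y.2

theorem aeval_mem_adj0 {K : Type*} [Field K] {E : Subfield K} (g : K) (A : E[X]) :
    aeval g A ∈ Vale.Agent.P019.adj E g := by
  rw [aeval_eq_sum_range]
  refine sum_mem fun i _ => ?_
  rw [Algebra.smul_def]
  exact mul_mem (Vale.Agent.P019.le_adj E g (A.coeff i).2)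
    (pow_mem (Vale.Agent.P019.mem_adj E g) i)

theorem aeval_ne_of_transc {K : Type*} [Field K] {E : Subfield K} {g : K}
    (hg : ¬ IsAlgebraic E g) {p : E[X]} (hp : p ≠ 0) : aeval g p ≠ 0 := fun h => hg ⟨p, hp, h⟩

theorem coprime_rep {K : Type*} [Field K] {E : Subfield K} {g : K} (hg : ¬ IsAlgebraic E g)
    {z : K} (hz : z ∈ Vale.Agent.P019.adj E g) :
    ∃ p q : E[X], IsCoprime p q ∧ q ≠ 0 ∧ z = aeval g p / aeval g q := by
  classical
  obtain ⟨p, q, rfl⟩ := finK_mem_adj.1 hz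
  by_cases hq : q = 0
  · refine ⟨0, 1, isCoprime_one_right, one_ne_zero, ?_⟩
    rw [hq]
    simp
  · set d := EuclideanDomain.gcd p q with hd
    have hd0 : d ≠ 0 := by
      intro h
      exact hq (EuclideanDomain.gcd_eq_zero_iff.1 h).2
    have h1 : p = d * (p / d) := (EuclideanDomain.mul_div_cancel' hd0
      (EuclideanDomain.gcd_dvd_left p q)).symm
    have h2 : q = d * (q / d) := (EuclideanDomain.mul_div_cancel' hd0
      (EuclideanDomain.gcd_dvd_right p q)).symm
    refine ⟨p / d, q / d, ?_, ?_, ?_⟩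
    · obtain ⟨u, v, h3⟩ : ∃ u v, d = p * u + q * v :=
        ⟨_, _, EuclideanDomain.gcd_eq_gcd_ab p q⟩
      refine ⟨u, v, mul_left_cancel₀ hd0 ?_⟩
      calc d * (u * (p / d) + v * (q / d)) = (d * (p / d)) * u + (d * (q / d)) * v := by ring
        _ = p * u + q * v := by rw [← h1, ← h2]
        _ = d * 1 := by rw [← h3, mul_one]
    · intro h
      rw [h, mul_zero] at h2
      exact hq h2
    · have h3 : aeval g d ≠ 0 := aeval_ne_of_transc hg hd0
      conv_lhs => rw [h1, h2]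
      rw [map_mul, map_mul, mul_div_mul_left _ _ h3]

/-- the rational root theorem. -/
theorem rat_root {K : Type*} [Field K] {E : Subfield K} {g : K} (hg : ¬ IsAlgebraic E g) {ρ : K}
    (hρ : ρ ∈ adj E g) {n H : ℕ} (A : ℕ → E[X]) (hA : ∀ i, (A i).natDegree ≤ H) (hA0 : A 0 ≠ 0)
    (hAn : A n ≠ 0) (h0 : ∑ i ∈ Finset.range (n + 1), aeval g (A i) * ρ ^ i = 0)
    (h1 : ∑ i ∈ Finset.range (n + 1), aeval g (A i) * ((i : K) * ρ ^ (i - 1)) ≠ 0) :
    ∃ u v : E[X], u.natDegree ≤ H ∧ v.natDegree ≤ H ∧ v ≠ 0 ∧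
      ρ * aeval g v = aeval g u := by
  have hρ0 : ρ ∈ Vale.Agent.P019.adj E g := by
    let p : (Vale.Agent.P019.adj E g)[X] := ∑ i ∈ Finset.range (n + 1),
      C ⟨aeval g (A i), aeval_mem_adj0 g (A i)⟩ * X ^ i
    refine mem_of_simple_root (F := Vale.Agent.P019.adj E g) (p := p) hρ ?_ ?_
    · rw [← h0, map_sum]
      refine Finset.sum_congr rfl fun i _ => ?_
      rw [map_mul, map_pow, aeval_X, aeval_C]
      rfl
    · convert h1 using 1
      simp only [p, map_sum]
      refine Finset.sum_congr rfl fun i _ => ?_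
      rw [derivative_C_mul, derivative_X_pow, map_mul, map_mul, map_pow, aeval_X, aeval_C, aeval_C,
        map_natCast]
      rfl
  obtain ⟨a, b, hab, hb, hρab⟩ := coprime_rep hg hρ0
  have hbg : aeval g b ≠ 0 := aeval_ne_of_transc hg hb
  have key : ∑ i ∈ Finset.range (n + 1), A i * a ^ i * b ^ (n - i) = 0 := by
    by_contra hne
    apply aeval_ne_of_transc hg hne
    have e1 : aeval g (∑ i ∈ Finset.range (n + 1), A i * a ^ i * b ^ (n - i)) =
        aeval g b ^ n * ∑ i ∈ Finset.range (n + 1), aeval g (A i) * ρ ^ i := by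
      rw [map_sum, Finset.mul_sum]
      refine Finset.sum_congr rfl fun i hi => ?_
      have hi' : i ≤ n := Nat.lt_succ_iff.1 (Finset.mem_range.1 hi)
      rw [map_mul, map_mul, map_pow, map_pow, hρab, div_pow]
      have e2 : aeval g b ^ n = aeval g b ^ (n - i) * aeval g b ^ i := by
        rw [← pow_add, Nat.sub_add_cancel hi']
      rw [e2]
      have e3 := pow_ne_zero i hbg
      field_simp
    rw [e1, h0, mul_zero]
  have hbA : b ∣ A n := by
    rw [Finset.sum_range_succ] at key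
    simp only [Nat.sub_self, pow_zero, mul_one] at key
    have h2 : b ∣ A n * a ^ n := by
      have h3 : b ∣ ∑ i ∈ Finset.range n, A i * a ^ i * b ^ (n - i) := by
        refine Finset.dvd_sum fun i hi => ?_
        have hi' : n - i ≠ 0 := Nat.sub_ne_zero_of_lt (Finset.mem_range.1 hi)
        exact Dvd.dvd.mul_left (dvd_pow_self b hi') _
      have h4 : A n * a ^ n = -∑ i ∈ Finset.range n, A i * a ^ i * b ^ (n - i) := by
        rw [eq_neg_iff_add_eq_zero, add_comm]
        exact key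
      rw [h4]
      exact (dvd_neg).2 h3
    exact (hab.symm.pow_right).dvd_of_dvd_mul_right h2
  have haA : a ∣ A 0 := by
    rw [Finset.sum_range_succ'] at key
    simp only [pow_zero, mul_one, Nat.sub_zero] at key
    have h2 : a ∣ A 0 * b ^ n := by
      have h3 : a ∣ ∑ i ∈ Finset.range n, A (i + 1) * a ^ (i + 1) * b ^ (n - (i + 1)) := by
        refine Finset.dvd_sum fun i hi => ?_
        exact Dvd.dvd.mul_right (Dvd.dvd.mul_left (dvd_pow_self a (Nat.succ_ne_zero i)) _) _
      have h4 : A 0 * b ^ n =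
          -∑ i ∈ Finset.range n, A (i + 1) * a ^ (i + 1) * b ^ (n - (i + 1)) := by
        rw [eq_neg_iff_add_eq_zero, add_comm]
        exact key
      rw [h4]
      exact (dvd_neg).2 h3
    exact (hab.pow_right).dvd_of_dvd_mul_right h2
  refine ⟨a, b, (natDegree_le_of_dvd haA hA0).trans (hA 0),
    (natDegree_le_of_dvd hbA hAn).trans (hA n), hb, ?_⟩
  rw [hρab]
  field_simp

/-- common denominators. -/
theorem common_den {K : Type*} [Field K] {E : Subfield K} {g : K} (hg : ¬ IsAlgebraic E g)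
    (c : ℕ → K) (s : Finset ℕ) (hc : ∀ i ∈ s, c i ∈ Vale.Agent.P019.adj E g) :
    ∃ D : E[X], D ≠ 0 ∧ ∀ i ∈ s, ∃ A : E[X], aeval g A = aeval g D * c i := by
  classical
  induction s using Finset.induction_on with
  | empty => exact ⟨1, one_ne_zero, fun i hi => absurd hi (Finset.notMem_empty i)⟩
  | insert a s ha ih =>
    obtain ⟨D, hD, hDA⟩ := ih (fun i hi => hc i (Finset.mem_insert_of_mem hi))
    obtain ⟨p, q, -, hq, hpq⟩ := coprime_rep hg (hc a (Finset.mem_insert_self a s))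
    have hqg : aeval g q ≠ 0 := aeval_ne_of_transc hg hq
    refine ⟨D * q, mul_ne_zero hD hq, ?_⟩
    intro i hi
    rcases Finset.mem_insert.1 hi with rfl | hi
    · refine ⟨D * p, ?_⟩
      rw [map_mul, map_mul, hpq]
      field_simp
    · obtain ⟨A, hA⟩ := hDA i hi
      refine ⟨A * q, ?_⟩
      rw [map_mul, map_mul, hA]
      ring

variable {I : Type*} {U : Ultrafilter I} {L : Type*} [Field L]

/-- lifts of polynomials. -/
theorem exists_lift_coeff {E : I → Subfield L} (A : (uSub U E)[X]) :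
    ∃ α : ℕ → I → L, (∀ j, gm U (α j) = ((A.coeff j : uSub U E) : Gm U L)) ∧
      ∀ j i, α j i ∈ E i := by
  have h1 : ∀ j, ∃ f : I → L, gm U f = ((A.coeff j : uSub U E) : Gm U L) ∧ ∀ i, f i ∈ E i :=
    fun j => (A.coeff j).2
  choose f hf hfE using h1
  exact ⟨f, hf, hfE⟩

/-- the polynomial with given coefficients. -/
noncomputable def mkPol {K : Type*} [Field K] (E : Subfield K) (H : ℕ) (α : ℕ → K)
    (hα : ∀ j, α j ∈ E) : E[X] := ∑ j ∈ Finset.range (H + 1), C ⟨α j, hα j⟩ * X ^ j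

theorem aeval_mkPol {K : Type*} [Field K] {E : Subfield K} {H : ℕ} {α : ℕ → K}
    {hα : ∀ j, α j ∈ E} (g : K) :
    aeval g (mkPol E H α hα) = ∑ j ∈ Finset.range (H + 1), α j * g ^ j := by
  rw [mkPol, map_sum]
  refine Finset.sum_congr rfl fun j _ => ?_
  rw [map_mul, map_pow, aeval_X, aeval_C]
  rfl

theorem coeff_mkPol {K : Type*} [Field K] {E : Subfield K} {H : ℕ} {α : ℕ → K}
    {hα : ∀ j, α j ∈ E} {j : ℕ} (hj : j ≤ H) :
    (mkPol E H α hα).coeff j = ⟨α j, hα j⟩ := by
  rw [mkPol, finsetSum_coeff]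
  simp only [coeff_C_mul, coeff_X_pow, mul_ite, mul_one, mul_zero]
  rw [Finset.sum_eq_single j]
  · rw [if_pos rfl]
  · intro b _ hb
    rw [if_neg (Ne.symm hb)]
  · intro h
    exact absurd (Finset.mem_range.2 (Nat.lt_succ_of_le hj)) h

theorem natDegree_mkPol {K : Type*} [Field K] {E : Subfield K} {H : ℕ} {α : ℕ → K}
    {hα : ∀ j, α j ∈ E} : (mkPol E H α hα).natDegree ≤ H := by
  refine natDegree_sum_le_of_forall_le _ _ fun j hj => ?_
  exact (natDegree_C_mul_X_pow_le _ _).trans (Nat.lt_succ_iff.1 (Finset.mem_range.1 hj))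

theorem aeval_eq_sum_le {K : Type*} [Field K] {E : Subfield K} {A : E[X]} {H : ℕ}
    (hA : A.natDegree ≤ H) (g : K) :
    aeval g A = ∑ j ∈ Finset.range (H + 1), ((A.coeff j : E) : K) * g ^ j := by
  rw [aeval_eq_sum_range' (Nat.lt_succ_of_le hA)]
  rfl

/-- transcendence in the ultrapower. -/
theorem gm_transc {E : I → Subfield L} {g : I → L} (hg : ∀ᶠ i in U, ¬ IsAlgebraic (E i) (g i)) :
    ¬ IsAlgebraic (uSub U E) (gm U g) := by
  rintro ⟨A, hA0, hA⟩
  obtain ⟨α, hα, hαE⟩ := exists_lift_coeff A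
  obtain ⟨j, hj⟩ : ∃ j, A.coeff j ≠ 0 := by
    by_contra hcon
    push Not at hcon
    exact hA0 (Polynomial.ext fun j => by rw [hcon j, coeff_zero])
  have hjd : j ≤ A.natDegree := le_natDegree_of_ne_zero hj
  have h1 : ∀ᶠ i in U, α j i ≠ 0 := by
    have h2 : gm U (α j) ≠ 0 := by
      rw [hα]
      intro h
      exact hj (Subtype.ext h)
    rw [← map_zero (gm U)] at h2
    exact gm_ne.1 h2
  have h3 : ∀ᶠ i in U, ∑ j ∈ Finset.range (A.natDegree + 1), α j i * g i ^ j = 0 := by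
    rw [← gm_eq_zero, ← hA, aeval_eq_sum_le le_rfl, gm_sum]
    refine Finset.sum_congr rfl fun j _ => ?_
    rw [gm_mul, gm_pow, hα]
  obtain ⟨i, hi1, hi2, hi3⟩ := (h1.and (h3.and hg)).exists
  refine hi3 ⟨mkPol (E i) A.natDegree (fun j => α j i) (fun j => hαE j i), ?_, ?_⟩
  · intro h
    have h4 := congrArg (fun p => ((p.coeff j : E i) : L)) h
    simp only [coeff_zero] at h4
    rw [coeff_mkPol hjd] at h4
    exact hi1 h4
  · rw [aeval_mkPol]
    exact hi2

/-- rational functions are relatively algebraically closed in the ultraproduct. -/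
theorem rat_gm [PerfectField L] {E : I → Subfield L} {g : I → L}
    (hg : ∀ᶠ i in U, ¬ IsAlgebraic (E i) (g i)) {r : Gm U L}
    (hr : r ∈ uSub U (fun i => adj (E i) (g i)))
    (halg : IsAlgebraic (adj (uSub U E) (gm U g)) r) : r ∈ adj (uSub U E) (gm U g) := by
  classical
  have hgt : ¬ IsAlgebraic (uSub U E) (gm U g) := gm_transc hg
  by_cases hr0 : r = 0
  · rw [hr0]; exact Subfield.zero_mem _
  obtain ⟨f, rfl, hf⟩ := hr
  set F := adj (uSub U E) (gm U g) with hF
  set F0 := Vale.Agent.P019.adj (uSub U E) (gm U g) with hF0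
  set r : Gm U L := gm U f with hrdef
  set m := minpoly F r with hm
  have hint : IsIntegral F r := halg.isIntegral
  have hsep : m.Separable := PerfectField.separable_of_irreducible (minpoly.irreducible hint)
  set n := m.natDegree with hn
  -- common exponent
  have hN : ∃ N : ℕ, ∀ i ∈ Finset.range (n + 1),
      ((m.coeff i : F) : Gm U L) ^ (ringExpChar L) ^ N ∈ F0 := by
    have h1 : ∀ i, ∃ N : ℕ, ((m.coeff i : F) : Gm U L) ^ (ringExpChar L) ^ N ∈ F0 := by
      intro i
      have h2 := mem_pf.1 (m.coeff i).2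
      rw [ringExpChar_gm] at h2
      exact h2
    choose N hN using h1
    refine ⟨(Finset.range (n + 1)).sup N, fun i hi => ?_⟩
    obtain ⟨k, hk⟩ := Nat.exists_eq_add_of_le (Finset.le_sup (f := N) hi)
    rw [hk, pow_add, pow_mul]
    exact Subfield.pow_mem _ (hN i) _
  obtain ⟨N, hN⟩ := hN
  haveI : ExpChar (Gm U L) (ringExpChar L) := by
    rw [← ringExpChar_gm (U := U) (L := L)]
    infer_instance
  let φ : Gm U L →+* Gm U L := iterateFrobenius (Gm U L) (ringExpChar L) N
  have hφ : ∀ z, φ z = z ^ (ringExpChar L) ^ N := fun z => iterateFrobenius_def _ _ _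
  let c : ℕ → Gm U L := fun i => φ ((m.coeff i : F) : Gm U L)
  have hcF : ∀ i ∈ Finset.range (n + 1), c i ∈ F0 := by
    intro i hi
    change φ _ ∈ F0
    rw [hφ]
    exact hN i hi
  set ρ := φ r with hρ
  have hsum0 : ∑ i ∈ Finset.range (n + 1), c i * ρ ^ i = 0 := by
    have h1 : aeval r m = 0 := minpoly.aeval F r
    rw [aeval_eq_sum_le le_rfl] at h1
    have h2 := congrArg φ h1
    rw [map_sum, map_zero] at h2
    rw [← h2]
    refine Finset.sum_congr rfl fun i _ => ?_
    rw [map_mul, map_pow]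
  have hsum1 : ∑ i ∈ Finset.range (n + 1), c i * ((i : Gm U L) * ρ ^ (i - 1)) ≠ 0 := by
    have h1 : aeval r (derivative m) ≠ 0 := by
      intro h
      obtain ⟨a, b, hab⟩ := hsep
      have h2 := congrArg (aeval r) hab
      rw [map_add, map_mul, map_mul, minpoly.aeval, h, mul_zero, mul_zero, add_zero, map_one] at h2
      exact zero_ne_one h2
    intro h2
    apply h1
    apply φ.injective
    rw [map_zero, ← h2]
    conv_lhs => rw [m.as_sum_range]
    rw [derivative_sum, map_sum, map_sum]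
    refine Finset.sum_congr rfl fun i _ => ?_
    rw [derivative_monomial, aeval_monomial, map_mul, map_pow, map_mul, map_mul, map_natCast,
      map_natCast]
    change c i * _ * _ = _
    ring
  obtain ⟨D, hD0, hDA⟩ := common_den hgt c (Finset.range (n + 1)) hcF
  have hDg : aeval (gm U g) D ≠ 0 := aeval_ne_of_transc hgt hD0
  choose! A hA using hDA
  -- extend by zero
  have hcn : c n ≠ 0 := by
    change φ _ ≠ 0
    rw [hn, hm, coeff_natDegree, (minpoly.monic hint).leadingCoeff]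
    rw [show (((1 : F) : F) : Gm U L) = 1 from rfl, map_one]
    exact one_ne_zero
  have hc0 : c 0 ≠ 0 := by
    change φ _ ≠ 0
    rw [Ne, map_eq_zero]
    intro h
    exact minpoly.coeff_zero_ne_zero hint hr0 (Subtype.ext h)
  have hAne : ∀ i ∈ Finset.range (n + 1), c i ≠ 0 → A i ≠ 0 := by
    intro i hi hci h
    have h1 := hA i hi
    rw [h, map_zero] at h1
    exact mul_ne_zero hDg hci h1.symm
  set H := (Finset.range (n + 1)).sup (fun i => (A i).natDegree) with hH
  have hAH : ∀ i ∈ Finset.range (n + 1), (A i).natDegree ≤ H := fun i hi =>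
    Finset.le_sup (f := fun i => (A i).natDegree) hi
  have hlift : ∀ i, ∃ α : ℕ → I → L, (∀ j, gm U (α j) = (((A i).coeff j : uSub U E) : Gm U L)) ∧
      ∀ j ι, α j ι ∈ E ι := fun i => exists_lift_coeff (A i)
  choose α hα hαE using hlift
  have hev : ∀ i ∈ Finset.range (n + 1), aeval (gm U g) (A i) =
      gm U (fun ι => ∑ j ∈ Finset.range (H + 1), α i j ι * g ι ^ j) := by
    intro i hi
    rw [aeval_eq_sum_le (hAH i hi), gm_sum]
    refine Finset.sum_congr rfl fun j _ => ?_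
    rw [gm_mul, gm_pow, hα]
  have hρg : ρ = gm U (fun ι => f ι ^ (ringExpChar L) ^ N) := by
    rw [hρ, hφ, gm_pow]
  have hne : ∀ i ∈ Finset.range (n + 1), A i ≠ 0 →
      ∀ᶠ ι in U, mkPol (E ι) H (fun j => α i j ι) (fun j => hαE i j ι) ≠ 0 := by
    intro i hi hAi
    obtain ⟨j, hj⟩ : ∃ j, (A i).coeff j ≠ 0 := by
      by_contra hcon
      push Not at hcon
      exact hAi (Polynomial.ext fun j => by rw [hcon j, coeff_zero])
    have hjd : j ≤ H := (le_natDegree_of_ne_zero hj).trans (hAH i hi)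
    have h1 : ∀ᶠ ι in U, α i j ι ≠ 0 := by
      have h2 : gm U (α i j) ≠ 0 := by
        rw [hα]
        intro h
        exact hj (Subtype.ext h)
      rw [← map_zero (gm U)] at h2
      exact gm_ne.1 h2
    refine h1.mono fun ι hι h => hι ?_
    have h4 := congrArg (fun p => ((p.coeff j : E ι) : L)) h
    simp only [coeff_zero] at h4
    rw [coeff_mkPol hjd] at h4
    exact h4
  have e0 : ∀ᶠ ι in U, ∑ i ∈ Finset.range (n + 1),
      (∑ j ∈ Finset.range (H + 1), α i j ι * g ι ^ j) *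
        (f ι ^ (ringExpChar L) ^ N) ^ i = 0 := by
    rw [← gm_eq_zero, gm_sum]
    have h1 : ∑ i ∈ Finset.range (n + 1), gm U (fun ι =>
        (∑ j ∈ Finset.range (H + 1), α i j ι * g ι ^ j) * (f ι ^ (ringExpChar L) ^ N) ^ i) =
        aeval (gm U g) D * ∑ i ∈ Finset.range (n + 1), c i * ρ ^ i := by
      rw [Finset.mul_sum]
      refine Finset.sum_congr rfl fun i hi => ?_
      rw [gm_mul, ← hev i hi, hA i hi, gm_pow, ← hρg]
      ring
    rw [h1, hsum0, mul_zero]
  have e1 : ∀ᶠ ι in U, ∑ i ∈ Finset.range (n + 1),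
      (∑ j ∈ Finset.range (H + 1), α i j ι * g ι ^ j) *
        ((i : L) * (f ι ^ (ringExpChar L) ^ N) ^ (i - 1)) ≠ 0 := by
    have h2 : gm U (fun ι => ∑ i ∈ Finset.range (n + 1),
      (∑ j ∈ Finset.range (H + 1), α i j ι * g ι ^ j) *
        ((i : L) * (f ι ^ (ringExpChar L) ^ N) ^ (i - 1))) ≠ gm U 0 := by
      rw [map_zero, gm_sum]
      have h1 : ∑ i ∈ Finset.range (n + 1), gm U (fun ι =>
          (∑ j ∈ Finset.range (H + 1), α i j ι * g ι ^ j) *
            ((i : L) * (f ι ^ (ringExpChar L) ^ N) ^ (i - 1))) =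
          aeval (gm U g) D * ∑ i ∈ Finset.range (n + 1), c i * ((i : Gm U L) * ρ ^ (i - 1)) := by
        rw [Finset.mul_sum]
        refine Finset.sum_congr rfl fun i hi => ?_
        rw [gm_mul, ← hev i hi, hA i hi, gm_mul, gm_pow, ← hρg]
        have h3 : gm U (fun _ : I => (i : L)) = (i : Gm U L) := map_natCast (gm U) i
        rw [h3]
        ring
      rw [h1]
      exact mul_ne_zero hDg hsum1
    exact gm_ne.1 h2
  have h0n : (0 : ℕ) ∈ Finset.range (n + 1) := Finset.mem_range.2 (Nat.succ_pos n)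
  have hnn : n ∈ Finset.range (n + 1) := Finset.mem_range.2 (Nat.lt_succ_self n)
  have hfin : ∀ᶠ ι in U, ∃ u v : (E ι)[X], u.natDegree ≤ H ∧ v.natDegree ≤ H ∧ v ≠ 0 ∧
      (f ι ^ (ringExpChar L) ^ N) * aeval (g ι) v = aeval (g ι) u := by
    filter_upwards [hg, e0, e1, hne 0 h0n (hAne 0 h0n hc0), hne n hnn (hAne n hnn hcn)]
      with ι h1 h2 h3 h4 h5
    refine rat_root h1 (Subfield.pow_mem _ (hf ι) _) (n := n)
      (fun i => mkPol (E ι) H (fun j => α i j ι) (fun j => hαE i j ι))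
      (fun i => natDegree_mkPol) h4 h5 ?_ ?_
    · simp only [aeval_mkPol]
      exact h2
    · simp only [aeval_mkPol]
      exact h3
  have hex : ∀ ι, ∃ u v : (E ι)[X], ((∃ u v : (E ι)[X], u.natDegree ≤ H ∧ v.natDegree ≤ H ∧
      v ≠ 0 ∧ (f ι ^ (ringExpChar L) ^ N) * aeval (g ι) v = aeval (g ι) u) →
      u.natDegree ≤ H ∧ v.natDegree ≤ H ∧ v ≠ 0 ∧
      (f ι ^ (ringExpChar L) ^ N) * aeval (g ι) v = aeval (g ι) u) := by
    intro ι
    by_cases h : ∃ u v : (E ι)[X], u.natDegree ≤ H ∧ v.natDegree ≤ H ∧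
      v ≠ 0 ∧ (f ι ^ (ringExpChar L) ^ N) * aeval (g ι) v = aeval (g ι) u
    · obtain ⟨u, v, huv⟩ := h
      exact ⟨u, v, fun _ => huv⟩
    · exact ⟨0, 0, fun h' => absurd h' h⟩
  choose u v huv using hex
  have hmem : ∀ w : (ι : I) → (E ι)[X],
      gm U (fun ι => ∑ j ∈ Finset.range (H + 1), (((w ι).coeff j : E ι) : L) * g ι ^ j) ∈ F0 := by
    intro w
    rw [gm_sum]
    refine sum_mem fun j _ => ?_
    rw [gm_mul, gm_pow]
    refine mul_mem (Vale.Agent.P019.le_adj _ _ ?_)
      (pow_mem (Vale.Agent.P019.mem_adj _ _) j)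
    exact ⟨_, rfl, fun ι => ((w ι).coeff j).2⟩
  have hv0 : gm U (fun ι => ∑ j ∈ Finset.range (H + 1), (((v ι).coeff j : E ι) : L) * g ι ^ j) ≠
      gm U 0 := by
    rw [gm_ne]
    filter_upwards [hfin, hg] with ι h1 h2
    obtain ⟨-, h3, h4, -⟩ := huv ι h1
    rw [← aeval_eq_sum_le h3]
    exact aeval_ne_of_transc h2 h4
  rw [map_zero] at hv0
  have hρv : ρ * gm U (fun ι => ∑ j ∈ Finset.range (H + 1), (((v ι).coeff j : E ι) : L) * g ι ^ j) =
      gm U (fun ι => ∑ j ∈ Finset.range (H + 1), (((u ι).coeff j : E ι) : L) * g ι ^ j) := by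
    rw [hρg, ← gm_mul, gm_eq]
    filter_upwards [hfin] with ι h1
    obtain ⟨h5, h3, h4, h6⟩ := huv ι h1
    rw [← aeval_eq_sum_le h3, ← aeval_eq_sum_le h5]
    exact h6
  have hρF : ρ ∈ F0 := by
    rw [← eq_div_iff hv0] at hρv
    rw [hρv]
    exact Subfield.div_mem _ (hmem u) (hmem v)
  rw [hρ, hφ] at hρF
  refine mem_pf.2 ⟨N, ?_⟩
  rw [ringExpChar_gm]
  exact hρF

end rat

end Vale.Agent.P019P
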