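import Vale.Agent.P019Q.UGer
import Vale.Agent.P019Q.URat
import Vale.Agent.P019P.Im
import Vale.Agent.P019P.Resid
import Vale.Agent.P019P.CoreB
import Vale.Agent.P019.ExMdl

/-!
# The place of the ultrapower defined by a family of valuation rings
-/

namespace Vale.Agent.P019P

open Vale.Agent.P019

set_option linter.style.haveILetI false
set_option linter.unusedSectionVars false

open Polynomial Filter

section homs

variable {K Ω : Type*} [Field K] [Field Ω] (j : K →+* Ω)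

theorem sub_map_mono {E F : Subfield K} (h : E ≤ F) : E.map j ≤ F.map j := by
  rintro _ ⟨x, hx, rfl⟩
  exact ⟨x, h hx, rfl⟩

theorem map_pf_le (E : Subfield K) : (pf E).map j ≤ pf (E.map j) := by
  rintro _ ⟨z, hz, rfl⟩
  obtain ⟨n, hn⟩ := mem_pf.1 hz
  refine mem_pf.2 ⟨n, ?_⟩
  rw [← ringExpChar_eq_of_hom j, ← map_pow]
  exact ⟨_, hn, rfl⟩

theorem map_adj0 (E : Subfield K) (y : K) :
    (Vale.Agent.P019.adj E y).map j = Vale.Agent.P019.adj (E.map j) (j y) := by
  unfold Vale.Agent.P019.adj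
  rw [Subfield.map_sup]
  congr 1
  rw [RingHom.map_field_closure, Set.image_singleton]

theorem map_adj_le (E : Subfield K) (y : K) :
    (adj E y).map j ≤ adj (E.map j) (j y) := by
  refine (map_pf_le j _).trans ?_
  rw [map_adj0]
  exact le_rfl

theorem adj_map_le [PerfectField K] (E : Subfield K) (y : K) :
    adj (E.map j) (j y) ≤ (adj E y).map j :=
  adj_le (sub_map_mono j (le_adj E y)) ⟨y, mem_adj E y, rfl⟩

theorem isAlgebraic_map {E : Subfield K} {x : K} (h : IsAlgebraic E x) :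
    IsAlgebraic (E.map j) (j x) := by
  obtain ⟨q, hq0, hq, hqz⟩ := isAlgebraic_iff_coeff.1 h
  refine isAlgebraic_iff_coeff.2 ⟨q.map j, ?_, ?_, ?_⟩
  · rw [Ne, Polynomial.map_eq_zero]
    exact hq0
  · intro i
    rw [coeff_map]
    exact ⟨_, hq i, rfl⟩
  · rw [eval_map, eval₂_at_apply, hqz, map_zero]

theorem isAlgebraic_of_map {E : Subfield K} {x : K} (h : IsAlgebraic (E.map j) (j x)) :
    IsAlgebraic E x := by
  obtain ⟨q, hq0, hq, hqz⟩ := isAlgebraic_iff_coeff.1 h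
  choose c hc hcq using hq
  let p : K[X] := ∑ i ∈ Finset.range (q.natDegree + 1), C (c i) * X ^ i
  have hp : p.map j = q := by
    conv_rhs => rw [q.as_sum_range_C_mul_X_pow]
    simp only [p, Polynomial.map_sum, Polynomial.map_mul, map_C, Polynomial.map_pow, map_X, hcq]
  refine isAlgebraic_iff_coeff.2 ⟨p, ?_, ?_, ?_⟩
  · rintro h0
    rw [h0, Polynomial.map_zero] at hp
    exact hq0 hp.symm
  · intro i
    have h1 : p.coeff i = if i ∈ Finset.range (q.natDegree + 1) then c i else 0 := by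
      simp only [p, finsetSum_coeff, coeff_C_mul, coeff_X_pow, mul_ite, mul_one, mul_zero]
      rw [Finset.sum_ite_eq]
    rw [h1]
    split_ifs
    · exact hc i
    · exact E.zero_mem
  · apply j.injective
    rw [map_zero, ← hqz, ← hp, eval_map, eval₂_at_apply]

end homs

section ul

variable {I : Type*} (U : Ultrafilter I) {K : Type*} [Field K] (O : I → ValuationSubring K)

/-- the place. -/
noncomputable abbrev ulP : Pl (Gm U K) (AlgebraicClosure (IsLocalRing.ResidueField (uVal U O))) :=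
  plOf (uVal U O)

/-- nonzero elements are units for almost all members of the family. -/
def Ulu : Prop := ∀ x : K, x ≠ 0 → ∀ᶠ i in U, (O i).valuation x = 1

variable {U O}

theorem Ulu.gc_mem (h : Ulu U O) (x : K) : gc U x ∈ (ulP U O).O := by
  by_cases hx : x = 0
  · rw [hx, map_zero]; exact (ulP U O).O.zero_mem
  · rw [gc_apply]
    exact gm_mem_uVal.2 ((h x hx).mono fun i hi => ((O i).valuation_le_one_iff x).1 hi.le)

/-- the embedding of the field. -/
noncomputable def Ulu.j (h : Ulu U O) :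
    K →+* AlgebraicClosure (IsLocalRing.ResidueField (uVal U O)) where
  toFun x := (ulP U O).ev (gc U x)
  map_one' := by rw [map_one, Pl.ev_one]
  map_mul' x y := by rw [map_mul, Pl.ev_mul _ (h.gc_mem x) (h.gc_mem y)]
  map_zero' := by rw [map_zero, Pl.ev_zero]
  map_add' x y := by rw [map_add, Pl.ev_add _ (h.gc_mem x) (h.gc_mem y)]

theorem Ulu.j_apply (h : Ulu U O) (x : K) : h.j x = (ulP U O).ev (gc U x) := rfl

theorem ulP_ev_eq {f g : I → K} (hf : ∀ᶠ i in U, f i ∈ O i) (hg : ∀ᶠ i in U, g i ∈ O i) :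
    (ulP U O).ev (gm U f) = (ulP U O).ev (gm U g) ↔
      ∀ᶠ i in U, (O i).valuation (f i - g i) < 1 := by
  have hf' : gm U f ∈ (ulP U O).O := gm_mem_uVal.2 hf
  have hg' : gm U g ∈ (ulP U O).O := gm_mem_uVal.2 hg
  rw [← sub_eq_zero, ← Pl.ev_sub _ hf' hg', Pl.ev_eq_zero_iff _ ((ulP U O).O.sub_mem hf' hg'),
    ← gm_sub]
  exact uVal_lt_one

theorem ulP_mem {f : I → K} (hf : ∀ᶠ i in U, f i ∈ O i) : gm U f ∈ (ulP U O).O :=
  gm_mem_uVal.2 hf

/-- fields trivially valued by almost all members. -/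
theorem ulP_triv {F : Subfield K} (hF : ∀ᶠ i in U, TrivOn (O i) F) :
    ∀ x ∈ uSub U (fun _ => F), x ∈ (ulP U O).O := by
  rintro _ ⟨f, rfl, hf⟩
  exact ulP_mem (hF.mono fun i hi => hi _ (hf i))

theorem gc_mem_uSub {F : Subfield K} {x : K} (hx : x ∈ F) : gc U x ∈ uSub U (fun _ => F) :=
  ⟨fun _ => x, rfl, fun _ => hx⟩

theorem map_gc_le (F : Subfield K) : F.map (gc U) ≤ uSub U (fun _ => F) := by
  rintro _ ⟨x, hx, rfl⟩
  exact gc_mem_uSub hx

/-- classes dying in almost all residue fields. -/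
theorem exists_root_of_U1 {ℓ : ℕ} [Fact ℓ.Prime] {z : K} (hz : z ≠ 0)
    (hv : ∀ᶠ i in U, (O i).valuation z = 1)
    (h : ∀ᶠ i in U, cl ℓ z ∈ U1 ℓ (O i)) :
    ∃ w : I → K, (∀ᶠ i in U, w i ∈ O i) ∧
      (ulP U O).ev (gm U w) ^ ℓ = (ulP U O).ev (gc U z) := by
  have h1 : ∀ᶠ i in U, ∃ w : K, w ∈ O i ∧ (O i).valuation (w ^ ℓ - z) < 1 := by
    filter_upwards [hv, h] with i hi hi'
    have h2 : rs (O i) z ≠ 0 := (rs_ne_zero (((O i).valuation_le_one_iff z).1 hi.le)).2 hi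
    rw [cl_mem_U1_iff hi, cl_eq_zero_iff ℓ h2] at hi'
    obtain ⟨c, hc0, hc⟩ := hi'
    obtain ⟨w, hw, rfl⟩ := rs_surj c
    refine ⟨w, hw, ?_⟩
    rw [← rs_eq_zero ((O i).sub_mem ((O i).pow_mem hw ℓ)
      (((O i).valuation_le_one_iff z).1 hi.le)), rs_sub ((O i).pow_mem hw ℓ)
      (((O i).valuation_le_one_iff z).1 hi.le), rs_pow hw, hc, sub_self]
  have h2 : ∀ i, ∃ w : K, (∃ w : K, w ∈ O i ∧ (O i).valuation (w ^ ℓ - z) < 1) →
      w ∈ O i ∧ (O i).valuation (w ^ ℓ - z) < 1 := by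
    intro i
    by_cases h : ∃ w : K, w ∈ O i ∧ (O i).valuation (w ^ ℓ - z) < 1
    · obtain ⟨w, hw⟩ := h
      exact ⟨w, fun _ => hw⟩
    · exact ⟨0, fun h' => absurd h' h⟩
  choose w hw using h2
  refine ⟨w, h1.mono fun i hi => (hw i hi).1, ?_⟩
  have h3 : gm U w ∈ (ulP U O).O := ulP_mem (h1.mono fun i hi => (hw i hi).1)
  rw [← Pl.ev_pow _ h3, ← gm_pow, gc_apply]
  rw [ulP_ev_eq (h1.mono fun i hi => (O i).pow_mem (hw i hi).1 ℓ)
    (hv.mono fun i hi => ((O i).valuation_le_one_iff z).1 hi.le)]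
  exact h1.mono fun i hi => (hw i hi).2

end ul

end Vale.Agent.P019P
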