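import Vale.Agent.P019Q.URat
import Vale.Agent.P019P.Gal

/-!
# Relative algebraic closedness: adding a variable
-/

namespace Vale.Agent.P019P

open Vale.Agent.P019

set_option linter.style.haveILetI false
set_option linter.unusedSectionVars false

open Polynomial

section uvar

variable {K : Type*} [Field K]

/-- the rational root theorem with divisibilities. -/
theorem uvar_rat_root {E : Subfield K} {g : K} (hg : ¬ IsAlgebraic E g) {ρ : K}
    (hρ : ρ ∈ adj E g) {n : ℕ} (A : ℕ → E[X])
    (h0 : ∑ i ∈ Finset.range (n + 1), aeval g (A i) * ρ ^ i = 0)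
    (h1 : ∑ i ∈ Finset.range (n + 1), aeval g (A i) * ((i : K) * ρ ^ (i - 1)) ≠ 0) :
    ∃ u v : E[X], u ∣ A 0 ∧ v ∣ A n ∧ v ≠ 0 ∧ ρ = aeval g u / aeval g v := by
  have hρ0 : ρ ∈ Vale.Agent.P019.adj E g := by
    let p : (Vale.Agent.P019.adj E g)[X] := ∑ i ∈ Finset.range (n + 1),
      C ⟨aeval g (A i), aeval_mem_adj0 g (A i)⟩ * X ^ i
    refine mem_of_simple_root (F := Vale.Agent.P019.adj E g) (p := p) hρ ?_ ?_
    · rw [← h0, map_sum]
      refine Finset.sum_congr rfl fun i _ => ?_
      rw [map_mul, map_pow, aeval_X, aeval_C]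
      rfl
    · convert h1 using 1
      simp only [p, map_sum]
      refine Finset.sum_congr rfl fun i _ => ?_
      rw [derivative_C_mul, derivative_X_pow, map_mul, map_mul, map_pow, aeval_X, aeval_C, aeval_C,
        map_natCast]
      rfl
  obtain ⟨a, b, hab, hb, hρab⟩ := coprime_rep hg hρ0
  have hbg : aeval g b ≠ 0 := aeval_ne_of_transc hg hb
  have key : ∑ i ∈ Finset.range (n + 1), A i * a ^ i * b ^ (n - i) = 0 := by
    by_contra hne
    apply aeval_ne_of_transc hg hne
    have e1 : aeval g (∑ i ∈ Finset.range (n + 1), A i * a ^ i * b ^ (n - i)) =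
        aeval g b ^ n * ∑ i ∈ Finset.range (n + 1), aeval g (A i) * ρ ^ i := by
      rw [map_sum, Finset.mul_sum]
      refine Finset.sum_congr rfl fun i hi => ?_
      have hi' : i ≤ n := Nat.lt_succ_iff.1 (Finset.mem_range.1 hi)
      rw [map_mul, map_mul, map_pow, map_pow, hρab, div_pow]
      have e2 : aeval g b ^ n = aeval g b ^ (n - i) * aeval g b ^ i := by
        rw [← pow_add, Nat.sub_add_cancel hi']
      rw [e2]
      have e3 := pow_ne_zero i hbg
      field_simp
    rw [e1, h0, mul_zero]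
  have hbA : b ∣ A n := by
    rw [Finset.sum_range_succ] at key
    simp only [Nat.sub_self, pow_zero, mul_one] at key
    have h2 : b ∣ A n * a ^ n := by
      have h3 : b ∣ ∑ i ∈ Finset.range n, A i * a ^ i * b ^ (n - i) := by
        refine Finset.dvd_sum fun i hi => ?_
        have hi' : n - i ≠ 0 := Nat.sub_ne_zero_of_lt (Finset.mem_range.1 hi)
        exact Dvd.dvd.mul_left (dvd_pow_self b hi') _
      have h4 : A n * a ^ n = -∑ i ∈ Finset.range n, A i * a ^ i * b ^ (n - i) := by
        rw [eq_neg_iff_add_eq_zero, add_comm]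
        exact key
      rw [h4]
      exact (dvd_neg).2 h3
    exact (hab.symm.pow_right).dvd_of_dvd_mul_right h2
  have haA : a ∣ A 0 := by
    rw [Finset.sum_range_succ'] at key
    simp only [pow_zero, mul_one, Nat.sub_zero] at key
    have h2 : a ∣ A 0 * b ^ n := by
      have h3 : a ∣ ∑ i ∈ Finset.range n, A (i + 1) * a ^ (i + 1) * b ^ (n - (i + 1)) := by
        refine Finset.dvd_sum fun i hi => ?_
        exact Dvd.dvd.mul_right (Dvd.dvd.mul_left (dvd_pow_self a (Nat.succ_ne_zero i)) _) _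
      have h4 : A 0 * b ^ n =
          -∑ i ∈ Finset.range n, A (i + 1) * a ^ (i + 1) * b ^ (n - (i + 1)) := by
        rw [eq_neg_iff_add_eq_zero, add_comm]
        exact key
      rw [h4]
      exact (dvd_neg).2 h3
    exact (hab.pow_right).dvd_of_dvd_mul_right h2
  exact ⟨a, b, haA, hbA, hb, hρab⟩

/-- a factor in `B[X]` of a polynomial with coefficients in `A` is a constant times a polynomial
with coefficients in `A`. -/
theorem uvar_factor {A B : Subfield K} (hAB : A ≤ B)
    (hrac : ∀ z ∈ B, IsAlgebraic A z → z ∈ A) {Q : A[X]} (hQ : Q ≠ 0) {u : B[X]} (hu0 : u ≠ 0)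
    (hu : u ∣ Q.map (Subfield.inclusion hAB)) {y : K} (hy : ¬ IsAlgebraic B y) :
    ∃ w ∈ Vale.Agent.P019.adj A y, ∃ a ∈ B, w ≠ 0 ∧ aeval y u = a * w := by
  set u1 : B[X] := u * C (u.leadingCoeff)⁻¹ with hu1
  have hm : u1.Monic := monic_mul_leadingCoeff_inv hu0
  have hlc : u.leadingCoeff ≠ 0 := leadingCoeff_ne_zero.2 hu0
  have huu : u = u1 * C u.leadingCoeff := by
    rw [hu1, mul_assoc, ← C_mul, inv_mul_cancel₀ hlc, C_1, mul_one]
  set Q1 : A[X] := Q * C (Q.leadingCoeff)⁻¹ with hQ1
  have hQm : Q1.Monic := monic_mul_leadingCoeff_inv hQ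
  have hdvd : u1 ∣ Q1.map (Subfield.inclusion hAB) := by
    have h1 : u1 ∣ u := ⟨_, huu⟩
    have h2 : Q.map (Subfield.inclusion hAB) ∣ Q1.map (Subfield.inclusion hAB) := by
      rw [hQ1, Polynomial.map_mul]
      exact dvd_mul_right _ _
    exact (h1.trans hu).trans h2
  have hdvd2 : u1.map B.subtype ∣ Q1.map (algebraMap A K) := by
    have h1 := map_dvd (mapRingHom B.subtype) hdvd
    have h2 : (Q1.map (Subfield.inclusion hAB)).map B.subtype = Q1.map (algebraMap A K) := by
      rw [Polynomial.map_map]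
      rfl
    rw [← h2]
    exact h1
  have hint : ∀ i, ((u1.coeff i : B) : K) ∈ A := by
    intro i
    apply hrac _ (u1.coeff i).2
    have h1 := isIntegral_coeff_of_dvd Q1 (u1.map B.subtype) hQm (hm.map _) hdvd2 i
    rw [coeff_map] at h1
    exact h1.isAlgebraic
  refine ⟨aeval y u1, ?_, (u.leadingCoeff : K), (u.leadingCoeff).2,
    aeval_ne_of_transc hy hm.ne_zero, ?_⟩
  · rw [aeval_eq_sum_range]
    refine sum_mem fun i _ => ?_
    rw [Algebra.smul_def]
    exact mul_mem (Vale.Agent.P019.le_adj A y (hint i))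
      (pow_mem (Vale.Agent.P019.mem_adj A y) i)
  · conv_lhs => rw [huu]
    rw [map_mul, aeval_C, mul_comm]
    rfl

theorem uvar_aeval_map {A B : Subfield K} (hAB : A ≤ B) (Q : A[X]) (y : K) :
    aeval y (Q.map (Subfield.inclusion hAB)) = aeval y Q := by
  rw [aeval_def, aeval_def, eval₂_map]
  rfl

end uvar

/-- if `A` is relatively algebraically closed in `B` and `y` is transcendental over `B`, then
`A(y)` is relatively algebraically closed in `B(y)` (perfect closures). -/
theorem var_rac {K : Type*} [Field K] [PerfectField K] {A B : Subfield K} [PerfectField A]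
    [PerfectField B] (hAB : A ≤ B) (hrac : ∀ z ∈ B, IsAlgebraic A z → z ∈ A) {y : K}
    (hy : ¬ IsAlgebraic B y) {r : K} (hr : r ∈ adj B y) (halg : IsAlgebraic (adj A y) r) :
    r ∈ adj A y := by
  classical
  have hyA : ¬ IsAlgebraic A y := fun h => hy (isAlgebraic_mono hAB h)
  by_cases hr0 : r = 0
  · rw [hr0]; exact Subfield.zero_mem _
  set F := adj A y with hF
  set F0 := Vale.Agent.P019.adj A y with hF0
  set m := minpoly F r with hm
  have hint : IsIntegral F r := halg.isIntegral
  have hsep : m.Separable := PerfectField.separable_of_irreducible (minpoly.irreducible hint)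
  set n := m.natDegree with hn
  -- common exponent
  have hN : ∃ N : ℕ, ∀ i ∈ Finset.range (n + 1),
      ((m.coeff i : F) : K) ^ (ringExpChar K) ^ N ∈ F0 := by
    have h1 : ∀ i, ∃ N : ℕ, ((m.coeff i : F) : K) ^ (ringExpChar K) ^ N ∈ F0 := fun i =>
      mem_pf.1 (m.coeff i).2
    choose N hN using h1
    refine ⟨(Finset.range (n + 1)).sup N, fun i hi => ?_⟩
    obtain ⟨k, hk⟩ := Nat.exists_eq_add_of_le (Finset.le_sup (f := N) hi)
    rw [hk, pow_add, pow_mul]
    exact Subfield.pow_mem _ (hN i) _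
  obtain ⟨N, hN⟩ := hN
  let φ : K →+* K := iterateFrobenius K (ringExpChar K) N
  have hφ : ∀ z, φ z = z ^ (ringExpChar K) ^ N := fun z => iterateFrobenius_def _ _ _
  let c : ℕ → K := fun i => φ ((m.coeff i : F) : K)
  have hcF : ∀ i ∈ Finset.range (n + 1), c i ∈ F0 := by
    intro i hi
    change φ _ ∈ F0
    rw [hφ]
    exact hN i hi
  set ρ := φ r with hρ
  have hsum0 : ∑ i ∈ Finset.range (n + 1), c i * ρ ^ i = 0 := by
    have h1 : aeval r m = 0 := minpoly.aeval F r
    rw [aeval_eq_sum_le le_rfl] at h1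
    have h2 := congrArg φ h1
    rw [map_sum, map_zero] at h2
    rw [← h2]
    refine Finset.sum_congr rfl fun i _ => ?_
    rw [map_mul, map_pow]
  have hsum1 : ∑ i ∈ Finset.range (n + 1), c i * ((i : K) * ρ ^ (i - 1)) ≠ 0 := by
    have h1 : aeval r (derivative m) ≠ 0 := by
      intro h
      obtain ⟨a, b, hab⟩ := hsep
      have h2 := congrArg (aeval r) hab
      rw [map_add, map_mul, map_mul, minpoly.aeval, h, mul_zero, mul_zero, add_zero, map_one] at h2
      exact zero_ne_one h2
    intro h2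
    apply h1
    apply φ.injective
    rw [map_zero, ← h2]
    conv_lhs => rw [m.as_sum_range]
    rw [derivative_sum, map_sum, map_sum]
    refine Finset.sum_congr rfl fun i _ => ?_
    rw [derivative_monomial, aeval_monomial, map_mul, map_pow, map_mul, map_mul, map_natCast,
      map_natCast]
    change c i * _ * _ = _
    ring
  obtain ⟨D, hD0, hDA⟩ := common_den hyA c (Finset.range (n + 1)) hcF
  have hDg : aeval y D ≠ 0 := aeval_ne_of_transc hyA hD0
  choose! G hG using hDA
  have hcn : c n ≠ 0 := by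
    change φ _ ≠ 0
    rw [hn, hm, coeff_natDegree, (minpoly.monic hint).leadingCoeff]
    rw [show (((1 : F) : F) : K) = 1 from rfl, map_one]
    exact one_ne_zero
  have hc0 : c 0 ≠ 0 := by
    change φ _ ≠ 0
    rw [Ne, map_eq_zero]
    intro h
    exact minpoly.coeff_zero_ne_zero hint hr0 (Subtype.ext h)
  have hGne : ∀ i ∈ Finset.range (n + 1), c i ≠ 0 → G i ≠ 0 := by
    intro i hi hci h
    have h1 := hG i hi
    rw [h, map_zero] at h1
    exact mul_ne_zero hDg hci h1.symm
  have h0n : (0 : ℕ) ∈ Finset.range (n + 1) := Finset.mem_range.2 (Nat.succ_pos n)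
  have hnn : n ∈ Finset.range (n + 1) := Finset.mem_range.2 (Nat.lt_succ_self n)
  have hρB : ρ ∈ adj B y := by
    rw [hρ, hφ]
    exact Subfield.pow_mem _ hr _
  obtain ⟨u, v, hu, hv, hv0, hρuv⟩ := uvar_rat_root hy hρB (n := n)
    (fun i => (G i).map (Subfield.inclusion hAB))
    (by
      have h1 : ∑ i ∈ Finset.range (n + 1),
          aeval y ((G i).map (Subfield.inclusion hAB)) * ρ ^ i =
          aeval y D * ∑ i ∈ Finset.range (n + 1), c i * ρ ^ i := by
        rw [Finset.mul_sum]
        refine Finset.sum_congr rfl fun i hi => ?_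
        rw [uvar_aeval_map, hG i hi]
        ring
      rw [h1, hsum0, mul_zero])
    (by
      have h1 : ∑ i ∈ Finset.range (n + 1),
          aeval y ((G i).map (Subfield.inclusion hAB)) * ((i : K) * ρ ^ (i - 1)) =
          aeval y D * ∑ i ∈ Finset.range (n + 1), c i * ((i : K) * ρ ^ (i - 1)) := by
        rw [Finset.mul_sum]
        refine Finset.sum_congr rfl fun i hi => ?_
        rw [uvar_aeval_map, hG i hi]
        ring
      rw [h1]
      exact mul_ne_zero hDg hsum1)
  have hu0 : u ≠ 0 := by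
    rintro rfl
    rw [zero_dvd_iff, Polynomial.map_eq_zero] at hu
    exact hGne 0 h0n hc0 hu
  obtain ⟨w1, hw1, a, ha, hw10, hua⟩ := uvar_factor hAB hrac (hGne 0 h0n hc0) hu0 hu hy
  obtain ⟨w2, hw2, b, hb, hw20, hvb⟩ := uvar_factor hAB hrac (hGne n hnn hcn) hv0 hv hy
  -- the constant
  have hρab : ρ = a / b * (w1 / w2) := by
    rw [hρuv, hua, hvb]
    rw [mul_div_mul_comm]
  have hrho : IsAlgebraic F ρ := by
    rw [hρ, hφ]
    exact halg.pow _
  have hw1F : w1 ∈ F := adj0_le_adj A y hw1
  have hw2F : w2 ∈ F := adj0_le_adj A y hw2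
  have hcalg : IsAlgebraic F (a / b) := by
    have h1 : a / b = ρ * (w2 / w1) := by
      rw [hρab]
      field_simp
    rw [h1]
    exact hrho.mul (isAlgebraic_of_mem (Subfield.div_mem _ hw2F hw1F))
  have habB : a / b ∈ B := Subfield.div_mem _ ha hb
  have hcA : a / b ∈ A := by
    apply hrac _ habB
    by_contra hc
    have h1 := exchange hc hcalg
    exact hy (isAlgebraic_mono (adj_le hAB habB) h1)
  have hρF : ρ ∈ F0 := by
    rw [hρab]
    exact Subfield.mul_mem _ (Vale.Agent.P019.le_adj A y hcA) (Subfield.div_mem _ hw1 hw2)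
  rw [hρ, hφ] at hρF
  exact mem_pf.2 ⟨N, hρF⟩

end Vale.Agent.P019P
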