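import Vale.Agent.P019Q.K0
import Vale.Agent.P019Q.UPl
import Vale.Agent.P019Q.UVar
import Vale.Agent.P019Q.UFree
import Vale.Agent.P019P.Asm3

/-!
# Rational function fields in an ultrapower and freeness
-/

namespace Vale.Agent.P019P

open Vale.Agent.P019

set_option linter.style.haveILetI false
set_option linter.unusedSectionVars false

open Polynomial Filter

variable {K : Type*} [Field K] [PerfectField K]

theorem hyper_of_ae {F : Subfield K} {S : Set K} (hSF : ∀ a ∈ S, a ∈ F) [Infinite S]
    {p : K → Prop} (h : ∀ᶠ a in ae F, p a) : ∀ᶠ i : S in (hyperfilter S : Filter S), p i.1 := by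
  apply hyperfilter_le_cofinite
  rw [ae_iff] at h
  change {i : S | p i.1} ∈ cofinite
  rw [mem_cofinite]
  refine (h.preimage Subtype.val_injective.injOn).subset ?_
  intro i hi
  exact ⟨hSF _ i.2, hi⟩

variable {I : Type*} {U : Ultrafilter I}

instance perfect_uSub (k : Subfield K) [PerfectField k] : PerfectField (uSub U (fun _ => k)) := by
  refine perfect_of_root ?_
  rintro _ ⟨f, rfl, hf⟩
  have h : ∀ i, ∃ y ∈ k, y ^ ringExpChar K = f i := by
    intro i
    obtain ⟨y, hy, hyz⟩ := exists_root_q k (hf i) 1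
    exact ⟨y, hy, by rwa [pow_one] at hyz⟩
  choose y hy hyf using h
  refine ⟨gm U y, ⟨y, rfl, hy⟩, ?_⟩
  rw [ringExpChar_gm, ← gm_pow]
  exact congrArg _ (funext hyf)

theorem uSub_mono {E F : Subfield K} (h : E ≤ F) : uSub U (fun _ => E) ≤ uSub U (fun _ => F) := by
  rintro _ ⟨f, rfl, hf⟩
  exact ⟨f, rfl, fun i => h (hf i)⟩

/-- `F` and the constants of the ultrapower generate a relatively algebraically closed subfield. -/
theorem RatF.rac_gm {k F : Subfield K} [PerfectField k] (hF : RatF k F) :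
    ∀ z ∈ uSub U (fun _ => F), IsAlgebraic (F.map (gc U) ⊔ uSub U (fun _ => k) :
      Subfield (Gm U K)) z → z ∈ F.map (gc U) ⊔ uSub U (fun _ => k) := by
  induction hF with
  | base => exact fun z hz _ => (le_sup_right : uSub U (fun _ => k) ≤ _) hz
  | @step G y hG hy ih =>
    intro z hz halg
    haveI : PerfectField G := hG.perfect
    have hy' : ∀ᶠ i : I in U, ¬ IsAlgebraic G y := Eventually.of_forall fun _ => hy
    set MG : Subfield (Gm U K) := G.map (gc U) ⊔ uSub U (fun _ => k) with hMG
    have hMGle : MG ≤ uSub U (fun _ => G) := sup_le (map_gc_le G) (uSub_mono hG.le)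
    have hle : (adj G y).map (gc U) ⊔ uSub U (fun _ => k) ≤ adj MG (gc U y) := by
      refine sup_le ((map_adj_le (gc U) G y).trans (adj_mono le_sup_left _)) ?_
      exact (le_sup_right : uSub U (fun _ => k) ≤ MG).trans (le_adj _ _)
    have h1 : z ∈ adj (uSub U (fun _ => G)) (gc U y) := by
      refine rat_gm (E := fun _ => G) (g := fun _ => y) hy' hz ?_
      exact isAlgebraic_mono (hle.trans (adj_mono hMGle _)) halg
    have h2 : z ∈ adj MG (gc U y) := by
      refine var_rac hMGle ih (gm_transc (E := fun _ => G) (g := fun _ => y) hy') h1 ?_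
      exact isAlgebraic_mono hle halg
    haveI i1 : PerfectField ((adj G y).map (gc U)) := perfect_map _ _
    haveI i2 : PerfectField ((adj G y).map (gc U) ⊔ uSub U (fun _ => k) : Subfield (Gm U K)) :=
      perfect_sup
    have h30 : G.map (gc U) ≤ (adj G y).map (gc U) := sub_map_mono _ (le_adj G y)
    have h3 : MG ≤ (adj G y).map (gc U) ⊔ uSub U (fun _ => k) :=
      sup_le (h30.trans le_sup_left) le_sup_right
    have h4' : gc U y ∈ (adj G y).map (gc U) := Subfield.mem_map.2 ⟨y, mem_adj G y, rfl⟩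
    have h4'' : (adj G y).map (gc U) ≤ (adj G y).map (gc U) ⊔ uSub U (fun _ => k) := le_sup_left
    have h4 : gc U y ∈ (adj G y).map (gc U) ⊔ uSub U (fun _ => k) := h4'' h4'
    have h5 : adj MG (gc U y) ≤ (adj G y).map (gc U) ⊔ uSub U (fun _ => k) := adj_le h3 h4
    exact h5 h2

variable {O : I → ValuationSubring K}

/-- the residue images of the generators are transcendental. -/
theorem ulj_transc (h : Ulu U O) {F G : Subfield K} (hGF : G ≤ F)
    (hFO : ∀ x ∈ uSub U (fun _ => F), x ∈ (ulP U O).O) {y : K} (hyF : y ∈ F)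
    (hy : ¬ IsAlgebraic G y) :
    ¬ IsAlgebraic ((ulP U O).im (uSub U (fun _ => G)) fun x hx => hFO x (uSub_mono hGF hx))
      (h.j y) := by
  intro h1
  have h2 := Pl.isAlgebraic_of_im (ulP U O) hFO (uSub_mono hGF) (gc_mem_uSub hyF) h1
  exact gm_transc (E := fun _ => G) (g := fun _ => y) (Eventually.of_forall fun _ => hy) h2

/-- freeness of the constants of the ultrapower. -/
theorem RatF.free_gm {k F : Subfield K} [PerfectField k] (h : Ulu U O)
    (hFO : ∀ x ∈ uSub U (fun _ => F), x ∈ (ulP U O).O) (hkF : k ≤ F)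
    {N : Subfield (AlgebraicClosure (IsLocalRing.ResidueField (uVal U O)))}
    (hN : RAC N) (hkN : k.map h.j ≤ N)
    (hNB : N ≤ (ulP U O).im (uSub U (fun _ => k)) fun x hx => hFO x (uSub_mono hkF hx))
    {a : AlgebraicClosure (IsLocalRing.ResidueField (uVal U O))}
    (ha : a ∈ (ulP U O).im (uSub U (fun _ => k)) fun x hx => hFO x (uSub_mono hkF hx))
    {F' : Subfield K} (hF' : RatF k F') (hle : F' ≤ F)
    (halg : IsAlgebraic (N ⊔ F'.map h.j : Subfield _) a) : a ∈ N := by
  induction hF' with
  | base => exact hN a (by rwa [sup_eq_left.2 hkN] at halg)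
  | @step G y hG hy ih =>
    have hGF : G ≤ F := (le_adj G y).trans hle
    haveI : PerfectField G := hG.perfect
    refine ih hGF ?_
    by_contra hcon
    have h1 : N ⊔ (adj G y).map h.j ≤ adj (N ⊔ G.map h.j) (h.j y) := by
      refine sup_le (le_sup_left.trans (le_adj _ _)) ?_
      exact (map_adj_le h.j G y).trans (adj_mono le_sup_right _)
    have h2 := exchange hcon (isAlgebraic_mono h1 halg)
    refine ulj_transc h hGF hFO (hle (mem_adj G y)) hy (isAlgebraic_mono ?_ h2)
    have h3 : (ulP U O).im (uSub U (fun _ => k)) (fun x hx => hFO x (uSub_mono hkF hx)) ≤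
        (ulP U O).im (uSub U (fun _ => G)) (fun x hx => hFO x (uSub_mono hGF hx)) := by
      intro z hz
      obtain ⟨x, hx, rfl⟩ := Pl.mem_im _ |>.1 hz
      exact Pl.ev_mem_im _ _ (uSub_mono hG.le hx)
    refine adj_le (sup_le (hNB.trans h3) ?_) (h3 ha)
    rintro _ ⟨x, hx, rfl⟩
    exact Pl.ev_mem_im _ _ (gc_mem_uSub hx)

end Vale.Agent.P019P
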