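import Vale.Agent.P019Q.URat
import Vale.Agent.P019P.FrameB
import Vale.Agent.P019P.CoreB

/-!
# Bounded representation of residues
-/

namespace Vale.Agent.P019P

open Vale.Agent.P019

set_option linter.style.haveILetI false
set_option linter.unusedSectionVars false

open Polynomial Filter

/-- elements of a simple algebraic extension as polynomials of small degree. -/
theorem repr_lt {κ : Type*} [Field κ] {E : Subfield κ} {θ : κ} {n : ℕ} {p : E[X]} (hp : p ≠ 0)
    (hpn : p.natDegree ≤ n) (hθ : aeval θ p = 0) {x : κ}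
    (hx : ∃ P Q : E[X], x = aeval θ P / aeval θ Q) :
    ∃ c : ℕ → κ, (∀ j, c j ∈ E) ∧ x = ∑ j ∈ Finset.range n, c j * θ ^ j := by
  have hint : IsIntegral E θ := IsAlgebraic.isIntegral ⟨p, hp, hθ⟩
  obtain ⟨P, Q, rfl⟩ := hx
  have hmem : aeval θ P / aeval θ Q ∈ IntermediateField.adjoin E {θ} := by
    rw [IntermediateField.mem_adjoin_simple_iff]
    exact ⟨P, Q, rfl⟩
  have h1 : aeval θ P / aeval θ Q ∈ Algebra.adjoin E {θ} := by
    rw [← IntermediateField.adjoin_simple_toSubalgebra_of_isAlgebraic hint.isAlgebraic]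
    exact hmem
  rw [Algebra.adjoin_singleton_eq_range_aeval] at h1
  obtain ⟨R, hR⟩ := h1
  have hR' : aeval θ R = aeval θ P / aeval θ Q := hR
  set R' := R %ₘ minpoly E θ with hR'def
  have h2 : aeval θ R' = aeval θ P / aeval θ Q := by
    rw [← hR', hR'def]
    conv_rhs => rw [← modByMonic_add_div R (minpoly E θ)]
    rw [map_add, map_mul, minpoly.aeval, zero_mul, add_zero]
  have hdeg : (minpoly E θ).natDegree ≤ n :=
    (natDegree_le_of_dvd (minpoly.dvd E θ hθ) hp).trans hpn
  have h3 : R'.degree < n := by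
    refine (degree_modByMonic_lt R (minpoly.monic hint)).trans_le ?_
    rw [degree_eq_natDegree (minpoly.ne_zero hint)]
    exact_mod_cast hdeg
  refine ⟨fun j => ((R'.coeff j : E) : κ), fun j => (R'.coeff j).2, ?_⟩
  rw [← h2]
  by_cases hn : n = 0
  · subst hn
    have h4 : R' = 0 := by
      rw [Nat.cast_zero] at h3
      exact degree_eq_bot.1 (Nat.WithBot.lt_zero_iff.1 h3)
    rw [h4, map_zero, Finset.range_zero, Finset.sum_empty]
  have h4 : R'.natDegree < n := by
    by_cases h0 : R' = 0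
    · rw [h0, natDegree_zero]; exact Nat.pos_of_ne_zero hn
    · rwa [degree_eq_natDegree h0, Nat.cast_lt] at h3
  rw [aeval_eq_sum_range' h4]
  refine Finset.sum_congr rfl fun j _ => ?_
  rw [Algebra.smul_def]
  rfl

variable {K : Type*} [Field K] [PerfectField K]

/-- a polynomial relation over the base for almost all points. -/
theorem ae_relation {F : Subfield K} {e θ : K} (he : ¬ IsAlgebraic F e)
    (hθ : IsAlgebraic (Vale.Agent.P019.adj F e) θ) :
    ∃ n : ℕ, ∀ᶠ a in ae F, ∀ W : ValuationSubring K, Over W F e a → θ ∈ W →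
      ∃ p : F[X], p ≠ 0 ∧ p.natDegree ≤ n ∧ W.valuation (aeval θ p) < 1 := by
  classical
  obtain ⟨Q, hQ0, hQ⟩ := hθ
  set n := Q.natDegree with hn
  obtain ⟨D, hD0, hDA⟩ := common_den he (fun i => ((Q.coeff i : Vale.Agent.P019.adj F e) : K))
    (Finset.range (n + 1)) (fun i _ => (Q.coeff i).2)
  choose! A hA using hDA
  have hDe : aeval e D ≠ 0 := aeval_ne_of_transc he hD0
  have hsum : ∑ i ∈ Finset.range (n + 1), aeval e (A i) * θ ^ i = 0 := by
    have h1 : ∑ i ∈ Finset.range (n + 1), aeval e (A i) * θ ^ i =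
        aeval e D * ∑ i ∈ Finset.range (n + 1),
          ((Q.coeff i : Vale.Agent.P019.adj F e) : K) * θ ^ i := by
      rw [Finset.mul_sum]
      refine Finset.sum_congr rfl fun i hi => ?_
      rw [hA i hi]; ring
    rw [h1, ← aeval_eq_sum_le le_rfl θ, hQ, mul_zero]
  have hAn : A n ≠ 0 := by
    intro h0
    have h1 := hA n (Finset.mem_range.2 (Nat.lt_succ_self n))
    rw [h0, map_zero] at h1
    have h2 : ((Q.coeff n : Vale.Agent.P019.adj F e) : K) ≠ 0 := by
      intro h3
      rw [hn, coeff_natDegree] at h3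
      exact hQ0 (leadingCoeff_eq_zero.1 (Subtype.ext h3))
    exact mul_ne_zero hDe h2 h1.symm
  refine ⟨n, ?_⟩
  rw [ae_iff]
  refine Set.Finite.subset (((A n).rootSet_finite K)) ?_
  rintro a ⟨haF, ha⟩
  by_contra hroot
  apply ha
  intro W hW hθW
  have hne : (A n).eval (⟨a, haF⟩ : F) ≠ 0 := by
    intro h0
    apply hroot
    rw [mem_rootSet]
    refine ⟨hAn, ?_⟩
    have h1 : aeval a (A n) = algebraMap F K ((A n).eval (⟨a, haF⟩ : F)) := by
      rw [← aeval_algebraMap_apply_eq_algebraMap_eval]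
      rfl
    rw [h1, h0, map_zero]
  refine ⟨∑ i ∈ Finset.range (n + 1), C ((A i).eval (⟨a, haF⟩ : F)) * X ^ i, ?_, ?_, ?_⟩
  · intro h0
    have h1 := congrArg (fun p => p.coeff n) h0
    simp only [finsetSum_coeff, coeff_C_mul, coeff_X_pow, mul_ite, mul_one, mul_zero,
      coeff_zero] at h1
    rw [Finset.sum_ite_eq, if_pos (Finset.mem_range.2 (Nat.lt_succ_self n))] at h1
    exact hne h1
  · refine natDegree_sum_le_of_forall_le _ _ fun i hi => ?_
    exact (natDegree_C_mul_X_pow_le _ _).trans (Nat.lt_succ_iff.1 (Finset.mem_range.1 hi))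
  · have h1 : aeval θ (∑ i ∈ Finset.range (n + 1), C ((A i).eval (⟨a, haF⟩ : F)) * X ^ i) =
        ∑ i ∈ Finset.range (n + 1), (aeval a (A i) - aeval e (A i)) * θ ^ i := by
      have h2 : ∑ i ∈ Finset.range (n + 1), (aeval a (A i) - aeval e (A i)) * θ ^ i =
          ∑ i ∈ Finset.range (n + 1), aeval a (A i) * θ ^ i := by
        simp only [sub_mul, Finset.sum_sub_distrib, hsum, sub_zero]
      rw [h2, map_sum]
      refine Finset.sum_congr rfl fun i _ => ?_
      rw [map_mul, map_pow, aeval_X, aeval_C]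
      congr 1
      rw [← aeval_algebraMap_apply_eq_algebraMap_eval]
      rfl
    rw [h1]
    have hlt : ∀ B : F[X], W.valuation (aeval a B - aeval e B) < 1 := by
      intro B
      have heW : e ∈ W := hW.mem haF
      have haW : a ∈ W := hW.triv a haF
      have h3 : (X - C (⟨a, haF⟩ : F)) ∣ (B - C (B.eval ⟨a, haF⟩)) := by
        rw [dvd_iff_isRoot]
        simp
      obtain ⟨S, hS⟩ := h3
      have h4 := congrArg (aeval e) hS
      rw [map_sub, map_mul, map_sub, aeval_X, aeval_C, aeval_C] at h4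
      have h5 : aeval a B = algebraMap F K (B.eval ⟨a, haF⟩) := by
        rw [← aeval_algebraMap_apply_eq_algebraMap_eval]
        rfl
      have h6 : aeval a B - aeval e B = -((e - a) * aeval e S) := by
        rw [h5]
        have h7 : algebraMap F K (⟨a, haF⟩ : F) = a := rfl
        rw [h7] at h4
        rw [← h4]; ring
      rw [h6, Valuation.map_neg, map_mul]
      refine mul_lt_one_of_lt_of_le hW.lt ?_
      have h8 : aeval e S ∈ W := by
        rw [aeval_eq_sum_le le_rfl e]
        refine sum_mem fun i _ => mul_mem (hW.triv _ (S.coeff i).2) (pow_mem heW i)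
      exact (W.valuation_le_one_iff _).2 h8
    refine Valuation.map_sum_lt _ one_ne_zero fun i _ => ?_
    rw [map_mul, map_pow]
    exact mul_lt_one_of_lt_of_le (hlt (A i))
      (pow_le_one₀ zero_le ((W.valuation_le_one_iff _).2 hθW))

/-- bounded representation of residues. -/
theorem Frame.repr {k G : Subfield K} {e s : K} (h : Frame k G e s)
    (hfg : FG k (⊤ : Subfield K)) :
    ∃ (θ : K) (n : ℕ), ∀ᶠ a in ae (adj G s), ∀ W : ValuationSubring K,
      Over W (adj G s) e a → θ ∈ W ∧ ∀ z ∈ W, ∃ c : ℕ → K, (∀ j, c j ∈ adj G s) ∧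
        W.valuation (z - ∑ j ∈ Finset.range n, c j * θ ^ j) < 1 := by
  obtain ⟨θ, hθ⟩ := h.nice hfg
  obtain ⟨n, hn⟩ := ae_relation h.tt (isAlgebraic_adj.1 (h.alg θ))
  refine ⟨θ, n, ?_⟩
  filter_upwards [hθ, hn] with a h1 h2 W hW
  have hN := h1 W hW
  refine ⟨hN.mem, fun z hz => ?_⟩
  obtain ⟨p, hp0, hpn, hpv⟩ := h2 W hW hN.mem
  obtain ⟨P, Q, hQ, hPQ⟩ := hN.rs_eq_div (rs W z)
  -- the image of the base field
  have e1 := rs_aeval hN.triv hN.mem
  obtain ⟨c, hc, hcz⟩ := repr_lt (κ := IsLocalRing.ResidueField W) (E := bar hN.triv)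
    (θ := rs W θ) (n := n) (p := p.map (barEquiv hN.triv).toRingHom) (by
      rw [Ne, Polynomial.map_eq_zero]
      exact hp0) (natDegree_map_le.trans hpn) (by
      rw [← e1 p, rs_eq_zero]
      · exact hpv
      · exact (W.valuation_le_one_iff _).1 hpv.le) (x := rs W z) (by
      refine ⟨P.map (barEquiv hN.triv).toRingHom,
        Q.map (barEquiv hN.triv).toRingHom, ?_⟩
      rw [hPQ, e1 P, e1 Q])
  choose c' hc' hcc using fun j => (mem_bar hN.triv).1 (hc j)
  refine ⟨c', hc', ?_⟩
  have hmem : ∀ j, c' j ∈ W := fun j => hN.triv _ (hc' j)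
  have hmem2 : ∀ j, c' j * θ ^ j ∈ W := fun j => mul_mem (hmem j) (pow_mem hN.mem j)
  have hsum : ∀ T : Finset ℕ, rs W (∑ j ∈ T, c' j * θ ^ j) =
      ∑ j ∈ T, rs W (c' j) * rs W θ ^ j := by
    classical
    intro T
    induction T using Finset.induction_on with
    | empty => rw [Finset.sum_empty, Finset.sum_empty, rs_zero]
    | insert a T ha ih =>
      rw [Finset.sum_insert ha, Finset.sum_insert ha, rs_add (hmem2 a)
        (sum_mem fun j _ => hmem2 j), ih, rs_mul (hmem a) (pow_mem hN.mem a), rs_pow hN.mem]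
  rw [← rs_eq_zero (sub_mem hz (sum_mem fun j _ => hmem2 j)),
    rs_sub hz (sum_mem fun j _ => hmem2 j), hsum, hcz, sub_eq_zero]
  refine Finset.sum_congr rfl fun j _ => ?_
  rw [hcc]

end Vale.Agent.P019P
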