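import Vale.Agent.P019Q.K0
import Vale.Agent.P019Q.UAlg
import Vale.Agent.P019Q.URac
import Vale.Agent.P019Q.URepr
import Vale.Agent.P019P.Kummer

/-!
# Residues over infinitely many points
-/

namespace Vale.Agent.P019P

open Vale.Agent.P019

set_option linter.style.haveILetI false
set_option linter.unusedSectionVars false

open Polynomial Filter

variable {K : Type*} [Field K] [PerfectField K] {ℓ : ℕ} [Fact ℓ.Prime] [NeZero (ℓ : K)]

section residues

variable {I : Type*} {U : Ultrafilter I} {W : I → ValuationSubring K}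

/-- residues of members of the ultraproduct are generated by `F*` and the field. -/
theorem ulr_mem (hu : Ulu U W) {F : Subfield K}
    (hFO : ∀ x ∈ uSub U (fun _ => F), x ∈ (ulP U W).O) {θ : K} {n : ℕ} {w : I → K}
    (hw : ∀ᶠ i in U, w i ∈ W i)
    (h : ∀ᶠ i in U, θ ∈ W i ∧ ∃ c : ℕ → K, (∀ j, c j ∈ F) ∧
      (W i).valuation (w i - ∑ j ∈ Finset.range n, c j * θ ^ j) < 1) :
    (ulP U W).ev (gm U w) ∈ (ulP U W).im (uSub U (fun _ => F)) hFO ⊔
      (⊤ : Subfield K).map hu.j := by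
  have h2 : ∀ i, ∃ c : ℕ → K, (∀ j, c j ∈ F) ∧ ((∃ c : ℕ → K, (∀ j, c j ∈ F) ∧
      (W i).valuation (w i - ∑ j ∈ Finset.range n, c j * θ ^ j) < 1) →
      (W i).valuation (w i - ∑ j ∈ Finset.range n, c j * θ ^ j) < 1) := by
    intro i
    by_cases hc : ∃ c : ℕ → K, (∀ j, c j ∈ F) ∧
      (W i).valuation (w i - ∑ j ∈ Finset.range n, c j * θ ^ j) < 1
    · obtain ⟨c, hc1, hc2⟩ := hc
      exact ⟨c, hc1, fun _ => hc2⟩
    · exact ⟨fun _ => 0, fun _ => F.zero_mem, fun h' => absurd h' hc⟩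
  choose c hcF hc using h2
  have hcO : ∀ j, gm U (fun i => c i j) ∈ (ulP U W).O := fun j =>
    hFO _ ⟨fun i => c i j, rfl, fun i => hcF i j⟩
  have hθO := hu.gc_mem θ
  have hmem : ∀ j, gm U (fun i => c i j) * gc U θ ^ j ∈ (ulP U W).O := fun j =>
    mul_mem (hcO j) (pow_mem hθO j)
  have hsum : gm U (fun i => ∑ j ∈ Finset.range n, c i j * θ ^ j) =
      ∑ j ∈ Finset.range n, gm U (fun i => c i j) * gc U θ ^ j := by
    rw [gm_sum]
    refine Finset.sum_congr rfl fun j _ => ?_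
    rw [gm_mul, gc_apply, ← gm_pow]
  have hsO : ∀ᶠ i in U, ∑ j ∈ Finset.range n, c i j * θ ^ j ∈ W i := by
    rw [← gm_mem_uVal, hsum]
    exact sum_mem fun j _ => hmem j
  have e1 : (ulP U W).ev (gm U w) =
      (ulP U W).ev (gm U (fun i => ∑ j ∈ Finset.range n, c i j * θ ^ j)) := by
    rw [ulP_ev_eq hw hsO]
    exact h.mono fun i hi => hc i hi.2
  rw [e1, hsum, Pl.ev_sum _ _ _ (fun j _ => hmem j)]
  refine sum_mem fun j _ => ?_
  rw [Pl.ev_mul _ (hcO j) (pow_mem hθO j), Pl.ev_pow _ hθO]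
  refine mul_mem ?_ (pow_mem ?_ j)
  · refine (le_sup_left : (ulP U W).im (uSub U (fun _ => F)) hFO ≤ _) ?_
    exact Pl.ev_mem_im _ _ ⟨fun i => c i j, rfl, fun i => hcF i j⟩
  · exact (le_sup_right : (⊤ : Subfield K).map hu.j ≤ _) ⟨θ, Subfield.mem_top _, rfl⟩

theorem im_sup_le {Γ Ω : Type*} [Field Γ] [PerfectField Γ] [Field Ω] (P : Pl Γ Ω) {A B M : Subfield Γ} {E : Subfield Ω}
    (hM : ∀ x ∈ M, x ∈ P.O) (hA : A ≤ M) (hB : B ≤ M) (hAE : ∀ x ∈ A, P.ev x ∈ E)
    (hBE : ∀ x ∈ B, P.ev x ∈ E) (hMAB : M ≤ A ⊔ B) : ∀ x ∈ M, P.ev x ∈ E := by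
  intro x hx
  have h1 : A ⊔ B ≤ resPre P M hM E :=
    sup_le (fun y hy => mem_resPre.2 ⟨hA hy, hAE y hy⟩) (fun y hy => mem_resPre.2 ⟨hB hy, hBE y hy⟩)
  exact (mem_resPre.1 (h1 (hMAB hx))).2

end residues

theorem k1_step {k G : Subfield K} (hk : IsAlgClosed k) (hfg : FG k (⊤ : Subfield K))
    (hG : RatF k G) {s e : K} (hfr : Frame k G e s) {z : K} (hz : z ≠ 0)
    (hinf : {β : K | β ∈ k ∧ ∃ W : ValuationSubring K, Over W (adj G s) e β ∧
      cl ℓ z ∈ U1 ℓ W}.Infinite) :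
    cl ℓ z ∈ VS ℓ (rac (adj k e)) := by
  classical
  have hℓ : 0 < ℓ := (Fact.out : ℓ.Prime).pos
  haveI : PerfectField k := perfect_of_RAC (RAC_of_isAlgClosed k hk)
  have hF : RatF k (adj G s) := hG.step hfr.ss
  set F := adj G s with hFdef
  have hkF : k ≤ F := hF.le
  set S := {β : K | β ∈ k ∧ ∃ W : ValuationSubring K, Over W F e β ∧ cl ℓ z ∈ U1 ℓ W} with hS
  haveI : Infinite S := hinf.to_subtype
  set U : Ultrafilter S := hyperfilter S with hU
  choose W hW hWU using fun i : S => i.2.2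
  have hSF : ∀ a ∈ S, a ∈ F := fun a ha => hkF ha.1
  have hu : Ulu U W := fun x hx => (hyper_of_ae hSF (hfr.unit hx)).mono fun i h => h (W i) (hW i)
  have hFO : ∀ x ∈ uSub U (fun _ => F), x ∈ (ulP U W).O :=
    ulP_triv (Eventually.of_forall fun i => (hW i).triv)
  have hkO : ∀ x ∈ uSub U (fun _ => k), x ∈ (ulP U W).O := fun x hx => hFO x (uSub_mono hkF hx)
  set P := ulP U W with hP
  set Ω := AlgebraicClosure (IsLocalRing.ResidueField (uVal U W)) with hΩ
  set j : K →+* Ω := hu.j with hj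
  haveI : NeZero (ℓ : Ω) := ⟨by
    rw [← map_natCast j, Ne, map_eq_zero]
    exact NeZero.ne (ℓ : K)⟩
  set R := P.im (uSub U (fun _ => F)) hFO with hR
  set Bs := P.im (uSub U (fun _ => k)) hkO with hBs
  have hBsac : IsAlgClosed Bs := P.isAlgClosed_im hkO (isAlgClosed_uSub fun _ => hk)
  have hBsR : RAC Bs := RAC_of_isAlgClosed Bs hBsac
  haveI : PerfectField Bs := perfect_of_RAC hBsR
  haveI : PerfectField F := hF.perfect
  -- `e` becomes a constant
  have heB : j e ∈ Bs := by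
    have h1 : j e = P.ev (gm U (fun i : S => (i : K))) := by
      have h2 : P.ev (gm U (fun _ : S => e)) = P.ev (gm U (fun i : S => (i : K))) := by
        rw [ulP_ev_eq (Eventually.of_forall fun i => (hW i).mem (hSF i i.2))
          (Eventually.of_forall fun i => (hW i).triv _ (hSF i i.2))]
        exact Eventually.of_forall fun i => (hW i).lt
      exact h2
    rw [h1]
    exact P.ev_mem_im hkO ⟨_, rfl, fun i => i.2.1⟩
  have hkB : k.map j ≤ Bs := by
    rintro _ ⟨x, hx, rfl⟩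
    exact P.ev_mem_im hkO (gc_mem_uSub hx)
  -- the root
  have hzu := hu z hz
  obtain ⟨w, hwO, hwr⟩ := exists_root_of_U1 (U := U) (O := W) hz hzu
    (Eventually.of_forall hWU)
  set r := P.ev (gm U w) with hr
  have hrz : r ^ ℓ = j z := hwr
  obtain ⟨θ, n, hθ⟩ := hfr.repr hfg
  have hr1 : r ∈ R ⊔ (⊤ : Subfield K).map j := by
    refine ulr_mem hu hFO (θ := θ) (n := n) hwO ?_
    filter_upwards [hyper_of_ae hSF hθ, hwO] with i h1 h2
    exact ⟨(h1 (W i) (hW i)).1, (h1 (W i) (hW i)).2 _ h2⟩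
  -- step 2
  set L1 := (⊤ : Subfield K).map j with hL1
  set Fb := F.map j with hFb
  haveI : PerfectField Fb := perfect_map j F
  haveI : PerfectField L1 := perfect_map j _
  have hFbL : Fb ≤ L1 := sub_map_mono j le_top
  have hr2 : r ∈ L1 ⊔ Bs := by
    refine alg_sup (E := Fb ⊔ Bs) (R := R) (B := L1 ⊔ Bs) ?_ (sup_le_sup_right hFbL _) ?_ ?_
      ((sup_le_sup_left le_sup_left R : R ⊔ L1 ≤ R ⊔ (L1 ⊔ Bs)) hr1) ?_
    · refine sup_le ?_ ?_
      · rintro _ ⟨x, hx, rfl⟩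
        exact P.ev_mem_im hFO (gc_mem_uSub hx)
      · intro x hx
        obtain ⟨y, hy, rfl⟩ := P.mem_im.1 hx
        exact P.ev_mem_im hFO (uSub_mono hkF hy)
    · intro x hx halg
      obtain ⟨y, hy, rfl⟩ := P.mem_im.1 hx
      set M' : Subfield (Gm U K) := F.map (gc U) ⊔ uSub U (fun _ => k) with hM'
      have hM'le : M' ≤ uSub U (fun _ => F) := sup_le (map_gc_le F) (uSub_mono hkF)
      have hM'O : ∀ x ∈ M', x ∈ P.O := fun x hx => hFO x (hM'le hx)
      have hle : Fb ⊔ Bs ≤ P.im M' hM'O := by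
        refine sup_le ?_ ?_
        · rintro _ ⟨x, hx, rfl⟩
          exact P.ev_mem_im hM'O ((le_sup_left : F.map (gc U) ≤ M')
            (Subfield.mem_map.2 ⟨x, hx, rfl⟩))
        · intro x hx
          obtain ⟨y, hy, rfl⟩ := P.mem_im.1 hx
          exact P.ev_mem_im hM'O ((le_sup_right : uSub U (fun _ => k) ≤ M') hy)
      have h1 := Pl.isAlgebraic_of_im P hFO hM'le hy (isAlgebraic_mono hle halg)
      have h2 : y ∈ M' := hF.rac_gm y hy h1
      refine im_sup_le P hM'O (A := F.map (gc U)) (B := uSub U (fun _ => k)) le_sup_left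
        le_sup_right ?_ ?_ le_rfl y h2
      · intro x hx
        obtain ⟨y, hy, rfl⟩ := Subfield.mem_map.1 hx
        exact (le_sup_left : Fb ≤ Fb ⊔ Bs) ⟨y, hy, rfl⟩
      · intro x hx
        exact (le_sup_right : Bs ≤ Fb ⊔ Bs) (P.ev_mem_im hkO hx)
    · have hle : adj Fb (j e) ≤ Fb ⊔ Bs := adj_le le_sup_left ((le_sup_right : Bs ≤ Fb ⊔ Bs) heB)
      have hL : L1 ⊔ Bs ≤ rac (Fb ⊔ Bs) := by
        refine sup_le ?_ (le_sup_right.trans (le_rac _))
        rintro _ ⟨x, -, rfl⟩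
        refine mem_rac.2 (isAlgebraic_mono ?_ (isAlgebraic_map j (hfr.alg x)))
        exact (map_adj_le j _ _).trans hle
      exact fun b hb => mem_rac.1 (hL hb)
    · have hle : adj Fb (j e) ≤ Fb ⊔ Bs := adj_le le_sup_left ((le_sup_right : Bs ≤ Fb ⊔ Bs) heB)
      refine IsAlgebraic.of_pow hℓ ?_
      rw [hrz]
      exact isAlgebraic_mono ((map_adj_le j _ _).trans hle) (isAlgebraic_map j (hfr.alg z))
  -- step 3
  set l1 := k.map j with hl1
  set T := rac (adj l1 (j e)) with hT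
  have hTB : T ≤ Bs := RAC_adj_le hBsR hkB heB
  have hlT : l1 ≤ T := (le_adj _ _).trans (le_rac _)
  have heT : j e ∈ T := le_rac _ (mem_adj _ _)
  have hfree : Fre T (L1 ⊔ T) Bs := by
    intro N hN hTN hNB a ha halg
    refine RatF.free_gm hu hFO hkF hN (hlT.trans hTN) hNB ha hF le_rfl ?_
    have h1 : (L1 ⊔ T) ⊔ N ≤ rac (N ⊔ F.map hu.j) := by
      refine sup_le (sup_le ?_ (hTN.trans (le_sup_left.trans (le_rac _))))
        (le_sup_left.trans (le_rac _))
      rintro _ ⟨x, -, rfl⟩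
      refine mem_rac.2 (isAlgebraic_mono ?_ (isAlgebraic_map j (hfr.alg x)))
      refine (map_adj_le j _ _).trans ?_
      haveI : PerfectField N := perfect_of_RAC hN
      exact adj_le le_sup_right ((le_sup_left : N ≤ N ⊔ F.map j) (hTN heT))
    exact mem_rac.1 (RAC_rac _ _ (isAlgebraic_mono h1 halg))
  have hr3 : r ∈ L1 ⊔ T := by
    refine rac_sup_gen (RAC_rac _) le_sup_right hTB hBsac hfree
      ((sup_le_sup_right le_sup_left Bs : L1 ⊔ Bs ≤ (L1 ⊔ T) ⊔ Bs) hr2) ?_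
    refine IsAlgebraic.of_pow hℓ (isAlgebraic_of_mem ?_)
    rw [hrz]
    exact (le_sup_left : L1 ≤ L1 ⊔ T) ⟨z, Subfield.mem_top z, rfl⟩
  -- step 4
  obtain ⟨ζ, hζk, hζ⟩ := finK_prim hk ℓ
  have hζ' : IsPrimitiveRoot (j ζ) ℓ := hζ.map_of_injective j.injective
  have hadjE : adj l1 (j e) ≤ L1 ⊓ T := by
    refine le_inf ?_ (le_rac _)
    exact adj_le (sub_map_mono j le_top) ⟨e, Subfield.mem_top e, rfl⟩
  obtain ⟨a, ha, b, hb, hab⟩ := kummer_descent ℓ (L1 ⊓ T) L1 T inf_le_left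
    (fun x hx halg => Subfield.mem_inf.2 ⟨hx, RAC_rac _ x (isAlgebraic_mono inf_le_right halg)⟩)
    (fun b hb => isAlgebraic_mono hadjE (mem_rac.1 hb)) (j ζ)
    (hadjE (le_adj _ _ ⟨ζ, hζk, rfl⟩)) hζ' (h := j z) (r := r) ⟨z, Subfield.mem_top z, rfl⟩
    (by rw [Ne, map_eq_zero]; exact hz) hr3 hrz
  obtain ⟨haL, haT⟩ := Subfield.mem_inf.1 ha
  obtain ⟨a₀, -, rfl⟩ := haL
  obtain ⟨b₀, -, rfl⟩ := hb
  have hzab : z = a₀ * b₀ ^ ℓ := by
    apply j.injective
    rw [map_mul, map_pow]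
    exact hab
  have haE : a₀ ∈ rac (adj k e) := by
    rw [mem_rac]
    apply isAlgebraic_of_map j
    exact isAlgebraic_mono (adj_map_le j k e) (mem_rac.1 haT)
  have ha0 : a₀ ≠ 0 := by
    rintro rfl
    rw [zero_mul] at hzab
    exact hz hzab
  have hb0 : b₀ ≠ 0 := by
    rintro rfl
    rw [zero_pow hℓ.ne', mul_zero] at hzab
    exact hz hzab
  rw [cl_ne_zero_mem_VS hz]
  exact ⟨a₀, haE, ha0, b₀, hb0, hzab⟩

/-- K1: a class which is trivial in the residue fields over infinitely many points of `e` comes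
from the relatively algebraically closed field generated by `e`. -/
theorem k1 {k : Subfield K} (hk : IsAlgClosed k) (hfg : FG k (⊤ : Subfield K)) {F : Subfield K}
    (hF : RatF k F) {e : K} (he : ¬ IsAlgebraic F e) (halg : ∀ z : K, IsAlgebraic (adj F e) z)
    {v : V ℓ K}
    (hinf : {β : K | β ∈ k ∧ ∃ W : ValuationSubring K, Over W F e β ∧ v ∈ U1 ℓ W}.Infinite) :
    v ∈ VS ℓ (rac (adj k e)) := by
  obtain ⟨z, hz, rfl⟩ := cl_surj ℓ v
  cases hF with
  | base =>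
    have h1 : rac (adj k e) = ⊤ := by
      rw [eq_top_iff]
      exact fun z _ => mem_rac.2 (halg z)
    rw [h1]
    exact cl_mem_VS (Subfield.mem_top z)
  | @step G s hG hs =>
    haveI : PerfectField k := perfect_of_RAC (RAC_of_isAlgClosed k hk)
    exact k1_step hk hfg hG ⟨hG.le, hG.fg, he, hs, halg⟩ hz hinf

end Vale.Agent.P019P
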