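import Vale.Agent.P019P.Roots
import Vale.Agent.P019P.Unr
import Mathlib.Order.Filter.FilterProduct

/-!
# Ultrapowers of a field
-/

namespace Vale.Agent.P019P

open Vale.Agent.P019

set_option linter.style.haveILetI false
set_option linter.unusedSectionVars false

open Polynomial Filter

section ger

variable {I : Type*} (U : Ultrafilter I) {L : Type*} [Field L]

/-- the ultrapower. -/
abbrev Gm (U : Ultrafilter I) (L : Type*) := (U : Filter I).Germ L

/-- the class of a family. -/
noncomputable def gm : (I → L) →+* Gm U L := Filter.Germ.coeRingHom (U : Filter I)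

theorem gm_surj (z : Gm U L) : ∃ f : I → L, gm U f = z := by
  induction z using Filter.Germ.inductionOn with
  | h f => exact ⟨f, rfl⟩

variable {U}

theorem gm_eq {f g : I → L} : gm U f = gm U g ↔ ∀ᶠ i in U, f i = g i :=
  Filter.Germ.coe_eq

theorem gm_ne {f g : I → L} : gm U f ≠ gm U g ↔ ∀ᶠ i in U, f i ≠ g i := by
  rw [Ne, gm_eq, Ultrafilter.eventually_not]

theorem gm_eq_zero {f : I → L} : gm U f = 0 ↔ ∀ᶠ i in U, f i = 0 := by
  rw [← map_zero (gm U), gm_eq]; rfl

theorem gm_inv (f : I → L) : gm U (fun i => (f i)⁻¹) = (gm U f)⁻¹ :=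
  Filter.Germ.coe_inv f

theorem gm_mul (f g : I → L) : gm U (fun i => f i * g i) = gm U f * gm U g :=
  map_mul (gm U) f g

theorem gm_add (f g : I → L) : gm U (fun i => f i + g i) = gm U f + gm U g :=
  map_add (gm U) f g

theorem gm_neg (f : I → L) : gm U (fun i => - f i) = - gm U f :=
  map_neg (gm U) f

theorem gm_sub (f g : I → L) : gm U (fun i => f i - g i) = gm U f - gm U g :=
  map_sub (gm U) f g

theorem gm_pow (f : I → L) (n : ℕ) : gm U (fun i => f i ^ n) = gm U f ^ n :=
  map_pow (gm U) f n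

theorem gm_div (f g : I → L) : gm U (fun i => f i / g i) = gm U f / gm U g := by
  rw [div_eq_mul_inv, ← gm_inv, ← gm_mul]
  simp only [div_eq_mul_inv]

theorem gm_sum {ι : Type*} (s : Finset ι) (f : ι → I → L) :
    gm U (fun i => ∑ j ∈ s, f j i) = ∑ j ∈ s, gm U (f j) := by
  rw [← map_sum]
  congr 1
  ext i
  rw [Finset.sum_apply]

variable (U)

/-- the constants. -/
noncomputable def gc : L →+* Gm U L := (gm U).comp (Pi.constRingHom I L)

variable {U}

theorem gc_apply (z : L) : gc U z = gm U (fun _ => z) := rfl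

theorem gc_inj : Function.Injective (gc U : L → Gm U L) := (gc (U := U) (L := L)).injective

theorem ringExpChar_gm : ringExpChar (Gm U L) = ringExpChar L :=
  (ringExpChar_eq_of_hom (gc U : L →+* Gm U L)).symm

instance perfect_gm [PerfectField L] : PerfectField (Gm U L) := by
  haveI : PerfectRing (Gm U L) (ringExpChar (Gm U L)) := PerfectRing.ofSurjective _ _ fun z => by
    obtain ⟨f, rfl⟩ := gm_surj U z
    have h : ∀ i, ∃ y : L, y ^ ringExpChar L = f i := by
      intro i
      obtain ⟨y, -, hy⟩ := exists_root_q (⊤ : Subfield L) (Subfield.mem_top (f i)) 1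
      exact ⟨y, by rwa [pow_one] at hy⟩
    choose y hy using h
    refine ⟨gm U y, ?_⟩
    rw [frobenius_def, ringExpChar_gm, ← gm_pow]
    exact congrArg _ (funext hy)
  exact PerfectRing.toPerfectField (Gm U L) (ringExpChar (Gm U L))

/-- ultraproducts of subfields. -/
def uSub (U : Ultrafilter I) (E : I → Subfield L) : Subfield (Gm U L) where
  carrier := {z | ∃ f : I → L, gm U f = z ∧ ∀ i, f i ∈ E i}
  mul_mem' := by
    rintro _ _ ⟨f, rfl, hf⟩ ⟨g, rfl, hg⟩
    exact ⟨fun i => f i * g i, gm_mul f g, fun i => (E i).mul_mem (hf i) (hg i)⟩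
  one_mem' := ⟨1, map_one _, fun i => (E i).one_mem⟩
  add_mem' := by
    rintro _ _ ⟨f, rfl, hf⟩ ⟨g, rfl, hg⟩
    exact ⟨fun i => f i + g i, gm_add f g, fun i => (E i).add_mem (hf i) (hg i)⟩
  zero_mem' := ⟨0, map_zero _, fun i => (E i).zero_mem⟩
  neg_mem' := by
    rintro _ ⟨f, rfl, hf⟩
    exact ⟨fun i => - f i, gm_neg f, fun i => (E i).neg_mem (hf i)⟩
  inv_mem' := by
    rintro _ ⟨f, rfl, hf⟩
    exact ⟨fun i => (f i)⁻¹, gm_inv f, fun i => (E i).inv_mem (hf i)⟩

theorem gm_mem_uSub {E : I → Subfield L} {f : I → L} :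
    gm U f ∈ uSub U E ↔ ∀ᶠ i in U, f i ∈ E i := by
  classical
  constructor
  · rintro ⟨g, hg, hgE⟩
    exact (gm_eq.1 hg).mono fun i hi => hi ▸ hgE i
  · intro h
    refine ⟨fun i => if f i ∈ E i then f i else 0, ?_, fun i => ?_⟩
    · exact gm_eq.2 (h.mono fun i hi => if_pos hi)
    · dsimp only
      split_ifs with hi
      · exact hi
      · exact (E i).zero_mem

theorem exists_of_mem_uSub {E : I → Subfield L} {z : Gm U L} (h : z ∈ uSub U E) :
    ∃ f : I → L, gm U f = z ∧ ∀ i, f i ∈ E i := h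

/-- ultraproducts of valuation subrings. -/
noncomputable def uVal (U : Ultrafilter I) (O : I → ValuationSubring L) :
    ValuationSubring (Gm U L) where
  carrier := {z | ∃ f : I → L, gm U f = z ∧ ∀ i, f i ∈ O i}
  mul_mem' := by
    rintro _ _ ⟨f, rfl, hf⟩ ⟨g, rfl, hg⟩
    exact ⟨fun i => f i * g i, gm_mul f g, fun i => (O i).mul_mem _ _ (hf i) (hg i)⟩
  one_mem' := ⟨1, map_one _, fun i => (O i).one_mem⟩
  add_mem' := by
    rintro _ _ ⟨f, rfl, hf⟩ ⟨g, rfl, hg⟩
    exact ⟨fun i => f i + g i, gm_add f g, fun i => (O i).add_mem _ _ (hf i) (hg i)⟩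
  zero_mem' := ⟨0, map_zero _, fun i => (O i).zero_mem⟩
  neg_mem' := by
    rintro _ ⟨f, rfl, hf⟩
    exact ⟨fun i => - f i, gm_neg f, fun i => (O i).neg_mem _ (hf i)⟩
  mem_or_inv_mem' := by
    classical
    intro z
    obtain ⟨f, rfl⟩ := gm_surj U z
    rcases U.em (fun i => f i ∈ O i) with h | h
    · left
      refine ⟨fun i => if f i ∈ O i then f i else 0, ?_, fun i => ?_⟩
      · exact gm_eq.2 (h.mono fun i hi => if_pos hi)
      · dsimp only
        split_ifs with hi
        · exact hi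
        · exact (O i).zero_mem
    · right
      refine ⟨fun i => if f i ∈ O i then 0 else (f i)⁻¹, ?_, fun i => ?_⟩
      · rw [← gm_inv]
        exact gm_eq.2 (h.mono fun i hi => if_neg hi)
      · dsimp only
        split_ifs with hi
        · exact (O i).zero_mem
        · exact ((O i).mem_or_inv_mem (f i)).resolve_left hi

theorem gm_mem_uVal {O : I → ValuationSubring L} {f : I → L} :
    gm U f ∈ uVal U O ↔ ∀ᶠ i in U, f i ∈ O i := by
  classical
  constructor
  · rintro ⟨g, hg, hgE⟩
    exact (gm_eq.1 hg).mono fun i hi => hi ▸ hgE i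
  · intro h
    refine ⟨fun i => if f i ∈ O i then f i else 0, ?_, fun i => ?_⟩
    · exact gm_eq.2 (h.mono fun i hi => if_pos hi)
    · dsimp only
      split_ifs with hi
      · exact hi
      · exact (O i).zero_mem

theorem uVal_le_one {O : I → ValuationSubring L} {f : I → L} :
    (uVal U O).valuation (gm U f) ≤ 1 ↔ ∀ᶠ i in U, (O i).valuation (f i) ≤ 1 := by
  rw [ValuationSubring.valuation_le_one_iff, gm_mem_uVal]
  simp only [ValuationSubring.valuation_le_one_iff]

theorem one_lt_uVal {O : I → ValuationSubring L} {f : I → L} :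
    1 < (uVal U O).valuation (gm U f) ↔ ∀ᶠ i in U, 1 < (O i).valuation (f i) := by
  rw [← not_le, uVal_le_one, ← Ultrafilter.eventually_not]
  simp only [not_le]

theorem uVal_lt_one {O : I → ValuationSubring L} {f : I → L} :
    (uVal U O).valuation (gm U f) < 1 ↔ ∀ᶠ i in U, (O i).valuation (f i) < 1 := by
  have key : ∀ {F : Type _} [Field F] (A : ValuationSubring F) (z : F),
      A.valuation z < 1 ↔ z = 0 ∨ 1 < A.valuation z⁻¹ := by
    intro F _ A z
    by_cases hz : z = 0
    · simp [hz]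
    · rw [map_inv₀, one_lt_inv₀ ((Valuation.pos_iff _).2 hz)]
      simp [hz]
  have key' : ∀ (A : ValuationSubring L) (z : L),
      A.valuation z < 1 ↔ z = 0 ∨ 1 < A.valuation z⁻¹ := by
    intro A z
    by_cases hz : z = 0
    · simp [hz]
    · rw [map_inv₀, one_lt_inv₀ ((Valuation.pos_iff _).2 hz)]
      simp [hz]
  rw [key, ← gm_inv, one_lt_uVal, gm_eq_zero, ← Ultrafilter.eventually_or]
  simp only [key']

theorem uVal_eq_one {O : I → ValuationSubring L} {f : I → L} :
    (uVal U O).valuation (gm U f) = 1 ↔ ∀ᶠ i in U, (O i).valuation (f i) = 1 := by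
  rw [le_antisymm_iff, ← not_lt (a := (uVal U O).valuation (gm U f)), uVal_lt_one,
    ← Ultrafilter.eventually_not, uVal_le_one, ← Filter.eventually_and]
  simp only [not_lt, ← le_antisymm_iff]

theorem isAlgClosed_uSub {E : I → Subfield L} (h : ∀ i, IsAlgClosed (E i)) :
    IsAlgClosed (uSub U E) := by
  refine IsAlgClosed.of_exists_root _ ?_
  intro p hmon hirr
  -- lifts of the coefficients
  have h1 : ∀ j, ∃ f : I → L, gm U f = ((p.coeff j : uSub U E) : Gm U L) ∧ ∀ i, f i ∈ E i :=
    fun j => (p.coeff j).2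
  choose f hf hfE using h1
  set n := p.natDegree with hn
  have hn0 : 0 < n := hirr.natDegree_pos
  have h2 : ∀ i, ∃ x : E i, ((x : L)) ^ n + ∑ j ∈ Finset.range n, f j i * (x : L) ^ j = 0 := by
    intro i
    haveI := h i
    let P : (E i)[X] := X ^ n + ∑ j ∈ Finset.range n, C ⟨f j i, hfE j i⟩ * X ^ j
    have hdeg : P.degree = (n : WithBot ℕ) := by
      have h3 : (∑ j ∈ Finset.range n, C (⟨f j i, hfE j i⟩ : E i) * X ^ j).degree <
          (n : WithBot ℕ) := by
        refine (degree_sum_le _ _).trans_lt ?_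
        rw [Finset.sup_lt_iff (by exact_mod_cast WithBot.bot_lt_coe n)]
        intro j hj
        refine (degree_C_mul_X_pow_le _ _).trans_lt ?_
        exact_mod_cast Finset.mem_range.1 hj
      change (X ^ n + ∑ j ∈ Finset.range n, C (⟨f j i, hfE j i⟩ : E i) * X ^ j).degree =
        (n : WithBot ℕ)
      rw [degree_add_eq_left_of_degree_lt]
      · rw [degree_X_pow]
      · rw [degree_X_pow]; exact h3
    obtain ⟨x, hx⟩ := IsAlgClosed.exists_root P (by
      rw [hdeg]; exact_mod_cast hn0.ne')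
    refine ⟨x, ?_⟩
    have h4 : eval x P = 0 := hx
    have h5 := congrArg (Subfield.subtype (E i)) h4
    simp only [P, eval_add, eval_pow, eval_X, eval_finsetSum, eval_mul, eval_C, map_add, map_pow,
      map_sum, map_mul, map_zero, Subfield.subtype_apply] at h5
    exact h5
  choose x hx using h2
  refine ⟨⟨gm U (fun i => (x i : L)), ⟨_, rfl, fun i => (x i).2⟩⟩, ?_⟩
  apply Subtype.ext
  have h6 : ((eval (⟨gm U (fun i => (x i : L)), ⟨_, rfl, fun i => (x i).2⟩⟩ : uSub U E) p :
      uSub U E) : Gm U L) =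
      gm U (fun i => ((x i : L)) ^ n + ∑ j ∈ Finset.range n, f j i * (x i : L) ^ j) := by
    rw [gm_add, gm_pow, gm_sum]
    conv_lhs => rw [hmon.as_sum]
    rw [eval_add, eval_pow, eval_X, eval_finsetSum]
    simp only [eval_mul, eval_C, eval_pow, eval_X, Subfield.coe_add, SubmonoidClass.coe_pow,
      AddSubmonoidClass.coe_finsetSum, Subfield.coe_mul, gm_mul, gm_pow, hf]
    rfl
  change ((eval (⟨gm U (fun i => (x i : L)), ⟨_, rfl, fun i => (x i).2⟩⟩ : uSub U E) p :
      uSub U E) : Gm U L) = 0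
  rw [h6]
  refine (congrArg (gm U) (funext hx)).trans ?_
  exact map_zero (gm U)

end ger

end Vale.Agent.P019P
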