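import Vale.Agent.P019Q.K2
import Vale.Agent.P019Q.UGer
import Vale.Agent.P019P.Asm1

/-!
# Elements of `L` are units for almost all transferred valuations
-/

namespace Vale.Agent.P019P

open Vale.Agent.P019

set_option linter.style.haveILetI false
set_option linter.unusedSectionVars false

open Polynomial Filter

section aeu

variable {L : Type*} [Field L] {Γ : Type*} [LinearOrderedCommGroupWithZero Γ]

/-- for every `p` some element is not algebraic over `l(p)`. -/
theorem aeu_indep {l : Subfield L} (hl : IsAlgClosed l)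
    (htrl : ∃ x y : L, x ∉ l ∧ ¬ IsAlgebraic (adj l x) y) (p : L) :
    ∃ g : L, ¬ IsAlgebraic (adj l p) g := by
  obtain ⟨x, y, hx, hy⟩ := htrl
  by_contra hcon
  push Not at hcon
  exact hy (line_swap (RAC_of_isAlgClosed _ hl) (hcon _) hx (hcon _))

/-- an infinite sequence of nonzero constants on which a valuation is at most one. -/
theorem aeu_seq {l : Subfield L} (hl : IsAlgClosed l) (v : Valuation L Γ) :
    ∃ e : ℕ → L, Function.Injective e ∧ (∀ n, e n ∈ l) ∧ (∀ n, v (e n) ≤ 1) ∧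
      ∀ n, e n ≠ 0 := by
  haveI := hl
  haveI : Infinite l := IsAlgClosed.instInfinite
  have hinf : {c : l | v (c : L) ≤ 1 ∧ c ≠ 0}.Infinite := by
    intro hfin
    have h1 : (Set.univ : Set l) ⊆ {c : l | v (c : L) ≤ 1 ∧ c ≠ 0} ∪
        ((fun c => c⁻¹) '' {c : l | v (c : L) ≤ 1 ∧ c ≠ 0}) ∪ {0} := by
      intro c _
      by_cases hc0 : c = 0
      · exact Or.inr hc0
      · left
        rcases le_or_gt (v (c : L)) 1 with h | h
        · exact Or.inl ⟨h, hc0⟩
        · refine Or.inr ⟨c⁻¹, ⟨?_, inv_ne_zero hc0⟩, inv_inv c⟩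
          have e : ((c⁻¹ : l) : L) = (c : L)⁻¹ := rfl
          rw [e, map_inv₀]
          exact (inv_lt_one_of_one_lt₀ h).le
    exact Set.infinite_univ (((hfin.union (hfin.image _)).union (Set.finite_singleton _)).subset h1)
  let f := hinf.natEmbedding
  refine ⟨fun n => ((f n).1 : L), ?_, fun n => (f n).1.2, fun n => (f n).2.1, fun n h => ?_⟩
  · intro n m h
    exact f.injective (Subtype.ext (Subtype.ext h))
  · exact (f n).2.2 (Subtype.ext h)

/-- elements of the maximal ideal which are generically independent. -/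
theorem aeu_small {l : Subfield L} (hl : IsAlgClosed l)
    (htrl : ∃ x y : L, x ∉ l ∧ ¬ IsAlgebraic (adj l x) y) (v : Valuation L Γ) {z : L}
    (hz0 : z ≠ 0) (hv : v z < 1) (p : L) : ∃ q : L, v q < 1 ∧ ¬ IsAlgebraic (adj l p) q := by
  by_cases h : IsAlgebraic (adj l p) z
  · obtain ⟨g, hgp⟩ := aeu_indep hl htrl p
    have hg0 : g ≠ 0 := by
      rintro rfl
      exact hgp (isAlgebraic_of_mem (Subfield.zero_mem _))
    rw [← mem_rac] at h
    rcases le_or_gt (v g) 1 with h1 | h1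
    · refine ⟨z * g, ?_, ?_⟩
      · rw [map_mul]
        exact mul_lt_one_of_lt_of_le hv h1
      · intro h2
        apply hgp
        rw [← mem_rac] at h2 ⊢
        have e : g = (z * g) / z := by field_simp
        rw [e]
        exact Subfield.div_mem _ h2 h
    · refine ⟨z / g, ?_, ?_⟩
      · rw [map_div₀]
        exact (div_lt_one₀ (lt_trans zero_lt_one h1)).2 (lt_trans hv h1)
      · intro h2
        apply hgp
        rw [← mem_rac] at h2 ⊢
        have e : g = z / (z / g) := by field_simp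
        rw [e]
        exact Subfield.div_mem _ h h2
  · exact ⟨z, hv, h⟩

variable [PerfectField L] {ℓ : ℕ} [Fact ℓ.Prime] [NeZero (ℓ : L)]

/-- the main argument: if the classes of the principal units of a valuation lie in an isotropic
subspace then the valuation is trivial. -/
theorem aeu_main {l : Subfield L} (hl : IsAlgClosed l) (hfgl : FG l (⊤ : Subfield L))
    (htrl : ∃ x y : L, x ∉ l ∧ ¬ IsAlgebraic (adj l x) y) (v : Valuation L Γ)
    (hcls : ∀ y y' : L, v y < 1 → v y' < 1 → Orth (cl ℓ (1 + y)) (cl ℓ (1 + y')))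
    {z : L} (hz0 : z ≠ 0) : ¬ v z < 1 := by
  classical
  intro hzw
  have hℓ : 0 < ℓ := (Fact.out : ℓ.Prime).pos
  have hRl := RAC_of_isAlgClosed _ hl
  obtain ⟨q₁, hwq₁, hq₁k⟩ := aeu_small hl htrl v hz0 hzw 0
  have hq₁k' : q₁ ∉ l := fun h => hq₁k (isAlgebraic_of_mem (le_adj _ _ h))
  obtain ⟨q₂, hwq₂, hq₂k⟩ := aeu_small hl htrl v hz0 hzw q₁
  have hfin := bertini hl hfgl hq₁k' hq₂k
  obtain ⟨ε, hεi, hεk, hεv, hεne⟩ := aeu_seq hl v
  have hgoodnat : ∀ S : Set L, S.Finite → ∃ n : ℕ, ε n ∉ S ∧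
      Good l (q₁ + ε n * q₂) := by
    intro S hS
    have hinf : (Set.range ε).Infinite := Set.infinite_range_of_injective hεi
    obtain ⟨_, ⟨n, rfl⟩, hn⟩ := hinf.exists_notMem_finite (hfin.union hS)
    simp only [Set.mem_union, Set.mem_ofPred_eq, not_or, not_and, not_not] at hn
    exact ⟨n, hn.2, hn.1 (hεk n)⟩
  obtain ⟨n, -, hxg⟩ := hgoodnat ∅ Set.finite_empty
  obtain ⟨m, hmn, hx'g⟩ := hgoodnat {ε n} (Set.finite_singleton _)
  set x : L := q₁ + ε n * q₂ with hx
  set x' : L := q₁ + ε m * q₂ with hx'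
  have hval : ∀ n : ℕ, v (q₁ + ε n * q₂) < 1 := fun n => by
    refine Valuation.map_add_lt _ hwq₁ ?_
    rw [map_mul]
    exact mul_lt_one_of_nonneg_of_lt_one_right (hεv _) zero_le hwq₂
  have hxx' : ¬ IsAlgebraic (adj l x) x' := by
    intro h1
    rw [← mem_rac] at h1
    have hxr : x ∈ rac (adj l x) := le_rac _ (mem_adj _ _)
    have hmn' : ε m - ε n ≠ 0 := sub_ne_zero.2 (fun h => hmn (by simpa using h))
    have h2 : q₂ ∈ rac (adj l x) := by
      have e : q₂ = (x' - x) / (ε m - ε n) := by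
        rw [hx, hx']; field_simp; ring
      rw [e]
      exact Subfield.div_mem _ (Subfield.sub_mem _ h1 hxr)
        (Subfield.sub_mem _ (le_rac _ (le_adj _ _ (hεk m))) (le_rac _ (le_adj _ _ (hεk n))))
    have h3 : q₁ ∈ rac (adj l x) := by
      have e : q₁ = x - ε n * q₂ := by rw [hx]; ring
      rw [e]
      exact Subfield.sub_mem _ hxr (Subfield.mul_mem _ (le_rac _ (le_adj _ _ (hεk n))) h2)
    exact hq₂k (line_swap hRl (mem_rac.1 h3) hq₁k' (mem_rac.1 h2))
  -- classes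
  have hcx : ∀ {w : L}, Good l w → ∀ j : ℕ, cl ℓ (1 + ε j * w) = cl ℓ (w - (-(ε j)⁻¹)) := by
    intro w hw j
    have hjk' : -(ε j)⁻¹ ∈ l := l.neg_mem (l.inv_mem (hεk j))
    have hxc : w - (-(ε j)⁻¹) ≠ 0 := by
      intro h
      apply hw.1
      rw [sub_eq_zero] at h
      rw [h]
      exact hjk'
    have hj0 := hεne j
    have e : 1 + ε j * w = ε j * (w - (-(ε j)⁻¹)) := by field_simp; ring
    rw [e, cl_mul ℓ hj0 hxc, cl_const hl hℓ (hεk j), zero_add]
  have hinf2 : (Set.range (fun j : ℕ => (-(ε j)⁻¹))).Infinite := by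
    refine Set.infinite_range_of_injective ?_
    intro i j hij
    exact hεi (inv_injective (neg_injective hij))
  have hsm : ∀ (j i : ℕ), v (ε j * (q₁ + ε i * q₂)) < 1 := fun j i => by
    rw [map_mul]
    exact mul_lt_one_of_nonneg_of_lt_one_right (hεv _) zero_le (hval i)
  have hj : ∀ j : ℕ, cl ℓ (1 + ε j * x') ∈ VS ℓ (adj l x) := by
    intro j
    have h1 : {β : L | β ∈ l ∧ Orth (cl ℓ (1 + ε j * x')) (cl ℓ (x - β))}.Infinite := by
      refine hinf2.mono ?_
      rintro _ ⟨i, rfl⟩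
      refine ⟨l.neg_mem (l.inv_mem (hεk i)), ?_⟩
      rw [← hcx hxg i]
      exact hcls _ _ (hsm j m) (hsm i n)
    have h2 := k2 hl hfgl hxg.1 hxx' h1
    exact VS_mono (hxg.2.le le_rfl) h2
  -- finiteness
  have hW := int_top ℓ (E₁ := adj l x) (E₂ := adj l x') hl hfgl (le_adj _ _)
    (le_adj _ _) (mem_adj _ _) hxx' (fun z hz => isAlgebraic_of_mem hz)
  have hfin2 : (⋃ u ∈ ((VS ℓ (adj l x) ⊓ VS ℓ (adj l x') : Submodule (ZMod ℓ) (V ℓ L)) :
      Set (V ℓ L)), {c : L | c ∈ l ∧ cl ℓ (x' - c) = u}).Finite :=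
    hW.biUnion (fun v _ => dist_top ℓ hl hfgl hx'g.1 v)
  refine hinf2 (hfin2.subset ?_)
  rintro _ ⟨j, rfl⟩
  have hjk' : -(ε j)⁻¹ ∈ l := l.neg_mem (l.inv_mem (hεk j))
  simp only [Set.mem_iUnion]
  refine ⟨cl ℓ (x' - (-(ε j)⁻¹)), ⟨?_, ?_⟩, hjk', rfl⟩
  · rw [← hcx hx'g j]; exact hj j
  · exact cl_mem_VS (Subfield.sub_mem _ (mem_adj _ _) (le_adj _ _ hjk'))

end aeu

variable {K L : Type*} [Field K] [Field L] [PerfectField K] [PerfectField L] {ℓ : ℕ}
  [Fact ℓ.Prime] [NeZero (ℓ : K)] [NeZero (ℓ : L)] {Θ : V ℓ K ≃ₗ[ZMod ℓ] V ℓ L}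

theorem ae_unit {k : Subfield K} (hk : IsAlgClosed k) (hfgk : FG k (⊤ : Subfield K))
    {l : Subfield L} (hl : IsAlgClosed l) (hfgl : FG l (⊤ : Subfield L)) (hΘ : Compatible Θ)
    (htrl : ∃ x y : L, x ∉ l ∧ ¬ IsAlgebraic (adj l x) y)
    {F : Subfield K} (hF : RatF k F) {t : K} (ht : Good k t) (htF : ¬ IsAlgebraic F t)
    (halg : ∀ z : K, IsAlgebraic (adj F t) z) {z : L} (hz : z ≠ 0) :
    ∀ᶠ b in ae k, ∀ W : ValuationSubring K, Over W F t b →
      ∀ O : ValuationSubring L, Tr Θ W (t - b) O → O.valuation z = 1 := by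
  classical
  rw [ae_iff]
  by_contra hcon
  have hcon' : {b : K | b ∈ k ∧ ¬ ∀ W : ValuationSubring K, Over W F t b →
      ∀ O : ValuationSubring L, Tr Θ W (t - b) O → O.valuation z = 1}.Infinite := hcon
  set I : Set K := {b : K | b ∈ k ∧ ¬ ∀ W : ValuationSubring K, Over W F t b →
      ∀ O : ValuationSubring L, Tr Θ W (t - b) O → O.valuation z = 1} with hI
  have hne : ∀ i : I, ∃ (W : ValuationSubring K) (O : ValuationSubring L), Over W F t i ∧
      Tr Θ W (t - i) O ∧ O.valuation z ≠ 1 := by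
    rintro ⟨b, hbk, hb⟩
    push Not at hb
    obtain ⟨W, hW, O, hO, hz⟩ := hb
    exact ⟨W, O, hW, hO, hz⟩
  choose W O hW hO hOz using hne
  haveI : Infinite I := Set.infinite_coe_iff.2 hcon'
  let U : Ultrafilter I := hyperfilter I
  let v := (uVal U O).valuation.comap (gc U : L →+* Gm U L)
  have hv : ∀ w : L, v w = (uVal U O).valuation (gm U fun _ => w) := fun w => rfl
  have hv1 : v z ≠ 1 := by
    intro h
    rw [hv, uVal_eq_one] at h
    obtain ⟨i, hi⟩ := h.exists
    exact hOz i hi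
  have hcls : ∀ y : L, v y < 1 → Θ.symm (cl ℓ (1 + y)) ∈ VS ℓ (adj k t) := by
    intro y hy
    rw [hv, uVal_lt_one] at hy
    have h1 : {i : I | (O i).valuation y < 1}.Infinite := by
      intro hfin
      exact Filter.notMem_hyperfilter_of_finite hfin hy
    have h2 : {β : K | β ∈ k ∧ ∃ W : ValuationSubring K, Over W F t β ∧
        Θ.symm (cl ℓ (1 + y)) ∈ U1 ℓ W}.Infinite := by
      refine (h1.image (f := fun i : I => (i : K)) Subtype.val_injective.injOn).mono ?_
      rintro _ ⟨i, hi, rfl⟩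
      refine ⟨i.2.1, W i, hW i, ?_⟩
      rw [← (hO i).iff, LinearEquiv.apply_symm_apply]
      exact cl_mem_U1 hi
    exact VS_mono (ht.2.le le_rfl) (k1 hk hfgk hF htF halg h2)
  have horth : ∀ y y' : L, v y < 1 → v y' < 1 → Orth (cl ℓ (1 + y)) (cl ℓ (1 + y')) := by
    intro y y' hy hy'
    have h3 := adj_isotropic (ℓ := ℓ) hk ht.1 _ (hcls y hy) _ (hcls y' hy')
    have h4 := hΘ.orth h3
    rwa [LinearEquiv.apply_symm_apply, LinearEquiv.apply_symm_apply] at h4
  rcases lt_or_gt_of_ne hv1 with h | h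
  · exact aeu_main hl hfgl htrl v horth hz h
  · refine aeu_main hl hfgl htrl v horth (inv_ne_zero hz) ?_
    rw [map_inv₀]
    exact inv_lt_one_of_one_lt₀ h

end Vale.Agent.P019P
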