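import Vale.Agent.P019Q.Defs

/-!
# Composite valuation rings, unique extensions
-/

namespace Vale.Agent.P019P

open Vale.Agent.P019

set_option linter.style.haveILetI false
set_option linter.unusedSectionVars false

open Polynomial Filter

/-- composite valuation ring: the elements of `W` whose residue lies in `P`. -/
noncomputable def compos {K : Type*} [Field K] (W : ValuationSubring K)
    (P : ValuationSubring (IsLocalRing.ResidueField W)) : ValuationSubring K where
  carrier := {z | z ∈ W ∧ rs W z ∈ P}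
  mul_mem' := by
    rintro x y ⟨hx, hx'⟩ ⟨hy, hy'⟩
    exact ⟨mul_mem hx hy, by rw [rs_mul hx hy]; exact mul_mem hx' hy'⟩
  one_mem' := ⟨one_mem _, by rw [rs_one]; exact one_mem _⟩
  add_mem' := by
    rintro x y ⟨hx, hx'⟩ ⟨hy, hy'⟩
    exact ⟨add_mem hx hy, by rw [rs_add hx hy]; exact add_mem hx' hy'⟩
  zero_mem' := ⟨zero_mem _, by rw [rs_zero]; exact zero_mem _⟩
  neg_mem' := by
    rintro x ⟨hx, hx'⟩
    exact ⟨neg_mem hx, by rw [rs_neg hx]; exact neg_mem hx'⟩
  mem_or_inv_mem' := by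
    intro x
    by_cases h0 : W.valuation x = 1
    · have hx := mem_of_val h0
      have h1 : W.valuation x⁻¹ = 1 := by rw [map_inv₀, h0, inv_one]
      rcases P.mem_or_inv_mem (rs W x) with h | h
      · exact Or.inl ⟨hx, h⟩
      · exact Or.inr ⟨mem_of_val h1, by rw [rs_inv h0]; exact h⟩
    · rcases W.mem_or_inv_mem x with h | h
      · left
        have h1 : W.valuation x < 1 := lt_of_le_of_ne ((W.valuation_le_one_iff x).2 h) h0
        exact ⟨h, by rw [(rs_eq_zero h).2 h1]; exact zero_mem _⟩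
      · right
        have h2 : W.valuation x⁻¹ ≠ 1 := by
          rw [map_inv₀]
          intro h3
          exact h0 (inv_eq_one.1 h3)
        have h1 : W.valuation x⁻¹ < 1 := lt_of_le_of_ne ((W.valuation_le_one_iff _).2 h) h2
        exact ⟨h, by rw [(rs_eq_zero h).2 h1]; exact zero_mem _⟩

theorem mem_compos {K : Type*} [Field K] {W : ValuationSubring K}
    {P : ValuationSubring (IsLocalRing.ResidueField W)} {z : K} :
    z ∈ compos W P ↔ z ∈ W ∧ rs W z ∈ P := Iff.rfl

theorem ue_core (A F : Type*) {L : Type*} [CommRing A] [Field F] [Field L] [Algebra A F]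
    [Algebra F L] [Algebra A L] [IsScalarTower A F L] [IsDomain A] [IsFractionRing A F]
    [FiniteDimensional F L] [Algebra.IsSeparable F L] [IsIntegrallyClosed A] {x z : L}
    (hx : Algebra.adjoin F {x} = ⊤) (hAx : IsIntegral A x) (hz : IsIntegral A z)
    (h0 : aeval x (derivative (minpoly F x)) ≠ 0) :
    ∃ f : A[X], aeval x (derivative (minpoly F x)) * z = aeval x f := by
  have h1 : z ∈ (Algebra.traceForm F L).dualSubmodule
      (Subalgebra.toSubmodule (Algebra.adjoin A {x})) := by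
    rw [LinearMap.BilinForm.mem_dualSubmodule]
    intro y hy
    have hy' : IsIntegral A y := adjoin_le_integralClosure hAx hy
    rw [Algebra.traceForm_apply]
    have h2 : IsIntegral A (Algebra.trace F L (z * y)) := Algebra.isIntegral_trace (hz.mul hy')
    obtain ⟨a, ha⟩ := IsIntegrallyClosed.isIntegral_iff.1 h2
    rw [Submodule.mem_one]
    exact ⟨a, ha⟩
  rw [traceForm_dualSubmodule_adjoin A F hx hAx] at h1
  obtain ⟨w, hw, hw'⟩ := h1
  change w ∈ Algebra.adjoin A {x} at hw
  rw [Algebra.adjoin_singleton_eq_range_aeval] at hw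
  obtain ⟨f, hf⟩ := hw
  refine ⟨f, ?_⟩
  change aeval x f = w at hf
  change (aeval x (derivative (minpoly F x)))⁻¹ • w = z at hw'
  rw [hf, ← hw', smul_eq_mul, mul_inv_cancel_left₀ h0]

theorem ue_lt_iff {K : Type*} [Field K] {M : Subfield K} {O₁ O₂ : ValuationSubring K}
    (hO : ∀ z ∈ M, z ∈ O₁ ↔ z ∈ O₂) {y : K} (hy : y ∈ M) :
    O₁.valuation y < 1 ↔ O₂.valuation y < 1 := by
  by_cases h0 : y = 0
  · simp [h0]
  have h1 : ∀ O : ValuationSubring K, O.valuation y < 1 ↔ y⁻¹ ∉ O := by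
    intro O
    rw [← O.valuation_le_one_iff, map_inv₀, not_le, one_lt_inv₀]
    exact (Valuation.pos_iff _).2 h0
  rw [h1, h1, hO _ (M.inv_mem hy)]

theorem ue_eq_iff {K : Type*} [Field K] {M : Subfield K} {O₁ O₂ : ValuationSubring K}
    (hO : ∀ z ∈ M, z ∈ O₁ ↔ z ∈ O₂) {y : K} (hy : y ∈ M) :
    O₁.valuation y = 1 ↔ O₂.valuation y = 1 := by
  have h1 := ue_lt_iff hO hy
  have h2 := hO y hy
  rw [← O₁.valuation_le_one_iff, ← O₂.valuation_le_one_iff] at h2
  rw [eq_iff_le_not_lt, eq_iff_le_not_lt, h1, h2]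

theorem ue_pow {K : Type*} [Field K] {O : ValuationSubring K} {a b : K} (ha : a ∈ O)
    (hb : b ∈ O) (h : O.valuation (a - b) < 1) (i : ℕ) : O.valuation (a ^ i - b ^ i) < 1 := by
  rw [← geom_sum₂_mul, map_mul]
  refine lt_of_le_of_lt (mul_le_of_le_one_left' ?_) h
  rw [O.valuation_le_one_iff]
  exact sum_mem fun j _ => mul_mem (pow_mem ha _) (pow_mem hb _)

theorem ue_poly {K : Type*} [Field K] {M : Subfield K} {O : ValuationSubring K} {a b : K}
    (ha : a ∈ O) (hb : b ∈ O) (h : O.valuation (a - b) < 1) {f : M[X]}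
    (hf : ∀ i, ((f.coeff i : M) : K) ∈ O) : O.valuation (aeval a f - aeval b f) < 1 := by
  rw [aeval_eq_sum_range, aeval_eq_sum_range, ← Finset.sum_sub_distrib]
  apply Valuation.map_sum_lt _ one_ne_zero
  intro i _
  rw [← smul_sub, Algebra.smul_def, map_mul]
  refine lt_of_le_of_lt (mul_le_of_le_one_left' ?_) (ue_pow ha hb h i)
  rw [O.valuation_le_one_iff]
  exact hf i

theorem ue_unit {K : Type*} [Field K] {M : Subfield K} {O : ValuationSubring K} {a b : K}
    (ha : a ∈ O) (hb : b ∈ O) (h : O.valuation (a - b) < 1) {f : M[X]}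
    (hf : ∀ i, ((f.coeff i : M) : K) ∈ O) :
    O.valuation (aeval a f) = 1 ↔ O.valuation (aeval b f) = 1 := by
  have h1 := ue_poly ha hb h hf
  constructor
  · intro h2
    rw [← h2] at h1
    rw [← h2]
    exact (Valuation.map_eq_of_sub_lt _ (by rwa [Valuation.map_sub_swap] at h1))
  · intro h2
    rw [← h2] at h1
    rw [← h2]
    exact (Valuation.map_eq_of_sub_lt _ h1)


/-- splitting a relation at the last unit coefficient. -/
theorem ue_split {K : Type*} [Field K] {z : K} {n k : ℕ} (hk : k ≤ n) (e : ℕ → K)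
    (h : ∑ j ∈ Finset.range (n + 1), e j * z ^ j = 0) (h1 : e k = 1) :
    ∃ b : K, (b = (∑ i ∈ Finset.range (n - k), e (k + (i + 1)) * z ^ (i + 1)) + 1) ∧
      (z ≠ 0 → b * z = -∑ j ∈ Finset.range k, e j * z⁻¹ ^ (k - 1 - j)) := by
  refine ⟨_, rfl, fun hz => ?_⟩
  have h2 : n + 1 = k + (n - k + 1) := by omega
  rw [h2, Finset.sum_range_add, Finset.sum_range_succ'] at h
  rw [add_zero, h1, one_mul] at h
  have h3 : (∑ i ∈ Finset.range (n - k), e (k + (i + 1)) * z ^ (k + (i + 1))) =
      z ^ k * ∑ i ∈ Finset.range (n - k), e (k + (i + 1)) * z ^ (i + 1) := by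
    rw [Finset.mul_sum]
    refine Finset.sum_congr rfl fun i _ => ?_
    rw [pow_add]
    ring
  rw [h3] at h
  set B := ∑ i ∈ Finset.range (n - k), e (k + (i + 1)) * z ^ (i + 1)
  rcases k with _ | k
  · rw [Finset.range_zero, Finset.sum_empty, zero_add, pow_zero, one_mul] at h
    rw [Finset.range_zero, Finset.sum_empty, neg_zero, h, zero_mul]
  · apply mul_left_cancel₀ (pow_ne_zero k hz)
    have h4 : z ^ k * ∑ j ∈ Finset.range (k + 1), e j * z⁻¹ ^ (k + 1 - 1 - j) =
        ∑ j ∈ Finset.range (k + 1), e j * z ^ j := by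
      rw [Finset.mul_sum]
      refine Finset.sum_congr rfl fun j hj => ?_
      have h5 : k = j + (k - j) := by
        have := Finset.mem_range.1 hj
        omega
      have h6 : z ^ k = z ^ j * z ^ (k - j) := by rw [← pow_add, ← h5]
      rw [Nat.add_sub_cancel, inv_pow, h6]
      field_simp
    rw [mul_neg, h4]
    linear_combination h

theorem ue_decomp {K : Type*} [Field K] {M : Subfield K} {V : ValuationSubring K} {z : K}
    (hz : z ∈ V) (halg : IsAlgebraic M z) :
    ∃ b : K, V.valuation b = 1 ∧ b ∈ Vale.Agent.P019.adj M z ∧ ∀ W : ValuationSubring K,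
      (∀ y ∈ M, y ∈ V → y ∈ W) → b ∈ W ∧ b * z ∈ W := by
  by_cases hz0 : z = 0
  · refine ⟨1, map_one _, one_mem _, fun W _ => ⟨one_mem _, ?_⟩⟩
    rw [hz0, mul_zero]
    exact zero_mem _
  obtain ⟨P, hP0, hP⟩ := halg
  obtain ⟨k, hk, hmax⟩ := Finset.exists_max_image P.support
    (fun j => toLex (V.valuation (P.coeff j : K), j)) (Polynomial.support_nonempty.2 hP0)
  have hck : P.coeff k ≠ 0 := Polynomial.mem_support_iff.1 hk
  have hck' : ((P.coeff k : M) : K) ≠ 0 := by
    intro h
    exact hck (Subtype.ext h)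
  have hvk : 0 < V.valuation ((P.coeff k : M) : K) := (Valuation.pos_iff _).2 hck'
  let e : ℕ → K := fun j => ((P.coeff j / P.coeff k : M) : K)
  have heM : ∀ j, e j ∈ M := fun j => SetLike.coe_mem _
  have hve : ∀ j, V.valuation (e j) =
      V.valuation ((P.coeff j : M) : K) / V.valuation ((P.coeff k : M) : K) := by
    intro j
    rw [← map_div₀]
    rfl
  have hek : e k = 1 := by
    change ((P.coeff k / P.coeff k : M) : K) = 1
    rw [div_self hck]
    rfl
  have hle : ∀ j, V.valuation (e j) ≤ 1 ∧ (k < j → V.valuation (e j) < 1) := by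
    intro j
    rw [hve]
    by_cases hj : j ∈ P.support
    · have h1 := hmax j hj
      rw [Prod.Lex.toLex_le_toLex] at h1
      rcases h1 with h1 | ⟨h1, h2⟩
      · have h3 := (div_lt_one₀ hvk).2 h1
        exact ⟨h3.le, fun _ => h3⟩
      · dsimp only at h1 h2
        rw [h1, div_self hvk.ne']
        exact ⟨le_rfl, fun h => absurd h (not_lt.2 h2)⟩
    · rw [Polynomial.notMem_support_iff.1 hj]
      simp
  have hsum : ∑ j ∈ Finset.range (P.natDegree + 1), e j * z ^ j = 0 := by
    rw [aeval_eq_sum_range] at hP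
    have h1 : ∑ j ∈ Finset.range (P.natDegree + 1), e j * z ^ j =
        (∑ j ∈ Finset.range (P.natDegree + 1), P.coeff j • z ^ j) / ((P.coeff k : M) : K) := by
      rw [Finset.sum_div]
      refine Finset.sum_congr rfl fun j _ => ?_
      rw [Algebra.smul_def]
      change ((P.coeff j : M) : K) / ((P.coeff k : M) : K) * z ^ j = _
      rw [div_mul_eq_mul_div]
      rfl
    rw [h1, hP, zero_div]
  obtain ⟨b, hb, hbz⟩ := ue_split (Polynomial.le_natDegree_of_mem_supp k hk) e hsum hek
  refine ⟨b, ?_, ?_, fun W hW => ?_⟩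
  · rw [hb, add_comm]
    apply Valuation.map_one_add_of_lt
    apply Valuation.map_sum_lt _ one_ne_zero
    intro i _
    rw [map_mul]
    refine lt_of_le_of_lt (mul_le_of_le_one_right' ?_) ((hle (k + (i + 1))).2 (by omega))
    rw [V.valuation_le_one_iff]
    exact pow_mem hz _
  · rw [hb]
    refine add_mem (Subfield.sum_mem _ fun i _ => ?_) (one_mem _)
    exact mul_mem (P019.le_adj M z (heM _)) (pow_mem (P019.mem_adj M z) _)
  · have heW : ∀ j, e j ∈ W := fun j =>
      hW _ (heM j) ((V.valuation_le_one_iff _).1 (hle j).1)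
    rcases W.mem_or_inv_mem z with h | h
    · have h1 : b ∈ W := by
        rw [hb]
        exact add_mem (sum_mem fun i _ => mul_mem (heW _) (pow_mem h _)) (one_mem _)
      exact ⟨h1, mul_mem h1 h⟩
    · have h1 : b * z ∈ W := by
        rw [hbz hz0]
        exact neg_mem (sum_mem fun i _ => mul_mem (heW _) (pow_mem h _))
      refine ⟨?_, h1⟩
      have h2 : b = b * z * z⁻¹ := by rw [mul_inv_cancel_right₀ hz0]
      rw [h2]
      exact mul_mem h1 h

theorem ue_integral {K : Type*} [Field K] {M : Subfield K} {V : ValuationSubring K} {b : K}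
    (hb : ∀ W : ValuationSubring K, (∀ y ∈ M, y ∈ V → y ∈ W) → b ∈ W) :
    IsIntegral (V.comap (algebraMap M K)) b := by
  let s : Set K := {y | y ∈ M ∧ y ∈ V}
  have h1 : b ∈ (integralClosure (Subring.closure s) K).toSubring := by
    rw [← iInf_valuationSubring_superset, Subring.mem_iInf]
    rintro ⟨W, hW⟩
    exact hb W fun y h1 h2 => hW ⟨h1, h2⟩
  have h2 : IsIntegral (Subring.closure s) b := h1
  have h3 : ∀ y ∈ Subring.closure s, y ∈ M ∧ y ∈ V := by
    intro y hy
    have h4 : Subring.closure s ≤ M.toSubring ⊓ V.toSubring :=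
      Subring.closure_le.2 (fun x hx => hx)
    exact h4 hy
  let φ : Subring.closure s →+* V.comap (algebraMap M K) :=
    { toFun := fun y => ⟨⟨y, (h3 y y.2).1⟩, (h3 y y.2).2⟩
      map_one' := rfl
      map_mul' := fun _ _ => rfl
      map_zero' := rfl
      map_add' := fun _ _ => rfl }
  exact IsIntegral.map_of_comp_eq φ (RingHom.id K) rfl h2

theorem ue_integral_gen {K : Type*} [Field K] {M : Subfield K} {V : ValuationSubring K} {θ : K}
    {P : M[X]} (hP : P.Monic) (hθ : aeval θ P = 0) (hint : ∀ i, ((P.coeff i : M) : K) ∈ V) :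
    IsIntegral (V.comap (algebraMap M K)) θ := by
  have h1 : P ∈ Polynomial.lifts (algebraMap (V.comap (algebraMap M K)) M) := by
    rw [Polynomial.lifts_iff_coeff_lifts]
    intro i
    exact ⟨⟨P.coeff i, hint i⟩, rfl⟩
  obtain ⟨q, hq, -, hqm⟩ := Polynomial.lifts_and_natDegree_eq_and_monic h1 hP
  refine ⟨q, hqm, ?_⟩
  rw [← aeval_def, ← aeval_map_algebraMap M, hq, hθ]

theorem ue_mem {K : Type*} [Field K] {M : Subfield K} {V : ValuationSubring K} {θ : K}
    (h : IsIntegral (V.comap (algebraMap M K)) θ) : θ ∈ V := by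
  let φ : V.comap (algebraMap M K) →+* V :=
    { toFun := fun y => ⟨y.1, y.2⟩
      map_one' := rfl
      map_mul' := fun _ _ => rfl
      map_zero' := rfl
      map_add' := fun _ _ => rfl }
  have h1 : IsIntegral V θ := IsIntegral.map_of_comp_eq φ (RingHom.id K) rfl h
  obtain ⟨y, hy⟩ := IsIntegrallyClosed.isIntegral_iff.1 h1
  rw [← hy]
  exact y.2

theorem ue_bform {K : Type*} [Field K] {M : Subfield K} {θ b : K} (hθ : IsAlgebraic M θ)
    {V : ValuationSubring K} (hint : ∀ i, (((minpoly M θ).coeff i : M) : K) ∈ V)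
    (h0 : aeval θ (derivative (minpoly M θ)) ≠ 0) (hb : b ∈ Vale.Agent.P019.adj M θ)
    (hbi : IsIntegral (V.comap (algebraMap M K)) b) :
    ∃ f : M[X], (∀ i, ((f.coeff i : M) : K) ∈ V) ∧
      aeval θ (derivative (minpoly M θ)) * b = aeval θ f := by
  have hθi : IsIntegral M θ := hθ.isIntegral
  have hsep : IsSeparable M θ := by
    refine (separable_iff_derivative_ne_zero (minpoly.irreducible hθi)).2 ?_
    intro h
    rw [h, map_zero] at h0
    exact h0 rfl
  have i1 : FiniteDimensional M (IntermediateField.adjoin M {θ}) :=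
    IntermediateField.adjoin.finiteDimensional hθi
  have i2 : Algebra.IsSeparable M (IntermediateField.adjoin M {θ}) :=
    (IntermediateField.isSeparable_adjoin_simple_iff_isSeparable M K).2 hsep
  have hbL : b ∈ IntermediateField.adjoin M {θ} := mem_adjoin_simple.2 hb
  have hinj : Function.Injective (algebraMap (IntermediateField.adjoin M {θ}) K) :=
    (algebraMap (IntermediateField.adjoin M {θ}) K).injective
  have hx : Algebra.adjoin M {IntermediateField.AdjoinSimple.gen M θ} = ⊤ :=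
    (IntermediateField.adjoin.powerBasis hθi).adjoin_gen_eq_top
  have hAx : IsIntegral (V.comap (algebraMap M K)) (IntermediateField.AdjoinSimple.gen M θ) :=
    (isIntegral_algebraMap_iff hinj).1 (ue_integral_gen (minpoly.monic hθi)
      (minpoly.aeval M θ) hint)
  have hz : IsIntegral (V.comap (algebraMap M K))
      (⟨b, hbL⟩ : IntermediateField.adjoin M {θ}) := (isIntegral_algebraMap_iff hinj).1 hbi
  have e1 : ((aeval (IntermediateField.AdjoinSimple.gen M θ) (derivative (minpoly M θ)) :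
      IntermediateField.adjoin M {θ}) : K) = aeval θ (derivative (minpoly M θ)) :=
    (IntermediateField.aeval_coe _ _ _).symm
  have h0' : aeval (IntermediateField.AdjoinSimple.gen M θ)
      (derivative (minpoly M (IntermediateField.AdjoinSimple.gen M θ))) ≠ 0 := by
    rw [IntermediateField.minpoly_gen]
    intro h
    rw [h] at e1
    exact h0 e1.symm
  obtain ⟨f, hf⟩ := ue_core (V.comap (algebraMap M K)) M hx hAx hz h0'
  refine ⟨f.map (algebraMap _ M), fun i => ?_, ?_⟩
  · rw [coeff_map]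
    exact (f.coeff i).2
  · rw [aeval_map_algebraMap, ← e1]
    rw [IntermediateField.minpoly_gen] at hf
    have h2 := congrArg (IntermediateField.adjoin M {θ}).val hf
    rw [map_mul] at h2
    exact h2.trans (IntermediateField.aeval_coe _ _ _).symm

theorem ue_half {K : Type*} [Field K] (M : Subfield K) {θ ϑ : K} (hθ : IsAlgebraic M θ)
    (hM : ϑ ∈ M) {O₁ O₂ : ValuationSubring K} (hO : ∀ z ∈ M, z ∈ O₁ ↔ z ∈ O₂)
    (hint : ∀ i, (((minpoly M θ).coeff i : M) : K) ∈ O₁)
    (hθ1 : θ ∈ O₁) (hθ2 : θ ∈ O₂) (hϑ1 : ϑ ∈ O₁)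
    (h₁ : O₁.valuation (θ - ϑ) < 1) (h₂ : O₂.valuation (θ - ϑ) < 1)
    (hder : O₁.valuation (aeval θ (derivative (minpoly M θ))) = 1)
    (hder2 : O₂.valuation (aeval θ (derivative (minpoly M θ))) = 1) {z : K}
    (hz : z ∈ Vale.Agent.P019.adj M θ) (hz1 : z ∈ O₁) : z ∈ O₂ := by
  have hθi : IsIntegral M θ := hθ.isIntegral
  have h0 : aeval θ (derivative (minpoly M θ)) ≠ 0 := by
    intro h
    rw [h, map_zero] at hder
    exact zero_ne_one hder
  have halg : IsAlgebraic M z := by
    have i1 : FiniteDimensional M (IntermediateField.adjoin M {θ}) :=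
      IntermediateField.adjoin.finiteDimensional hθi
    have h1 : IsAlgebraic M (⟨z, mem_adjoin_simple.2 hz⟩ : IntermediateField.adjoin M {θ}) :=
      Algebra.IsAlgebraic.isAlgebraic _
    exact h1.algebraMap
  obtain ⟨b, hb1, hbM, hbW⟩ := ue_decomp hz1 halg
  have hb : b ∈ Vale.Agent.P019.adj M θ := P019.adj_le (P019.le_adj M θ) hz hbM
  obtain ⟨f, hf, hfb⟩ := ue_bform hθ hint h0 hb (ue_integral fun W hW => (hbW W hW).1)
  have hf2 : ∀ i, ((f.coeff i : M) : K) ∈ O₂ := fun i => (hO _ (SetLike.coe_mem _)).1 (hf i)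
  have v1 : O₁.valuation (aeval θ f) = 1 := by rw [← hfb, map_mul, hder, hb1, one_mul]
  have hfM : aeval ϑ f ∈ M := by
    rw [aeval_eq_sum_range]
    refine Subfield.sum_mem _ fun i _ => ?_
    rw [Algebra.smul_def]
    exact mul_mem (SetLike.coe_mem _) (pow_mem hM i)
  have v2 := (ue_unit hθ2 ((hO _ hM).1 hϑ1) h₂ hf2).2
    ((ue_eq_iff hO hfM).1 ((ue_unit hθ1 hϑ1 h₁ hf).1 v1))
  rw [← hfb, map_mul, hder2, one_mul] at v2
  have v3 := (hbW O₂ fun y hy hy1 => (hO y hy).1 hy1).2
  rw [← O₂.valuation_le_one_iff, map_mul, v2, one_mul] at v3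
  exact (O₂.valuation_le_one_iff _).1 v3

/-- uniqueness of unramified extensions. -/
theorem uniq_ext {K : Type*} [Field K] [PerfectField K] (M : Subfield K) {θ ϑ : K}
    (hθ : IsAlgebraic M θ) (htop : ∀ z : K, ∃ n : ℕ,
      z ^ (ringExpChar K) ^ n ∈ Vale.Agent.P019.adj M θ)
    (hM : ϑ ∈ M) {O₁ O₂ : ValuationSubring K} (hO : ∀ z ∈ M, z ∈ O₁ ↔ z ∈ O₂)
    (hint : ∀ i, (((minpoly M θ).coeff i : M) : K) ∈ O₁)
    (h₁ : O₁.valuation (θ - ϑ) < 1) (h₂ : O₂.valuation (θ - ϑ) < 1)
    (hder : O₁.valuation (aeval θ (derivative (minpoly M θ))) = 1) : O₁ = O₂ := by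
  have hθi : IsIntegral M θ := hθ.isIntegral
  have hint2 : ∀ i, (((minpoly M θ).coeff i : M) : K) ∈ O₂ := fun i =>
    (hO _ (SetLike.coe_mem _)).1 (hint i)
  have hθ1 : θ ∈ O₁ := ue_mem (ue_integral_gen (minpoly.monic hθi) (minpoly.aeval M θ) hint)
  have hθ2 : θ ∈ O₂ := ue_mem (ue_integral_gen (minpoly.monic hθi) (minpoly.aeval M θ) hint2)
  have hϑ1 : ϑ ∈ O₁ := by
    have h3 : ϑ = θ - (θ - ϑ) := by ring
    rw [h3]
    exact sub_mem hθ1 ((O₁.valuation_le_one_iff _).1 h₁.le)
  have hϑ2 : ϑ ∈ O₂ := (hO _ hM).1 hϑ1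
  have hd : ∀ O : ValuationSubring K, (∀ i, (((minpoly M θ).coeff i : M) : K) ∈ O) →
      ∀ i, (((derivative (minpoly M θ)).coeff i : M) : K) ∈ O := by
    intro O h i
    rw [coeff_derivative]
    have h4 : (((minpoly M θ).coeff (i + 1) * ((i : M) + 1) : M) : K) =
        (((minpoly M θ).coeff (i + 1) : M) : K) * ((i + 1 : ℕ) : K) := by
      push_cast
      rfl
    rw [h4]
    exact mul_mem (h _) (natCast_mem _ _)
  have hdM : aeval ϑ (derivative (minpoly M θ)) ∈ M := by
    rw [aeval_eq_sum_range]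
    refine Subfield.sum_mem _ fun i _ => ?_
    rw [Algebra.smul_def]
    exact mul_mem (SetLike.coe_mem _) (pow_mem hM i)
  have hder2 : O₂.valuation (aeval θ (derivative (minpoly M θ))) = 1 :=
    (ue_unit hθ2 hϑ2 h₂ (hd O₂ hint2)).2
      ((ue_eq_iff hO hdM).1 ((ue_unit hθ1 hϑ1 h₁ (hd O₁ hint)).1 hder))
  have hpos : ∀ n : ℕ, (ringExpChar K) ^ n ≠ 0 := fun n =>
    pow_ne_zero n (expChar_pos K (ringExpChar K)).ne'
  have hroot : ∀ (O : ValuationSubring K) (z : K) (n : ℕ), z ^ (ringExpChar K) ^ n ∈ O →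
      z ∈ O := by
    intro O z n h
    rw [← O.valuation_le_one_iff, map_pow] at h
    rw [← O.valuation_le_one_iff]
    exact (pow_le_one_iff (hpos n)).1 h
  apply le_antisymm
  · intro z hz
    obtain ⟨n, hn⟩ := htop z
    exact hroot O₂ z n (ue_half M hθ hM hO hint hθ1 hθ2 hϑ1 h₁ h₂ hder hder2 hn (pow_mem hz _))
  · intro z hz
    obtain ⟨n, hn⟩ := htop z
    exact hroot O₁ z n (ue_half M hθ hM (fun y hy => (hO y hy).symm) hint2 hθ2 hθ1 hϑ2 h₂ h₁
      hder2 hder hn (pow_mem hz _))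

end Vale.Agent.P019P
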