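import Vale.Agent.P019Q.CMod

/-!
# The places of the perfect field and those of a model
-/

namespace Vale.Agent.P019P

open Vale.Agent.P019

set_option linter.style.haveILetI false
set_option linter.unusedSectionVars false

open Polynomial IntermediateField

variable {F : Type*} [Field F] [PerfectField F] {k : Subfield F}

private theorem vs_of_pow {K : Type*} [Field K] (O : ValuationSubring K) {z : K} {m : ℕ}
    (hm : m ≠ 0) (h : z ^ m ∈ O) : z ∈ O := by
  rw [← O.valuation_le_one_iff] at h ⊢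
  rw [map_pow] at h
  by_contra hcon
  push Not at hcon
  exact absurd h (not_le.2 (one_lt_pow₀ hcon hm))

private theorem CPlc_qpos (F : Type*) [Field F] (n : ℕ) : ringExpChar F ^ n ≠ 0 :=
  (pow_pos (expChar_pos F _) n).ne'

/-- the valuation ring of the perfect field above a valuation ring of a model. -/
private noncomputable def CPlc_up {E : IntermediateField k F} (hE : Mod k E)
    (A : ValuationSubring E) : ValuationSubring F where
  carrier := {z | ∃ (n : ℕ) (e : E), (e : F) = z ^ ringExpChar F ^ n ∧ e ∈ A}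
  zero_mem' := ⟨0, 0, by simp, A.zero_mem⟩
  one_mem' := ⟨0, 1, by simp, A.one_mem⟩
  add_mem' := by
    rintro z w ⟨n, e, he, hA⟩ ⟨m, e', he', hA'⟩
    refine ⟨n + m, e ^ ringExpChar F ^ m + e' ^ ringExpChar F ^ n, ?_,
      A.add_mem _ _ (pow_mem hA _) (pow_mem hA' _)⟩
    rw [add_pow_expChar_pow]
    push_cast
    rw [he, he', ← pow_mul, ← pow_mul, ← pow_add, ← pow_add, Nat.add_comm m n]
  mul_mem' := by
    rintro z w ⟨n, e, he, hA⟩ ⟨m, e', he', hA'⟩
    refine ⟨n + m, e ^ ringExpChar F ^ m * e' ^ ringExpChar F ^ n, ?_,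
      A.mul_mem _ _ (pow_mem hA _) (pow_mem hA' _)⟩
    rw [mul_pow]
    push_cast
    rw [he, he', ← pow_mul, ← pow_mul, ← pow_add, ← pow_add, Nat.add_comm m n]
  neg_mem' := by
    rintro z ⟨n, e, he, hA⟩
    rcases Nat.even_or_odd (ringExpChar F ^ n) with h | h
    · exact ⟨n, e, by rw [he, h.neg_pow], hA⟩
    · exact ⟨n, -e, by push_cast; rw [he, h.neg_pow], A.neg_mem _ hA⟩
  mem_or_inv_mem' := by
    intro z
    obtain ⟨n, hn⟩ := hE.pf z
    rcases A.mem_or_inv_mem (⟨_, hn⟩ : E) with h | h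
    · exact Or.inl ⟨n, _, rfl, h⟩
    · refine Or.inr ⟨n, _, ?_, h⟩
      rw [inv_pow]
      rfl

private theorem CPlc_mem_up {E : IntermediateField k F} {hE : Mod k E}
    {A : ValuationSubring E} {z : F} :
    z ∈ CPlc_up hE A ↔ ∃ (n : ℕ) (e : E), (e : F) = z ^ ringExpChar F ^ n ∧ e ∈ A := Iff.rfl

private theorem CPlc_coe_mem_up {E : IntermediateField k F} {hE : Mod k E}
    {A : ValuationSubring E} {z : E} : (z : F) ∈ CPlc_up hE A ↔ z ∈ A := by
  constructor
  · rintro ⟨n, e, he, hA⟩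
    have h1 : e = z ^ ringExpChar F ^ n := Subtype.ext (by rw [he]; rfl)
    rw [h1] at hA
    exact vs_of_pow A (CPlc_qpos F n) hA
  · intro h
    exact ⟨0, z, by simp, h⟩

/-- the places of the perfect field correspond to the places of a model. -/
theorem Mod.exists_plc (h : Cv k) {E : IntermediateField k F} (hE : Mod k E) :
    ∃ φ : Plk k E ≃ {O : ValuationSubring F // O ∈ Plc k},
      ∀ (P : Plk k E) (z : E), z ∈ P.1 ↔ (z : F) ∈ (φ P).1 := by
  refine ⟨{ toFun := fun P => ⟨CPlc_up hE P.1, ?_, ?_⟩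
            invFun := fun O => ⟨O.1.comap (algebraMap E F), ?_, ?_⟩
            left_inv := ?_
            right_inv := ?_ }, fun P z => (CPlc_coe_mem_up (hE := hE) (A := P.1) (z := z)).symm⟩
  · intro c hc
    have h1 : ((algebraMap k E ⟨c, hc⟩ : E) : F) ∈ CPlc_up hE P.1 :=
      CPlc_coe_mem_up.2 (P.2.1 ⟨c, hc⟩)
    exact h1
  · intro htop
    apply P.2.2
    rw [eq_top_iff]
    intro z _
    have h1 : (z : F) ∈ CPlc_up hE P.1 := by rw [htop]; trivial
    exact CPlc_coe_mem_up.1 h1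
  · intro a
    exact O.2.1 (a : F) a.2
  · intro htop
    apply O.2.2
    rw [eq_top_iff]
    intro z _
    obtain ⟨n, hn⟩ := hE.pf z
    have h1 : (⟨_, hn⟩ : E) ∈ O.1.comap (algebraMap E F) := by rw [htop]; trivial
    exact vs_of_pow O.1 (CPlc_qpos F n) h1
  · intro P
    apply Subtype.ext
    ext z
    exact CPlc_coe_mem_up (hE := hE)
  · intro O
    apply Subtype.ext
    ext z
    constructor
    · rintro ⟨n, e, he, hA⟩
      have h1 : (e : F) ∈ O.1 := hA
      rw [he] at h1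
      exact vs_of_pow O.1 (CPlc_qpos F n) h1
    · intro hz
      obtain ⟨n, hn⟩ := hE.pf z
      refine ⟨n, ⟨_, hn⟩, rfl, ?_⟩
      exact pow_mem hz (ringExpChar F ^ n)

variable {ℓ : ℕ} [Fact ℓ.Prime] [NeZero (ℓ : F)]

private theorem CPlc_unit_iff {E : IntermediateField k F} [CFF k E] {P : Plk k E}
    {O : ValuationSubring F} (hO : ∀ z : E, z ∈ P.1 ↔ (z : F) ∈ O) {z : E} (hz : z ≠ 0) :
    O.valuation (z : F) = 1 ↔ ord P z = 0 := by
  have hz' : (z : F) ≠ 0 := by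
    intro h
    exact hz (Subtype.ext h)
  have hv : O.valuation (z : F) ≠ 0 := (Valuation.ne_zero_iff _).2 hz'
  have h1 : O.valuation (z : F) ≤ 1 ↔ 0 ≤ ord P z := by
    rw [O.valuation_le_one_iff, ← hO, mem_iff_ord]
    simp [hz]
  have h2 : 1 ≤ O.valuation (z : F) ↔ ord P z ≤ 0 := by
    have h3 : 1 ≤ O.valuation (z : F) ↔ O.valuation ((z⁻¹ : E) : F) ≤ 1 := by
      rw [show ((z⁻¹ : E) : F) = (z : F)⁻¹ from rfl, map_inv₀,
        inv_le_one₀ (zero_lt_iff.2 hv)]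
    rw [h3, O.valuation_le_one_iff, ← hO, mem_iff_ord, ord_inv]
    simp [hz]
  rw [le_antisymm_iff, h1, h2, and_comm, ← le_antisymm_iff]

/-- the classes of units. -/
theorem Mod.mem_UC_iff {E : IntermediateField k F} (hE : Mod k E) [CFF k E] {P : Plk k E}
    {O : ValuationSubring F} (hO : ∀ z : E, z ∈ P.1 ↔ (z : F) ∈ O) {z : E} (hz : z ≠ 0) :
    cl ℓ (z : F) ∈ UC ℓ O ↔ (ℓ : ℤ) ∣ ord P z := by
  have hz' : (z : F) ≠ 0 := by
    intro h
    exact hz (Subtype.ext h)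
  rw [mem_UC]
  constructor
  · rintro ⟨u, hu, h⟩
    have hu0 : u ≠ 0 := by rintro rfl; rw [map_zero] at hu; exact zero_ne_one hu
    obtain ⟨w, hw, h1⟩ := (cl_eq_iff ℓ hz' hu0).1 h
    obtain ⟨n, hn⟩ := hE.pf w
    set e : E := ⟨_, hn⟩ with he
    have he0 : e ≠ 0 := by
      intro h0
      exact pow_ne_zero _ hw (congrArg Subtype.val h0)
    set v : E := z ^ ringExpChar F ^ n * (e ^ ℓ)⁻¹ with hv
    have hv0 : v ≠ 0 := mul_ne_zero (pow_ne_zero _ hz) (inv_ne_zero (pow_ne_zero _ he0))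
    have hvu : (v : F) = u ^ ringExpChar F ^ n := by
      have h3 : (v : F) = (z : F) ^ ringExpChar F ^ n * ((w ^ ringExpChar F ^ n) ^ ℓ)⁻¹ := rfl
      rw [h3, h1, mul_pow, ← pow_mul, ← pow_mul, Nat.mul_comm ℓ, mul_assoc,
        mul_inv_cancel₀ (pow_ne_zero _ hw), mul_one]
    have h4 : ord P v = 0 := by
      rw [← CPlc_unit_iff hO hv0, hvu, map_pow, hu, one_pow]
    have h5 : z ^ ringExpChar F ^ n = v * e ^ ℓ := by
      rw [hv, mul_assoc, inv_mul_cancel₀ (pow_ne_zero _ he0), mul_one]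
    have h6 : ((ringExpChar F ^ n : ℕ) : ℤ) * ord P z = ℓ * ord P e := by
      rw [← ord_pow, h5, ord_mul P hv0 (pow_ne_zero _ he0), h4, zero_add, ord_pow]
    have h7 : (ℓ : ℤ) ∣ ((ringExpChar F ^ n : ℕ) : ℤ) * ord P z := ⟨_, h6⟩
    have hp : Prime (ℓ : ℤ) := Nat.prime_iff_prime_int.1 (Fact.out : ℓ.Prime)
    rcases hp.dvd_or_dvd h7 with h8 | h8
    · exfalso
      apply q_pow_ne_zero ℓ F n
      rw [ZMod.natCast_eq_zero_iff]
      exact_mod_cast h8
    · exact h8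
  · rintro ⟨m, hm⟩
    obtain ⟨π, hπ, h1⟩ := exists_unif P
    have hπ' : (π : F) ≠ 0 := by
      intro h
      exact hπ (Subtype.ext h)
    have hu0 : z * (π ^ m)⁻¹ ^ ℓ ≠ 0 :=
      mul_ne_zero hz (pow_ne_zero _ (inv_ne_zero (zpow_ne_zero _ hπ)))
    refine ⟨((z * (π ^ m)⁻¹ ^ ℓ : E) : F), ?_, ?_⟩
    · rw [CPlc_unit_iff hO hu0, ord_mul P hz (pow_ne_zero _ (inv_ne_zero (zpow_ne_zero _ hπ))),
        ord_pow, ord_inv, ord_zpow, h1, hm]
      ring
    · have h2 : ((z * (π ^ m)⁻¹ ^ ℓ : E) : F) = (z : F) * (((π ^ m)⁻¹ : E) : F) ^ ℓ := rfl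
      have h3 : (((π ^ m)⁻¹ : E) : F) ≠ 0 := by
        intro h
        exact inv_ne_zero (zpow_ne_zero m hπ) (Subtype.ext h)
      rw [h2, cl_mul ℓ hz' (pow_ne_zero _ h3), cl_pow_self, add_zero]

theorem Mod.val_lt_one_iff {E : IntermediateField k F} [CFF k E] {P : Plk k E}
    {O : ValuationSubring F} (hO : ∀ z : E, z ∈ P.1 ↔ (z : F) ∈ O) (z : E) :
    O.valuation (z : F) < 1 ↔ z = 0 ∨ 0 < ord P z := by
  by_cases hz : z = 0
  · subst hz
    simp
  have hz' : (z : F) ≠ 0 := by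
    intro h
    exact hz (Subtype.ext h)
  have hv : O.valuation (z : F) ≠ 0 := (Valuation.ne_zero_iff _).2 hz'
  have h3 : 1 ≤ O.valuation (z : F) ↔ O.valuation ((z⁻¹ : E) : F) ≤ 1 := by
    rw [show ((z⁻¹ : E) : F) = (z : F)⁻¹ from rfl, map_inv₀,
      inv_le_one₀ (zero_lt_iff.2 hv)]
  rw [← not_le, h3, O.valuation_le_one_iff, ← hO, mem_iff_ord, ord_inv]
  simp [hz]

end Vale.Agent.P019P
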