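import Vale.Agent.P019Q.CSep
import Vale.Agent.P019Q.CPlc

/-!
# The number of places over a point
-/

namespace Vale.Agent.P019P

open Vale.Agent.P019

set_option linter.style.haveILetI false
set_option linter.unusedSectionVars false

open Polynomial IntermediateField

variable {F : Type*} [Field F] [PerfectField F] {k : Subfield F}

/-- the number of places over a point. -/
theorem Cv.fib_card (h : Cv k) {x : F} (hx : x ∉ k) :
    {O : ValuationSubring F | O ∈ Plc k ∧ O.valuation x < 1}.Finite ∧
    {O : ValuationSubring F | O ∈ Plc k ∧ O.valuation x < 1}.ncard ≤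
      Module.finrank (adj k x) F := by
  classical
  obtain ⟨E, hxE, hE, -, hfin⟩ := h.exists_sepMod hx
  haveI := hE.cff h
  obtain ⟨φ, hφ⟩ := hE.exists_plc h
  set x' : E := ⟨x, hxE⟩ with hx'
  have hx'k : ∀ a : k, x' ≠ algebraMap k E a := by
    intro a ha
    apply hx
    have h1 : x = (a : F) := congrArg Subtype.val ha
    rw [h1]
    exact a.2
  have hx0 : x' ≠ 0 := by
    intro h0
    apply hx
    have h1 : x = 0 := congrArg Subtype.val h0
    rw [h1]
    exact k.zero_mem
  have hZ := zeros_finite hx'k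
  have hsub : {O : ValuationSubring F | O ∈ Plc k ∧ O.valuation x < 1} ⊆
      (fun P : Plk k E => ((φ P).1 : ValuationSubring F)) '' {P : Plk k E | 0 < ord P x'} := by
    rintro O ⟨hO, hOx⟩
    refine ⟨φ.symm ⟨O, hO⟩, ?_, ?_⟩
    · have h1 := (Mod.val_lt_one_iff (P := φ.symm ⟨O, hO⟩) (O := O) (fun z => by
        have h2 := hφ (φ.symm ⟨O, hO⟩) z
        rwa [Equiv.apply_symm_apply] at h2) x').1 hOx
      exact h1.resolve_left hx0
    · change ((φ (φ.symm ⟨O, hO⟩)).1 : ValuationSubring F) = O
      rw [Equiv.apply_symm_apply]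
  refine ⟨(hZ.image _).subset hsub, ?_⟩
  refine (Set.ncard_le_ncard hsub (hZ.image _)).trans ?_
  refine (Set.ncard_image_le hZ).trans ?_
  rw [hfin, Set.ncard_eq_toFinset_card _ hZ]
  have h1 := sum_ord_le hx'k hZ.toFinset (fun P hP => hZ.mem_toFinset.1 hP)
  have h2 : (hZ.toFinset.card : ℤ) ≤ ∑ P ∈ hZ.toFinset, ord P x' := by
    rw [Finset.card_eq_sum_ones, Nat.cast_sum]
    refine Finset.sum_le_sum fun P hP => ?_
    have h3 : 0 < ord P x' := hZ.mem_toFinset.1 hP
    push_cast
    omega
  exact_mod_cast h2.trans h1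

end Vale.Agent.P019P
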