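import Vale.Agent.P019Q.Defs

/-!
# Valuations of surfaces
-/

namespace Vale.Agent.P019P

open Vale.Agent.P019

set_option linter.style.haveILetI false
set_option linter.unusedSectionVars false

open Polynomial Filter

section rsb

variable {F : Type*} [Field F]

/-- two terms of equal nonzero value in a vanishing sum. -/
theorem rsb_two {O : ValuationSubring F} {ι : Type*} [DecidableEq ι] (s : Finset ι) (f : ι → F)
    (h : ∑ i ∈ s, f i = 0) (hne : ∃ i ∈ s, f i ≠ 0) :
    ∃ i ∈ s, ∃ j ∈ s, i ≠ j ∧ f i ≠ 0 ∧ O.valuation (f i) = O.valuation (f j) := by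
  obtain ⟨i0, hi0, hf0⟩ := hne
  obtain ⟨i, hi, hmax⟩ := s.exists_max_image (fun i => O.valuation (f i)) ⟨i0, hi0⟩
  have hfi : f i ≠ 0 := by
    intro h0
    have h1 := hmax i0 hi0
    rw [h0, map_zero] at h1
    exact hf0 ((Valuation.zero_iff _).1 (le_antisymm h1 zero_le))
  by_contra hcon
  push Not at hcon
  have h2 : ∀ j ∈ s.erase i, O.valuation (f j) < O.valuation (f i) := by
    intro j hj
    rw [Finset.mem_erase] at hj
    exact lt_of_le_of_ne (hmax j hj.2) fun h3 => hcon i hi j hj.2 (Ne.symm hj.1) hfi h3.symm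
  have h3 := Valuation.map_sum_lt O.valuation ((Valuation.ne_zero_iff _).2 hfi) h2
  rw [← Finset.add_sum_erase _ _ hi] at h
  rw [← neg_eq_of_add_eq_zero_right h, Valuation.map_neg] at h3
  exact lt_irrefl _ h3

variable {E : Subfield F} {O : ValuationSubring F} {X : F}

/-- the values of `E(X)`. -/
theorem rsb_val (hO : TrivOn O E) (hX0 : X ≠ 0) (hX : O.valuation X < 1) {a : F}
    (ha : a ∈ IntermediateField.adjoin E {X}) (ha0 : a ≠ 0) :
    ∃ r : ℤ, O.valuation a = O.valuation X ^ r := by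
  obtain ⟨n, c, hc, hc0, h⟩ := exists_residue hO hX hX0 ha ha0
  have h1 := val_of_sub (hO.eq_one hc hc0) h
  refine ⟨-n, ?_⟩
  rw [map_mul, map_zpow₀] at h1
  rw [zpow_neg]
  exact eq_inv_of_mul_eq_one_left h1

/-- independence of the elements whose residues are independent. -/
theorem rsb_indep (hO : TrivOn O E) (hX0 : X ≠ 0) (hX : O.valuation X < 1) {ι : Type*}
    [Fintype ι] {z : ι → F} (hz : ∀ i, z i ∈ O)
    (h : LinearIndependent (bar hO) fun i => rs O (z i)) :
    LinearIndependent (IntermediateField.adjoin E {X}) z := by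
  rw [Fintype.linearIndependent_iff] at h ⊢
  intro a ha
  by_contra hcon
  push Not at hcon
  obtain ⟨i1, hi1⟩ := hcon
  obtain ⟨i0, -, hmax⟩ := Finset.univ.exists_max_image (fun i => O.valuation (a i : F))
    ⟨i1, Finset.mem_univ _⟩
  have ha0 : (a i0 : F) ≠ 0 := by
    intro h0
    have h1 := hmax i1 (Finset.mem_univ _)
    rw [h0, map_zero] at h1
    exact hi1 (Subtype.ext ((Valuation.zero_iff _).1 (le_antisymm h1 zero_le)))
  have hv0 : 0 < O.valuation (a i0 : F) := zero_lt_iff.2 ((Valuation.ne_zero_iff _).2 ha0)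
  have hb : ∀ i, ∃ c : E, O.valuation ((a i : F) / a i0 - c) < 1 := by
    intro i
    refine exists_residue_of_le hO hX hX0 (div_mem (a i).2 (a i0).2) ?_
    rw [map_div₀]
    exact (div_le_one₀ hv0).2 (hmax i (Finset.mem_univ _))
  choose c hc using hb
  have hsum : ∑ i, ((a i : F) / a i0) * z i = 0 := by
    have h1 : ∑ i, ((a i : F) / a i0) * z i = (∑ i, (a i : F) * z i) / a i0 := by
      rw [Finset.sum_div]
      exact Finset.sum_congr rfl fun i _ => by ring
    rw [h1]
    have h2 : ∑ i, (a i : F) * z i = 0 := ha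
    rw [h2, zero_div]
  have hcz : ∀ i, (c i : F) * z i ∈ O := fun i => mul_mem (hO _ (c i).2) (hz i)
  have hlt : O.valuation (∑ i, (c i : F) * z i) < 1 := by
    have h1 : ∑ i, (c i : F) * z i = -∑ i, ((a i : F) / a i0 - c i) * z i := by
      have h2 : ∑ i, ((a i : F) / a i0 - c i) * z i =
          ∑ i, ((a i : F) / a i0) * z i - ∑ i, (c i : F) * z i := by
        rw [← Finset.sum_sub_distrib]
        exact Finset.sum_congr rfl fun i _ => by ring
      rw [h2, hsum, zero_sub, neg_neg]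
    rw [h1, Valuation.map_neg]
    refine Valuation.map_sum_lt _ one_ne_zero fun i _ => ?_
    rw [map_mul]
    exact lt_of_le_of_lt (mul_le_of_le_one_right' ((O.valuation_le_one_iff _).2 (hz i))) (hc i)
  have hrs : ∀ s : Finset ι, ∑ i ∈ s, (c i : F) * z i ∈ O ∧
      rs O (∑ i ∈ s, (c i : F) * z i) = ∑ i ∈ s, rs O (c i : F) * rs O (z i) := by
    classical
    intro s
    induction s using Finset.induction_on with
    | empty => simp [rs_zero, zero_mem]
    | insert i s hi ih =>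
      rw [Finset.sum_insert hi, Finset.sum_insert hi]
      exact ⟨add_mem (hcz i) ih.1, by
        rw [rs_add (hcz i) ih.1, ih.2, rs_mul (hO _ (c i).2) (hz i)]⟩
  have h0 := (rs_eq_zero (hrs Finset.univ).1).2 hlt
  rw [(hrs Finset.univ).2] at h0
  have h1 := h (fun i => ⟨rs O (c i : F), rs_mem_bar hO (c i).2⟩) h0 i0
  have h2 : rs O (c i0 : F) = 0 := congrArg Subtype.val h1
  have h3 := hc i0
  rw [div_self ha0, ← rs_eq (one_mem O) (hO _ (c i0).2), rs_one, h2] at h3
  exact one_ne_zero h3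

/-- the image of a subfield in the residue field. -/
noncomputable def rsbK (hO : TrivOn O E) {L : Subfield F} (hL : E ≤ L) :
    Subalgebra (bar hO) (IsLocalRing.ResidueField O) where
  carrier := {c | ∃ z ∈ L, z ∈ O ∧ rs O z = c}
  mul_mem' := by
    rintro _ _ ⟨x, hx, hxO, rfl⟩ ⟨y, hy, hyO, rfl⟩
    exact ⟨x * y, mul_mem hx hy, mul_mem hxO hyO, rs_mul hxO hyO⟩
  add_mem' := by
    rintro _ _ ⟨x, hx, hxO, rfl⟩ ⟨y, hy, hyO, rfl⟩
    exact ⟨x + y, add_mem hx hy, add_mem hxO hyO, rs_add hxO hyO⟩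
  algebraMap_mem' := by
    rintro ⟨c, hc⟩
    obtain ⟨e, he, rfl⟩ := (mem_bar hO).1 hc
    exact ⟨e, hL he, hO e he, rfl⟩

theorem mem_rsbK (hO : TrivOn O E) {L : Subfield F} (hL : E ≤ L)
    {c : IsLocalRing.ResidueField O} : c ∈ rsbK hO hL ↔ ∃ z ∈ L, z ∈ O ∧ rs O z = c := Iff.rfl

/-- the image is finite. -/
theorem rsb_fin (hO : TrivOn O E) (hX0 : X ≠ 0) (hX : O.valuation X < 1)
    (L : IntermediateField (IntermediateField.adjoin E {X}) F)
    [FiniteDimensional (IntermediateField.adjoin E {X}) L] (hL : E ≤ L.toSubfield) :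
    (Subalgebra.toSubmodule (rsbK hO hL)).FG := by
  classical
  have h1 : Module.rank (bar hO) (Subalgebra.toSubmodule (rsbK hO hL)) ≤
      (Module.finrank (IntermediateField.adjoin E {X}) L : ℕ) := by
    refine rank_le fun s hs => ?_
    have hex : ∀ i : s, ∃ z ∈ L, z ∈ O ∧
        rs O z = ((i : Subalgebra.toSubmodule (rsbK hO hL)) : IsLocalRing.ResidueField O) :=
      fun i => (i : Subalgebra.toSubmodule (rsbK hO hL)).2
    choose w hwL hwO hw using hex
    have h2 : LinearIndependent (bar hO) fun i => rs O (w i) := by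
      have h3 := hs.map' (Subalgebra.toSubmodule (rsbK hO hL)).subtype (Submodule.ker_subtype _)
      have h4 : (fun i => rs O (w i)) = (Subalgebra.toSubmodule (rsbK hO hL)).subtype ∘
          fun i : s => (i : Subalgebra.toSubmodule (rsbK hO hL)) := by
        funext i
        exact hw i
      rw [h4]
      exact h3
    have h5 := rsb_indep hO hX0 hX hwO h2
    have h6 : LinearIndependent (IntermediateField.adjoin E {X}) (fun i => (⟨w i, hwL i⟩ : L)) :=
      LinearIndependent.of_comp L.val.toLinearMap h5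
    have h7 := h6.fintype_card_le_finrank
    rwa [Fintype.card_coe] at h7
  have h8 : Module.rank (bar hO) (Subalgebra.toSubmodule (rsbK hO hL)) < Cardinal.aleph0 :=
    lt_of_le_of_lt h1 (Cardinal.natCast_lt_aleph0)
  exact Module.Finite.iff_fg.1 (Module.rank_lt_aleph0_iff.1 h8)

theorem rsb_cancel {x y z : F} (hy : y ≠ 0) (hz : z ≠ 0) {i j : ℕ} (hij : i < j)
    (h : O.valuation (x * z ^ i) = O.valuation (y * z ^ j)) :
    O.valuation z ^ (j - i) = O.valuation (x / y) := by
  have hy' : O.valuation y ≠ 0 := (Valuation.ne_zero_iff _).2 hy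
  have hz' : O.valuation z ≠ 0 := (Valuation.ne_zero_iff _).2 hz
  rw [map_mul, map_mul, map_pow, map_pow] at h
  rw [map_div₀, eq_div_iff hy']
  refine mul_right_cancel₀ (pow_ne_zero i hz') ?_
  rw [h, mul_comm _ (O.valuation y), mul_assoc, ← pow_add, Nat.sub_add_cancel hij.le]

/-- the values of the elements of a finite extension of `E(X)`. -/
theorem rsb_pow (hO : TrivOn O E) (hX0 : X ≠ 0) (hX : O.valuation X < 1)
    (L : IntermediateField (IntermediateField.adjoin E {X}) F)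
    [FiniteDimensional (IntermediateField.adjoin E {X}) L] {z : F} (hz : z ∈ L) (hz0 : z ≠ 0) :
    ∃ r : ℤ, O.valuation z ^ (Module.finrank (IntermediateField.adjoin E {X}) L).factorial =
      O.valuation X ^ r := by
  set P := minpoly (IntermediateField.adjoin E {X}) (⟨z, hz⟩ : L) with hP
  have hint : IsIntegral (IntermediateField.adjoin E {X}) (⟨z, hz⟩ : L) :=
    Algebra.IsIntegral.isIntegral _
  haveI : Module.Free (IntermediateField.adjoin E {X}) L := Module.Free.of_divisionRing _ _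
  have hdeg : P.natDegree ≤ Module.finrank (IntermediateField.adjoin E {X}) L :=
    minpoly.natDegree_le _
  have hmon : P.Monic := minpoly.monic hint
  have hroot : ∑ i ∈ Finset.range (P.natDegree + 1), (P.coeff i : F) * z ^ i = 0 := by
    have h1 : aeval (⟨z, hz⟩ : L) P = 0 := minpoly.aeval _ _
    rw [aeval_eq_sum_range] at h1
    have h2 := congrArg (fun x : L => (x : F)) h1
    simpa [IntermediateField.coe_sum, Algebra.smul_def] using h2
  have key : ∀ i j : ℕ, i < j → j ≤ P.natDegree → (P.coeff i : F) ≠ 0 → (P.coeff j : F) ≠ 0 →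
      O.valuation ((P.coeff i : F) * z ^ i) = O.valuation ((P.coeff j : F) * z ^ j) →
      ∃ r : ℤ, O.valuation z ^ (Module.finrank (IntermediateField.adjoin E {X}) L).factorial =
        O.valuation X ^ r := by
    intro i j hij hj hi0 hj0 h
    have h1 := rsb_cancel hj0 hz0 hij h
    obtain ⟨r, hr⟩ := rsb_val hO hX0 hX (div_mem (P.coeff i).2 (P.coeff j).2)
      (div_ne_zero hi0 hj0)
    have hdvd : j - i ∣ (Module.finrank (IntermediateField.adjoin E {X}) L).factorial :=
      Nat.dvd_factorial (by omega) (by omega)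
    obtain ⟨k, hk⟩ := hdvd
    refine ⟨r * k, ?_⟩
    rw [hk, pow_mul, h1, hr, zpow_mul, zpow_natCast]
  obtain ⟨i, hi, j, hj, hij, hi0, h⟩ := rsb_two (O := O) (Finset.range (P.natDegree + 1))
    (fun i => (P.coeff i : F) * z ^ i) hroot ⟨P.natDegree, Finset.self_mem_range_succ _, by
      rw [hmon.coeff_natDegree]
      exact mul_ne_zero one_ne_zero (pow_ne_zero _ hz0)⟩
  rw [Finset.mem_range, Nat.lt_succ_iff] at hi hj
  have hj0 : (P.coeff j : F) * z ^ j ≠ 0 := by
    intro h0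
    rw [h0, map_zero] at h
    exact hi0 ((Valuation.zero_iff _).1 h)
  have hi1 : (P.coeff i : F) ≠ 0 := left_ne_zero_of_mul hi0
  have hj1 : (P.coeff j : F) ≠ 0 := left_ne_zero_of_mul hj0
  rcases lt_or_gt_of_ne hij with hlt | hgt
  · exact key i j hlt hj hi1 hj1 h
  · exact key j i hgt hi hj1 hi1 h.symm

/-- values are discrete. -/
theorem rsb_unif {L : Subfield F} (hX0 : X ≠ 0) (hX : O.valuation X < 1) (hXL : X ∈ L) {M : ℕ}
    (hM : 0 < M) (h : ∀ z ∈ L, z ≠ 0 → ∃ r : ℤ, O.valuation z ^ M = O.valuation X ^ r) :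
    ∃ π ∈ L, π ≠ 0 ∧ O.valuation π < 1 ∧
      ∀ z ∈ L, z ≠ 0 → ∃ k : ℤ, O.valuation (z * π ^ k) = 1 := by
  have hx0 : O.valuation X ≠ 0 := (Valuation.ne_zero_iff _).2 hX0
  have hxp : 0 < O.valuation X := zero_lt_iff.2 hx0
  let H : AddSubgroup ℤ :=
    { carrier := {r | ∃ z ∈ L, z ≠ 0 ∧ O.valuation z ^ M = O.valuation X ^ r}
      zero_mem' := ⟨1, one_mem _, one_ne_zero, by simp⟩
      add_mem' := by
        rintro a b ⟨z, hz, hz0, hza⟩ ⟨w, hw, hw0, hwb⟩
        exact ⟨z * w, mul_mem hz hw, mul_ne_zero hz0 hw0, by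
          rw [map_mul, mul_pow, hza, hwb, zpow_add₀ hx0]⟩
      neg_mem' := by
        rintro a ⟨z, hz, hz0, hza⟩
        exact ⟨z⁻¹, inv_mem hz, inv_ne_zero hz0, by
          rw [map_inv₀, inv_pow, hza, zpow_neg]⟩ }
  obtain ⟨d, hd⟩ := Int.subgroup_cyclic H
  have hMH : (M : ℤ) ∈ H := ⟨X, hXL, hX0, by rw [zpow_natCast]⟩
  have hmem : ∀ r ∈ H, ∃ k : ℤ, r = k * d := by
    intro r hr
    rw [hd, AddSubgroup.mem_closure_singleton] at hr
    obtain ⟨k, hk⟩ := hr
    exact ⟨k, by rw [← hk, smul_eq_mul]⟩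
  have hdH : d ∈ H := by
    rw [hd]
    exact AddSubgroup.subset_closure rfl
  have hd0 : d ≠ 0 := by
    rintro rfl
    obtain ⟨k, hk⟩ := hmem _ hMH
    rw [mul_zero] at hk
    omega
  obtain ⟨e, he, heH, hme⟩ : ∃ e : ℤ, 0 < e ∧ e ∈ H ∧ ∀ r ∈ H, ∃ k : ℤ, r = k * e := by
    rcases lt_or_gt_of_ne hd0 with hlt | hgt
    · refine ⟨-d, by omega, H.neg_mem hdH, fun r hr => ?_⟩
      obtain ⟨k, hk⟩ := hmem r hr
      exact ⟨-k, by rw [hk]; ring⟩
    · exact ⟨d, hgt, hdH, hmem⟩
  obtain ⟨π, hπL, hπ0, hπ⟩ := heH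
  have hlt1 : O.valuation X ^ e < 1 := by
    obtain ⟨a, rfl⟩ := Int.eq_ofNat_of_zero_le he.le
    rw [zpow_natCast]
    exact pow_lt_one₀ zero_le hX (by rintro rfl; simp at he)
  refine ⟨π, hπL, hπ0, ?_, fun z hz hz0 => ?_⟩
  · by_contra hcon
    have h1 := one_le_pow₀ (n := M) (not_lt.1 hcon)
    rw [hπ] at h1
    exact absurd hlt1 (not_lt.2 h1)
  · obtain ⟨r, hr⟩ := h z hz hz0
    obtain ⟨k, hk⟩ := hme r ⟨z, hz, hz0, hr⟩
    refine ⟨-k, ?_⟩
    have h1 : O.valuation (z * π ^ (-k)) ^ M = 1 := by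
      rw [map_mul, mul_pow, hr, map_zpow₀, ← zpow_natCast (O.valuation π ^ (-k)), ← zpow_mul,
        mul_comm (-k), zpow_mul, zpow_natCast, hπ, ← zpow_mul, ← zpow_add₀ hx0, hk]
      have : k * e + e * -k = 0 := by ring
      rw [this, zpow_zero]
    exact (pow_eq_one_iff_of_nonneg zero_le hM.ne').1 h1

theorem rsb_exists_small (hne : O ≠ ⊤) : ∃ X : F, X ≠ 0 ∧ O.valuation X < 1 := by
  obtain ⟨w, hw⟩ : ∃ w, w ∉ O := by
    by_contra hcon
    push Not at hcon
    exact hne (top_unique fun x _ => hcon x)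
  refine ⟨w⁻¹, inv_ne_zero (by rintro rfl; exact hw O.zero_mem), ?_⟩
  rw [map_inv₀]
  exact inv_lt_one_of_one_lt₀ (not_le.1 fun h => hw ((O.valuation_le_one_iff w).1 h))

/-- every element of small value is a transcendence basis. -/
theorem rsb_alg [PerfectField F] (hO : TrivOn O E) (hX0 : X ≠ 0) (hX : O.valuation X < 1) {y : F}
    (halg : ∀ z : F, IsAlgebraic (adj E y) z) (z : F) :
    IsAlgebraic (IntermediateField.adjoin E {X}) z := by
  have hXE : ¬ IsAlgebraic E X := fun h => by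
    rw [hO.eq_one_of_isAlgebraic h hX0] at hX
    exact lt_irrefl _ hX
  have hyX : IsAlgebraic (adj E X) y := exchange hXE (halg X)
  have h1 : adj E y ≤ rac (adj E X) := adj_le ((le_adj E X).trans (le_rac _)) (mem_rac.2 hyX)
  exact isAlgebraic_adjoin_simple'.2 (isAlgebraic_rac (isAlgebraic_mono h1 (halg z)))

/-- the residue field, from a finite extension of `E(X)`. -/
theorem rsb_res [PerfectField F] (hO : TrivOn O E) (hX0 : X ≠ 0) (hX : O.valuation X < 1)
    (L : IntermediateField (IntermediateField.adjoin E {X}) F)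
    [FiniteDimensional (IntermediateField.adjoin E {X}) L] (hL : E ≤ L.toSubfield)
    (hpow : ∀ z : F, ∃ m : ℕ, z ^ ringExpChar F ^ m ∈ L) :
    (∀ c : IsLocalRing.ResidueField O, IsAlgebraic (bar hO) c) ∧
      FG (bar hO) (⊤ : Subfield (IsLocalRing.ResidueField O)) := by
  have hfin := rsb_fin hO hX0 hX L hL
  have hq : ringExpChar (IsLocalRing.ResidueField O) = ringExpChar F := rs_ringExpChar hO
  have hpow' : ∀ c : IsLocalRing.ResidueField O, ∃ m : ℕ,
      c ^ ringExpChar (IsLocalRing.ResidueField O) ^ m ∈ rsbK hO hL := by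
    intro c
    obtain ⟨z, hz, rfl⟩ := rs_surj c
    obtain ⟨m, hm⟩ := hpow z
    refine ⟨m, z ^ ringExpChar F ^ m, hm, pow_mem hz _, ?_⟩
    rw [rs_pow hz, hq]
  constructor
  · intro c
    obtain ⟨m, hm⟩ := hpow' c
    have h1 : IsIntegral (bar hO) (c ^ ringExpChar (IsLocalRing.ResidueField O) ^ m) :=
      IsIntegral.of_mem_of_fg _ hfin _ hm
    exact IsAlgebraic.of_pow (pow_pos (expChar_pos (IsLocalRing.ResidueField O) _) _) h1.isAlgebraic
  · obtain ⟨T, hT⟩ := hfin
    refine ⟨T, (top_unique ?_).symm⟩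
    intro c _
    obtain ⟨m, hm⟩ := hpow' c
    refine mem_pf.2 ⟨m, ?_⟩
    have h2 : c ^ ringExpChar (IsLocalRing.ResidueField O) ^ m ∈
        Submodule.span (bar hO) (T : Set (IsLocalRing.ResidueField O)) := by
      rw [hT]
      exact hm
    refine Submodule.span_induction ?_ ?_ ?_ ?_ h2
    · intro x hx
      exact (le_sup_right : Subfield.closure _ ≤ _) (Subfield.subset_closure hx)
    · exact zero_mem _
    · intro x y _ _ hx hy
      exact add_mem hx hy
    · intro a x _ hx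
      rw [Algebra.smul_def]
      exact mul_mem ((le_sup_left : bar hO ≤ _) a.2) hx

end rsb

variable {F : Type*} [Field F] [PerfectField F] {ℓ : ℕ} [Fact ℓ.Prime] [NeZero (ℓ : F)]

/-- valuations of a function field of one variable over `E`. -/
theorem val_struct {E : Subfield F} [PerfectField E] (hfg : FG E (⊤ : Subfield F)) {y : F}
    (hy : ¬ IsAlgebraic E y) (halg : ∀ z : F, IsAlgebraic (adj E y) z) {O : ValuationSubring F}
    (hO : TrivOn O E) (hne : O ≠ ⊤) :
    (∃ π, IsUnif O π) ∧ (∀ c : IsLocalRing.ResidueField O, IsAlgebraic (bar hO) c) ∧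
      FG (bar hO) (⊤ : Subfield (IsLocalRing.ResidueField O)) := by
  have _ := hy
  obtain ⟨X, hX0, hX⟩ := rsb_exists_small hne
  have hXalg := fun z => rsb_alg hO hX0 hX halg z
  obtain ⟨S, hS⟩ := hfg
  set L := IntermediateField.adjoin (IntermediateField.adjoin E {X}) (S : Set F) with hLdef
  haveI : FiniteDimensional (IntermediateField.adjoin E {X}) L :=
    IntermediateField.finiteDimensional_adjoin fun x _ => (hXalg x).isIntegral
  have hAL : ∀ z ∈ IntermediateField.adjoin E {X}, z ∈ L := fun z hz =>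
    L.algebraMap_mem (⟨z, hz⟩ : IntermediateField.adjoin E {X})
  have hL : E ≤ L.toSubfield := fun z hz =>
    hAL z ((IntermediateField.adjoin E {X}).algebraMap_mem (⟨z, hz⟩ : E))
  have hXL : X ∈ L := hAL X (IntermediateField.mem_adjoin_simple_self E X)
  have hSL : E ⊔ Subfield.closure (S : Set F) ≤ L.toSubfield :=
    sup_le hL (Subfield.closure_le.2 fun z hz => IntermediateField.subset_adjoin _ _ hz)
  have hpow : ∀ z : F, ∃ m : ℕ, z ^ ringExpChar F ^ m ∈ L := by
    intro z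
    have h1 : z ∈ pf (E ⊔ Subfield.closure (S : Set F)) := hS ▸ Subfield.mem_top z
    obtain ⟨m, hm⟩ := mem_pf.1 h1
    exact ⟨m, hSL hm⟩
  refine ⟨?_, rsb_res hO hX0 hX L hL hpow⟩
  obtain ⟨π, hπL, hπ0, hπ, hrep⟩ := rsb_unif (L := L.toSubfield) hX0 hX hXL
    (Nat.factorial_pos (Module.finrank (IntermediateField.adjoin E {X}) L))
    (fun z hz hz0 => rsb_pow hO hX0 hX L hz hz0)
  refine ⟨π, hπ0, hπ, fun z hz0 => ?_⟩
  obtain ⟨m, hm⟩ := hpow z
  obtain ⟨k, hk⟩ := hrep _ hm (pow_ne_zero _ hz0)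
  exact ⟨m, k, hk⟩

/-- the residue fields of places of a curve. -/
theorem Cv.place {k : Subfield F} (h : Cv k) {O : ValuationSubring F} (hO : O ∈ Plc k) :
    (∃ π, IsUnif O π) ∧ ∀ c : IsLocalRing.ResidueField O, c ∈ bar hO.1 := by
  haveI := h.ac
  obtain ⟨x, hx, hxalg⟩ := h.ex
  have hx' : ¬ IsAlgebraic k x := fun h' => hx (RAC_of_isAlgClosed k h.ac x h')
  obtain ⟨h1, h2, -⟩ := val_struct h.fg hx' hxalg hO.1 hO.2
  exact ⟨h1, fun c => RAC_of_isAlgClosed _ (bar_isAlgClosed hO.1 h.ac) c (h2 c)⟩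

section rk1

/-- valuation rings with a uniformizer have rank one. -/
theorem rsb_rank {O : ValuationSubring F} {π : F} (h : IsUnif O π) {O' : ValuationSubring F}
    (hle : O ≤ O') : O' = O ∨ O' = ⊤ := by
  by_cases hOO : O' ≤ O
  · exact Or.inl (le_antisymm hOO hle)
  right
  obtain ⟨w, hwO', hwO⟩ := Set.not_subset.1 hOO
  have hw0 : w ≠ 0 := by rintro rfl; exact hwO O.zero_mem
  have hπ : O.valuation π ≠ 0 := (Valuation.ne_zero_iff _).2 h.ne
  have hπp : 0 < O.valuation π := zero_lt_iff.2 hπ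
  -- the inverse of the uniformizer
  have hunit : ∀ u : F, O.valuation u = 1 → u ∈ O' := fun u hu => hle (mem_of_val hu)
  have hπO : π ∈ O' := hle ((O.valuation_le_one_iff π).1 h.lt.le)
  have hπinv : π⁻¹ ∈ O' := by
    obtain ⟨m, n, hmn⟩ := h.rep w hw0
    have hvw : 1 < O.valuation w := not_le.1 fun h' => hwO ((O.valuation_le_one_iff w).1 h')
    have hn : 0 < n := by
      by_contra hcon
      have h1 : 1 < O.valuation w ^ ringExpChar F ^ m := one_lt_pow₀ hvw (qpow_pos F m).ne'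
      have h2 : 1 ≤ O.valuation π ^ n := by
        obtain ⟨a, ha⟩ := Int.eq_ofNat_of_zero_le (show 0 ≤ -n by omega)
        have : n = -(a : ℤ) := by omega
        rw [this, zpow_neg, zpow_natCast]
        exact (one_le_inv₀ (pow_pos hπp a)).2 (pow_le_one₀ zero_le h.lt.le)
      rw [map_mul, map_pow, map_zpow₀] at hmn
      have h3 : 1 < O.valuation w ^ ringExpChar F ^ m * O.valuation π ^ n :=
        one_lt_mul_of_lt_of_le h1 h2
      exact absurd hmn h3.ne'
    obtain ⟨a, rfl⟩ := Int.eq_ofNat_of_zero_le hn.le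
    have ha : a ≠ 0 := by rintro rfl; simp at hn
    rw [zpow_natCast] at hmn
    have h4 : (w ^ ringExpChar F ^ m * π ^ a)⁻¹ ∈ O' := hunit _ (by rw [map_inv₀, hmn, inv_one])
    have h5 : π⁻¹ = (w ^ ringExpChar F ^ m * π ^ a)⁻¹ * w ^ ringExpChar F ^ m * π ^ (a - 1) := by
      have h6 : π ^ a = π ^ (a - 1) * π := by
        rw [← pow_succ, Nat.sub_add_cancel (Nat.pos_of_ne_zero ha)]
      have h7 : w ^ ringExpChar F ^ m ≠ 0 := pow_ne_zero _ hw0
      have h8 : π ^ (a - 1) ≠ 0 := pow_ne_zero _ h.ne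
      have h9 := h.ne
      rw [h6]
      field_simp
    rw [h5]
    exact mul_mem (mul_mem h4 (pow_mem hwO' _)) (pow_mem hπO _)
  have hπz : ∀ n : ℤ, π ^ n ∈ O' := by
    intro n
    cases n with
    | ofNat a => rw [Int.ofNat_eq_natCast, zpow_natCast]; exact pow_mem hπO a
    | negSucc a => rw [zpow_negSucc, ← inv_pow]; exact pow_mem hπinv _
  refine top_unique fun u _ => ?_
  by_cases hu0 : u = 0
  · rw [hu0]; exact O'.zero_mem
  obtain ⟨m, n, hmn⟩ := h.rep u hu0
  have h1 : u ^ ringExpChar F ^ m ∈ O' := by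
    have h2 : u ^ ringExpChar F ^ m = (u ^ ringExpChar F ^ m * π ^ n) * π ^ (-n) := by
      rw [mul_assoc, ← zpow_add₀ h.ne, add_neg_cancel, zpow_zero, mul_one]
    rw [h2]
    exact mul_mem (hunit _ hmn) (hπz _)
  rw [← O'.valuation_le_one_iff, map_pow] at h1
  exact (O'.valuation_le_one_iff u).1
    ((pow_le_one_iff_of_nonneg zero_le (qpow_pos F m).ne').1 h1)

/-- `O` is trivial on `k(y)` if the residue of `y` is transcendental. -/
theorem rsb_triv {k : Subfield F} {O : ValuationSubring F} (hO : TrivOn O k) {y : F} (hy : y ∈ O)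
    (htr : ¬ IsAlgebraic (bar hO) (rs O y)) : TrivOn O (adj k y) := by
  have hplain : ∀ z ∈ Vale.Agent.P019.adj k y, z ∈ O := by
    intro z hz
    obtain ⟨P, Q, hPQ⟩ := (IntermediateField.mem_adjoin_simple_iff _ _).1 (mem_adjoin_simple.2 hz)
    by_cases hQ : Q = 0
    · rw [hQ, map_zero, div_zero] at hPQ
      rw [hPQ]
      exact O.zero_mem
    have hQO := aeval_mem_W hO hy Q
    have hPO := aeval_mem_W hO hy P
    have h1 : rs O (aeval y Q) ≠ 0 := by
      rw [rs_aeval hO hy]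
      intro h0
      exact htr ⟨Q.map (barEquiv hO).toRingHom, by
        rwa [Ne, Polynomial.map_eq_zero_iff (RingEquiv.injective _)], h0⟩
    have h2 := (rs_ne_zero hQO).1 h1
    rw [hPQ, ← O.valuation_le_one_iff, map_div₀, h2, div_one, O.valuation_le_one_iff]
    exact hPO
  intro z hz
  obtain ⟨n, hn⟩ := mem_adj_iff.1 hz
  have h1 := hplain _ hn
  rw [← O.valuation_le_one_iff, map_pow] at h1
  exact (O.valuation_le_one_iff z).1
    ((pow_le_one_iff_of_nonneg zero_le (qpow_pos F n).ne').1 h1)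

theorem rsb_alg_le {K : Type*} [Field K] {A B : Subfield K} (h : A ≤ rac B) {z : K}
    (hz : IsAlgebraic A z) : IsAlgebraic B z := isAlgebraic_rac (isAlgebraic_mono h hz)

/-- exchange for surfaces. -/
theorem rsb_exch {k : Subfield F} {t s : F} (hS : Srf k t s) {y : F}
    (hy : ¬ IsAlgebraic k y) :
    ∃ y' : F, ¬ IsAlgebraic (adj k y) y' ∧ ∀ z : F, IsAlgebraic (adj (adj k y) y') z := by
  by_cases h1 : IsAlgebraic (adj k s) y
  · have h2 : IsAlgebraic (adj k y) s := exchange hy h1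
    have h3 : adj k y ≤ rac (adj k s) := adj_le ((le_adj k s).trans (le_rac _)) (mem_rac.2 h1)
    have h4 : adj k s ≤ rac (adj k y) := adj_le ((le_adj k y).trans (le_rac _)) (mem_rac.2 h2)
    refine ⟨t, fun h => hS.tt (rsb_alg_le h3 h), fun z => rsb_alg_le ?_ (hS.alg z)⟩
    refine adj_le (h4.trans (rac_mono (le_adj _ _))) (le_rac _ (mem_adj _ _))
  · have h2 : IsAlgebraic (adj (adj k s) y) t := exchange h1 (hS.alg y)
    refine ⟨s, fun h => h1 (exchange hS.ss h), fun z => rsb_alg_le ?_ (hS.alg z)⟩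
    rw [adj_comm] at h2
    refine adj_le (adj_le (((le_adj k y).trans (le_adj _ _)).trans (le_rac _))
      (le_rac _ (mem_adj _ _))) (mem_rac.2 h2)

end rk1

/-- valuations of rank one with residue field of transcendence degree one on surfaces. -/
theorem Srf.val {k : Subfield F} (hk : IsAlgClosed k) (hfg : FG k (⊤ : Subfield F)) {t s : F}
    (hS : Srf k t s) {O : ValuationSubring F} (hO : TrivOn O k) (hne : O ≠ ⊤)
    (hr : ∃ c : IsLocalRing.ResidueField O, c ∉ bar hO) :
    (∃ π, IsUnif O π) ∧ Cv (bar hO) ∧ ∀ O' : ValuationSubring F, O ≤ O' → O' = O ∨ O' = ⊤ := by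
  obtain ⟨c, hc⟩ := hr
  obtain ⟨y, hyO, rfl⟩ := rs_surj c
  have hac := bar_isAlgClosed hO hk
  have htr : ¬ IsAlgebraic (bar hO) (rs O y) := fun h => hc (RAC_of_isAlgClosed _ hac _ h)
  have hyk : ¬ IsAlgebraic k y := fun h => htr (isAlgebraic_bar hO hyO h)
  have hE : TrivOn O (adj k y) := rsb_triv hO hyO htr
  obtain ⟨y', hy', halg⟩ := rsb_exch hS hyk
  haveI : PerfectField (adj k y) := perfect_adj _ _
  obtain ⟨h1, h2, h3⟩ := val_struct (hfg.mono (le_adj k y) le_top) hy' halg hE hne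
  haveI : PerfectField (IsLocalRing.ResidueField O) := rs_perfect hO
  obtain ⟨π, hπ⟩ := h1
  have hbar := bar_adj hO hE
  refine ⟨⟨π, hπ⟩, ⟨hac, ?_, rs O y, hc, fun z => ?_⟩, fun O' h => rsb_rank hπ h⟩
  · rw [hbar] at h3
    refine FG.trans ?_ h3
    have h4 : FG (bar hO) (bar hO) := ⟨∅, by
      haveI : IsAlgClosed (bar hO) := hac
      rw [Finset.coe_empty, Subfield.closure_empty, sup_bot_eq, pf_eq]⟩
    exact h4.adj_right _
  · rw [← hbar]
    exact h2 z

/-- the valuations over `t = b`, for almost all `b`. -/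
theorem Srf.over {k : Subfield F} (hk : IsAlgClosed k) (hfg : FG k (⊤ : Subfield F)) {t s : F}
    (hS : Srf k t s) : ∀ᶠ b in ae k, ∀ W : ValuationSubring F, Over W (adj k s) t b →
      IsUnif W (t - b) ∧ ∃ hW : TrivOn W k, Cv (bar hW) ∧ rs W s ∉ bar hW := by
  obtain ⟨θ, hθ⟩ := Frame.nice hS hfg
  filter_upwards [ae_mono (le_adj k s) hθ] with b hb W hW
  have hN := hb W hW
  have hWk : TrivOn W k := hW.triv.mono (le_adj k s)
  have hs : rs W s ∉ bar hWk := by
    intro h
    obtain ⟨e, he, hes⟩ := (mem_bar hWk).1 h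
    have h1 : e = s := rs_injOn hW.triv (le_adj k s he) (mem_adj k s) hes
    exact hS.ss (isAlgebraic_of_mem (h1 ▸ he))
  have hne : W ≠ ⊤ := by
    rintro rfl
    have h1 : (t - b)⁻¹ ∈ (⊤ : ValuationSubring F) := ValuationSubring.mem_top _
    have h2 := hN.unif.lt
    rw [← ValuationSubring.valuation_le_one_iff, map_inv₀] at h1
    have h3 : 0 < (⊤ : ValuationSubring F).valuation (t - b) :=
      zero_lt_iff.2 ((Valuation.ne_zero_iff _).2 hN.unif.ne)
    exact absurd ((inv_le_one₀ h3).1 h1) (not_le.2 h2)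
  exact ⟨hN.unif, hWk, (Srf.val hk hfg hS hWk hne ⟨_, hs⟩).2.1, hs⟩

end Vale.Agent.P019P
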