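import Vale.Agent.P019Q.ResA

/-!
# The isomorphism of the residue fields
-/

namespace Vale.Agent.P019P

open Vale.Agent.P019

set_option linter.all false
set_option linter.style.haveILetI false
set_option linter.unusedSectionVars false

open Polynomial Filter
open scoped TensorProduct

section resmap

variable {F : Type*} [Field F] {ℓ : ℕ}

theorem rc_ne {O : ValuationSubring F} {z : F} (h : O.valuation z = 1) : z ≠ 0 := by
  rintro rfl
  rw [map_zero] at h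
  exact zero_ne_one h

theorem rc_rs_ne {O : ValuationSubring F} {z : F} (h : O.valuation z = 1) : rs O z ≠ 0 :=
  (rs_ne_zero (mem_of_val h)).2 h

/-- the class of the residue only depends on the class of the unit. -/
theorem rc_well {O : ValuationSubring F} (hℓ : ℓ ≠ 0) {x y : F} (hx : O.valuation x = 1)
    (hy : O.valuation y = 1) (h : cl ℓ x = cl ℓ y) : cl ℓ (rs O x) = cl ℓ (rs O y) := by
  obtain ⟨w, hw, hxy⟩ := (cl_eq_iff ℓ (rc_ne hx) (rc_ne hy)).1 h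
  have h1 : O.valuation w ^ ℓ = 1 := by
    rw [hxy, map_mul, hy, one_mul, map_pow] at hx
    exact hx
  have hw1 : O.valuation w = 1 := (pow_eq_one_iff_of_nonneg zero_le hℓ).1 h1
  have hwm := mem_of_val hw1
  have h2 : rs O x = rs O y * rs O w ^ ℓ := by
    rw [hxy, rs_mul (mem_of_val hy) (pow_mem hwm ℓ), rs_pow hwm]
  exact (cl_eq_iff ℓ (rc_rs_ne hx) (rc_rs_ne hy)).2 ⟨rs O w, rc_rs_ne hw1, h2⟩

/-- the residue map on the unit classes. -/
theorem exists_rc (hℓ : ℓ ≠ 0) (O : ValuationSubring F) :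
    ∃ r : UC ℓ O →ₗ[ZMod ℓ] V ℓ (IsLocalRing.ResidueField O),
      (∀ (z : F) (hz : O.valuation z = 1) (v : UC ℓ O), (v : V ℓ F) = cl ℓ z →
        r v = cl ℓ (rs O z)) ∧ Function.Surjective r ∧
      ∀ v : UC ℓ O, r v = 0 ↔ (v : V ℓ F) ∈ U1 ℓ O := by
  classical
  have hex : ∀ v : UC ℓ O, ∃ z : F, O.valuation z = 1 ∧ (v : V ℓ F) = cl ℓ z := fun v =>
    mem_UC.1 v.2
  choose f hf1 hf2 using hex
  have key : ∀ (z : F) (hz : O.valuation z = 1) (v : UC ℓ O), (v : V ℓ F) = cl ℓ z →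
      cl ℓ (rs O (f v)) = cl ℓ (rs O z) := fun z hz v hv =>
    rc_well hℓ (hf1 v) hz (by rw [← hf2 v, hv])
  let r₀ : UC ℓ O →+ V ℓ (IsLocalRing.ResidueField O) :=
    { toFun := fun v => cl ℓ (rs O (f v))
      map_zero' := by
        rw [key 1 (map_one _) 0 (cl_one ℓ).symm, rs_one, cl_one]
      map_add' := by
        intro v w
        have h1 : O.valuation (f v * f w) = 1 := by rw [map_mul, hf1, hf1, one_mul]
        rw [key (f v * f w) h1 (v + w) (by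
          rw [cl_mul ℓ (rc_ne (hf1 v)) (rc_ne (hf1 w)), ← hf2 v, ← hf2 w]; rfl),
          rs_mul (mem_of_val (hf1 v)) (mem_of_val (hf1 w)),
          cl_mul ℓ (rc_rs_ne (hf1 v)) (rc_rs_ne (hf1 w))] }
  refine ⟨AddMonoidHom.toZModLinearMap ℓ r₀, fun z hz v hv => key z hz v hv, ?_, ?_⟩
  · intro c
    obtain ⟨a, ha, rfl⟩ := cl_surj ℓ c
    obtain ⟨z, hz, rfl⟩ := rs_surj a
    have hz1 : O.valuation z = 1 := (rs_ne_zero hz).1 ha
    exact ⟨⟨cl ℓ z, mem_UC.2 ⟨z, hz1, rfl⟩⟩, key z hz1 _ rfl⟩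
  · intro v
    change cl ℓ (rs O (f v)) = 0 ↔ _
    constructor
    · intro h
      obtain ⟨c, hc, hcv⟩ := (cl_eq_zero_iff ℓ (rc_rs_ne (hf1 v))).1 h
      obtain ⟨w, hw, rfl⟩ := rs_surj c
      have hw1 : O.valuation w = 1 := (rs_ne_zero hw).1 hc
      have hwl : O.valuation (w ^ ℓ) = 1 := by rw [map_pow, hw1, one_pow]
      have h1 : O.valuation (f v - w ^ ℓ) < 1 := by
        rw [← rs_eq (mem_of_val (hf1 v)) (mem_of_val hwl), rs_pow hw, hcv]
      have h2 := cl_sub_cl_mem_U1 (ℓ := ℓ) hwl h1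
      rw [cl_pow_self, sub_zero, ← hf2 v] at h2
      exact h2
    · intro h
      obtain ⟨m, hm, hv⟩ := mem_U1.1 h
      rw [key (1 + m) (val_one_add hm) v hv]
      have h1 : rs O (1 + m) = rs O 1 := by
        rw [rs_eq (mem_of_val (val_one_add hm)) (one_mem O), add_sub_cancel_left]
        exact hm
      rw [h1, rs_one, cl_one]

theorem rc_orth_self (hneg : ∃ i : F, i ^ ℓ = -1) (x : F) : Orth (cl ℓ x) (cl ℓ x) := by
  by_cases hx : x = 0
  · rw [hx, cl_zero]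
    exact orth_zero_left _
  by_cases hx1 : x = 1
  · rw [hx1, cl_one]
    exact orth_zero_left _
  have hxi : x⁻¹ ≠ 0 := inv_ne_zero hx
  have h1 : 1 - x ≠ 0 := sub_ne_zero.2 (Ne.symm hx1)
  have h2 : 1 - x⁻¹ ≠ 0 := by
    intro h
    have h3 : x⁻¹ = 1 := (sub_eq_zero.1 h).symm
    exact hx1 (by rw [← inv_inv x, h3, inv_one])
  have h4 : (1 - x) = (-x) * (1 - x⁻¹) := by
    field_simp
    ring
  have h5 : cl ℓ (1 - x) = cl ℓ x + cl ℓ (1 - x⁻¹) := by
    rw [h4, cl_mul ℓ (neg_ne_zero.2 hx) h2, cl_neg ℓ hneg]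
  have h6 : cl ℓ x = cl ℓ (1 - x) - cl ℓ (1 - x⁻¹) := by rw [h5]; abel
  have a1 : Orth (cl ℓ x) (cl ℓ (1 - x)) := orth_one_sub x
  have a2 : Orth (cl ℓ x) (cl ℓ (1 - x⁻¹)) := by
    have := (orth_one_sub (ℓ := ℓ) x⁻¹).neg_left
    rwa [cl_inv, neg_neg] at this
  have h7 := a1.sub_right a2
  rwa [← h6] at h7

theorem rc_neg {O : ValuationSubring F} (hneg : ∃ i : F, i ^ ℓ = -1) (hℓ : ℓ ≠ 0) :
    ∃ i : IsLocalRing.ResidueField O, i ^ ℓ = -1 := by
  obtain ⟨i, hi⟩ := hneg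
  have h1 : O.valuation i = 1 := by
    have : O.valuation i ^ ℓ = 1 := by rw [← map_pow, hi, Valuation.map_neg, map_one]
    exact (pow_eq_one_iff_of_nonneg zero_le hℓ).1 this
  refine ⟨rs O i, ?_⟩
  rw [← rs_pow (mem_of_val h1), hi, rs_neg (one_mem O), rs_one]

/-- a linear map which respects the Steinberg relations respects orthogonality. -/
theorem rc_orth {F' : Type*} [Field F'] {g : V ℓ F →ₗ[ZMod ℓ] V ℓ F'}
    (hg : ∀ x : F, Orth (g (cl ℓ x)) (g (cl ℓ (1 - x)))) {u w : V ℓ F} (h : Orth u w) :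
    Orth (g u) (g w) := by
  have key : R ℓ F ≤ (R ℓ F').comap (TensorProduct.map g g) := by
    unfold R
    rw [Submodule.span_le]
    rintro _ ⟨x, y, hxy, rfl⟩
    have hy : (y : F) = 1 - x := by rw [← hxy]; ring
    have h1 := hg (x : F)
    rw [← hy, cl_unit, cl_unit] at h1
    rw [SetLike.mem_coe, Submodule.mem_comap, TensorProduct.map_tmul]
    exact h1
  have h2 := key h
  rwa [Submodule.mem_comap, TensorProduct.map_tmul] at h2

/-- the specialization map. -/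
theorem exists_sp (hneg : ∃ i : F, i ^ ℓ = -1) (hℓ : ℓ ≠ 0) (O : ValuationSubring F)
    (φ : V ℓ F →ₗ[ZMod ℓ] ZMod ℓ) (hφ : ∀ v, v ∈ UC ℓ O ↔ φ v = 0) (v₀ : V ℓ F)
    (h₀ : φ v₀ = 1) :
    ∃ sp : V ℓ F →ₗ[ZMod ℓ] V ℓ (IsLocalRing.ResidueField O),
      (∀ z, O.valuation z = 1 → sp (cl ℓ z) = cl ℓ (rs O z)) ∧
      ∀ u w, Orth u w → Orth (sp u) (sp w) := by
  obtain ⟨r, hr1, -, hr3⟩ := exists_rc hℓ O
  let pr : V ℓ F →ₗ[ZMod ℓ] UC ℓ O :=
    LinearMap.codRestrict (UC ℓ O) (LinearMap.id - φ.smulRight v₀) (fun v => by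
      rw [hφ, LinearMap.sub_apply, LinearMap.id_apply, LinearMap.smulRight_apply, map_sub,
        map_smul, h₀, smul_eq_mul, mul_one, sub_self])
  have hpr : ∀ v, φ v = 0 → ((pr v : UC ℓ O) : V ℓ F) = v := by
    intro v hv
    change v - φ v • v₀ = v
    rw [hv, zero_smul, sub_zero]
  have hunit : ∀ z, O.valuation z = 1 → φ (cl ℓ z) = 0 := fun z hz =>
    (hφ _).1 (mem_UC.2 ⟨z, hz, rfl⟩)
  have h1 : ∀ z, O.valuation z = 1 → (r ∘ₗ pr) (cl ℓ z) = cl ℓ (rs O z) := fun z hz =>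
    hr1 z hz _ (hpr _ (hunit z hz))
  have h2 : ∀ m, O.valuation m < 1 → (r ∘ₗ pr) (cl ℓ (1 + m)) = 0 := by
    intro m hm
    have h3 := hunit _ (val_one_add hm)
    change r (pr (cl ℓ (1 + m))) = 0
    rw [hr3, hpr _ h3]
    exact cl_mem_U1 hm
  refine ⟨r ∘ₗ pr, h1, fun u w huw => rc_orth (fun x => ?_) huw⟩
  set sp := r ∘ₗ pr with hsp
  by_cases hx0 : x = 0
  · rw [hx0, cl_zero, map_zero]
    exact orth_zero_left _
  rcases lt_trichotomy (O.valuation x) 1 with h | h | h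
  · have h4 : sp (cl ℓ (1 - x)) = 0 := by
      rw [sub_eq_add_neg]
      exact h2 _ (by rwa [Valuation.map_neg])
    rw [h4]
    exact orth_zero_right _
  · have h4 : O.valuation (1 - x) ≤ 1 := by
      refine le_trans (O.valuation.map_sub _ _) ?_
      rw [map_one, h]
      simp
    rcases h4.lt_or_eq with h5 | h5
    · have h6 : sp (cl ℓ x) = 0 := by
        have e : x = 1 + (-(1 - x)) := by ring
        rw [e]
        exact h2 _ (by rwa [Valuation.map_neg])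
      rw [h6]
      exact orth_zero_left _
    · rw [h1 x h, h1 _ h5, rs_sub (one_mem O) (mem_of_val h), rs_one]
      exact orth_one_sub _
  · have hinv : O.valuation x⁻¹ < 1 := by
      rw [map_inv₀]
      exact inv_lt_one_of_one_lt₀ h
    have e1 : (1 - x) = (-x) * (1 + -x⁻¹) := by field_simp; ring
    have hm : O.valuation (-x⁻¹) < 1 := by rwa [Valuation.map_neg]
    have e2 : cl ℓ (1 - x) = cl ℓ x + cl ℓ (1 + -x⁻¹) := by
      rw [e1, cl_mul ℓ (neg_ne_zero.2 hx0) (one_add_ne_zero hm), cl_neg ℓ hneg]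
    rw [e2, map_add, h2 _ hm, add_zero]
    obtain ⟨c, -, hc⟩ := cl_surj ℓ (sp (cl ℓ x))
    rw [← hc]
    exact rc_orth_self (rc_neg hneg hℓ) c

end resmap

/-- induced isomorphisms. -/
theorem exists_induced {R M N A B : Type*} [Ring R] [AddCommGroup M] [AddCommGroup N]
    [AddCommGroup A] [AddCommGroup B] [Module R M] [Module R N] [Module R A] [Module R B]
    (f : M →ₗ[R] A) (hf : Function.Surjective f) (g : N →ₗ[R] B) (hg : Function.Surjective g)
    (e : M ≃ₗ[R] N) (h : ∀ v, g (e v) = 0 ↔ f v = 0) :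
    ∃ T : A ≃ₗ[R] B, ∀ v, T (f v) = g (e v) := by
  have hk : (LinearMap.ker f).map (e : M →ₗ[R] N) = LinearMap.ker g := by
    ext w
    constructor
    · rintro ⟨v, hv, rfl⟩
      exact (h v).2 hv
    · intro hw
      refine ⟨e.symm w, ?_, by simp⟩
      have := (h (e.symm w)).1 (by rw [LinearEquiv.apply_symm_apply]; exact hw)
      exact this
  refine ⟨(f.quotKerEquivOfSurjective hf).symm.trans
    ((Submodule.Quotient.equiv _ _ e hk).trans (g.quotKerEquivOfSurjective hg)), fun v => ?_⟩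
  have h1 : (f.quotKerEquivOfSurjective hf).symm (f v) = Submodule.Quotient.mk v := by
    rw [LinearEquiv.symm_apply_eq]
    rfl
  rw [LinearEquiv.trans_apply, h1]
  rfl

/-- compatibility from the Steinberg relations on both sides. -/
theorem compatible_of {K L : Type*} [Field K] [Field L] {ℓ : ℕ} {Θ : V ℓ K ≃ₗ[ZMod ℓ] V ℓ L}
    (h1 : ∀ x : K, Orth (Θ (cl ℓ x)) (Θ (cl ℓ (1 - x))))
    (h2 : ∀ x : L, Orth (Θ.symm (cl ℓ x)) (Θ.symm (cl ℓ (1 - x)))) : Compatible Θ := by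
  unfold Compatible
  apply le_antisymm
  · rw [Submodule.map_le_iff_le_comap]
    conv_lhs => unfold R
    rw [Submodule.span_le]
    rintro _ ⟨x, y, hxy, rfl⟩
    have hy : (y : K) = 1 - x := by rw [← hxy]; ring
    have h := h1 (x : K)
    rw [← hy, cl_unit, cl_unit] at h
    rw [SetLike.mem_coe, Submodule.mem_comap, TensorProduct.map_tmul]
    exact h
  · conv_lhs => unfold R
    rw [Submodule.span_le]
    rintro _ ⟨x, y, hxy, rfl⟩
    have hy : (y : L) = 1 - x := by rw [← hxy]; ring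
    have h := h2 (x : L)
    rw [← hy, cl_unit, cl_unit] at h
    refine ⟨_, h, ?_⟩
    rw [TensorProduct.map_tmul]
    simp

variable {K L : Type*} [Field K] [Field L] [PerfectField K] [PerfectField L] {ℓ : ℕ}
  [Fact ℓ.Prime] [NeZero (ℓ : K)] [NeZero (ℓ : L)] {Θ : V ℓ K ≃ₗ[ZMod ℓ] V ℓ L}

/-- `Θ'` is induced by `Θ` on the residue fields. -/
def ResMap (ℓ : ℕ) {K L : Type*} [Field K] [Field L] (Θ : V ℓ K ≃ₗ[ZMod ℓ] V ℓ L)
    (W : ValuationSubring K) (O : ValuationSubring L)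
    (Θ' : V ℓ (IsLocalRing.ResidueField W) ≃ₗ[ZMod ℓ] V ℓ (IsLocalRing.ResidueField O)) : Prop :=
  ∀ (z : K) (z' : L), W.valuation z = 1 → O.valuation z' = 1 → Θ (cl ℓ z) = cl ℓ z' →
    Θ' (cl ℓ (rs W z)) = cl ℓ (rs O z')

/-- the isomorphism of the residue fields. -/
theorem Tr.res (hΘ : Compatible Θ) (hnegK : ∃ i : K, i ^ ℓ = -1) (hnegL : ∃ i : L, i ^ ℓ = -1)
    {W : ValuationSubring K} {π : K} {O : ValuationSubring L} (hW : IsUnif W π)
    (hT : Tr Θ W π O) (hNC : NoCtr ℓ (IsLocalRing.ResidueField W)) :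
    ∃ Θ' : V ℓ (IsLocalRing.ResidueField W) ≃ₗ[ZMod ℓ] V ℓ (IsLocalRing.ResidueField O),
      Compatible Θ' ∧ ResMap ℓ Θ W O Θ' := by
  have hℓ : ℓ ≠ 0 := (Fact.out : ℓ.Prime).ne_zero
  have hUC : ∀ v, Θ v ∈ UC ℓ O ↔ v ∈ UC ℓ W := by
    intro v
    rw [hT.uc hΘ hnegK hnegL hW hNC, LinearEquiv.symm_apply_apply, hW.mem_UC_iff]
  have hmap : (UC ℓ W).map (Θ : V ℓ K →ₗ[ZMod ℓ] V ℓ L) = UC ℓ O := by
    ext w
    constructor
    · rintro ⟨v, hv, rfl⟩
      exact (hUC v).2 hv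
    · intro hw
      refine ⟨Θ.symm w, ?_, by simp⟩
      exact (hUC _).1 (by rw [LinearEquiv.apply_symm_apply]; exact hw)
  obtain ⟨rW, rW1, rW2, rW3⟩ := exists_rc hℓ W
  obtain ⟨rO, rO1, rO2, rO3⟩ := exists_rc hℓ O
  let e : UC ℓ W ≃ₗ[ZMod ℓ] UC ℓ O := Θ.ofSubmodules (UC ℓ W) (UC ℓ O) hmap
  have he : ∀ v : UC ℓ W, ((e v : UC ℓ O) : V ℓ L) = Θ v := fun v => rfl
  obtain ⟨Θ', hΘ'⟩ := exists_induced rW rW2 rO rO2 e fun v => by
    rw [rW3, rO3, he]
    exact hT.iff v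
  have hres : ResMap ℓ Θ W O Θ' := by
    intro z z' hz hz' hzz
    have h1 := hΘ' ⟨cl ℓ z, mem_UC.2 ⟨z, hz, rfl⟩⟩
    rw [rW1 z hz _ rfl] at h1
    rw [h1]
    exact rO1 z' hz' _ (by rw [he]; exact hzz)
  refine ⟨Θ', ?_, hres⟩
  obtain ⟨spO, so1, so2⟩ := exists_sp hnegL hℓ O ((hW.fn ℓ) ∘ₗ (Θ.symm : V ℓ L →ₗ[ZMod ℓ] V ℓ K))
    (fun v => hT.uc hΘ hnegK hnegL hW hNC v) (Θ (cl ℓ π)) (by
      rw [LinearMap.comp_apply, LinearEquiv.coe_coe, LinearEquiv.symm_apply_apply]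
      exact hW.fn_self ℓ)
  obtain ⟨spW, sw1, sw2⟩ := exists_sp hnegK hℓ W (hW.fn ℓ) (fun v => hW.mem_UC_iff v) (cl ℓ π)
    (hW.fn_self ℓ)
  refine compatible_of (fun a => ?_) fun a => ?_
  · by_cases ha0 : a = 0
    · rw [ha0, cl_zero, map_zero]
      exact orth_zero_left _
    by_cases ha1 : 1 - a = 0
    · rw [ha1, cl_zero, map_zero]
      exact orth_zero_right _
    obtain ⟨x, hx, rfl⟩ := rs_surj a
    have hx1 : W.valuation x = 1 := (rs_ne_zero hx).1 ha0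
    have e1 : rs W (1 - x) = 1 - rs W x := by rw [rs_sub (one_mem W) hx, rs_one]
    have hx2 : W.valuation (1 - x) = 1 :=
      (rs_ne_zero (sub_mem (one_mem W) hx)).1 (by rw [e1]; exact ha1)
    have key : ∀ y : K, W.valuation y = 1 → Θ' (cl ℓ (rs W y)) = spO (Θ (cl ℓ y)) := by
      intro y hy
      obtain ⟨y', hy', hyy⟩ := mem_UC.1 ((hUC (cl ℓ y)).2 (mem_UC.2 ⟨y, hy, rfl⟩))
      rw [hres y y' hy hy' hyy, hyy, so1 y' hy']
    rw [← e1, key x hx1, key _ hx2]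
    exact so2 _ _ (hΘ.orth (orth_one_sub x))
  · by_cases ha0 : a = 0
    · rw [ha0, cl_zero, map_zero]
      exact orth_zero_left _
    by_cases ha1 : 1 - a = 0
    · rw [ha1, cl_zero, map_zero]
      exact orth_zero_right _
    obtain ⟨x, hx, rfl⟩ := rs_surj a
    have hx1 : O.valuation x = 1 := (rs_ne_zero hx).1 ha0
    have e1 : rs O (1 - x) = 1 - rs O x := by rw [rs_sub (one_mem O) hx, rs_one]
    have hx2 : O.valuation (1 - x) = 1 :=
      (rs_ne_zero (sub_mem (one_mem O) hx)).1 (by rw [e1]; exact ha1)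
    have key : ∀ y : L, O.valuation y = 1 →
        Θ'.symm (cl ℓ (rs O y)) = spW (Θ.symm (cl ℓ y)) := by
      intro y hy
      have h3 : Θ.symm (cl ℓ y) ∈ UC ℓ W := (hUC _).1 (by
        rw [LinearEquiv.apply_symm_apply]
        exact mem_UC.2 ⟨y, hy, rfl⟩)
      obtain ⟨z, hz, hzy⟩ := mem_UC.1 h3
      have h4 : Θ (cl ℓ z) = cl ℓ y := by rw [← hzy, LinearEquiv.apply_symm_apply]
      rw [hzy, sw1 z hz, LinearEquiv.symm_apply_eq]
      exact (hres z y hz hy h4).symm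
    rw [← e1, key x hx1, key _ hx2]
    exact sw2 _ _ (hΘ.symm.orth (orth_one_sub x))

end Vale.Agent.P019P
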