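import Vale.Agent.P019Q.ApB6
import Vale.Agent.P019Q.Res
import Vale.Agent.P019Q.CFib

/-!
# Approximation: good places
-/

namespace Vale.Agent.P019P

open Vale.Agent.P019

set_option linter.style.haveILetI false
set_option linter.unusedSectionVars false

open Polynomial Filter

variable {K : Type*} [Field K] {k : Subfield K}

theorem apb_delta_ae {δ : k[X][X]} (hδ : δ ≠ 0) :
    ∀ᶠ a in ae k, ∀ b : k, (b : K) = a → δ.eval (C b) ≠ 0 := by
  refine frb_ae ?_
  rw [eventually_cofinite]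
  have h1 : {x : k[X] | IsRoot δ x}.Finite := finite_setOfPred_isRoot hδ
  refine (h1.preimage (f := fun b : k => C b) (C_injective.injOn)).subset ?_
  intro b hb
  rw [Set.mem_ofPred_eq] at hb
  push Not at hb
  obtain ⟨b', hb', h0⟩ := hb
  have h2 : b' = b := Subtype.ext hb'
  rw [h2] at h0
  exact h0

/-- a uniform bound for the degree of the specializations. -/
noncomputable def apbDeg (δ : k[X][X]) : ℕ :=
  (Finset.range (δ.natDegree + 1)).sup fun i => (δ.coeff i).natDegree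

theorem apbDeg_le (δ : k[X][X]) (b : k) : (δ.eval (C b)).natDegree ≤ apbDeg δ := by
  rw [eval_eq_sum_range]
  refine natDegree_sum_le_of_forall_le _ _ fun i hi => ?_
  rw [← C_pow]
  refine (natDegree_mul_C_le _ _).trans ?_
  exact Finset.le_sup (f := fun i => (δ.coeff i).natDegree) hi

theorem apb_eval_eq (δ : k[X][X]) (b c : k) :
    apbEv (RingHom.id k) b c δ = (δ.eval (C b)).eval c := by
  have h1 : apbEv (RingHom.id k) b c = (evalRingHom c).comp (evalRingHom (C b)) := by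
    unfold apbEv
    ext <;> simp
  rw [h1]
  rfl

section places

variable {κ : Type*} [Field κ] [PerfectField κ] {l : Subfield κ}

theorem apb_finrank_eq {E E' : Subfield κ} (h : E = E') :
    Module.finrank E κ = Module.finrank E' κ := by
  subst h
  rfl

theorem apb_adj_inv {x : κ} : adj l x⁻¹ = adj l x := by
  apply le_antisymm
  · exact adj_le (le_adj l x) ((adj l x).inv_mem (mem_adj l x))
  · refine adj_le (le_adj l _) ?_
    have h1 := (adj l x⁻¹).inv_mem (mem_adj l x⁻¹)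
    rwa [inv_inv] at h1

theorem apb_adj_sub {x c : κ} (hc : c ∈ l) : adj l (x - c) = adj l x := by
  apply le_antisymm
  · exact adj_le (le_adj l x) ((adj l x).sub_mem (mem_adj l x) (le_adj l x hc))
  · refine adj_le (le_adj l _) ?_
    have h1 := (adj l (x - c)).add_mem (mem_adj l (x - c)) (le_adj l _ hc)
    rwa [sub_add_cancel] at h1

/-- the places at which some element of a finite set vanishes. -/
theorem apb_places (h : Cv l) (S : Finset κ) (n : ℕ)
    (hS : ∀ x ∈ S, x ∉ l ∧ Module.finrank (adj l x) κ ≤ n) :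
    ∃ T : Finset (ValuationSubring κ), T.card ≤ S.card * n ∧ (∀ P ∈ T, P ∈ Plc l) ∧
      ∀ P ∈ Plc l, P ∉ T → ∀ x ∈ S, ¬ P.valuation x < 1 := by
  classical
  let f : κ → Finset (ValuationSubring κ) := fun x =>
    if hx : x ∉ l then (Cv.fib_card h hx).1.toFinset else ∅
  have hf : ∀ x (hx : x ∉ l), f x = (Cv.fib_card h hx).1.toFinset := fun x hx => dif_pos hx
  refine ⟨S.biUnion f, ?_, ?_, ?_⟩
  · refine Finset.card_biUnion_le_card_mul _ _ _ fun x hx => ?_
    obtain ⟨h1, h2⟩ := hS x hx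
    rw [hf x h1, ← Set.ncard_eq_toFinset_card _ (Cv.fib_card h h1).1]
    exact (Cv.fib_card h h1).2.trans h2
  · intro P hP
    obtain ⟨x, hx, hPx⟩ := Finset.mem_biUnion.1 hP
    rw [hf x (hS x hx).1, Set.Finite.mem_toFinset] at hPx
    exact hPx.1
  · intro P hP hPT x hx hlt
    apply hPT
    refine Finset.mem_biUnion.2 ⟨x, hx, ?_⟩
    rw [hf x (hS x hx).1, Set.Finite.mem_toFinset]
    exact ⟨hP, hlt⟩

theorem apb_mem_of_inv {P : ValuationSubring κ} {x : κ} (h : ¬ P.valuation x⁻¹ < 1) : x ∈ P := by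
  rw [apb_lt_iff, inv_inv] at h
  push Not at h
  exact h.2

/-- values at places. -/
theorem apb_value (h : Cv l) {P : ValuationSubring κ} (hP : P ∈ Plc l) {x : κ} (hx : x ∈ P) :
    ∃ c ∈ l, P.valuation (x - c) < 1 := by
  obtain ⟨c, hc, hcx⟩ := (mem_bar hP.1).1 ((Cv.place h hP).2 (rs P x))
  refine ⟨c, hc, ?_⟩
  rw [← rs_eq hx (hP.1 c hc)]
  exact hcx.symm

end places

section main

variable {t s θ : K} {Φ U V : k[X][X][X]} {δ : k[X][X]} {W : ValuationSubring K}

/-- evaluation at constants. -/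
theorem apb_const (b c ϑ : k) (G : k[X][X][X]) :
    eval₂ (apbEv k.subtype (b : K) (c : K)) (ϑ : K) G =
      ((eval₂ (apbEv (RingHom.id k) b c) ϑ G : k) : K) := by
  have h1 : k.subtype.comp (apbEv (RingHom.id k) b c) = apbEv k.subtype (b : K) (c : K) := by
    rw [apbEv_comp]
    rfl
  have h2 := hom_eval₂ G (apbEv (RingHom.id k) b c) k.subtype ϑ
  rw [h1] at h2
  exact h2.symm

/-- congruences modulo the maximal ideal of a lexicographic ring. -/
theorem apb_lex_cong {b c ϑ : k} {R : ValuationSubring K} (hR : ApbLex k (t - b) (s - c) R)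
    (hθ : R.valuation (θ - ϑ) < 1) (G : k[X][X][X]) :
    R.valuation (eval₂ (apbEv k.subtype t s) θ G -
      ((eval₂ (apbEv (RingHom.id k) b c) ϑ G : k) : K)) < 1 := by
  rw [← apb_const]
  have hkR : ∀ r : k, k.subtype r ∈ R := fun r => hR.triv _ r.2
  have htR : t ∈ R := by
    have h1 := add_mem (apb_mem_of_lt hR.lt0) (hR.triv _ b.2)
    rwa [sub_add_cancel] at h1
  have hsR : s ∈ R := by
    have h1 := add_mem (apb_mem_of_lt hR.ls) (hR.triv _ c.2)
    rwa [sub_add_cancel] at h1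
  have hθR : θ ∈ R := by
    have h1 := add_mem (apb_mem_of_lt hθ) (hR.triv _ ϑ.2)
    rwa [sub_add_cancel] at h1
  exact apb_cong (fun r => apbEv_mem hkR htR hsR r)
    (fun r => apbEv_mem hkR (hR.triv _ b.2) (hR.triv _ c.2) r)
    (fun r => apbEv_cong hkR htR hsR (hR.triv _ b.2) (hR.triv _ c.2) hR.lt0 hR.ls r)
    hθR (hR.triv _ ϑ.2) hθ G

theorem apb_good_zero (hM : ApbM k t s θ Φ U V δ) {b c ϑ : k} {R : ValuationSubring K}
    (hR : ApbLex k (t - b) (s - c) R) (hθ : R.valuation (θ - ϑ) < 1) :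
    eval₂ (apbEv (RingHom.id k) b c) ϑ Φ = 0 := by
  have h1 := apb_lex_cong hR hθ Φ
  rw [hM.root, zero_sub, Valuation.map_neg] at h1
  exact Subtype.ext (hR.triv.eq_zero (SetLike.coe_mem _) h1)

theorem apb_good_der (hM : ApbM k t s θ Φ U V δ) {b c ϑ : k}
    (h0 : eval₂ (apbEv (RingHom.id k) b c) ϑ Φ = 0) (hδ : (δ.eval (C b)).eval c ≠ 0) :
    eval₂ (apbEv (RingHom.id k) b c) ϑ (derivative Φ) ≠ 0 := by
  intro h1
  apply hδ
  have h2 := congrArg (eval₂ (apbEv (RingHom.id k) b c) ϑ) hM.bez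
  rw [eval₂_add, eval₂_mul, eval₂_mul, h0, h1, zero_mul, zero_mul, add_zero, eval₂_C] at h2
  rw [← apb_eval_eq]
  exact h2.symm

theorem apb_good_unit {b c ϑ : k} {R : ValuationSubring K}
    (hR : ApbLex k (t - b) (s - c) R) (hθ : R.valuation (θ - ϑ) < 1)
    (h1 : eval₂ (apbEv (RingHom.id k) b c) ϑ (derivative Φ) ≠ 0) :
    R.valuation (eval₂ (apbEv k.subtype t s) θ (derivative Φ)) = 1 := by
  refine val_of_sub (hR.triv.eq_one (SetLike.coe_mem _) ?_) (apb_lex_cong hR hθ (derivative Φ))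
  exact fun h => h1 (Subtype.ext h)

/-- the fields `F_N`. -/
theorem apb_field [PerfectField K] (hS : Srf k t s) (b c : k) (n : ℕ) {τ : K}
    (hτ : t = b + τ * (s - c) ^ (n + 1)) :
    adj k τ ≤ adj (adj k s) t ∧ ¬ IsAlgebraic (adj k τ) s ∧ FG k (adj k τ) ∧ ¬ adj k τ ≤ k := by
  have hsc := apb_s_sub hS c
  have hpow : (s - (c : K)) ^ (n + 1) ≠ 0 := pow_ne_zero _ hsc
  have hτ' : τ = (t - b) / (s - c) ^ (n + 1) := by
    rw [eq_div_iff hpow, hτ]
    ring
  have key : ¬ IsAlgebraic (adj k s) τ := by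
    intro h
    apply hS.tt
    have hr : adj k s ≤ rac (adj k s) := le_rac _
    have h1 : t ∈ rac (adj k s) := by
      rw [hτ]
      refine Subfield.add_mem _ (hr (le_adj k s b.2)) (Subfield.mul_mem _ (mem_rac.2 h) ?_)
      exact Subfield.pow_mem _ (Subfield.sub_mem _ (hr (mem_adj k s)) (hr (le_adj k s c.2))) _
    exact mem_rac.1 h1
  refine ⟨?_, ?_, ?_, ?_⟩
  · have hk : k ≤ adj (adj k s) t := (le_adj k s).trans (le_adj _ t)
    refine adj_le hk ?_
    rw [hτ']
    exact Subfield.div_mem _ (Subfield.sub_mem _ (mem_adj _ _) (hk b.2))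
      (Subfield.pow_mem _ (Subfield.sub_mem _ (le_adj _ _ (mem_adj k s)) (hk c.2)) _)
  · intro h
    exact key (exchange hS.ss h)
  · refine ⟨{τ}, ?_⟩
    rw [Finset.coe_singleton]
    rfl
  · intro h
    exact key (isAlgebraic_of_mem (le_adj k s (h (mem_adj k τ))))

/-- the approximation at a good place. -/
theorem apb_good [PerfectField K] (hS : Srf k t s) (hM : ApbM k t s θ Φ U V δ) {b c ϑ : k}
    {R : ValuationSubring K} (hR : ApbLex k (t - b) (s - c) R)
    (hθ : R.valuation (θ - ϑ) < 1) (hδ : (δ.eval (C b)).eval c ≠ 0) :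
    ∃ (F : ℕ → Subfield K) (Wn : ℕ → ValuationSubring K),
      (∀ n, k ≤ F n ∧ FG k (F n) ∧ ¬ F n ≤ k ∧ Nice (Wn n) (F n) (s - c) θ) ∧
      ∀ z ∈ R, ∀ᶠ n in atTop, z ∈ Wn n := by
  have h0 := apb_good_zero hM hR hθ
  have h1 := apb_good_der hM h0 hδ
  have hsc := apb_s_sub hS c
  have hT : ∀ n : ℕ, t = b + (t - b) / (s - c) ^ (n + 1) * (s - c) ^ (n + 1) := by
    intro n
    rw [div_mul_cancel₀ _ (pow_ne_zero _ hsc)]
    ring
  let τ : ℕ → K := fun n => (t - b) / (s - c) ^ (n + 1)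
  have hex : ∀ n, ∃ W : ValuationSubring K, Nice W (adj k (τ n)) (s - c) θ ∧
      W.valuation (θ - ϑ) < 1 := by
    intro n
    obtain ⟨hf1, hf2, -, -⟩ := apb_field hS b c n (hT n)
    haveI : PerfectField (adj k (τ n)) := perfect_adj _ _
    obtain ⟨W, hW1, hW2, hW3, hW4, hW5⟩ := apb_exists_W hM (le_adj k (τ n)) hf1 hf2
      ⟨τ n, mem_adj k (τ n)⟩ b c ϑ n (hT n) h0 h1
    exact ⟨W, apb_nice hM (le_adj k (τ n)) ⟨τ n, mem_adj k (τ n)⟩ b c n (hT n) hsc hW1 hW2 hW3 hW5,
      hW4⟩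
  choose Wn hWn using hex
  refine ⟨fun n => adj k (τ n), Wn, fun n => ?_, fun z hz => ?_⟩
  · obtain ⟨-, -, hf3, hf4⟩ := apb_field hS b c n (hT n)
    exact ⟨le_adj _ _, hf3, hf4, (hWn n).1⟩
  · exact apb_limit hS hM hR hθ (apb_good_unit hR hθ h1) Wn (fun n => adj k (τ n))
      (fun n => (hWn n).1.triv) (fun n => le_adj _ _) (fun n => mem_adj _ _)
      (fun n => (hWn n).1.unif.lt) (fun n => (hWn n).2) hz

/-- the composite valuation is lexicographic. -/
theorem apb_compos_lex {b c : k} (hS : Srf k t s) (hW : TrivOn W k) (hWs : TrivOn W (adj k s))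
    (hWt : W.valuation (t - b) < 1) {P : ValuationSubring (IsLocalRing.ResidueField W)}
    (hP : TrivOn P (bar hW)) (hPs : P.valuation (rs W s - rs W c) < 1) :
    W.valuation (s - c) = 1 ∧ P.valuation (rs W (s - c)) < 1 ∧
      ApbLex k (t - b) (s - c) (compos W P) := by
  have hscm : s - (c : K) ∈ adj k s := Subfield.sub_mem _ (mem_adj k s) (le_adj k s c.2)
  have h1 : W.valuation (s - c) = 1 := hWs.eq_one hscm (apb_s_sub hS c)
  have h2 : P.valuation (rs W (s - c)) < 1 := by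
    rw [rs_sub (hWs _ (mem_adj k s)) (hW _ c.2)]
    exact hPs
  refine ⟨h1, h2, ?_, ?_, ?_⟩
  · intro a ha
    exact ⟨hW a ha, hP _ (rs_mem_bar hW ha)⟩
  · exact apb_compos_lt (mem_of_val h1) h2
  · intro m
    refine apb_compos_lt' ?_
    rw [map_div₀, map_pow, h1, one_pow, div_one]
    exact hWt

end main

end Vale.Agent.P019P
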