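import Vale.Agent.P019Q.ZIface

set_option linter.all false

/-!
# Classes unramified outside a finite set: abstract count
-/

namespace Vale.Agent.P019P

namespace AuxFAbs

theorem card_range_eq {G A B : Type*} [AddCommGroup G] [AddCommGroup A] [AddCommGroup B]
    (a : G →+ A) (b : G →+ B) (h : a.ker = b.ker) :
    Nat.card a.range = Nat.card b.range := by
  rw [← AddSubgroup.index_ker, ← AddSubgroup.index_ker, h]

/-- elements of `prin` divisible by `ℓ` outside `T`. -/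
def BT {P : Type*} (prin : AddSubgroup (P →₀ ℤ)) (ℓ : ℕ) (T : Finset P) : AddSubgroup prin where
  carrier := {D | ∀ p, p ∉ T → (ℓ : ℤ) ∣ (D : P →₀ ℤ) p}
  zero_mem' := by
    intro p _
    simp
  add_mem' := by
    intro a b ha hb p hp
    have := dvd_add (ha p hp) (hb p hp)
    simpa using this
  neg_mem' := by
    intro a ha p hp
    have := (ha p hp)
    simpa using this

theorem mem_BT {P : Type*} {prin : AddSubgroup (P →₀ ℤ)} {ℓ : ℕ} {T : Finset P} {D : prin} :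
    D ∈ BT prin ℓ T ↔ ∀ p, p ∉ T → (ℓ : ℤ) ∣ (D : P →₀ ℤ) p := Iff.rfl

theorem card_A {P : Type*} (prin : AddSubgroup (P →₀ ℤ)) {ℓ : ℕ}
    {W : Type*} [AddCommGroup W] (f : prin →+ W) (T : Finset P) :
    Nat.card {v : W // ∃ D : prin, f D = v ∧ ∀ p, p ∉ T → (ℓ : ℤ) ∣ (D : P →₀ ℤ) p} =
      f.ker.relIndex (BT prin ℓ T) := by
  rw [AddSubgroup.relIndex_ker]
  apply Nat.card_congr
  refine Equiv.subtypeEquivRight ?_
  intro v
  constructor
  · rintro ⟨D, h1, h2⟩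
    exact ⟨D, h2, h1⟩
  · rintro ⟨D, h1, h2⟩
    exact ⟨D, h2, h1⟩

/-- division of a divisor by `ℓ`. -/
theorem exists_div {P : Type*} {ℓ : ℕ} (hℓ : ℓ ≠ 0) (D : P →₀ ℤ) (h : ∀ p, (ℓ : ℤ) ∣ D p) :
    ∃ E : P →₀ ℤ, D = ℓ • E := by
  refine ⟨D.mapRange (fun x => x / (ℓ : ℤ)) (by simp), ?_⟩
  ext p
  have h1 := h p
  rw [Finsupp.smul_apply, Finsupp.mapRange_apply, nsmul_eq_mul]
  exact (Int.mul_ediv_cancel' h1).symm

theorem smul_inj {P : Type*} {ℓ : ℕ} (hℓ : ℓ ≠ 0) {D E : P →₀ ℤ} (h : ℓ • D = ℓ • E) : D = E := by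
  ext p
  have h1 := DFunLike.congr_fun h p
  rw [Finsupp.smul_apply, Finsupp.smul_apply, nsmul_eq_mul, nsmul_eq_mul] at h1
  exact mul_left_cancel₀ (by exact_mod_cast hℓ) h1

theorem card_empty {P : Type*} (prin : AddSubgroup (P →₀ ℤ)) {ℓ : ℕ}
    (hℓ : ℓ ≠ 0) {W : Type*} [AddCommGroup W] (f : prin →+ W)
    (hk : ∀ D : prin, f D = 0 ↔ ∃ E : prin, D = ℓ • E) :
    f.ker.relIndex (BT prin ℓ ∅) = Nat.card {x : (P →₀ ℤ) ⧸ prin // ℓ • x = 0} := by
  classical
  let K : AddSubgroup (P →₀ ℤ) := prin.comap (nsmulAddMonoidHom (α := P →₀ ℤ) ℓ)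
  have hKmem : ∀ E : P →₀ ℤ, E ∈ K ↔ ℓ • E ∈ prin := fun E => Iff.rfl
  let β0 : K →+ prin :=
    { toFun := fun E => ⟨ℓ • (E : P →₀ ℤ), E.2⟩
      map_zero' := by
        apply Subtype.ext
        simp
      map_add' := by
        intro a b
        apply Subtype.ext
        simp }
  let β : K →+ W := f.comp β0
  let α : K →+ (P →₀ ℤ) ⧸ prin := (QuotientAddGroup.mk' prin).comp K.subtype
  have hker : α.ker = β.ker := by
    ext E
    rw [AddMonoidHom.mem_ker, AddMonoidHom.mem_ker]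
    have e1 : α E = 0 ↔ (E : P →₀ ℤ) ∈ prin := by
      change (QuotientAddGroup.mk (s := prin) (E : P →₀ ℤ)) = 0 ↔ _
      exact QuotientAddGroup.eq_zero_iff _
    have e2 : β E = 0 ↔ ∃ E' : prin, β0 E = ℓ • E' := hk (β0 E)
    rw [e1, e2]
    constructor
    · intro h
      refine ⟨⟨E, h⟩, ?_⟩
      apply Subtype.ext
      rfl
    · rintro ⟨E', h'⟩
      have h3 : ℓ • (E : P →₀ ℤ) = ℓ • (E' : P →₀ ℤ) := by
        have := congrArg (Subtype.val) h'
        exact this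
      rw [smul_inj hℓ h3]
      exact E'.2
  have h1 := card_range_eq α β hker
  have h2 : Nat.card {x : (P →₀ ℤ) ⧸ prin // ℓ • x = 0} = Nat.card α.range := by
    apply Nat.card_congr
    refine Equiv.subtypeEquivRight ?_
    intro x
    constructor
    · intro hx
      obtain ⟨E, rfl⟩ := QuotientAddGroup.mk_surjective x
      have hE : E ∈ K := by
        rw [hKmem, ← QuotientAddGroup.eq_zero_iff]
        exact hx
      exact ⟨⟨E, hE⟩, rfl⟩
    · rintro ⟨E, rfl⟩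
      change ℓ • (QuotientAddGroup.mk (s := prin) (E : P →₀ ℤ)) = 0
      have : (QuotientAddGroup.mk (s := prin) (ℓ • (E : P →₀ ℤ))) = 0 :=
        (QuotientAddGroup.eq_zero_iff _).2 E.2
      exact this
  have h3 : f.ker.relIndex (BT prin ℓ ∅) = Nat.card β.range := by
    rw [AddSubgroup.relIndex_ker]
    congr 1
    have : (BT prin ℓ ∅).map f = β.range := by
      ext v
      constructor
      · rintro ⟨D, hD, rfl⟩
        have hD' : ∀ p, (ℓ : ℤ) ∣ (D : P →₀ ℤ) p := fun p => hD p (by simp)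
        obtain ⟨E, hE⟩ := exists_div hℓ (D : P →₀ ℤ) hD'
        have hEK : E ∈ K := by
          rw [hKmem, ← hE]
          exact D.2
        refine ⟨⟨E, hEK⟩, ?_⟩
        change f (β0 ⟨E, hEK⟩) = f D
        congr 1
        apply Subtype.ext
        exact hE.symm
      · rintro ⟨E, rfl⟩
        refine ⟨β0 E, ?_, rfl⟩
        intro p _
        change (ℓ : ℤ) ∣ (ℓ • (E : P →₀ ℤ)) p
        rw [Finsupp.smul_apply, nsmul_eq_mul]
        exact dvd_mul_right _ _
    rw [this]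
  rw [h3, ← h1, h2]

/-- reduction on `T`. -/
def red {P : Type*} (prin : AddSubgroup (P →₀ ℤ)) (ℓ : ℕ) (T : Finset P) :
    prin →+ (T → ZMod ℓ) where
  toFun D := fun p => (((D : P →₀ ℤ) p : ℤ) : ZMod ℓ)
  map_zero' := by
    ext p
    simp
  map_add' := by
    intro a b
    ext p
    simp

/-- the sum map. -/
def sm {P : Type*} (ℓ : ℕ) (T : Finset P) : (T → ZMod ℓ) →+ ZMod ℓ where
  toFun c := ∑ p, c p
  map_zero' := by simp
  map_add' := by
    intro a b
    simp [Finset.sum_add_distrib]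

theorem card_ker_sm {P : Type*} {ℓ : ℕ} (hℓ : ℓ.Prime) (T : Finset P) (t0 : P) (ht : t0 ∈ T) :
    Nat.card (sm (P := P) ℓ T).ker = ℓ ^ (T.card - 1) := by
  classical
  haveI : NeZero ℓ := ⟨hℓ.ne_zero⟩
  have h1 := AddSubgroup.card_mul_index (sm (P := P) ℓ T).ker
  rw [AddSubgroup.index_ker] at h1
  have h2 : (sm (P := P) ℓ T).range = ⊤ := by
    rw [AddMonoidHom.range_eq_top]
    intro x
    refine ⟨fun p => if p = ⟨t0, ht⟩ then x else 0, ?_⟩
    change ∑ p : T, (if p = ⟨t0, ht⟩ then x else 0) = x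
    simp
  rw [h2] at h1
  have h3 : Nat.card (⊤ : AddSubgroup (ZMod ℓ)) = ℓ := by
    rw [AddSubgroup.card_top, Nat.card_zmod]
  have h4 : Nat.card (T → ZMod ℓ) = ℓ ^ T.card := by
    rw [Nat.card_fun, Nat.card_zmod, Nat.card_eq_fintype_card, Fintype.card_coe]
  rw [h3, h4] at h1
  have h5 : T.card = (T.card - 1) + 1 := by
    have : 0 < T.card := Finset.card_pos.2 ⟨t0, ht⟩
    omega
  rw [h5, pow_succ] at h1
  exact Nat.eq_of_mul_eq_mul_right hℓ.pos (by simpa using h1)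

theorem dg_single {P : Type*} (p : P) (a : ℤ) : dg (Finsupp.single p a) = a := by
  simp [dg]

theorem dg_eq {P : Type*} (D : P →₀ ℤ) : dg D = ∑ p ∈ D.support, D p := by
  simp [dg, Finsupp.sum]

theorem dg_mod {P : Type*} {ℓ : ℕ} (T : Finset P) (D : P →₀ ℤ) (h : ∀ p, p ∉ T → (ℓ : ℤ) ∣ D p) :
    (dg D : ZMod ℓ) = ∑ p ∈ T, ((D p : ℤ) : ZMod ℓ) := by
  classical
  rw [dg_eq]
  push_cast
  have h1 : ∑ p ∈ D.support, ((D p : ℤ) : ZMod ℓ) =
      ∑ p ∈ D.support ∪ T, ((D p : ℤ) : ZMod ℓ) := by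
    apply Finset.sum_subset Finset.subset_union_left
    intro p _ hp
    rw [Finsupp.notMem_support_iff.1 hp]
    simp
  have h2 : ∑ p ∈ T, ((D p : ℤ) : ZMod ℓ) =
      ∑ p ∈ D.support ∪ T, ((D p : ℤ) : ZMod ℓ) := by
    apply Finset.sum_subset Finset.subset_union_right
    intro p _ hp
    exact (ZMod.intCast_zmod_eq_zero_iff_dvd _ _).2 (h p hp)
  rw [h1, h2]

theorem map_red {P : Type*} (prin : AddSubgroup (P →₀ ℤ)) (h0 : ∀ D ∈ prin, dg D = 0) {ℓ : ℕ}
    (hℓ : ℓ.Prime) (hdiv : ∀ D : P →₀ ℤ, dg D = 0 → ∃ E : P →₀ ℤ, dg E = 0 ∧ D - ℓ • E ∈ prin)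
    (T : Finset P) (t0 : P) (ht : t0 ∈ T) :
    (BT prin ℓ T).map (red prin ℓ T) = (sm (P := P) ℓ T).ker := by
  classical
  haveI : NeZero ℓ := ⟨hℓ.ne_zero⟩
  ext c
  rw [AddMonoidHom.mem_ker]
  constructor
  · rintro ⟨D, hD, rfl⟩
    change ∑ p : T, (((D : P →₀ ℤ) p : ℤ) : ZMod ℓ) = 0
    have h1 := dg_mod (ℓ := ℓ) T (D : P →₀ ℤ) hD
    rw [h0 _ D.2] at h1
    rw [Finset.sum_coe_sort T (fun p => (((D : P →₀ ℤ) p : ℤ) : ZMod ℓ)), ← h1]
    simp
  · intro hc
    change ∑ p : T, c p = 0 at hc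
    let a : P → ℤ := fun p => if h : p ∈ T then ((c ⟨p, h⟩).val : ℤ) else 0
    let S : ℤ := ∑ p ∈ T, a p
    let D0 : P →₀ ℤ := ∑ p ∈ T, Finsupp.single p (a p)
    let D : P →₀ ℤ := D0 - Finsupp.single t0 S
    have ha : ∀ p (h : p ∈ T), ((a p : ℤ) : ZMod ℓ) = c ⟨p, h⟩ := by
      intro p h
      simp [a, h]
    have hS : ((S : ℤ) : ZMod ℓ) = 0 := by
      rw [← hc]
      change (((∑ p ∈ T, a p : ℤ)) : ZMod ℓ) = _
      push_cast
      rw [← Finset.sum_coe_sort T]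
      apply Finset.sum_congr rfl
      intro p _
      exact ha p p.2
    have hdg : dg D = 0 := by
      change dg (D0 - Finsupp.single t0 S) = 0
      rw [map_sub, dg_single]
      change dg (∑ p ∈ T, Finsupp.single p (a p)) - S = 0
      rw [map_sum]
      simp only [dg_single]
      exact sub_self _
    have hD0 : ∀ p, D0 p = a p := by
      intro p
      change (∑ q ∈ T, Finsupp.single q (a q)) p = a p
      rw [Finsupp.finset_sum_apply]
      by_cases h : p ∈ T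
      · rw [Finset.sum_eq_single p]
        · simp
        · intro q _ hq
          simp [Finsupp.single_apply, hq]
        · intro h'
          exact absurd h h'
      · rw [Finset.sum_eq_zero]
        · simp [a, h]
        · intro q hq
          have : q ≠ p := by
            rintro rfl
            exact h hq
          simp [Finsupp.single_apply, this]
    have hDp : ∀ p, ((D p : ℤ) : ZMod ℓ) = ((a p : ℤ) : ZMod ℓ) := by
      intro p
      change (((D0 - Finsupp.single t0 S) p : ℤ) : ZMod ℓ) = _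
      rw [Finsupp.sub_apply, hD0, Finsupp.single_apply]
      push_cast
      split_ifs with h
      · rw [hS, sub_zero]
      · simp
    obtain ⟨E, -, hE⟩ := hdiv D hdg
    have hD' : ∀ p, (((D - ℓ • E) p : ℤ) : ZMod ℓ) = ((a p : ℤ) : ZMod ℓ) := by
      intro p
      rw [Finsupp.sub_apply, Finsupp.smul_apply, nsmul_eq_mul]
      push_cast
      rw [hDp]
      simp
    refine ⟨⟨D - ℓ • E, hE⟩, ?_, ?_⟩
    · intro p hp
      apply (ZMod.intCast_zmod_eq_zero_iff_dvd _ _).1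
      change (((D - ℓ • E) p : ℤ) : ZMod ℓ) = 0
      rw [hD' p]
      simp [a, hp]
    · funext p
      change (((D - ℓ • E) p : ℤ) : ZMod ℓ) = c p
      rw [hD' p, ha p p.2]

theorem inf_eq {P : Type*} (prin : AddSubgroup (P →₀ ℤ)) (ℓ : ℕ) (T : Finset P) :
    (red prin ℓ T).ker ⊓ BT prin ℓ T = BT prin ℓ ∅ := by
  ext D
  rw [AddSubgroup.mem_inf, AddMonoidHom.mem_ker, mem_BT, mem_BT]
  constructor
  · rintro ⟨h1, h2⟩ p _
    by_cases hp : p ∈ T
    · have h3 := congrFun h1 ⟨p, hp⟩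
      exact (ZMod.intCast_zmod_eq_zero_iff_dvd _ _).1 h3
    · exact h2 p hp
  · intro h
    refine ⟨?_, fun p _ => h p (by simp)⟩
    funext p
    exact (ZMod.intCast_zmod_eq_zero_iff_dvd _ _).2 (h p (by simp))

end AuxFAbs

open AuxFAbs in
/-- the number of classes whose divisor is divisible by `ℓ` outside `T`. -/
theorem card_abs {P : Type*} (prin : AddSubgroup (P →₀ ℤ)) (h0 : ∀ D ∈ prin, dg D = 0) {ℓ : ℕ}
    (hℓ : ℓ.Prime) (hdiv : ∀ D : P →₀ ℤ, dg D = 0 → ∃ E : P →₀ ℤ, dg E = 0 ∧ D - ℓ • E ∈ prin)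
    {g : ℕ} (hcard : Nat.card {x : (P →₀ ℤ) ⧸ prin // ℓ • x = 0} = ℓ ^ (2 * g))
    {W : Type*} [AddCommGroup W] (f : prin →+ W) (hf : Function.Surjective f)
    (hk : ∀ D : prin, f D = 0 ↔ ∃ E : prin, D = ℓ • E) (T : Finset P) :
    Nat.card {v : W // ∃ D : prin, f D = v ∧ ∀ p, p ∉ T → (ℓ : ℤ) ∣ (D : P →₀ ℤ) p} =
      ℓ ^ (2 * g + (T.card - 1)) := by
  have hE := card_empty prin hℓ.ne_zero f hk
  rw [hcard] at hE
  rw [card_A]
  rcases T.eq_empty_or_nonempty with rfl | ⟨t0, ht⟩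
  · rw [hE]
    simp
  · have h1 : f.ker ≤ BT prin ℓ ∅ := by
      intro D hD p _
      obtain ⟨E, rfl⟩ := (hk D).1 hD
      change (ℓ : ℤ) ∣ (ℓ • (E : P →₀ ℤ)) p
      rw [Finsupp.smul_apply, nsmul_eq_mul]
      exact dvd_mul_right _ _
    have h2 : BT prin ℓ ∅ ≤ BT prin ℓ T := by
      intro D hD p _
      exact hD p (by simp)
    have h3 := AddSubgroup.relIndex_mul_relIndex _ _ _ h1 h2
    have h4 : (BT prin ℓ ∅).relIndex (BT prin ℓ T) = ℓ ^ (T.card - 1) := by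
      rw [← inf_eq prin ℓ T, AddSubgroup.inf_relIndex_right, AddSubgroup.relIndex_ker,
        map_red prin h0 hℓ hdiv T t0 ht, card_ker_sm hℓ T t0 ht]
    rw [← h3, hE, h4, pow_add]

end Vale.Agent.P019P
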