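import Vale.Agent.P019P.FinB
import Vale.Agent.P019P.HypB

/-!
# Unit classes, places and the data of a curve
-/

namespace Vale.Agent.P019P

open Vale.Agent.P019

set_option linter.style.haveILetI false
set_option linter.unusedSectionVars false

open Polynomial Filter

section

variable {F : Type*} [Field F]

/-- the classes of the units of a valuation subring. -/
noncomputable def UC (ℓ : ℕ) (O : ValuationSubring F) : Submodule (ZMod ℓ) (V ℓ F) :=
  AddSubgroup.toZModSubmodule ℓ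
  { carrier := {v | ∃ z : F, O.valuation z = 1 ∧ v = cl ℓ z}
    zero_mem' := ⟨1, map_one _, (cl_one ℓ).symm⟩
    add_mem' := by
      rintro _ _ ⟨x, hx, rfl⟩ ⟨y, hy, rfl⟩
      have hx0 : x ≠ 0 := by rintro rfl; rw [map_zero] at hx; exact zero_ne_one hx
      have hy0 : y ≠ 0 := by rintro rfl; rw [map_zero] at hy; exact zero_ne_one hy
      exact ⟨x * y, by rw [map_mul, hx, hy, one_mul], (cl_mul ℓ hx0 hy0).symm⟩
    neg_mem' := by
      rintro _ ⟨x, hx, rfl⟩
      exact ⟨x⁻¹, by rw [map_inv₀, hx, inv_one], (cl_inv ℓ x).symm⟩ }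

theorem mem_UC {ℓ : ℕ} {O : ValuationSubring F} {v : V ℓ F} :
    v ∈ UC ℓ O ↔ ∃ z : F, O.valuation z = 1 ∧ v = cl ℓ z := Iff.rfl

/-- the places of `F` over `k`. -/
def Plc (k : Subfield F) : Set (ValuationSubring F) := {O | TrivOn O k ∧ O ≠ ⊤}

/-- `F` is (the perfect closure of) a function field of transcendence degree one over `k`. -/
structure Cv (k : Subfield F) : Prop where
  ac : IsAlgClosed k
  fg : FG k (⊤ : Subfield F)
  ex : ∃ x : F, x ∉ k ∧ ∀ z : F, IsAlgebraic (adj k x) z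

/-- the Riemann-Hurwitz inequality (for five points whose fibres consist, up to `N` points, of
points with ramification index divisible by `ℓ`) and the bound of the genus by the bidegree of a
plane model. -/
structure CurveRH (ℓ : ℕ) (k : Subfield F) (g : ℕ) : Prop where
  rh : ∀ x : F, x ∉ k → ∀ (N : ℕ) (s : Finset F), (∀ c ∈ s, c ∈ k) → s.card = 5 →
    (∀ c ∈ s, {O : ValuationSubring F | O ∈ Plc k ∧ O.valuation (x - c) < 1 ∧
      cl ℓ (x - c) ∉ UC ℓ O}.encard ≤ N) →
    Module.finrank (adj k x) F ≤ 4 * g + 5 * N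
  gb : ∀ x y : F, x ∉ k → adj (adj k x) y = ⊤ → ∀ (m n : ℕ) (a : ℕ → ℕ → F),
    (∀ i j, a i j ∈ k) → (∃ i ∈ Finset.range (m + 1), ∃ j ∈ Finset.range (n + 1), a i j ≠ 0) →
    ∑ i ∈ Finset.range (m + 1), ∑ j ∈ Finset.range (n + 1), a i j * x ^ i * y ^ j = 0 →
    g ≤ m * n

/-- the number of classes unramified outside `T` is `ℓ ^ (2 g + |T| - 1)`. -/
def CurveCard (ℓ : ℕ) (k : Subfield F) (g : ℕ) : Prop :=
  ∀ T : Finset (ValuationSubring F), (∀ O ∈ T, O ∈ Plc k) →
    Nat.card {v : V ℓ F // ∀ O ∈ Plc k, O ∉ T → v ∈ UC ℓ O} = ℓ ^ (2 * g + (T.card - 1))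

/-- every element of `k` is zero or a root of unity. -/
def Fin' (k : Subfield F) : Prop := ∀ a ∈ k, a ≠ 0 → ∃ n : ℕ, 0 < n ∧ a ^ n = 1

/-- the center of `V` with respect to the pairing is trivial. -/
def NoCtr (ℓ : ℕ) (F : Type*) [Field F] : Prop :=
  ∀ h : V ℓ F →ₗ[ZMod ℓ] ZMod ℓ, (∀ x : F, x ≠ 0 → x ≠ 1 → h (cl ℓ x) ≠ 0 →
    ∃ a : ZMod ℓ, cl ℓ (1 - x) = a • cl ℓ x) → h = 0

end

theorem Fin'.triv {F : Type*} [Field F] {k : Subfield F} (h : Fin' k) (O : ValuationSubring F) :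
    TrivOn O k := by
  intro a ha
  by_cases h0 : a = 0
  · rw [h0]; exact O.zero_mem
  obtain ⟨n, hn, h1⟩ := h a ha h0
  rw [← O.valuation_le_one_iff]
  by_contra hcon
  push Not at hcon
  have h2 := one_lt_pow₀ hcon hn.ne'
  rw [← map_pow, h1, map_one] at h2
  exact lt_irrefl _ h2

/-- surfaces: `t, s` is a transcendence basis. -/
abbrev Srf {K : Type*} [Field K] (k : Subfield K) (t s : K) : Prop := Frame k k t s

end Vale.Agent.P019P
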