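import Vale.Agent.P019Q.CIface

/-!
# Effective divisors in a class, divisors of degree zero
-/

namespace Vale.Agent.P019P

open Polynomial IntermediateField

variable {k F : Type*} [Field k] [Field F] [Algebra k F] [CFF k F]

namespace AuxFEff

theorem fe_dv_one : dv k (1 : F) = 0 :=
  (dv_eq_zero_iff one_ne_zero).2 ⟨1, (map_one _).symm⟩

theorem fe_dv_zero : dv k (0 : F) = 0 := by
  ext P
  rw [dv_apply, (ord_spec P).zero]
  rfl

theorem fe_dg_sum {α : Type*} (D : α →₀ ℤ) : dg D = ∑ P ∈ D.support, D P := by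
  unfold dg
  rw [Finsupp.liftAddHom_apply]
  rfl

theorem fe_dg_nonneg {α : Type*} {D : α →₀ ℤ} (hD : 0 ≤ D) : 0 ≤ dg D := by
  rw [fe_dg_sum]
  exact Finset.sum_nonneg fun P _ => hD P

theorem fe_eq_zero {α : Type*} {D : α →₀ ℤ} (hD : 0 ≤ D) (h0 : dg D = 0) : D = 0 := by
  rw [fe_dg_sum, Finset.sum_eq_zero_iff_of_nonneg fun P _ => hD P] at h0
  ext P
  by_cases hP : P ∈ D.support
  · exact h0 P hP
  · exact Finsupp.notMem_support_iff.1 hP

end AuxFEff

open AuxFEff

theorem dv_eq_iff {z w : F} (hz : z ≠ 0) (hw : w ≠ 0) :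
    dv k z = dv k w ↔ ∃ a : k, a ≠ 0 ∧ w = a • z := by
  have h1 : dv k (w * z⁻¹) = dv k w - dv k z := by
    rw [dv_mul hw (inv_ne_zero hz), dv_inv, sub_eq_add_neg]
  have h2 : w * z⁻¹ ≠ 0 := mul_ne_zero hw (inv_ne_zero hz)
  constructor
  · intro h
    have h3 : dv k (w * z⁻¹) = 0 := by rw [h1, h, sub_self]
    obtain ⟨a, ha⟩ := (dv_eq_zero_iff h2).1 h3
    have h4 : w = a • z := by
      rw [Algebra.smul_def, ← ha, mul_assoc, inv_mul_cancel₀ hz, mul_one]
    refine ⟨a, ?_, h4⟩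
    rintro rfl
    exact hw (by rw [h4, zero_smul])
  · rintro ⟨a, ha, h4⟩
    have h5 : w * z⁻¹ = algebraMap k F a := by
      rw [h4, Algebra.smul_def, mul_assoc, mul_inv_cancel₀ hz, mul_one]
    have h6 : dv k (w * z⁻¹) = 0 := (dv_eq_zero_iff h2).2 ⟨a, h5⟩
    rw [h1] at h6
    exact (sub_eq_zero.1 h6).symm

theorem mem_LL_dv {D : Plk k F →₀ ℤ} {z : F} (hz : z ≠ 0) : z ∈ LL k D ↔ 0 ≤ D + dv k z := by
  constructor
  · intro h P
    have h1 := (Or.resolve_left h hz) P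
    rw [Finsupp.add_apply, dv_apply]
    show 0 ≤ _
    linarith
  · intro h
    right
    intro P
    have h1 := h P
    rw [Finsupp.add_apply, dv_apply] at h1
    have h2 : (0 : Plk k F →₀ ℤ) P = 0 := rfl
    rw [h2] at h1
    linarith

/-- effective divisors in a class and functions. -/
theorem eff_iff {D E : Plk k F →₀ ℤ} :
    (0 ≤ E ∧ E - D ∈ prn k F) ↔ ∃ z ∈ LL k D, z ≠ 0 ∧ E = D + dv k z := by
  constructor
  · rintro ⟨hE, z, hz, h⟩
    have h1 : E = D + dv k z := by rw [← h]; abel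
    exact ⟨z, (mem_LL_dv hz).2 (by rw [← h1]; exact hE), hz, h1⟩
  · rintro ⟨z, hzD, hz, h1⟩
    refine ⟨by rw [h1]; exact (mem_LL_dv hz).1 hzD, z, hz, ?_⟩
    rw [h1]
    abel

/-- there is a place. -/
theorem exists_place_cff (k F : Type*) [Field k] [Field F] [Algebra k F] [CFF k F] :
    Nonempty (Plk k F) := by
  obtain ⟨x, hx, _⟩ := CFF.ex (k := k) (F := F)
  have hx0 : x ≠ 0 := by
    rintro rfl
    exact hx (isAlgebraic_zero)
  have h1 : dv k x ≠ 0 := by
    intro h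
    obtain ⟨a, ha⟩ := (dv_eq_zero_iff hx0).1 h
    exact hx (by rw [ha]; exact isAlgebraic_algebraMap a)
  obtain ⟨P, _⟩ := Finsupp.ne_iff.1 h1
  exact ⟨P⟩

theorem LL_neg {D : Plk k F →₀ ℤ} (hD : dg D < 0) : Module.finrank k (LL k D) = 0 := by
  have h : LL k D = ⊥ := by
    rw [Submodule.eq_bot_iff]
    intro z hz
    by_contra hz0
    have h1 := fe_dg_nonneg ((mem_LL_dv hz0).1 hz)
    rw [map_add, dg_dv, add_zero] at h1
    linarith
  rw [h]
  exact finrank_bot k F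

theorem LL_prin {D : Plk k F →₀ ℤ} (hD : D ∈ prn k F) : Module.finrank k (LL k D) = 1 := by
  obtain ⟨u, hu, rfl⟩ := hD
  have h : LL k (dv k u) = Submodule.span k {u⁻¹} := by
    apply le_antisymm
    · intro z hz
      by_cases hz0 : z = 0
      · rw [hz0]
        exact Submodule.zero_mem _
      have h1 := (mem_LL_dv hz0).1 hz
      have h2 : dg (dv k u + dv k z) = 0 := by rw [map_add, dg_dv, dg_dv, add_zero]
      have h3 := fe_eq_zero h1 h2
      rw [← dv_mul hu hz0] at h3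
      obtain ⟨a, ha⟩ := (dv_eq_zero_iff (mul_ne_zero hu hz0)).1 h3
      rw [Submodule.mem_span_singleton]
      refine ⟨a, ?_⟩
      rw [Algebra.smul_def, ← ha, mul_comm u z, mul_assoc, mul_inv_cancel₀ hu, mul_one]
    · rw [Submodule.span_singleton_le_iff_mem]
      rw [mem_LL_dv (inv_ne_zero hu), dv_inv, add_neg_cancel]
  rw [h]
  exact finrank_span_singleton (inv_ne_zero hu)

theorem LL_zero {D : Plk k F →₀ ℤ} (hD : dg D = 0) (hD' : D ∉ prn k F) :
    Module.finrank k (LL k D) = 0 := by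
  have h : LL k D = ⊥ := by
    rw [Submodule.eq_bot_iff]
    intro z hz
    by_contra hz0
    have h1 := (mem_LL_dv hz0).1 hz
    have h2 : dg (D + dv k z) = 0 := by rw [map_add, dg_dv, hD, add_zero]
    have h3 := fe_eq_zero h1 h2
    apply hD'
    refine ⟨z⁻¹, inv_ne_zero hz0, ?_⟩
    rw [dv_inv]
    exact eq_neg_of_add_eq_zero_left h3
  rw [h]
  exact finrank_bot k F

end Vale.Agent.P019P
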