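import Vale.Agent.P019Q.CIface
import Vale.Agent.P019Q.Defs
import Vale.Agent.P019Q.FEff

/-!
# Classes of a perfect field and of a function field with this perfect closure
-/

namespace Vale.Agent.P019P

open Vale.Agent.P019

set_option linter.style.haveILetI false
set_option linter.unusedSectionVars false

open Polynomial IntermediateField

variable {F : Type*} [Field F] {k : Subfield F} (F0 : IntermediateField k F) [CFF k F0]
  [IsPurelyInseparable F0 F]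

namespace AuxFCl

/-- every element has a `q`-power in `F0`. -/
theorem exists_pow_mem (w : F) : ∃ (n : ℕ) (z : F0), (z : F) = w ^ ringExpChar F ^ n := by
  haveI : ExpChar F0 (ringExpChar F) :=
    (algebraMap F0 F).expChar (algebraMap F0 F).injective _
  obtain ⟨n, z, hz⟩ := IsPurelyInseparable.pow_mem F0 (ringExpChar F) w
  exact ⟨n, z, hz⟩

end AuxFCl

/-- every class is the class of an element of `F0`. -/
theorem exists_cl {ℓ : ℕ} [Fact ℓ.Prime] [NeZero (ℓ : F)] (v : V ℓ F) :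
    ∃ z : F0, z ≠ 0 ∧ cl ℓ (z : F) = v := by
  obtain ⟨w, hw0, hw⟩ := cl_surj ℓ v
  obtain ⟨n, z, hz⟩ := AuxFCl.exists_pow_mem F0 w
  have hz0 : z ≠ 0 := by
    rintro rfl
    have h1 : w ^ ringExpChar F ^ n = 0 := by rw [← hz]; rfl
    exact hw0 (eq_zero_of_pow_eq_zero h1)
  have hu := q_pow_ne_zero ℓ F n
  set c : ZMod ℓ := ((ringExpChar F ^ n : ℕ) : ZMod ℓ)⁻¹ with hc
  refine ⟨z ^ c.val, pow_ne_zero _ hz0, ?_⟩
  have h2 : ((z ^ c.val : F0) : F) = (z : F) ^ c.val := rfl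
  rw [h2, cl_pow, hz, cl_pow, hw, ← Nat.cast_smul_eq_nsmul (ZMod ℓ), ← Nat.cast_smul_eq_nsmul (ZMod ℓ),
    smul_smul, ZMod.natCast_val, ZMod.cast_id, hc, inv_mul_cancel₀ hu, one_smul]

/-- the elements of `F0` with trivial class. -/
theorem cl_coe_eq_zero {ℓ : ℕ} [Fact ℓ.Prime] [NeZero (ℓ : F)] {z : F0} (hz : z ≠ 0) :
    cl ℓ (z : F) = 0 ↔ ∃ w : F0, w ≠ 0 ∧ z = w ^ ℓ := by
  constructor
  · intro h
    have hzF : (z : F) ≠ 0 := fun h0 => hz (Subtype.ext h0)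
    obtain ⟨t, ht0, ht⟩ := (cl_eq_zero_iff ℓ hzF).1 h
    obtain ⟨n, T, hT⟩ := AuxFCl.exists_pow_mem F0 t
    have hT0 : T ≠ 0 := by
      rintro rfl
      have h1 : t ^ ringExpChar F ^ n = 0 := by rw [← hT]; rfl
      exact ht0 (eq_zero_of_pow_eq_zero h1)
    have h1 : z ^ ringExpChar F ^ n = T ^ ℓ := by
      apply Subtype.ext
      change (z : F) ^ ringExpChar F ^ n = (T : F) ^ ℓ
      rw [hT, ← ht, ← pow_mul, ← pow_mul, mul_comm]
    have hcop : IsCoprime ((ringExpChar F ^ n : ℕ) : ℤ) (ℓ : ℤ) := by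
      rw [Nat.isCoprime_iff_coprime]
      apply Nat.Coprime.symm
      rw [(Fact.out : ℓ.Prime).coprime_iff_not_dvd]
      intro hd
      exact q_pow_ne_zero ℓ F n ((ZMod.natCast_eq_zero_iff _ _).2 hd)
    obtain ⟨a, b, hab⟩ := hcop
    refine ⟨T ^ a * z ^ b, mul_ne_zero (zpow_ne_zero _ hT0) (zpow_ne_zero _ hz), ?_⟩
    rw [mul_pow, ← zpow_natCast, ← zpow_natCast, ← zpow_mul, mul_comm a, zpow_mul, zpow_natCast, ← h1,
      ← zpow_natCast z, ← zpow_mul, ← zpow_mul, ← zpow_add₀ hz, mul_comm _ a, hab, zpow_one]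
  · rintro ⟨w, hw0, rfl⟩
    exact cl_pow_self ℓ (w : F)

namespace AuxFCl

theorem cl_smul {ℓ : ℕ} [Fact ℓ.Prime] [NeZero (ℓ : F)] {a : k} (ha : a ≠ 0) {z : F0}
    (hz : z ≠ 0) : cl ℓ ((a • z : F0) : F) = cl ℓ (z : F) := by
  haveI : IsAlgClosed k := CFF.ac (k := k) (F := F0)
  obtain ⟨b, hb⟩ := IsAlgClosed.exists_pow_nat_eq a (Fact.out : ℓ.Prime).pos
  have h1 : ((a • z : F0) : F) = (b : F) ^ ℓ * (z : F) := by
    rw [← hb]
    rfl
  have hb0 : (b : F) ≠ 0 := by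
    intro h
    have h2 : b = 0 := Subtype.ext h
    rw [h2, zero_pow (Fact.out : ℓ.Prime).pos.ne'] at hb
    exact ha hb.symm
  have hzF : (z : F) ≠ 0 := fun h0 => hz (Subtype.ext h0)
  rw [h1, cl_mul ℓ (pow_ne_zero _ hb0) hzF, cl_pow_self, zero_add]

theorem cl_eq_of_dv {ℓ : ℕ} [Fact ℓ.Prime] [NeZero (ℓ : F)] {z w : F0} (hz : z ≠ 0) (hw : w ≠ 0)
    (h : dv k z = dv k w) : cl ℓ (z : F) = cl ℓ (w : F) := by
  obtain ⟨a, ha, rfl⟩ := (dv_eq_iff hz hw).1 h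
  exact (cl_smul F0 ha hz).symm

theorem dv_pow {z : F0} (hz : z ≠ 0) (n : ℕ) : dv k (z ^ n) = n • dv k z := by
  induction n with
  | zero => rw [pow_zero, zero_smul, AuxFEff.fe_dv_one]
  | succ n ih => rw [pow_succ, dv_mul (pow_ne_zero n hz) hz, ih, succ_nsmul]

end AuxFCl

/-- the class of a principal divisor. -/
theorem exists_clHom (ℓ : ℕ) [Fact ℓ.Prime] [NeZero (ℓ : F)] :
    ∃ f : prn k F0 →+ V ℓ F, (∀ z : F0, (hz : z ≠ 0) → f ⟨dv k z, z, hz, rfl⟩ = cl ℓ (z : F)) ∧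
      Function.Surjective f ∧ ∀ D : prn k F0, f D = 0 ↔ ∃ E : prn k F0, D = ℓ • E := by
  classical
  have hD : ∀ D : prn k F0, ∃ z : F0, z ≠ 0 ∧ (D : Plk k F0 →₀ ℤ) = dv k z := fun D => D.2
  choose s hs0 hs using hD
  let f : prn k F0 →+ V ℓ F := AddMonoidHom.mk' (fun D => cl ℓ (s D : F)) (by
    intro D E
    have h1 : dv k (s (D + E)) = dv k (s D * s E) := by
      rw [← hs, dv_mul (hs0 D) (hs0 E), ← hs, ← hs]
      rfl
    have h2 := AuxFCl.cl_eq_of_dv (ℓ := ℓ) F0 (hs0 _) (mul_ne_zero (hs0 D) (hs0 E)) h1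
    have hzD : (s D : F) ≠ 0 := fun h0 => hs0 D (Subtype.ext h0)
    have hzE : (s E : F) ≠ 0 := fun h0 => hs0 E (Subtype.ext h0)
    change cl ℓ (s (D + E) : F) = cl ℓ (s D : F) + cl ℓ (s E : F)
    rw [h2, ← cl_mul ℓ hzD hzE]
    rfl)
  have hf : ∀ z : F0, (hz : z ≠ 0) → f ⟨dv k z, z, hz, rfl⟩ = cl ℓ (z : F) := by
    intro z hz
    exact AuxFCl.cl_eq_of_dv F0 (hs0 _) hz (hs _).symm
  refine ⟨f, hf, ?_, ?_⟩
  · intro v
    obtain ⟨z, hz, hv⟩ := exists_cl F0 v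
    exact ⟨⟨dv k z, z, hz, rfl⟩, (hf z hz).trans hv⟩
  · intro D
    constructor
    · intro h
      have h1 : cl ℓ (s D : F) = 0 := h
      obtain ⟨w, hw0, hw⟩ := (cl_coe_eq_zero F0 (hs0 D)).1 h1
      refine ⟨⟨dv k w, w, hw0, rfl⟩, ?_⟩
      apply Subtype.ext
      change (D : Plk k F0 →₀ ℤ) = ℓ • dv k w
      rw [hs D, ← AuxFCl.dv_pow F0 hw0, ← hw]
    · rintro ⟨E, rfl⟩
      rw [map_nsmul]
      change ℓ • cl ℓ (s E : F) = 0
      rw [← cl_pow, cl_pow_self]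

end Vale.Agent.P019P
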