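import Vale.Agent.P019Q.FLang

/-!
# Lang's lemma: the number of stable lines
-/

namespace Vale.Agent.P019P

namespace AuxFLangB

/-- removing one element from a finite subtype. -/
theorem card_ne {α : Type*} (P : α → Prop) (x : α) (hx : P x) :
    Nat.card {a // a ≠ x ∧ P a} = Nat.card {a // P a} - 1 := by
  have h1 : Set.ncard ({a | P a} \ {x}) = Set.ncard {a | P a} - 1 :=
    Set.ncard_diff_singleton_of_mem hx
  have h2 : Nat.card {a // P a} = Set.ncard {a | P a} := Nat.card_coe_set_eq _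
  have h3 : Nat.card {a // a ≠ x ∧ P a} = Set.ncard ({a | P a} \ {x}) := by
    rw [← Nat.card_coe_set_eq]
    refine Nat.card_congr (Equiv.subtypeEquivRight fun a => ?_)
    simp only [Set.mem_diff, Set.mem_setOf_eq, Set.mem_singleton_iff]
    tauto
  rw [h3, h1, h2]

end AuxFLangB

section lang

variable {k V : Type*} [Field k] [IsAlgClosed k] [AddCommGroup V] [Module k V]

/-- the number of stable lines (`e` maps a nonzero vector to its line). -/
theorem lang_count {p n : ℕ} [Fact p.Prime] [CharP k p] (hn : 0 < n) [FiniteDimensional k V]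
    (φ : V →+ V) (hinj : Function.Injective φ)
    (hφ : ∀ (a : k) (v : V), φ (a • v) = a ^ (p ^ n) • φ v) {S : Type*} (e : V → S)
    (he : ∀ v w : V, v ≠ 0 → w ≠ 0 → (e v = e w ↔ ∃ a : k, a ≠ 0 ∧ w = a • v)) :
    Nat.card {s : S // ∃ v : V, v ≠ 0 ∧ (∃ c : k, φ v = c • v) ∧ e v = s} * (p ^ n - 1) =
      (p ^ n) ^ Module.finrank k V - 1 := by
  have hQ : 1 < p ^ n := Nat.one_lt_pow hn.ne' (Fact.out : p.Prime).one_lt
  have hV := lang_card hn φ hinj hφ
  have hk := AuxFLang.card_fixed (k := k) (p := p) hn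
  have hV' := AuxFLangB.card_ne (fun v : V => φ v = v) 0 (map_zero φ)
  have hk' := AuxFLangB.card_ne (fun a : k => a ^ (p ^ n) = a) 0 (zero_pow (by omega))
  rw [hV] at hV'
  rw [hk] at hk'
  -- a fixed representative in every stable line
  have hrep : ∀ s : {s : S // ∃ v : V, v ≠ 0 ∧ (∃ c : k, φ v = c • v) ∧ e v = s},
      ∃ v : V, v ≠ 0 ∧ φ v = v ∧ e v = s.1 := by
    rintro ⟨s, v, hv0, ⟨c, hc⟩, hs⟩
    have hc0 : c ≠ 0 := by
      rintro rfl
      rw [zero_smul] at hc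
      exact hv0 (hinj (hc.trans (map_zero φ).symm))
    obtain ⟨a, ha⟩ := IsAlgClosed.exists_pow_nat_eq c⁻¹ (n := p ^ n - 1) (by omega)
    have ha0 : a ≠ 0 := by
      rintro rfl
      rw [zero_pow (by omega)] at ha
      exact inv_ne_zero hc0 ha.symm
    have hav0 : a • v ≠ 0 := smul_ne_zero ha0 hv0
    refine ⟨a • v, hav0, ?_, ?_⟩
    · have h1 : a ^ (p ^ n) * c = a := by
        have h2 : a ^ (p ^ n) = a ^ (p ^ n - 1) * a := by
          rw [← pow_succ]
          congr 1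
          omega
        rw [h2, ha]
        field_simp
      rw [hφ, hc, smul_smul, h1]
    · exact (((he v (a • v) hv0 hav0).2 ⟨a, ha0, rfl⟩).symm).trans hs
  choose r hr0 hr1 hr2 using hrep
  let F : {s : S // ∃ v : V, v ≠ 0 ∧ (∃ c : k, φ v = c • v) ∧ e v = s} ×
      {a : k // a ≠ 0 ∧ a ^ (p ^ n) = a} → {v : V // v ≠ 0 ∧ φ v = v} :=
    fun y => ⟨y.2.1 • r y.1, smul_ne_zero y.2.2.1 (hr0 y.1), by rw [hφ, hr1, y.2.2.2]⟩
  have hF : Function.Bijective F := by
    constructor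
    · rintro ⟨s, a⟩ ⟨t, b⟩ h
      have h1 : a.1 • r s = b.1 • r t := congrArg Subtype.val h
      have h2 : e (r s) = e (a.1 • r s) :=
        (he _ _ (hr0 s) (smul_ne_zero a.2.1 (hr0 s))).2 ⟨a.1, a.2.1, rfl⟩
      have h3 : e (r t) = e (b.1 • r t) :=
        (he _ _ (hr0 t) (smul_ne_zero b.2.1 (hr0 t))).2 ⟨b.1, b.2.1, rfl⟩
      have h4 : s = t := by
        apply Subtype.ext
        rw [← hr2 s, ← hr2 t, h2, h3, h1]
      subst h4
      have h5 : a = b := Subtype.ext (smul_left_injective k (hr0 s) h1)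
      rw [h5]
    · rintro ⟨w, hw0, hw⟩
      have hs : ∃ v : V, v ≠ 0 ∧ (∃ c : k, φ v = c • v) ∧ e v = e w :=
        ⟨w, hw0, ⟨1, by rw [one_smul, hw]⟩, rfl⟩
      obtain ⟨a, ha0, ha⟩ := (he (r ⟨e w, hs⟩) w (hr0 _) hw0).1 (hr2 ⟨e w, hs⟩)
      have h2 : a ^ (p ^ n) = a := by
        have h3 : φ w = w := hw
        rw [ha, hφ, hr1] at h3
        exact smul_left_injective k (hr0 _) h3
      exact ⟨(⟨e w, hs⟩, ⟨a, ha0, h2⟩), Subtype.ext ha.symm⟩
  have hcard := Nat.card_eq_of_bijective F hF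
  rw [Nat.card_prod, hk', hV'] at hcard
  exact hcard

end lang

end Vale.Agent.P019P
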