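import Vale.Agent.P019Q.FAct
import Vale.Agent.P019Q.FLangB
import Vale.Agent.P019Q.FEff

/-!
# The number of rational effective divisors in a class
-/

namespace Vale.Agent.P019P

open Polynomial IntermediateField

variable {k F : Type*} [Field k] [Field F] [Algebra k F] [CFF k F] {p m : ℕ} [Fact p.Prime]
  [CharP k p]

/-- the semilinear map of a Riemann-Roch space. -/
theorem fcount_mem {s : F ≃+* F} {s₀ : k ≃+* k}
    {h : ∀ a, s (algebraMap k F a) = algebraMap k F (s₀ a)} {D : Plk k F →₀ ℤ} {u : F}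
    (hu : u ≠ 0) (hD : D.mapDomain (plEquiv s s₀ h) - D = dv k u) {z : F} (hz : z ≠ 0) :
    D + dv k (u * s z) = (D + dv k z).mapDomain (plEquiv s s₀ h) := by
  have hsz : s z ≠ 0 := by simpa using hz
  rw [dv_mul hu hsz, ← hD, dv_plEquiv s s₀ h, Finsupp.mapDomain_add]
  abel

omit [CFF k F] in
theorem fcount_nonneg (σ : Plk k F ≃ Plk k F) {E : Plk k F →₀ ℤ} (hE : 0 ≤ E) :
    0 ≤ E.mapDomain σ := by
  intro P
  rw [Finsupp.mapDomain_equiv_apply]
  exact hE _

/-- the number of rational effective divisors in a class. -/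
theorem count_eff (hm : 0 < m) (s : F ≃+* F) (s₀ : k ≃+* k) (h0 : ∀ a : k, s₀ a = a ^ p ^ m)
    (h : ∀ a, s (algebraMap k F a) = algebraMap k F (s₀ a)) (D : Plk k F →₀ ℤ)
    (hD : D.mapDomain (plEquiv s s₀ h) - D ∈ prn k F) :
    Nat.card {E : Plk k F →₀ ℤ // 0 ≤ E ∧ E.mapDomain (plEquiv s s₀ h) = E ∧
      E - D ∈ prn k F} * (p ^ m - 1) = (p ^ m) ^ Module.finrank k (LL k D) - 1 := by
  have : IsAlgClosed k := CFF.ac F
  obtain ⟨u, hu, hDu⟩ := hD
  have hmem : ∀ z ∈ LL k D, u * s z ∈ LL k D := by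
    intro z hz
    by_cases hz0 : z = 0
    · rw [hz0, map_zero, mul_zero]; exact Submodule.zero_mem _
    · have hsz : s z ≠ 0 := by simpa using hz0
      rw [mem_LL_dv (mul_ne_zero hu hsz), fcount_mem hu hDu hz0]
      exact fcount_nonneg _ ((mem_LL_dv hz0).1 hz)
  let φ : LL k D →+ LL k D :=
    { toFun := fun z => ⟨u * s z, hmem z z.2⟩
      map_zero' := by ext; simp
      map_add' := fun z w => by ext; simp [mul_add] }
  have hφv : ∀ z : LL k D, ((φ z : LL k D) : F) = u * s z := fun z => rfl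
  have hinj : Function.Injective φ := by
    intro z w hzw
    have h1 : u * s (z : F) = u * s (w : F) := congrArg Subtype.val hzw
    exact Subtype.ext (s.injective (mul_left_cancel₀ hu h1))
  have hφ : ∀ (a : k) (v : LL k D), φ (a • v) = a ^ (p ^ m) • φ v := by
    intro a v
    apply Subtype.ext
    rw [hφv, Submodule.coe_smul, Submodule.coe_smul, hφv, Algebra.smul_def, Algebra.smul_def,
      map_mul, h, h0]
    ring
  have hne : ∀ {v : LL k D}, v ≠ 0 → (v : F) ≠ 0 := fun {v} hv hv' => hv (Subtype.ext hv')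
  have he : ∀ v w : LL k D, v ≠ 0 → w ≠ 0 →
      (D + dv k (v : F) = D + dv k (w : F) ↔ ∃ a : k, a ≠ 0 ∧ w = a • v) := by
    intro v w hv hw
    rw [add_right_inj, dv_eq_iff (hne hv) (hne hw)]
    constructor
    · rintro ⟨a, ha, h1⟩; exact ⟨a, ha, Subtype.ext h1⟩
    · rintro ⟨a, ha, h1⟩; exact ⟨a, ha, congrArg Subtype.val h1⟩
  have key := lang_count (p := p) (n := m) hm φ hinj hφ
    (fun z : LL k D => D + dv k (z : F)) he
  rw [← key]
  congr 1
  apply Nat.card_congr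
  apply Equiv.subtypeEquivRight
  intro E
  have hφ0 : ∀ {v : LL k D}, v ≠ 0 → φ v ≠ 0 := fun {v} hv h1 =>
    hv (hinj (h1.trans (map_zero φ).symm))
  have hcrit : ∀ {v : LL k D}, v ≠ 0 →
      ((D + dv k (v : F)).mapDomain (plEquiv s s₀ h) = D + dv k (v : F) ↔
        ∃ c : k, φ v = c • v) := by
    intro v hv
    rw [← fcount_mem hu hDu (hne hv), ← hφv, add_right_inj]
    constructor
    · intro h1
      obtain ⟨a, ha, h2⟩ := (dv_eq_iff (hne hv) (hne (hφ0 hv))).1 h1.symm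
      exact ⟨a, Subtype.ext h2⟩
    · rintro ⟨c, hc⟩
      have hc0 : c ≠ 0 := by
        rintro rfl
        rw [zero_smul] at hc
        exact hφ0 hv hc
      exact ((dv_eq_iff (hne hv) (hne (hφ0 hv))).2
        ⟨c, hc0, congrArg Subtype.val hc⟩).symm
  constructor
  · rintro ⟨h1, h2, h3⟩
    obtain ⟨z, hz, hz0, rfl⟩ := eff_iff.1 ⟨h1, h3⟩
    have hv : (⟨z, hz⟩ : LL k D) ≠ 0 := fun h4 => hz0 (congrArg Subtype.val h4)
    exact ⟨⟨z, hz⟩, hv, (hcrit hv).1 h2, rfl⟩
  · rintro ⟨v, hv, hc, rfl⟩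
    obtain ⟨h1, h2⟩ := eff_iff.2 ⟨(v : F), v.2, hne hv, rfl⟩
    exact ⟨h1, (hcrit hv).2 hc, h2⟩

end Vale.Agent.P019P
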