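import Vale.Agent.P019Q.CDual

/-!
# The genus of a plane curve
-/

namespace Vale.Agent.P019P

open Polynomial IntermediateField

section

variable {k F : Type*} [Field k] [Field F] [Algebra k F] [CFF k F]

private theorem cgb_pow_mem {y : F} {P : Plk k F} (h : 0 ≤ ord P y) (n : ℕ) :
    y ^ n ∈ Mge P 0 := by
  by_cases h0 : y ^ n = 0
  · exact Or.inl h0
  · right
    rw [ord_pow]
    positivity

theorem aeval_mem_pol {x : F} {φ : k[X]} {m : ℕ} (h : φ.natDegree ≤ m) (P : Plk k F) :
    aeval x φ ∈ Mge P (-(m * pol k x P)) := by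
  rw [aeval_eq_sum_range]
  refine Submodule.sum_mem _ fun i hi => Submodule.smul_mem _ _ ?_
  by_cases h0 : x ^ i = 0
  · exact Or.inl h0
  · right
    have h1 : 0 ≤ pol k x P := by rw [pol_apply]; exact le_max_left _ _
    have h2 : -pol k x P ≤ ord P x := by
      rw [pol_apply]
      have := le_max_right 0 (-ord P x)
      linarith
    have hi' : (i : ℤ) ≤ m := by
      have := Finset.mem_range.1 hi
      exact_mod_cast (by omega : i ≤ m)
    rw [ord_pow]
    have h3 : (i : ℤ) * -pol k x P ≤ i * ord P x := mul_le_mul_of_nonneg_left h2 (by positivity)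
    have h4 : (i : ℤ) * pol k x P ≤ m * pol k x P := mul_le_mul_of_nonneg_right hi' h1
    linarith

/-- the integral elements attached to a plane equation. -/
theorem omega_mem {x y : F} {m d : ℕ} {p : ℕ → k[X]} (hp : ∀ i, (p i).natDegree ≤ m)
    (h0 : ∑ i ∈ Finset.range (d + 1), aeval x (p i) * y ^ i = 0) {j : ℕ} (hj : j ≤ d) :
    ∑ i ∈ Finset.range j, aeval x (p (d - j + 1 + i)) * y ^ (i + 1) ∈ LL k (m • pol k x) := by
  rw [mem_LL_iff]
  intro P
  have hD : -(m • pol k x) P = -(m * pol k x P) := by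
    rw [Finsupp.smul_apply, nsmul_eq_mul]
  rw [hD]
  by_cases hy : 0 ≤ ord P y
  · refine Submodule.sum_mem _ fun i _ => ?_
    have := mul_mem_Mge (aeval_mem_pol (x := x) (hp (d - j + 1 + i)) P)
      (cgb_pow_mem hy (i + 1))
    rwa [add_zero] at this
  · have hy0 : y ≠ 0 := by
      rintro rfl
      exact hy (by rw [ord_zero])
    have hyi : 0 ≤ ord P y⁻¹ := by
      rw [ord_inv]
      linarith [not_le.1 hy]
    have hsplit : d + 1 = (d - j + 1) + j := by omega
    rw [hsplit, Finset.sum_range_add] at h0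
    have hye : y ^ (d - j) ≠ 0 := pow_ne_zero _ hy0
    have key : ∑ i ∈ Finset.range j, aeval x (p (d - j + 1 + i)) * y ^ (i + 1)
        = -∑ i ∈ Finset.range (d - j + 1), aeval x (p i) * (y⁻¹) ^ (d - j - i) := by
      apply mul_left_cancel₀ hye
      have e1 : y ^ (d - j) * ∑ i ∈ Finset.range j, aeval x (p (d - j + 1 + i)) * y ^ (i + 1)
          = ∑ i ∈ Finset.range j, aeval x (p (d - j + 1 + i)) * y ^ (d - j + 1 + i) := by
        rw [Finset.mul_sum]
        refine Finset.sum_congr rfl fun i _ => ?_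
        rw [mul_left_comm, ← pow_add, show d - j + (i + 1) = d - j + 1 + i by ring]
      have e2 : y ^ (d - j) * ∑ i ∈ Finset.range (d - j + 1), aeval x (p i) * (y⁻¹) ^ (d - j - i)
          = ∑ i ∈ Finset.range (d - j + 1), aeval x (p i) * y ^ i := by
        rw [Finset.mul_sum]
        refine Finset.sum_congr rfl fun i hi => ?_
        have hi' : i ≤ d - j := Nat.lt_succ_iff.1 (Finset.mem_range.1 hi)
        have e3 : y ^ (d - j) = y ^ (d - j - i) * y ^ i := by
          rw [← pow_add, Nat.sub_add_cancel hi']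
        have e4 : y ^ (d - j - i) * (y⁻¹) ^ (d - j - i) = 1 := by
          rw [← mul_pow, mul_inv_cancel₀ hy0, one_pow]
        rw [e3, mul_left_comm]
        congr 1
        rw [mul_right_comm, e4, one_mul]
      rw [e1, mul_neg, e2]
      exact eq_neg_of_add_eq_zero_right h0
    rw [key]
    refine Submodule.neg_mem _ (Submodule.sum_mem _ fun i _ => ?_)
    have := mul_mem_Mge (aeval_mem_pol (x := x) (hp i) P) (cgb_pow_mem hyi (d - j - i))
    rwa [add_zero] at this

/-- lower bound of a Riemann-Roch space from a family independent over `k(x)`. -/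
theorem le_finrank_of_indep {x : F} (hx : Transcendental k x) {n m r : ℕ} {ω : Fin n → F}
    (hω : ∀ j, ω j ∈ LL k (m • pol k x)) (hr : m ≤ r)
    (hind : LinearIndependent k⟮x⟯ (Fin.cons 1 ω : Fin (n + 1) → F)) :
    (r + 1) + n * (r - m + 1) ≤ Module.finrank k (LL k (r • pol k x)) := by
  have h1 := indep_pow_mul hx hind
  let g : Fin (r + 1) ⊕ (Fin n × Fin (r - m + 1)) → Fin (n + 1) × ℕ :=
    Sum.elim (fun i => ((0 : Fin (n + 1)), (i : ℕ))) (fun q => (q.1.succ, (q.2 : ℕ)))
  have hg : Function.Injective g := by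
    rintro (i | ⟨i, i'⟩) (j | ⟨j, j'⟩) hij
    · simp only [g, Sum.elim_inl, Prod.mk.injEq, true_and] at hij
      exact congrArg _ (Fin.ext hij)
    · simp only [g, Sum.elim_inl, Sum.elim_inr, Prod.mk.injEq] at hij
      exact absurd hij.1.symm (Fin.succ_ne_zero j)
    · simp only [g, Sum.elim_inl, Sum.elim_inr, Prod.mk.injEq] at hij
      exact absurd hij.1 (Fin.succ_ne_zero i)
    · simp only [g, Sum.elim_inr, Prod.mk.injEq] at hij
      rw [Fin.succ_injective _ hij.1, Fin.ext hij.2]
  have h2 := h1.comp g hg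
  have hmem : ∀ q, x ^ (g q).2 * (Fin.cons 1 ω : Fin (n + 1) → F) (g q).1
      ∈ LL k (r • pol k x) := by
    have hD : ∀ (s : ℕ) (P : Plk k F), -(s • pol k x) P = -(s * pol k x P) := fun s P => by
      rw [Finsupp.smul_apply, nsmul_eq_mul]
    rintro (i | ⟨j, i⟩)
    · simp only [g, Sum.elim_inl, Fin.cons_zero, mul_one]
      rw [mem_LL_iff]
      intro P
      rw [hD]
      have := aeval_mem_pol (k := k) (x := x) (φ := X ^ (i : ℕ)) (m := r)
        (by rw [natDegree_X_pow]; omega) P
      rwa [map_pow, aeval_X] at this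
    · simp only [g, Sum.elim_inr, Fin.cons_succ]
      rw [mem_LL_iff]
      intro P
      rw [hD]
      have h3 := aeval_mem_pol (k := k) (x := x) (φ := X ^ (i : ℕ)) (m := r - m)
        (by rw [natDegree_X_pow]; omega) P
      rw [map_pow, aeval_X] at h3
      have h4 := mem_LL_iff.1 (hω j) P
      rw [hD] at h4
      have h5 := mul_mem_Mge h3 h4
      have h6 : -(((r - m : ℕ) : ℤ) * pol k x P) + -(m * pol k x P) = -(r * pol k x P) := by
        rw [Nat.cast_sub hr]
        ring
      rwa [h6] at h5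
  have h7 : LinearIndependent k (fun q => (⟨_, hmem q⟩ : LL k (r • pol k x))) := by
    apply LinearIndependent.of_comp (LL k (r • pol k x)).subtype
    exact h2
  have h8 := h7.fintype_card_le_finrank
  rwa [Fintype.card_sum, Fintype.card_prod, Fintype.card_fin, Fintype.card_fin,
    Fintype.card_fin] at h8

/-- polynomials of distinct small degrees give independent values. -/
private theorem cgb_indep {K L : Type*} [Field K] [Field L] [Algebra K L] {y : L} {N : ℕ}
    (hN : N ≤ (minpoly K y).natDegree) (W : Fin N → K[X])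
    (h1 : ∀ i : Fin N, (W i).coeff i ≠ 0) (h2 : ∀ (i : Fin N) (t : ℕ), (i : ℕ) < t →
      (W i).coeff t = 0) : LinearIndependent K (fun i => aeval y (W i)) := by
  classical
  rw [Fintype.linearIndependent_iff]
  intro c hc
  set Q : K[X] := ∑ i, C (c i) * W i with hQ
  have hQy : aeval y Q = 0 := by
    rw [hQ, map_sum, ← hc]
    refine Finset.sum_congr rfl fun i _ => ?_
    rw [map_mul, aeval_C, Algebra.smul_def]
  have hQc : ∀ t, Q.coeff t = ∑ i, c i * (W i).coeff t := by
    intro t
    rw [hQ, finsetSum_coeff]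
    simp only [coeff_C_mul]
  have hQ0 : Q = 0 := by
    by_contra hne
    have h3 : (minpoly K y).natDegree ≤ Q.natDegree :=
      natDegree_le_natDegree (minpoly.degree_le_of_ne_zero K y hne hQy)
    have h4 := hQc Q.natDegree
    rw [Finset.sum_eq_zero] at h4
    · exact hne (leadingCoeff_eq_zero.1 h4)
    · intro i _
      rw [h2 i _ (by omega), mul_zero]
  by_contra hcon
  push Not at hcon
  obtain ⟨i0, hi0⟩ := hcon
  obtain ⟨i, hi, hmax⟩ := Finset.exists_max_image (Finset.univ.filter fun i => c i ≠ 0)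
    (fun i => (i : ℕ)) ⟨i0, by simp [hi0]⟩
  rw [Finset.mem_filter] at hi
  have h4 := hQc i
  rw [hQ0, coeff_zero, Finset.sum_eq_single i] at h4
  · exact mul_ne_zero hi.2 (h1 i) h4.symm
  · intro j _ hji
    rcases lt_or_gt_of_ne (fun h => hji (Fin.ext h) : (j : ℕ) ≠ i) with h | h
    · rw [h2 j i h, mul_zero]
    · have : c j = 0 := by
        by_contra hcj
        have := hmax j (by simp [hcj])
        omega
      rw [this, zero_mul]
  · intro h
    exact absurd (Finset.mem_univ i) h

/-- the degree of the minimal polynomial from an equation. -/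
private theorem cgb_deg {K L : Type*} [Field K] [Field L] [Algebra K L] {y : L} {d : ℕ}
    {q : ℕ → K} (hqd : q d ≠ 0)
    (h0 : ∑ j ∈ Finset.range (d + 1), algebraMap K L (q j) * y ^ j = 0) :
    (minpoly K y).natDegree ≤ d := by
  classical
  set Q : K[X] := ∑ j ∈ Finset.range (d + 1), C (q j) * X ^ j with hQ
  have hQc : Q.coeff d = q d := by
    rw [hQ]
    simp only [finsetSum_coeff, coeff_C_mul, coeff_X_pow]
    rw [Finset.sum_eq_single d]
    · simp
    · intro b _ hb
      rw [if_neg (Ne.symm hb), mul_zero]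
    · intro h2
      exact absurd (Finset.mem_range.2 (Nat.lt_succ_self d)) h2
  have hQ0 : Q ≠ 0 := by
    intro h
    rw [h, coeff_zero] at hQc
    exact hqd hQc.symm
  have hQy : aeval y Q = 0 := by
    rw [hQ, map_sum, ← h0]
    refine Finset.sum_congr rfl fun j _ => ?_
    rw [map_mul, map_pow, aeval_C, aeval_X]
  have h3 : (minpoly K y).natDegree ≤ Q.natDegree :=
    natDegree_le_natDegree (minpoly.degree_le_of_ne_zero K y hQ0 hQy)
  have h4 : Q.natDegree ≤ d := by
    refine natDegree_sum_le_of_forall_le _ _ fun i hi => ?_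
    exact (natDegree_C_mul_X_pow_le _ _).trans (Nat.lt_succ_iff.1 (Finset.mem_range.1 hi))
  omega

/-- the integral elements are independent together with `1`. -/
private theorem cgb_omega_indep {K L : Type*} [Field K] [Field L] [Algebra K L] {y : L} {d M : ℕ}
    {q : ℕ → K} (hqd : q d ≠ 0) (hM : M + 1 ≤ (minpoly K y).natDegree) (hMd : M + 1 ≤ d) :
    LinearIndependent K (Fin.cons 1 (fun j : Fin M => ∑ i ∈ Finset.range ((j : ℕ) + 1),
      algebraMap K L (q (d - ((j : ℕ) + 1) + 1 + i)) * y ^ (i + 1)) : Fin (M + 1) → L) := by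
  classical
  set W : Fin (M + 1) → K[X] := Fin.cons 1 (fun j : Fin M =>
    ∑ i ∈ Finset.range ((j : ℕ) + 1), C (q (d - ((j : ℕ) + 1) + 1 + i)) * X ^ (i + 1)) with hW
  have hWv : (Fin.cons 1 (fun j : Fin M => ∑ i ∈ Finset.range ((j : ℕ) + 1),
      algebraMap K L (q (d - ((j : ℕ) + 1) + 1 + i)) * y ^ (i + 1)) : Fin (M + 1) → L)
      = (fun i => aeval y (W i)) := by
    funext i
    refine Fin.cases ?_ (fun j => ?_) i
    · simp only [hW, Fin.cons_zero, map_one]
    · simp only [hW, Fin.cons_succ, map_sum, map_mul, map_pow, aeval_C, aeval_X]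
  rw [hWv]
  refine cgb_indep hM W ?_ ?_
  · intro i
    refine Fin.cases ?_ (fun j => ?_) i
    · simp only [hW, Fin.cons_zero, Fin.val_zero, coeff_one_zero]
      exact one_ne_zero
    · simp only [hW, Fin.cons_succ, Fin.val_succ, finsetSum_coeff, coeff_C_mul, coeff_X_pow]
      rw [Finset.sum_eq_single (j : ℕ)]
      · have hj := j.2
        rw [if_pos rfl, mul_one, show d - ((j : ℕ) + 1) + 1 + j = d by omega]
        exact hqd
      · intro b _ hb
        rw [if_neg (by omega), mul_zero]
      · intro h2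
        exact absurd (Finset.mem_range.2 (Nat.lt_succ_self _)) h2
  · intro i
    refine Fin.cases ?_ (fun j => ?_) i
    · intro t ht
      simp only [hW, Fin.cons_zero]
      rw [coeff_one, if_neg]
      rintro rfl
      exact absurd ht (lt_irrefl _)
    · intro t ht
      rw [Fin.val_succ] at ht
      simp only [hW, Fin.cons_succ, finsetSum_coeff, coeff_C_mul, coeff_X_pow]
      refine Finset.sum_eq_zero fun b hb => ?_
      rw [Finset.mem_range] at hb
      rw [if_neg (by omega), mul_zero]

omit [CFF k F] in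
/-- the equation as a polynomial in `y`, normalised. -/
private theorem cgb_top {x y : F} {m n : ℕ} {a : ℕ → ℕ → k}
    (hne : ∃ i ∈ Finset.range (m + 1), ∃ j ∈ Finset.range (n + 1), a i j ≠ 0)
    (h0 : ∑ i ∈ Finset.range (m + 1), ∑ j ∈ Finset.range (n + 1),
      algebraMap k F (a i j) * x ^ i * y ^ j = 0) :
    ∃ (p : ℕ → k[X]) (d : ℕ), (∀ j, (p j).natDegree ≤ m) ∧ d ≤ n ∧ p d ≠ 0 ∧
      ∑ j ∈ Finset.range (d + 1), aeval x (p j) * y ^ j = 0 := by
  classical
  set p : ℕ → k[X] := fun j => ∑ i ∈ Finset.range (m + 1), C (a i j) * X ^ i with hpdef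
  have hpdeg : ∀ j, (p j).natDegree ≤ m := by
    intro j
    refine natDegree_sum_le_of_forall_le _ _ fun i hi => ?_
    exact (natDegree_C_mul_X_pow_le _ _).trans (Nat.lt_succ_iff.1 (Finset.mem_range.1 hi))
  have hpval : ∀ j, aeval x (p j) = ∑ i ∈ Finset.range (m + 1), algebraMap k F (a i j) * x ^ i := by
    intro j
    simp only [hpdef, map_sum, map_mul, map_pow, aeval_C, aeval_X]
  have hsum : ∑ j ∈ Finset.range (n + 1), aeval x (p j) * y ^ j = 0 := by
    rw [← h0, Finset.sum_comm]
    refine Finset.sum_congr rfl fun j _ => ?_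
    rw [hpval, Finset.sum_mul]
  obtain ⟨d, hdn, hd0, hdtop⟩ : ∃ d, d ≤ n ∧ p d ≠ 0 ∧ ∀ j, d < j → j ≤ n → p j = 0 := by
    obtain ⟨i, hi, j, hj, hij⟩ := hne
    have hpj : p j ≠ 0 := by
      intro h
      apply hij
      have h1 : (p j).coeff i = a i j := by
        simp only [hpdef, finsetSum_coeff, coeff_C_mul, coeff_X_pow]
        rw [Finset.sum_eq_single i]
        · simp
        · intro b _ hb
          rw [if_neg (Ne.symm hb), mul_zero]
        · intro h2
          exact absurd hi h2
      rw [← h1, h, coeff_zero]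
    refine ⟨Nat.findGreatest (fun j => p j ≠ 0) n, Nat.findGreatest_le n,
      Nat.findGreatest_spec (P := fun j => p j ≠ 0) (Nat.lt_succ_iff.1 (Finset.mem_range.1 hj)) hpj,
      fun l hl hln => ?_⟩
    have := Nat.findGreatest_is_greatest hl hln
    simpa using this
  refine ⟨p, d, hpdeg, hdn, hd0, ?_⟩
  rw [← hsum]
  refine Finset.sum_subset (Finset.range_mono (by omega)) fun j hj hj' => ?_
  rw [Finset.mem_range] at hj hj'
  rw [hdtop j (by omega) (by omega), map_zero, zero_mul]

private theorem cgb_arith {r m n M g N : ℕ} (hrm : m ≤ r) (hM : N = M + 1) (hn : N ≤ n)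
    (l : ℕ) (h5 : (r + 1) + M * (r - m + 1) ≤ l) (h6 : (l : ℤ) = r * N + 1 - g) : g ≤ m * n := by
  have h7 : ((r : ℤ) + 1) + M * (r - m + 1) ≤ r * N + 1 - g := by
    rw [← h6]
    have : (((r + 1) + M * (r - m + 1) : ℕ) : ℤ) = ((r : ℤ) + 1) + M * (r - m + 1) := by
      push_cast [Nat.cast_sub hrm]
      ring
    rw [← this]
    exact_mod_cast h5
  have h8 : (g : ℤ) ≤ M * (m - 1) := by
    rw [hM] at h7
    push_cast at h7
    linarith [h7]
  have h9 : (M : ℤ) ≤ n := by
    have : M ≤ n := by omega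
    exact_mod_cast this
  have h10 : (g : ℤ) ≤ m * n := by
    have h11 : (M : ℤ) * m ≤ n * m := mul_le_mul_of_nonneg_right h9 (by positivity)
    have h12 : (0 : ℤ) ≤ M := by positivity
    linarith
  exact_mod_cast h10

/-- bound of the genus by the bidegree of a plane model. -/
theorem gen_le {x y : F} (hx : ∀ a : k, x ≠ algebraMap k F a)
    (htop : IntermediateField.adjoin k {x, y} = ⊤) {m n : ℕ} {a : ℕ → ℕ → k}
    (hne : ∃ i ∈ Finset.range (m + 1), ∃ j ∈ Finset.range (n + 1), a i j ≠ 0)
    (h0 : ∑ i ∈ Finset.range (m + 1), ∑ j ∈ Finset.range (n + 1),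
      algebraMap k F (a i j) * x ^ i * y ^ j = 0) : gen k F ≤ m * n := by
  obtain ⟨hxt, hfin⟩ := finite_of_notMem hx
  obtain ⟨p, d, hpdeg, hdn, hd0, hsumd⟩ := cgb_top hne h0
  have hN1 : 1 ≤ Module.finrank k⟮x⟯ F := Module.finrank_pos
  have hKtop : k⟮x⟯⟮y⟯ = ⊤ := by
    have h1 : (k⟮x⟯⟮y⟯).restrictScalars k = ⊤ := by
      rw [adjoin_simple_adjoin_simple]
      exact htop
    exact IntermediateField.restrictScalars_eq_top_iff.1 h1
  have hmin : (minpoly k⟮x⟯ y).natDegree = Module.finrank k⟮x⟯ F :=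
    (Field.primitive_element_iff_minpoly_natDegree_eq k⟮x⟯ y).1 hKtop
  have hqval : ∀ φ : k[X], algebraMap k⟮x⟯ F (aeval (AdjoinSimple.gen k x) φ) = aeval x φ := by
    intro φ
    have h1 := aeval_algebraMap_apply F (AdjoinSimple.gen k x) φ
    rw [← h1, AdjoinSimple.algebraMap_gen]
  have hqd : aeval (AdjoinSimple.gen k x) (p d) ≠ 0 := by
    intro h
    have h1 := hqval (p d)
    rw [h, map_zero] at h1
    exact hd0 ((transcendental_iff.1 hxt) _ h1.symm)
  have hNd : Module.finrank k⟮x⟯ F ≤ d := by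
    rw [← hmin]
    refine cgb_deg (q := fun j => aeval (AdjoinSimple.gen k x) (p j)) hqd ?_
    simp only [hqval]
    exact hsumd
  obtain ⟨M, hM⟩ : ∃ M, Module.finrank k⟮x⟯ F = M + 1 :=
    ⟨Module.finrank k⟮x⟯ F - 1, by omega⟩
  have hmin' : M + 1 ≤ (minpoly k⟮x⟯ y).natDegree := by omega
  have hind := cgb_omega_indep (L := F) (y := y)
    (q := fun j => aeval (AdjoinSimple.gen k x) (p j)) (M := M) hqd hmin' (by omega)
  simp only [hqval] at hind
  obtain ⟨r₀, hr₀⟩ := exists_l_pol_eq hx
  have hrm : m ≤ max r₀ m := le_max_right _ _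
  have h5 := le_finrank_of_indep hxt (m := m) (fun j : Fin M =>
    omega_mem hpdeg hsumd (j := (j : ℕ) + 1) (by have := j.2; omega)) hrm hind
  exact cgb_arith hrm hM (by omega) _ h5 (hr₀ _ (le_max_left _ _))

end

end Vale.Agent.P019P
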