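import Vale.Agent.P019Q.CDual

/-!
# Invariance of the genus
-/

namespace Vale.Agent.P019P

section

variable {k F k' F' : Type*} [Field k] [Field F] [Algebra k F] [Field k'] [Field F']
  [Algebra k' F']

/-- transport of a place along a semilinear isomorphism. -/
private def cIsoMap (e : F ≃+* F') (e₀ : k ≃+* k')
    (h : ∀ a, e (algebraMap k F a) = algebraMap k' F' (e₀ a)) (P : Plk k F) : Plk k' F' :=
  ⟨P.1.comap (e.symm : F' →+* F), by
    refine ⟨fun b => ?_, fun ht => P.2.2 ?_⟩
    · rw [ValuationSubring.mem_comap]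
      have h1 : (e.symm : F' →+* F) (algebraMap k' F' b) = algebraMap k F (e₀.symm b) := by
        rw [RingEquiv.coe_toRingHom, RingEquiv.symm_apply_eq, h, RingEquiv.apply_symm_apply]
      rw [h1]
      exact P.2.1 _
    · rw [eq_top_iff]
      intro z _
      have h1 : e z ∈ P.1.comap (e.symm : F' →+* F) := by rw [ht]; exact ValuationSubring.mem_top _
      rw [ValuationSubring.mem_comap, RingEquiv.coe_toRingHom, RingEquiv.symm_apply_apply] at h1
      exact h1⟩

private theorem mem_cIsoMap (e : F ≃+* F') (e₀ : k ≃+* k')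
    (h : ∀ a, e (algebraMap k F a) = algebraMap k' F' (e₀ a)) (P : Plk k F) (w : F') :
    w ∈ (cIsoMap e e₀ h P).1 ↔ e.symm w ∈ P.1 := Iff.rfl

/-- the bijection between the places. -/
private def cIsoEquiv (e : F ≃+* F') (e₀ : k ≃+* k')
    (h : ∀ a, e (algebraMap k F a) = algebraMap k' F' (e₀ a)) : Plk k F ≃ Plk k' F' where
  toFun := cIsoMap e e₀ h
  invFun := cIsoMap e.symm e₀.symm fun b => by
    rw [RingEquiv.symm_apply_eq, h, RingEquiv.apply_symm_apply]
  left_inv P := by
    apply Subtype.ext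
    ext z
    rw [mem_cIsoMap, mem_cIsoMap, RingEquiv.symm_symm, RingEquiv.symm_apply_apply]
  right_inv Q := by
    apply Subtype.ext
    ext w
    rw [mem_cIsoMap, mem_cIsoMap, RingEquiv.symm_symm, RingEquiv.apply_symm_apply]

private theorem ord_cIsoEquiv [CFF k F] [CFF k' F'] (e : F ≃+* F') (e₀ : k ≃+* k')
    (h : ∀ a, e (algebraMap k F a) = algebraMap k' F' (e₀ a)) (P : Plk k F) (z : F) :
    ord (cIsoEquiv e e₀ h P) (e z) = ord P z := by
  have hP := ord_spec P
  have key : IsOrd (cIsoEquiv e e₀ h P).1 fun w => ord P (e.symm w) :=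
    { zero := by rw [map_zero]; exact hP.zero
      mul := fun x y hx hy => by
        rw [map_mul]
        exact hP.mul _ _ (by simpa using hx) (by simpa using hy)
      add := fun x y hx hy hxy => by
        rw [map_add]
        refine hP.add _ _ (by simpa using hx) (by simpa using hy) ?_
        rw [← map_add, map_ne_zero_iff e.symm e.symm.injective]
        exact hxy
      mem := fun x => by
        have h1 : x ∈ (cIsoEquiv e e₀ h P).1 ↔ e.symm x ∈ P.1 := Iff.rfl
        rw [h1, hP.mem]
        simp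
      one := by
        obtain ⟨π, hπ⟩ := hP.one
        exact ⟨e π, by rw [RingEquiv.symm_apply_apply]; exact hπ⟩ }
  have h2 := IsOrd.unique (ord_spec (cIsoEquiv e e₀ h P)) key
  rw [h2]
  simp only [RingEquiv.symm_apply_apply]

private theorem mem_LL_cIso [CFF k F] [CFF k' F'] (e : F ≃+* F') (e₀ : k ≃+* k')
    (h : ∀ a, e (algebraMap k F a) = algebraMap k' F' (e₀ a)) (D : Plk k' F' →₀ ℤ) (z : F) :
    z ∈ LL k (Finsupp.equivMapDomain (cIsoEquiv e e₀ h).symm D) ↔ e z ∈ LL k' D := by
  rw [mem_LL, mem_LL, map_eq_zero_iff e e.injective]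
  refine or_congr Iff.rfl ⟨fun H Q => ?_, fun H P => ?_⟩
  · obtain ⟨P, rfl⟩ := (cIsoEquiv e e₀ h).surjective Q
    rw [ord_cIsoEquiv]
    have := H P
    rwa [Finsupp.equivMapDomain_apply, Equiv.symm_symm] at this
  · rw [Finsupp.equivMapDomain_apply, Equiv.symm_symm, ← ord_cIsoEquiv e e₀ h]
    exact H _

private theorem finrank_cIso [CFF k F] [CFF k' F'] (e : F ≃+* F') (e₀ : k ≃+* k')
    (h : ∀ a, e (algebraMap k F a) = algebraMap k' F' (e₀ a)) (D : Plk k' F' →₀ ℤ) :
    Module.finrank k (LL k (Finsupp.equivMapDomain (cIsoEquiv e e₀ h).symm D)) =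
      Module.finrank k' (LL k' D) := by
  let j : LL k (Finsupp.equivMapDomain (cIsoEquiv e e₀ h).symm D) ≃+ LL k' D :=
    { toFun := fun z => ⟨e z.1, (mem_LL_cIso e e₀ h D z.1).1 z.2⟩
      invFun := fun w => ⟨e.symm w.1, (mem_LL_cIso e e₀ h D _).2 (by
        rw [RingEquiv.apply_symm_apply]; exact w.2)⟩
      left_inv := fun z => Subtype.ext (e.symm_apply_apply z.1)
      right_inv := fun w => Subtype.ext (e.apply_symm_apply w.1)
      map_add' := fun x y => Subtype.ext (map_add e x.1 y.1) }
  have h1 := lift_rank_eq_of_equiv_equiv (e₀ : k → k') j e₀.bijective (fun a m => by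
    apply Subtype.ext
    change e (a • m.1) = e₀ a • e m.1
    rw [Algebra.smul_def, Algebra.smul_def, map_mul, h])
  have h2 := congrArg Cardinal.toNat h1
  rwa [Cardinal.toNat_lift, Cardinal.toNat_lift] at h2

private theorem dg_cIso {A B : Type*} (φ : A ≃ B) (D : A →₀ ℤ) :
    dg (Finsupp.equivMapDomain φ D) = dg D := by
  rw [Finsupp.equivMapDomain_eq_mapDomain]
  unfold dg
  rw [Finsupp.liftAddHom_apply, Finsupp.liftAddHom_apply,
    Finsupp.sum_mapDomain_index_addMonoidHom]

end

/-- the genus is invariant under (semilinear) isomorphisms. -/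
theorem gen_eq {k F k' F' : Type*} [Field k] [Field F] [Algebra k F] [CFF k F]
    [Field k'] [Field F'] [Algebra k' F'] [CFF k' F'] (e : F ≃+* F') (e₀ : k ≃+* k')
    (h : ∀ a, e (algebraMap k F a) = algebraMap k' F' (e₀ a)) : gen k F = gen k' F' := by
  have key : ((gen k F : ℕ) : ℤ) = gen k' F' := by
    refine gen_unique (c := dg (can k F) + 1) fun D hD => ?_
    have h1 := dg_cIso (cIsoEquiv e e₀ h).symm D
    rw [← finrank_cIso e e₀ h D, ← h1]
    exact RR_large (by rw [h1]; omega)
  exact_mod_cast key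

end Vale.Agent.P019P
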