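import Vale.Agent.P019Q.CRH
import Vale.Agent.P019Q.CGb
import Vale.Agent.P019Q.CIso

/-!
# Function fields of one variable over an algebraically closed field: interface

Definitions: `CFF`, `Plk`, `IsOrd` (CDef), `ord`, `ord_spec`, `exists_isOrd`, `exists_cst` (CVal),
`dv_finite`, `fib_finite`, `dv` (CZero), `dv_eq_zero_iff`, `prn`, `LL` (CPole), `LL_finite` (CL),
`dg_dv`, `fib_sum`, `pol` (CDeg), `exists_RR`, `gen`, `can`, `RR` (CDual), `gen_le` (CGb),
`gen_eq` (CIso), `RH` (CRH), `exists_sep`, `finite_of_notMem` (CFld).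
-/
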