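import Vale.Agent.P019Q.FFrobB
import Vale.Agent.P019Q.CIface

/-!
# Frobenius on a function field over the algebraic closure of a finite field
-/

namespace Vale.Agent.P019P

open Polynomial IntermediateField

/-- extension of an endomorphism to a simple extension. -/
theorem ffrob_extend {K F : Type*} [Field K] [Field F] [Algebra K F] {y : F} (hy : K⟮y⟯ = ⊤)
    (hint : IsIntegral K y) (τ : K →+* K) (hτ : (minpoly K y).map τ = minpoly K y) :
    ∃ σ : F →+* F, (∀ a : K, σ (algebraMap K F a) = algebraMap K F (τ a)) ∧ σ y = y := by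
  set e : AdjoinRoot (minpoly K y) ≃ₐ[K] F :=
    (adjoinRootEquivAdjoin K hint).trans ((IntermediateField.equivOfEq hy).trans topEquiv) with he
  have he1 : e (AdjoinRoot.root (minpoly K y)) = y := by
    simp only [he, AlgEquiv.trans_apply, adjoinRootEquivAdjoin_apply_root]
    rfl
  have hev : (minpoly K y).eval₂ ((algebraMap K F).comp τ) y = 0 := by
    rw [← Polynomial.eval₂_map, hτ]
    exact minpoly.aeval K y
  refine ⟨(AdjoinRoot.lift ((algebraMap K F).comp τ) y hev).comp (e.symm : F →+* _), fun a => ?_,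
    ?_⟩
  · have h1 : e.symm (algebraMap K F a) = AdjoinRoot.of (minpoly K y) a := by
      rw [AlgEquiv.commutes]
      rfl
    show AdjoinRoot.lift ((algebraMap K F).comp τ) y hev (e.symm (algebraMap K F a)) = _
    rw [h1, AdjoinRoot.lift_of]
    rfl
  · have h1 : e.symm y = AdjoinRoot.root (minpoly K y) := by
      rw [AlgEquiv.symm_apply_eq]
      exact he1.symm
    show AdjoinRoot.lift ((algebraMap K F).comp τ) y hev (e.symm y) = _
    rw [h1, AdjoinRoot.lift_root]

/-- existence of Frobenius. -/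
theorem exists_frob (k F : Type*) [Field k] [Field F] [Algebra k F] [CFF k F] {p : ℕ}
    [Fact p.Prime] [CharP k p] (hf : ∀ a : k, a ≠ 0 → ∃ n : ℕ, 0 < n ∧ a ^ n = 1) :
    ∃ (m : ℕ) (σ : F ≃+* F) (x : F), 0 < m ∧
      (∀ a : k, σ (algebraMap k F a) = algebraMap k F (a ^ p ^ m)) ∧
      (∀ a : k, x ≠ algebraMap k F a) ∧ σ x = x := by
  have : IsAlgClosed k := CFF.ac F
  obtain ⟨x, hx, hfin, hsep⟩ := exists_sep k F
  obtain ⟨y, hy⟩ := Field.exists_primitive_element k⟮x⟯ F
  have hint : IsIntegral k⟮x⟯ y := IsIntegral.of_finite k⟮x⟯ y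
  obtain ⟨m, hm, hfix⟩ := exists_frob_fix (F := F) (x := x) hf (minpoly k⟮x⟯ y).coeffs
  obtain ⟨τ, hτ1, hτ2⟩ := exists_frob_adj hx (p := p) m
  have hfix' := hfix τ hτ1 hτ2
  have hτ : (minpoly k⟮x⟯ y).map τ = minpoly k⟮x⟯ y := by
    ext n
    rw [Polynomial.coeff_map]
    by_cases h0 : (minpoly k⟮x⟯ y).coeff n = 0
    · rw [h0, map_zero]
    · rw [hfix' _ (Polynomial.coeff_mem_coeffs h0)]
  obtain ⟨σ, hσ1, hσ2⟩ := ffrob_extend hy hint τ hτ
  have hσk : ∀ a : k, σ (algebraMap k F a) = algebraMap k F (a ^ p ^ m) := fun a => by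
    rw [IsScalarTower.algebraMap_apply k k⟮x⟯ F a, hσ1, hτ1,
      ← IsScalarTower.algebraMap_apply k k⟮x⟯ F]
  have hσx : σ x = x := by
    have h1 := hσ1 (AdjoinSimple.gen k x)
    rw [hτ2] at h1
    exact h1
  have hsurj : Function.Surjective σ := by
    have hk : ∀ a : k, algebraMap k F a ∈ σ.fieldRange := fun a => by
      obtain ⟨b, hb⟩ := IsAlgClosed.exists_pow_nat_eq a
        (pow_pos (Fact.out : p.Prime).pos m)
      exact ⟨algebraMap k F b, by rw [hσk, hb]⟩
    have hK : ∀ a : k⟮x⟯, algebraMap k⟮x⟯ F a ∈ σ.fieldRange := fun a => by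
      have h1 : k⟮x⟯ ≤ σ.fieldRange.toIntermediateField hk :=
        adjoin_simple_le_iff.2 (show x ∈ σ.fieldRange from ⟨x, hσx⟩)
      exact h1 a.2
    intro z
    have h2 : k⟮x⟯⟮y⟯ ≤ σ.fieldRange.toIntermediateField hK :=
      adjoin_simple_le_iff.2 (show y ∈ σ.fieldRange from ⟨y, hσ2⟩)
    rw [hy] at h2
    exact h2 (show z ∈ (⊤ : IntermediateField k⟮x⟯ F) from IntermediateField.mem_top)
  refine ⟨m, RingEquiv.ofBijective σ ⟨σ.injective, hsurj⟩, x, hm, hσk, fun a ha => ?_, hσx⟩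
  apply hx
  rw [ha]
  exact isAlgebraic_algebraMap a

end Vale.Agent.P019P
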