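import Vale.Agent.P019Q.ZMain

/-!
# The abstract zeta theorem: interface

The degree `dg` is in `Dg`, the data `ZDat` in `ZDef`, the theorems `ZDat.divisible` and
`ZDat.card_tors` in `ZMain`.
-/
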