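import Vale.Agent.P019Q.FPer
import Vale.Agent.P019Q.ZIface
import Vale.Agent.P019Q.FCount
import Vale.Agent.P019Q.FFrob
import Vale.Agent.P019Q.FEff

/-!
# The zeta data of a curve over the algebraic closure of a finite field
-/

namespace Vale.Agent.P019P

set_option linter.style.haveILetI false

open Polynomial IntermediateField

variable {k F : Type*} [Field k] [Field F] [Algebra k F] [CFF k F]

/-- the action on principal divisors. -/
theorem mapDomain_mem_prn (s : F ≃+* F) (s₀ : k ≃+* k)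
    (h : ∀ a, s (algebraMap k F a) = algebraMap k F (s₀ a)) (D : Plk k F →₀ ℤ) :
    D ∈ prn k F ↔ D.mapDomain (plEquiv s s₀ h) ∈ prn k F := by
  constructor
  · rintro ⟨z, hz, rfl⟩
    exact ⟨s z, (map_ne_zero s).2 hz, (dv_plEquiv s s₀ h z).symm⟩
  · rintro ⟨w, hw, hD⟩
    obtain ⟨z, rfl⟩ := s.surjective w
    refine ⟨z, (map_ne_zero s).1 hw, ?_⟩
    rw [dv_plEquiv s s₀ h z] at hD
    exact Finsupp.mapDomain_injective (plEquiv s s₀ h).injective hD

/-- the zeta data of a curve. -/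
theorem exists_zdat (k F : Type*) [Field k] [Field F] [Algebra k F] [CFF k F]
    (hf : ∀ a : k, a ≠ 0 → ∃ n : ℕ, 0 < n ∧ a ^ n = 1) {p : ℕ} [hp : Fact p.Prime] [CharP k p] :
    ∃ Z : ZDat (Plk k F), Z.prin = prn k F ∧ Z.g = gen k F ∧ ∃ m : ℕ, 0 < m ∧ Z.q = p ^ m := by
  haveI : IsAlgClosed k := CFF.ac F
  obtain ⟨m, σ, x, hm, hσ, hx, hσx⟩ := exists_frob k F hf (p := p)
  haveI : PerfectRing k p := PerfectField.toPerfectRing p
  let σ₀ : k ≃+* k := iterateFrobeniusEquiv k p m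
  have h0 : ∀ a : k, σ₀ a = a ^ p ^ m := fun a => iterateFrobeniusEquiv_def k p m a
  have h : ∀ a, σ (algebraMap k F a) = algebraMap k F (σ₀ a) := fun a => by rw [hσ, h0]
  obtain ⟨P0⟩ := exists_place_cff k F
  obtain ⟨N, hN, hP0⟩ := pl_per hf σ σ₀ h0 h hx hσx P0
  have hpow : ∀ (n : ℕ) (a : k), (σ₀ ^ n) a = a ^ p ^ (m * n) := by
    intro n
    induction n with
    | zero => intro a; simp
    | succ n ih =>
      intro a
      rw [pow_succ, RingAut.mul_apply, ih, h0, ← pow_mul, ← pow_add, mul_add, mul_one, add_comm]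
  have hx' : ∀ n : ℕ, (σ ^ n) x = x := by
    intro n
    induction n with
    | zero => simp
    | succ n ih => rw [pow_succ, RingAut.mul_apply, hσx, ih]
  have hmN : 0 < m * N := Nat.mul_pos hm hN
  have hpow2 : ∀ (n : ℕ) (a : k), ((σ₀ ^ N) ^ n) a = a ^ p ^ (m * N * n) := by
    intro n a
    rw [← pow_mul, hpow, mul_assoc]
  refine ⟨{ σ := plEquiv (σ ^ N) (σ₀ ^ N) (semi_pow h N)
            q := p ^ (m * N)
            g := gen k F
            prin := prn k F
            l := fun D => Module.finrank k (LL k D)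
            κ := can k F
            P0 := P0
            two_le := ?_
            fix0 := ?_
            per := ?_
            fin := ?_
            deg_prin := ?_
            sig_prin := ?_
            rr := ?_
            l_neg := ?_
            l_prin := ?_
            l_zero := ?_
            count := ?_ }, rfl, rfl, m * N, hmN, rfl⟩
  · exact hp.out.two_le.trans (Nat.le_self_pow hmN.ne' p)
  · rw [← plEquiv_pow]
    exact hP0
  · intro P
    exact pl_per hf (σ ^ N) (σ₀ ^ N) (hpow N) (semi_pow h N) hx (hx' N) P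
  · intro n hn
    exact pl_fin hmN (σ ^ N) (σ₀ ^ N) (hpow N) (semi_pow h N) hx (hx' N) hn
  · rintro _ ⟨z, _, rfl⟩
    exact dg_dv z
  · intro D
    exact mapDomain_mem_prn _ _ _ D
  · intro D
    exact RR D
  · intro D hD
    exact LL_neg hD
  · intro D hD
    exact LL_prin hD
  · intro D hD hD'
    exact LL_zero hD hD'
  · intro n hn D hD
    have e1 := plEquiv_pow (σ ^ N) (σ₀ ^ N) (semi_pow h N) n
    rw [e1] at hD ⊢
    have := count_eff (p := p) (m := m * N * n) (Nat.mul_pos hmN hn) ((σ ^ N) ^ n)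
      ((σ₀ ^ N) ^ n) (hpow2 n) (semi_pow (semi_pow h N) n) D hD
    have e2 : (p ^ (m * N)) ^ n = p ^ (m * N * n) := (pow_mul p (m * N) n).symm
    have e3 : (p ^ (m * N)) ^ (n * Module.finrank k (LL k D)) =
        (p ^ (m * N * n)) ^ Module.finrank k (LL k D) := by
      rw [pow_mul (p ^ (m * N)), e2]
    rw [e2, e3]
    exact this

/-- `ℓ`-torsion and divisibility of the class group over the closure of a finite field. -/
theorem pic_fin' (hf : ∀ a : k, a ≠ 0 → ∃ n : ℕ, 0 < n ∧ a ^ n = 1) {ℓ : ℕ} (hℓ : ℓ.Prime)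
    (hℓk : (ℓ : k) ≠ 0) :
    (∀ D : Plk k F →₀ ℤ, dg D = 0 → ∃ E : Plk k F →₀ ℤ, dg E = 0 ∧ D - ℓ • E ∈ prn k F) ∧
    Nat.card {x : (Plk k F →₀ ℤ) ⧸ prn k F // ℓ • x = 0} = ℓ ^ (2 * gen k F) := by
  obtain ⟨p, hp, hc⟩ := exists_prime_char hf
  haveI : Fact p.Prime := ⟨hp⟩
  obtain ⟨Z, hZ, hg, m, hm, hq⟩ := exists_zdat k F hf (p := p)
  have hlq : ¬ ℓ ∣ Z.q := by
    rw [hq]
    intro h
    have h1 := (Nat.prime_dvd_prime_iff_eq hℓ hp).1 (hℓ.dvd_of_dvd_pow h)
    rw [h1] at hℓk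
    exact hℓk (CharP.cast_eq_zero k p)
  constructor
  · intro D hD
    obtain ⟨E, hE, hE'⟩ := Z.divisible hℓ hlq D hD
    exact ⟨E, hE, hZ ▸ hE'⟩
  · have := Z.card_tors hℓ hlq
    rw [hZ, hg] at this
    exact this

end Vale.Agent.P019P
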