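import Vale.Agent.P019Q.FPl
import Vale.Agent.P019Q.FCl
import Vale.Agent.P019Q.FAbs
import Vale.Agent.P019Q.FMain

/-!
# The number of unramified classes of a curve
-/

namespace Vale.Agent.P019P

open Vale.Agent.P019

set_option linter.style.haveILetI false
set_option linter.unusedSectionVars false

open Polynomial IntermediateField

variable {F : Type*} [Field F] {ℓ : ℕ} [Fact ℓ.Prime] [NeZero (ℓ : F)] {k : Subfield F}

/-- the number of classes unramified outside a finite set of places. -/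
theorem curveCard (hf : Fin' k) (F0 : IntermediateField k F) [CFF k F0]
    [IsPurelyInseparable F0 F] : CurveCard ℓ k (gen k F0) := by
  classical
  intro T hT
  have hℓ : ℓ.Prime := Fact.out
  have hf' : ∀ a : k, a ≠ 0 → ∃ n : ℕ, 0 < n ∧ a ^ n = 1 := by
    intro a ha
    obtain ⟨n, hn, h1⟩ := hf a a.2 (fun h => ha (Subtype.ext h))
    exact ⟨n, hn, Subtype.ext h1⟩
  have hℓk : (ℓ : k) ≠ 0 := by
    intro h
    apply NeZero.ne (ℓ : F)
    have h1 := congrArg (algebraMap k F) h
    rwa [map_natCast, map_zero] at h1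
  obtain ⟨hdiv, hcard⟩ := pic_fin' (k := k) (F := F0) hf' hℓ hℓk
  obtain ⟨f, hfz, hsurj, hker⟩ := exists_clHom F0 ℓ
  let T' : Finset (Plk k F0) := T.attach.image fun O => plRes F0 ⟨O.1, hT O.1 O.2⟩
  have hT' : T'.card = T.card := by
    rw [Finset.card_image_of_injective, Finset.card_attach]
    intro O O' h
    have h1 := congrArg Subtype.val ((plRes F0).injective h)
    exact Subtype.ext h1
  have hmem : ∀ O : Plc k, plRes F0 O ∈ T' ↔ O.1 ∈ T := by
    intro O
    rw [Finset.mem_image]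
    constructor
    · rintro ⟨O', _, h⟩
      rw [← (plRes F0).injective h]
      exact O'.2
    · intro h
      exact ⟨⟨O.1, h⟩, Finset.mem_attach _ _, rfl⟩
  have hc := card_abs (prn k F0) (by rintro _ ⟨z, _, rfl⟩; exact dg_dv z) hℓ hdiv hcard f hsurj
    hker T'
  rw [hT'] at hc
  rw [← hc]
  refine Nat.card_congr (Equiv.subtypeEquivRight fun v => ?_)
  constructor
  · intro hv
    obtain ⟨z, hz, rfl⟩ := exists_cl F0 v
    refine ⟨⟨dv k z, z, hz, rfl⟩, hfz z hz, ?_⟩
    intro P hP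
    have h1 : (plRes F0) ((plRes F0).symm P) = P := (plRes F0).apply_symm_apply P
    have h2 := hv ((plRes F0).symm P).1 ((plRes F0).symm P).2 (fun h => hP (by
      rw [← h1]
      exact (hmem _).2 h))
    rw [cl_mem_UC_iff F0 _ hz, h1] at h2
    change (ℓ : ℤ) ∣ dv k z P
    rw [dv_apply]
    exact h2
  · rintro ⟨⟨_, z, hz, rfl⟩, rfl, hD⟩ O hO hOT
    rw [hfz z hz, cl_mem_UC_iff F0 ⟨O, hO⟩ hz]
    have h1 := hD (plRes F0 ⟨O, hO⟩) (fun h => hOT ((hmem ⟨O, hO⟩).1 h))
    change (ℓ : ℤ) ∣ dv k z _ at h1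
    rw [dv_apply] at h1
    exact h1

end Vale.Agent.P019P
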