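import Vale.Agent.P019Q.CIface

/-!
# The consequence of Riemann-Hurwitz used for residue curves
-/

namespace Vale.Agent.P019P

set_option linter.style.haveILetI false
set_option linter.unusedSectionVars false

open Polynomial IntermediateField

namespace AuxGRH

/-- counting: positive integers, at most `N` of them prime to `ℓ ≥ 2`. -/
theorem two_card_le {α : Type*} (A : Finset α) (f : α → ℤ) (hf : ∀ P ∈ A, 0 < f P) {ℓ : ℕ}
    (hℓ : 2 ≤ ℓ) (N : ℕ) (hN : {P | P ∈ A ∧ ¬ (ℓ : ℤ) ∣ f P}.encard ≤ N) :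
    2 * (A.card : ℤ) ≤ ∑ P ∈ A, f P + N := by
  classical
  have h1 : {P | P ∈ A ∧ ¬ (ℓ : ℤ) ∣ f P} = ((A.filter fun P => ¬ (ℓ : ℤ) ∣ f P : Finset α) : Set α) := by
    ext P
    simp
  rw [h1, Set.encard_coe_eq_coe_finsetCard] at hN
  have h2 : (A.filter fun P => ¬ (ℓ : ℤ) ∣ f P).card ≤ N := by exact_mod_cast hN
  have h3 : ∀ P ∈ A, (2 : ℤ) - (if ¬ (ℓ : ℤ) ∣ f P then 1 else 0) ≤ f P := by
    intro P hP
    have h4 := hf P hP
    split_ifs with h5
    · have h6 : (ℓ : ℤ) ≤ f P := Int.le_of_dvd h4 h5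
      have h7 : (2 : ℤ) ≤ ℓ := by exact_mod_cast hℓ
      omega
    · omega
  have h4 := Finset.sum_le_sum h3
  rw [Finset.sum_sub_distrib, Finset.sum_const, nsmul_eq_mul] at h4
  have h5 : (∑ P ∈ A, (if ¬ (ℓ : ℤ) ∣ f P then (1 : ℤ) else 0)) =
      ((A.filter fun P => ¬ (ℓ : ℤ) ∣ f P).card : ℤ) := by
    rw [Finset.card_filter]
    push_cast
    rfl
  have h6 : ((A.filter fun P => ¬ (ℓ : ℤ) ∣ f P).card : ℤ) ≤ N := by exact_mod_cast h2
  rw [h5] at h4
  linarith

end AuxGRH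

/-- five points with at most `N` places of order prime to `ℓ` in each fibre. -/
theorem rh_five {k F : Type*} [Field k] [Field F] [Algebra k F] [CFF k F] {x : F}
    (hx : ∀ a : k, x ≠ algebraMap k F a) [Algebra.IsSeparable k⟮x⟯ F] {ℓ : ℕ} (hℓ : 2 ≤ ℓ)
    (N : ℕ) (s : Finset k) (hs : s.card = 5)
    (hN : ∀ c ∈ s, {P : Plk k F | 0 < ord P (x - algebraMap k F c) ∧
      ¬ (ℓ : ℤ) ∣ ord P (x - algebraMap k F c)}.encard ≤ N) :
    Module.finrank k⟮x⟯ F ≤ 4 * gen k F + 5 * N := by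
  have key := RH hx s
  set n : ℕ := Module.finrank k⟮x⟯ F with hn
  have h1 : ∀ c ∈ s, (n : ℤ) - N ≤ 2 * ((n : ℤ) - (fib_finite hx c).toFinset.card) := by
    intro c hc
    have h2 := AuxGRH.two_card_le (fib_finite hx c).toFinset
      (fun P => ord P (x - algebraMap k F c))
      (fun P hP => by simpa using hP) hℓ N (by
        refine le_trans (le_of_eq ?_) (hN c hc)
        congr 1
        ext P
        simp)
    rw [fib_sum hx c] at h2
    linarith
  have h2 := Finset.sum_le_sum h1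
  rw [Finset.sum_const, hs, nsmul_eq_mul, ← Finset.mul_sum] at h2
  have h3 : (n : ℤ) ≤ 4 * gen k F + 5 * N := by
    push_cast at h2
    linarith
  exact_mod_cast h3

end Vale.Agent.P019P
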