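import Vale.Agent.P019Q.GModel

/-!
# Separable models
-/

namespace Vale.Agent.P019P

open Vale.Agent.P019

set_option linter.style.haveILetI false
set_option linter.unusedSectionVars false

open Polynomial IntermediateField

variable {F : Type*} [Field F] {k : Subfield F}

namespace AuxGSep

theorem adj0_le (x : F) : Vale.Agent.P019.adj k x ≤ (k⟮x⟯).toSubfield := by
  refine Vale.Agent.P019.adj_le ?_ ?_
  · intro b hb
    exact (k⟮x⟯).algebraMap_mem ⟨b, hb⟩
  · exact IntermediateField.mem_adjoin_simple_self k x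

theorem le_adj0 (x : F) : (k⟮x⟯).toSubfield ≤ Vale.Agent.P019.adj k x := by
  let E : IntermediateField k F :=
    { (Vale.Agent.P019.adj k x) with
      algebraMap_mem' := fun a => (Vale.Agent.P019.le_adj k x) a.2 }
  have hE : k⟮x⟯ ≤ E := by
    rw [IntermediateField.adjoin_simple_le_iff]
    exact Vale.Agent.P019.mem_adj k x
  exact hE

theorem alg_K0 (h : Cv k) {x : F} (hx : x ∉ k) (z : F) : IsAlgebraic k⟮x⟯ z := by
  have h1 := isAlgebraic_mono (adj0_le x) (isAlgebraic_adj.1 (h.isAlgebraic hx z))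
  exact h1

/-- the separable closure of `k(x)` is finite over `k(x)`. -/
theorem finite_sep (h : Cv k) {x : F} (hx : x ∉ k) :
    FiniteDimensional k⟮x⟯ (separableClosure k⟮x⟯ F) := by
  obtain ⟨F0, ⟨T, hT⟩, -, h3⟩ := exists_model h
  haveI : ExpChar F0 (ringExpChar F) :=
    (algebraMap F0 F).expChar (algebraMap F0 F).injective _
  haveI : ExpChar k⟮x⟯ (ringExpChar F) :=
    (algebraMap k⟮x⟯ F).expChar (algebraMap k⟮x⟯ F).injective _
  rw [isPurelyInseparable_iff_pow_mem F0 (ringExpChar F)] at h3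
  let G : IntermediateField k⟮x⟯ F := IntermediateField.adjoin k⟮x⟯ (T : Set F)
  haveI : FiniteDimensional k⟮x⟯ G :=
    IntermediateField.finiteDimensional_adjoin fun z _ => (alg_K0 h hx z).isIntegral
  have h4 : F0 ≤ G.restrictScalars k := by
    rw [← hT, IntermediateField.adjoin_le_iff]
    exact IntermediateField.subset_adjoin k⟮x⟯ (T : Set F)
  have h5 : separableClosure k⟮x⟯ F ≤ G := by
    intro z hz
    obtain ⟨n, y, hy⟩ := h3 z
    have h6 := IntermediateField.adjoin_simple_eq_adjoin_pow_expChar_pow_of_isSeparable k⟮x⟯ F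
      (mem_separableClosure_iff.1 hz) (ringExpChar F) n
    have h7 : (k⟮x⟯)⟮z⟯ ≤ G := by
      rw [h6, IntermediateField.adjoin_simple_le_iff, ← hy]
      exact h4 y.2
    exact h7 (IntermediateField.mem_adjoin_simple_self _ z)
  exact Submodule.finiteDimensional_of_le
    (S₁ := Subalgebra.toSubmodule (separableClosure k⟮x⟯ F).toSubalgebra)
    (S₂ := Subalgebra.toSubmodule G.toSubalgebra) h5

/-- a primitive element. -/
theorem exists_prim_sep (h : Cv k) {x : F} (hx : x ∉ k) :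
    ∃ y : F, separableClosure k⟮x⟯ F = (k⟮x⟯)⟮y⟯ := by
  haveI := finite_sep h hx
  obtain ⟨y, hy⟩ := Field.exists_primitive_element k⟮x⟯ (separableClosure k⟮x⟯ F)
  refine ⟨y, ?_⟩
  rw [← IntermediateField.lift_adjoin_simple, hy, IntermediateField.lift_top]

theorem map_gen (F1 : IntermediateField k F) {x : F} (hx1 : x ∈ F1) :
    (k⟮(⟨x, hx1⟩ : F1)⟯).map F1.val = k⟮x⟯ := by
  rw [IntermediateField.adjoin_map]
  simp

noncomputable def eqv (F1 : IntermediateField k F) {x : F} (hx1 : x ∈ F1) :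
    k⟮x⟯ ≃+* k⟮(⟨x, hx1⟩ : F1)⟯ :=
  ((IntermediateField.equivMap (k⟮(⟨x, hx1⟩ : F1)⟯) F1.val).trans
    (IntermediateField.equivOfEq (map_gen F1 hx1))).symm.toRingEquiv

theorem eqv_symm_coe (F1 : IntermediateField k F) {x : F} (hx1 : x ∈ F1)
    (z : k⟮(⟨x, hx1⟩ : F1)⟯) : (((eqv F1 hx1).symm z : k⟮x⟯) : F) = ((z : F1) : F) := rfl

theorem eqv_coe (F1 : IntermediateField k F) {x : F} (hx1 : x ∈ F1) (z : k⟮x⟯) :
    (((eqv F1 hx1 z : k⟮(⟨x, hx1⟩ : F1)⟯) : F1) : F) = z := by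
  rw [← eqv_symm_coe F1 hx1, RingEquiv.symm_apply_apply]

/-- the degree over the perfect closure of `k(x)`. -/
theorem deg_le [PerfectField F] {x y : F} (hal : ∀ z : F, IsAlgebraic k⟮x⟯ z)
    (hy : ∀ z : F, ∃ n : ℕ, z ^ ringExpChar F ^ n ∈ (k⟮x⟯)⟮y⟯) :
    Module.Finite (adj k x) F ∧
      Module.finrank (adj k x) F ≤ Module.finrank k⟮x⟯ (k⟮x⟯)⟮y⟯ := by
  have hle : (k⟮x⟯).toSubfield ≤ adj k x := (le_adj0 x).trans (adj0_le_adj k x)
  have hle' : ∀ z : k⟮x⟯, (z : F) ∈ adj k x := fun z => hle z.2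
  letI : Algebra k⟮x⟯ (adj k x) :=
    ((algebraMap k⟮x⟯ F).codRestrict (adj k x) hle').toAlgebra
  haveI : IsScalarTower k⟮x⟯ (adj k x) F := IsScalarTower.of_algebraMap_eq fun z => rfl
  have hal' : ∀ z : F, IsAlgebraic (adj k x) z := fun z => (hal z).tower_top (adj k x)
  have hG : (adj k x)⟮y⟯ = ⊤ := by
    haveI : Algebra.IsAlgebraic (adj k x) (adj k x)⟮y⟯ :=
      ⟨fun z => isAlgebraic_iff.2 (hal' z)⟩
    haveI : PerfectField (adj k x)⟮y⟯ := Algebra.IsAlgebraic.perfectField (adj k x)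
    haveI : PerfectField ((adj k x)⟮y⟯).toSubfield := this
    have h1 : ∀ z ∈ (k⟮x⟯)⟮y⟯, z ∈ (adj k x)⟮y⟯ := by
      have h2 : (k⟮x⟯)⟮y⟯ ≤ ((adj k x)⟮y⟯).restrictScalars k⟮x⟯ := by
        rw [IntermediateField.adjoin_simple_le_iff]
        exact IntermediateField.mem_adjoin_simple_self (adj k x) y
      exact fun z hz => h2 hz
    refine top_unique fun z _ => ?_
    obtain ⟨n, hn⟩ := hy z
    have h2 : z ^ ringExpChar F ^ n ∈ ((adj k x)⟮y⟯).toSubfield := h1 _ hn
    exact mem_of_pow_q (E := ((adj k x)⟮y⟯).toSubfield) h2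
  have hfin : Module.Finite (adj k x) (adj k x)⟮y⟯ :=
    IntermediateField.adjoin.finiteDimensional (hal' y).isIntegral
  have hdeg := IntermediateField.adjoin.finrank (hal' y).isIntegral
  have hdeg0 := IntermediateField.adjoin.finrank (hal y).isIntegral
  rw [hG] at hfin hdeg
  refine ⟨Module.Finite.equiv
    (IntermediateField.topEquiv (F := adj k x) (E := F)).toLinearEquiv, ?_⟩
  rw [IntermediateField.finrank_top'] at hdeg
  rw [hdeg, hdeg0]
  have h3 := minpoly.dvd_map_of_isScalarTower k⟮x⟯ (adj k x) y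
  have h4 := Polynomial.natDegree_le_of_dvd h3
    (Polynomial.map_ne_zero (minpoly.ne_zero (hal y).isIntegral))
  rwa [Polynomial.natDegree_map] at h4

end AuxGSep

open AuxGSep

/-- a model which is separable over `k(x)`. -/
theorem exists_sep_model [PerfectField F] (h : Cv k) {x : F} (hx : x ∉ k) :
    ∃ (F1 : IntermediateField k F) (hx1 : x ∈ F1), F1.FG ∧ CFF k F1 ∧ IsPurelyInseparable F1 F ∧
      Algebra.IsSeparable k⟮(⟨x, hx1⟩ : F1)⟯ F1 ∧ Module.Finite (adj k x) F ∧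
      Module.finrank (adj k x) F ≤ Module.finrank k⟮(⟨x, hx1⟩ : F1)⟯ F1 := by
  let S : IntermediateField k⟮x⟯ F := separableClosure k⟮x⟯ F
  haveI hS : FiniteDimensional k⟮x⟯ S := finite_sep h hx
  obtain ⟨y, hy⟩ : ∃ y : F, S = (k⟮x⟯)⟮y⟯ := exists_prim_sep h hx
  haveI hal : Algebra.IsAlgebraic k⟮x⟯ F := ⟨alg_K0 h hx⟩
  haveI hins : IsPurelyInseparable S F := separableClosure.isPurelyInseparable _ _
  haveI hsep : Algebra.IsSeparable k⟮x⟯ S := separableClosure.isSeparable _ _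
  haveI : ExpChar S (ringExpChar F) :=
    (algebraMap S F).expChar (algebraMap S F).injective _
  let F1 : IntermediateField k F := S.restrictScalars k
  have hx1 : x ∈ F1 := S.algebraMap_mem ⟨x, IntermediateField.mem_adjoin_simple_self k x⟩
  have hFG : F1.FG := by
    have h1 : F1 = k⟮x, y⟯ := by
      rw [← IntermediateField.adjoin_simple_adjoin_simple, ← hy]
    rw [h1]
    exact IntermediateField.fg_adjoin_of_finite (Set.toFinite _)
  let e₂ : S ≃+* F1 := RingEquiv.refl S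
  have hcomp : (algebraMap k⟮(⟨x, hx1⟩ : F1)⟯ F1).comp (eqv F1 hx1).toRingHom =
      e₂.toRingHom.comp (algebraMap k⟮x⟯ S) := by
    ext z
    exact eqv_coe F1 hx1 z
  have hfr : Module.finrank k⟮x⟯ S = Module.finrank k⟮(⟨x, hx1⟩ : F1)⟯ F1 :=
    Algebra.finrank_eq_of_equiv_equiv (eqv F1 hx1) e₂ hcomp
  have hcomp' : ((algebraMap k⟮(⟨x, hx1⟩ : F1)⟯ F1).comp ↑(eqv F1 hx1)) =
      (↑e₂ : S →+* F1).comp (algebraMap k⟮x⟯ S) := hcomp
  refine ⟨F1, hx1, hFG, cff_of h F1 hFG hx1 hx, hins,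
    Algebra.IsSeparable.of_equiv_equiv (eqv F1 hx1) e₂ hcomp', ?_⟩
  rw [← hfr, hy]
  refine deg_le (alg_K0 h hx) fun z => ?_
  obtain ⟨n, w, hw⟩ := (isPurelyInseparable_iff_pow_mem S (ringExpChar F)).1 hins z
  refine ⟨n, ?_⟩
  rw [← hy, ← hw]
  exact w.2

end Vale.Agent.P019P
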