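import Vale.Agent.P019Q.GGen
import Vale.Agent.P019Q.GSep
import Vale.Agent.P019Q.GRH
import Vale.Agent.P019Q.FCv

/-!
# The theorem on curves
-/

namespace Vale.Agent.P019P

open Vale.Agent.P019

set_option linter.style.haveILetI false
set_option linter.unusedSectionVars false

open Polynomial IntermediateField

variable {F : Type*} [Field F] [PerfectField F] {ℓ : ℕ} [Fact ℓ.Prime] [NeZero (ℓ : F)]
  {k : Subfield F}

/-- the perfect closure of `k(x, y)`. -/
theorem pure_pair {x y : F} (htop : adj (adj k x) y = ⊤) :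
    IsPurelyInseparable (IntermediateField.adjoin k ({x, y} : Set F)) F := by
  set F1 : IntermediateField k F := IntermediateField.adjoin k ({x, y} : Set F) with hF1
  haveI : ExpChar F1 (ringExpChar F) := (algebraMap F1 F).expChar (algebraMap F1 F).injective _
  rw [isPurelyInseparable_iff_pow_mem F1 (ringExpChar F)]
  intro z
  have hx : x ∈ F1 := IntermediateField.subset_adjoin k _ (by simp)
  have hy : y ∈ F1 := IntermediateField.subset_adjoin k _ (by simp)
  have h1 : adj (adj k x) y ≤ pf F1.toSubfield := by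
    refine adj_le (adj_le ?_ ?_) ?_
    · intro a ha
      exact le_pf _ (F1.algebraMap_mem ⟨a, ha⟩)
    · exact le_pf _ hx
    · exact le_pf _ hy
  rw [htop] at h1
  obtain ⟨n, hn⟩ := mem_pf.1 (h1 (Subfield.mem_top z))
  exact ⟨n, ⟨_, hn⟩, rfl⟩

/-- the genus bound and Riemann-Hurwitz for a model. -/
theorem curveRH_of (h : Cv k) (F0 : IntermediateField k F) [CFF k F0]
    [IsPurelyInseparable F0 F] : CurveRH ℓ k (gen k F0) := by
  classical
  constructor
  · intro x hx N s hs hs5 hN
    obtain ⟨F1, hx1, hFG, hcff, hpi, hsep, hfin, hle⟩ := exists_sep_model h hx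
    haveI := hcff
    haveI := hpi
    haveI := hsep
    rw [gen_model_eq h F0 F1]
    refine hle.trans ?_
    have hx1' : ∀ a : k, (⟨x, hx1⟩ : F1) ≠ algebraMap k F1 a := by
      intro a ha
      apply hx
      have h1 := congrArg Subtype.val ha
      change x = (a : F) at h1
      rw [h1]
      exact a.2
    let s' : Finset k := s.attach.image fun c => ⟨c.1, hs c.1 c.2⟩
    have hs' : s'.card = 5 := by
      rw [Finset.card_image_of_injective, Finset.card_attach, hs5]
      intro c c' hcc
      exact Subtype.ext (congrArg (fun t : k => (t : F)) hcc)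
    refine rh_five hx1' (Fact.out : ℓ.Prime).two_le N s' hs' ?_
    intro c hc
    have hcs : (c : F) ∈ s := by
      obtain ⟨c', _, hcc⟩ := Finset.mem_image.1 hc
      rw [← hcc]
      exact c'.2
    have hxc : (⟨x, hx1⟩ : F1) - algebraMap k F1 c ≠ 0 := fun h0 => hx1' c (sub_eq_zero.1 h0)
    refine le_trans ?_ (hN c hcs)
    have hinj : Function.Injective fun P : Plk k F1 => (((plRes F1).symm P : Plc k) :
        ValuationSubring F) := fun P P' hPP =>
      (plRes F1).symm.injective (Subtype.ext hPP)
    rw [← hinj.encard_image]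
    refine Set.encard_le_encard ?_
    rintro _ ⟨P, ⟨hP1, hP2⟩, rfl⟩
    set O := (plRes F1).symm P with hO
    have hPO : plRes F1 O = P := (plRes F1).apply_symm_apply P
    refine ⟨O.2, ?_, ?_⟩
    · rw [← hPO] at hP1
      have h2 : ((⟨x, hx1⟩ : F1) - algebraMap k F1 c)⁻¹ ∉ (plRes F1 O).1 := by
        rw [(ord_spec _).mem]
        push Not
        refine ⟨inv_ne_zero hxc, ?_⟩
        have h3 := (ord_spec (plRes F1 O)).mul _ _ hxc (inv_ne_zero hxc)
        have h4 := (ord_spec (plRes F1 O)).mul 1 1 one_ne_zero one_ne_zero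
        rw [mul_inv_cancel₀ hxc] at h3
        rw [mul_one] at h4
        omega
      rw [mem_plRes, ← O.1.valuation_le_one_iff, not_le] at h2
      change 1 < O.1.valuation ((x - c)⁻¹) at h2
      rw [map_inv₀] at h2
      have h5 : O.1.valuation (x - c) ≠ 0 := by
        rw [Valuation.ne_zero_iff]
        intro h6
        exact hxc (Subtype.ext h6)
      exact (one_lt_inv₀ (zero_lt_iff.2 h5)).1 h2
    · rw [← hPO] at hP2
      intro h3
      exact hP2 ((cl_mem_UC_iff F1 O hxc).1 h3)
  · intro x y hx htop m n a ha hne h0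
    set F1 : IntermediateField k F := IntermediateField.adjoin k ({x, y} : Set F) with hF1
    haveI : IsPurelyInseparable F1 F := pure_pair htop
    have hxm : x ∈ F1 := IntermediateField.subset_adjoin k _ (by simp)
    have hym : y ∈ F1 := IntermediateField.subset_adjoin k _ (by simp)
    have hFG : F1.FG := ⟨{x, y}, by rw [Finset.coe_insert, Finset.coe_singleton]⟩
    haveI : CFF k F1 := cff_of h F1 hFG hxm hx
    rw [gen_model_eq h F0 F1]
    let x1 : F1 := ⟨x, hxm⟩
    let y1 : F1 := ⟨y, hym⟩
    have hx1 : ∀ a : k, x1 ≠ algebraMap k F1 a := by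
      intro a ha
      apply hx
      have h1 := congrArg Subtype.val ha
      change x = (a : F) at h1
      rw [h1]
      exact a.2
    have htop1 : IntermediateField.adjoin k {x1, y1} = ⊤ := by
      have h1 : (IntermediateField.adjoin k ({x1, y1} : Set F1)).map F1.val = F1 := by
        rw [IntermediateField.adjoin_map, Set.image_pair]
        rfl
      rw [eq_top_iff]
      rintro w -
      have h2 : (w : F) ∈ (IntermediateField.adjoin k ({x1, y1} : Set F1)).map F1.val := by
        rw [h1]; exact w.2
      obtain ⟨v, hv, hvw⟩ := h2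
      have h3 : v = w := Subtype.ext hvw
      rw [← h3]
      exact hv
    refine gen_le hx1 htop1 (a := fun i j => ⟨a i j, ha i j⟩) ?_ ?_
    · obtain ⟨i, hi, j, hj, hij⟩ := hne
      exact ⟨i, hi, j, hj, fun h2 => hij (congrArg Subtype.val h2)⟩
    · apply (algebraMap F1 F).injective
      rw [map_zero, ← h0, map_sum]
      refine Finset.sum_congr rfl fun i _ => ?_
      rw [map_sum]
      refine Finset.sum_congr rfl fun j _ => ?_
      rw [map_mul, map_mul, map_pow, map_pow]
      rfl

/-- finiteness of `F` over `k(x)`. -/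
theorem Cv.finite' (h : Cv k) {x : F} (hx : x ∉ k) : Module.Finite (adj k x) F := by
  obtain ⟨F1, hx1, hFG, hcff, hpi, hsep, hfin, hle⟩ := exists_sep_model h hx
  exact hfin

/-- Riemann-Hurwitz (all algebraically closed constants). -/
theorem exists_curveRH' (h : Cv k) : ∃ g : ℕ, CurveRH ℓ k g := by
  obtain ⟨F0, hFG, hcff, hpi⟩ := exists_model h
  exact ⟨gen k F0, curveRH_of h F0⟩

/-- the number of `ℓ`-torsion classes is `ℓ ^ (2 g)`, constants algebraic over a finite field. -/
theorem exists_curve' (h : Cv k) (hf : Fin' k) : ∃ g : ℕ, CurveRH ℓ k g ∧ CurveCard ℓ k g := by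
  obtain ⟨F0, hFG, hcff, hpi⟩ := exists_model h
  exact ⟨gen k F0, curveRH_of h F0, curveCard hf F0⟩

end Vale.Agent.P019P
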