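import Vale.Agent.P019Q.CSep
import Vale.Agent.P019Q.CFib
import Vale.Agent.P019Q.GCurve

/-!
# The theorem on curves

`Cv.finite` is in `CSep.lean`, `Cv.fib_card` in `CFib.lean`, the proofs are in `GCurve.lean`.
-/

namespace Vale.Agent.P019P

open Vale.Agent.P019

set_option linter.style.haveILetI false
set_option linter.unusedSectionVars false

open Polynomial Filter

variable {F : Type*} [Field F] [PerfectField F] {ℓ : ℕ} [Fact ℓ.Prime] [NeZero (ℓ : F)]
  {k : Subfield F}

/-- Riemann-Hurwitz (all algebraically closed constants). -/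
theorem exists_curveRH (h : Cv k) : ∃ g : ℕ, CurveRH ℓ k g := exists_curveRH' h

/-- the number of `ℓ`-torsion classes is `ℓ ^ (2 g)`, constants algebraic over a finite field. -/
theorem exists_curve (h : Cv k) (hf : Fin' k) : ∃ g : ℕ, CurveRH ℓ k g ∧ CurveCard ℓ k g :=
  exists_curve' h hf

end Vale.Agent.P019P
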