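import Vale.Agent.P019Q.ApA
import Vale.Agent.P019Q.Res
import Vale.Agent.P019Q.Curve
import Vale.Agent.P019Q.ApB7

/-!
# Approximation of composite valuations by nice ones
-/

namespace Vale.Agent.P019P

open Vale.Agent.P019

set_option linter.style.haveILetI false
set_option linter.unusedSectionVars false

open Polynomial Filter

variable {K : Type*} [Field K] [PerfectField K] {ℓ : ℕ} [Fact ℓ.Prime] [NeZero (ℓ : K)]

/-- the approximation for one valuation ring. -/
theorem apb_one {K : Type*} [Field K] [PerfectField K] {k : Subfield K} {t s θ : K}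
    {Φ U V : k[X][X][X]} {δ : k[X][X]} (hS : Srf k t s) (hM : ApbM k t s θ Φ U V δ) {b : k}
    {W : ValuationSubring K} (hO : Over W (adj k s) t b) (hW : TrivOn W k) (hC : Cv (bar hW))
    (hs : rs W s ∉ bar hW) (hδ : δ.eval (C b) ≠ 0) (hθ : θ ∈ W)
    (hres : ∀ z : K, W.valuation z ≤ 1 → ∃ P Q : (adj k s)[X], W.valuation (aeval θ Q) = 1 ∧
        W.valuation (z * aeval θ Q - aeval θ P) < 1) :
    ∃ T : Finset (ValuationSubring (IsLocalRing.ResidueField W)),
        T.card ≤ (1 + apbDeg δ) * Φ.natDegree ∧ (∀ P ∈ T, P ∈ Plc (bar hW)) ∧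
        ∀ P ∈ Plc (bar hW), P ∉ T →
        ∃ (π : K) (F : ℕ → Subfield K) (Wn : ℕ → ValuationSubring K) (θ : ℕ → K),
          W.valuation π = 1 ∧ P.valuation (rs W π) < 1 ∧
          (∀ n, k ≤ F n ∧ FG k (F n) ∧ ¬ F n ≤ k ∧ Nice (Wn n) (F n) π (θ n)) ∧
          ∀ z : K, z ∈ compos W P → ∀ᶠ n in atTop, z ∈ Wn n := by
  classical
  haveI : PerfectField (IsLocalRing.ResidueField W) := rs_perfect hW
  have hsW : s ∈ W := hO.triv _ (mem_adj k s)
  have hroot := apb_red_root hW hM hO.lt hsW hθ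
  have hgen : ∀ w : IsLocalRing.ResidueField W, w ∈ Vale.Agent.P019.adj
      (adj (bar hW) (rs W s)) (rs W θ) := by
    intro w
    rw [← bar_adj hW hO.triv]
    exact apb_gen hO.triv hθ hres w
  have hfin : Module.finrank (adj (bar hW) (rs W s)) (IsLocalRing.ResidueField W) ≤
      Φ.natDegree := by
    have h1 := apb_finrank_le hgen (hM.mon.map (apbRed hW b s)) hroot
    rwa [hM.mon.natDegree_map] at h1
  set S : Finset (IsLocalRing.ResidueField W) := insert (rs W s)⁻¹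
    ((δ.eval (C b)).roots.toFinset.image fun c : k => rs W s - rs W (c : K)) with hSdef
  have hS1 : ∀ x ∈ S, x ∉ bar hW ∧
      Module.finrank (adj (bar hW) x) (IsLocalRing.ResidueField W) ≤ Φ.natDegree := by
    intro x hx
    rcases Finset.mem_insert.1 hx with rfl | hx
    · refine ⟨fun h => hs ?_, ?_⟩
      · have h1 := (bar hW).inv_mem h
        rwa [inv_inv] at h1
      · rw [apb_finrank_eq apb_adj_inv]
        exact hfin
    · obtain ⟨c, -, rfl⟩ := Finset.mem_image.1 hx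
      have hc : rs W (c : K) ∈ bar hW := rs_mem_bar hW c.2
      refine ⟨fun h => hs ?_, ?_⟩
      · have h1 := (bar hW).add_mem h hc
        rwa [sub_add_cancel] at h1
      · rw [apb_finrank_eq (apb_adj_sub hc)]
        exact hfin
  have hScard : S.card ≤ 1 + apbDeg δ := by
    refine (Finset.card_insert_le _ _).trans ?_
    have h1 : ((δ.eval (C b)).roots.toFinset.image fun c : k => rs W s - rs W (c : K)).card ≤
        apbDeg δ := by
      refine Finset.card_image_le.trans ?_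
      refine (Multiset.toFinset_card_le _).trans ?_
      exact (card_roots' _).trans (apbDeg_le δ b)
    omega
  obtain ⟨T, hT1, hT2, hT3⟩ := apb_places hC S Φ.natDegree hS1
  refine ⟨T, hT1.trans (Nat.mul_le_mul_right _ hScard), hT2, fun P hP hPT => ?_⟩
  have hx := hT3 P hP hPT
  have hsP : rs W s ∈ P := apb_mem_of_inv (hx _ (Finset.mem_insert_self _ _))
  obtain ⟨c', hc', hcs⟩ := apb_value hC hP hsP
  obtain ⟨c, hc, rfl⟩ := (mem_bar hW).1 hc'
  have hδc : (δ.eval (C b)).eval (⟨c, hc⟩ : k) ≠ 0 := by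
    intro h0
    refine hx _ (Finset.mem_insert_of_mem (Finset.mem_image.2 ⟨⟨c, hc⟩, ?_, rfl⟩)) hcs
    rw [Multiset.mem_toFinset, mem_roots hδ]
    exact h0
  have hθP : rs W θ ∈ P := by
    refine mem_of_root (hM.mon.map (apbRed hW b s)) ?_ hroot
    intro i
    rw [coeff_map]
    have h1 := RingHom.congr_fun (apbRed_coe hW b s) (Φ.coeff i)
    rw [RingHom.comp_apply] at h1
    rw [h1]
    exact apbEv_mem (fun r => hP.1 _ (rs_mem_bar hW r.2)) (hP.1 _ (rs_mem_bar hW b.2)) hsP _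
  obtain ⟨ϑ', hϑ', hθϑ⟩ := apb_value hC hP hθP
  obtain ⟨ϑ, hϑ, rfl⟩ := (mem_bar hW).1 hϑ'
  obtain ⟨h1, h2, hlex⟩ := apb_compos_lex (c := ⟨c, hc⟩) hS hW hO.triv hO.lt hP.1 hcs
  have hθR : (compos W P).valuation (θ - ((⟨ϑ, hϑ⟩ : k) : K)) < 1 := by
    refine apb_compos_lt (sub_mem hθ (hW _ hϑ)) ?_
    rw [rs_sub hθ (hW _ hϑ)]
    exact hθϑ
  obtain ⟨F, Wn, hF, hlim⟩ := apb_good hS hM hlex hθR hδc
  exact ⟨s - c, F, Wn, fun _ => θ, h1, h2, hF, hlim⟩

/-- the approximating valuations: for all but boundedly many places `P` of the residue curve of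
`W` there are a sequence of nice valuations `W_N`, trivial on some `k(y_N)`, whose ultralimits
are the composite valuation. -/
theorem exists_appr {k : Subfield K} (hk : IsAlgClosed k) (hfg : FG k (⊤ : Subfield K)) {t s : K}
    (hS : Srf k t s) :
    ∃ τ : ℕ, ∀ᶠ b in ae k, ∀ W : ValuationSubring K, Over W (adj k s) t b →
      ∀ hW : TrivOn W k, ∃ T : Finset (ValuationSubring (IsLocalRing.ResidueField W)),
        T.card ≤ τ ∧ (∀ P ∈ T, P ∈ Plc (bar hW)) ∧ ∀ P ∈ Plc (bar hW), P ∉ T →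
        ∃ (π : K) (F : ℕ → Subfield K) (Wn : ℕ → ValuationSubring K) (θ : ℕ → K),
          W.valuation π = 1 ∧ P.valuation (rs W π) < 1 ∧
          (∀ n, k ≤ F n ∧ FG k (F n) ∧ ¬ F n ≤ k ∧ Nice (Wn n) (F n) π (θ n)) ∧
          ∀ z : K, z ∈ compos W P → ∀ᶠ n in atTop, z ∈ Wn n := by
  obtain ⟨θ, Φ, U, V, δ, hM⟩ := apb_exists_model hfg hS
  refine ⟨(1 + apbDeg δ) * Φ.natDegree, ?_⟩
  filter_upwards [ae_mem k, Srf.over hk hfg hS, apb_core hS hM, apb_delta_ae hM.ne]
    with b hb h1 h2 h3 W hO hW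
  obtain ⟨-, hW', hC, hs⟩ := h1 W hO
  obtain ⟨hθ, hres⟩ := h2 W hO
  exact apb_one (b := ⟨b, hb⟩) hS hM hO hW hC hs (h3 ⟨b, hb⟩ rfl) hθ hres

end Vale.Agent.P019P
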