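import Vale.Agent.P019Q.ApA

/-!
# Approximation: evaluation maps, congruences, limits of valuation rings
-/

namespace Vale.Agent.P019P

open Vale.Agent.P019

set_option linter.style.haveILetI false
set_option linter.unusedSectionVars false

open Polynomial Filter

section ev

variable {A B D : Type*} [CommRing A] [CommRing B] [CommRing D]

/-- evaluation of a bivariate polynomial: outer variable at `t`, inner variable at `s`. -/
noncomputable def apbEv (i : A →+* B) (t s : B) : A[X][X] →+* B :=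
  eval₂RingHom (eval₂RingHom i s) t

theorem apbEv_C (i : A →+* B) (t s : B) (P : A[X]) : apbEv i t s (C P) = eval₂ i s P := by
  simp [apbEv]

theorem apbEv_X (i : A →+* B) (t s : B) : apbEv i t s X = t := by
  simp [apbEv]

theorem apbEv_CC (i : A →+* B) (t s : B) (a : A) : apbEv i t s (C (C a)) = i a := by
  simp [apbEv]

theorem apbEv_CX (i : A →+* B) (t s : B) : apbEv i t s (C X) = s := by
  simp [apbEv]

theorem apbEv_comp (i : A →+* B) (h : B →+* D) (t s : B) :
    h.comp (apbEv i t s) = apbEv (h.comp i) (h t) (h s) := by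
  unfold apbEv
  ext <;> simp

theorem apbEv_apply (i : A →+* B) (h : B →+* D) (t s : B) (f : A[X][X]) :
    h (apbEv i t s f) = apbEv (h.comp i) (h t) (h s) f := by
  rw [← apbEv_comp]
  rfl

end ev

section val

variable {K : Type*} [Field K] {O : ValuationSubring K}

theorem apb_lt_iff {z : K} : O.valuation z < 1 ↔ z = 0 ∨ z⁻¹ ∉ O := by
  by_cases hz : z = 0
  · simp [hz]
  · have h0 : 0 < O.valuation z := zero_lt_iff.2 ((Valuation.ne_zero_iff _).2 hz)
    rw [← O.valuation_le_one_iff, map_inv₀, inv_le_one₀ h0, not_le]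
    simp [hz]

theorem apb_mem_of_lt {z : K} (h : O.valuation z < 1) : z ∈ O :=
  (O.valuation_le_one_iff _).1 h.le

theorem apb_mem_pow {z : K} {n : ℕ} (hn : n ≠ 0) : z ^ n ∈ O ↔ z ∈ O := by
  rw [← O.valuation_le_one_iff, ← O.valuation_le_one_iff, map_pow]
  exact pow_le_one_iff_of_nonneg zero_le hn

theorem apb_eval₂_mem {R : Type*} [CommRing R] {φ : R →+* K} (hφ : ∀ r, φ r ∈ O) {x : K}
    (hx : x ∈ O) (f : R[X]) : eval₂ φ x f ∈ O := by
  rw [eval₂_eq_sum_range]
  exact sum_mem fun i _ => mul_mem (hφ _) (pow_mem hx _)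

/-- congruences pass to polynomials. -/
theorem apb_cong {R : Type*} [CommRing R] {φ ψ : R →+* K} (hφ : ∀ r, φ r ∈ O)
    (hψ : ∀ r, ψ r ∈ O) (h : ∀ r, O.valuation (φ r - ψ r) < 1) {x y : K} (hx : x ∈ O)
    (hy : y ∈ O) (hxy : O.valuation (x - y) < 1) (f : R[X]) :
    O.valuation (eval₂ φ x f - eval₂ ψ y f) < 1 := by
  rw [← rs_eq (apb_eval₂_mem hφ hx f) (apb_eval₂_mem hψ hy f)]
  induction f using Polynomial.induction_on' with
  | add p q hp hq =>
    rw [eval₂_add, eval₂_add, rs_add (apb_eval₂_mem hφ hx p) (apb_eval₂_mem hφ hx q),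
      rs_add (apb_eval₂_mem hψ hy p) (apb_eval₂_mem hψ hy q), hp, hq]
  | monomial n a =>
    rw [eval₂_monomial, eval₂_monomial, rs_mul (hφ a) (pow_mem hx n),
      rs_mul (hψ a) (pow_mem hy n), rs_pow hx, rs_pow hy, (rs_eq hx hy).2 hxy,
      (rs_eq (hφ a) (hψ a)).2 (h a)]

theorem apbEv_mem {R : Type*} [CommRing R] {φ : R →+* K} (hφ : ∀ r, φ r ∈ O) {t s : K}
    (ht : t ∈ O) (hs : s ∈ O) (f : R[X][X]) : apbEv φ t s f ∈ O :=
  apb_eval₂_mem (φ := eval₂RingHom φ s) (fun r => apb_eval₂_mem hφ hs r) ht f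

theorem apbEv_cong {R : Type*} [CommRing R] {φ : R →+* K} (hφ : ∀ r, φ r ∈ O) {t s t' s' : K}
    (ht : t ∈ O) (hs : s ∈ O) (ht' : t' ∈ O) (hs' : s' ∈ O) (htt : O.valuation (t - t') < 1)
    (hss : O.valuation (s - s') < 1) (f : R[X][X]) :
    O.valuation (apbEv φ t s f - apbEv φ t' s' f) < 1 := by
  refine apb_cong (φ := eval₂RingHom φ s) (ψ := eval₂RingHom φ s')
    (fun r => apb_eval₂_mem hφ hs r) (fun r => apb_eval₂_mem hφ hs' r) (fun r => ?_) ht ht' htt f
  refine apb_cong hφ hφ (fun r => ?_) hs hs' hss r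
  rw [sub_self, map_zero]
  exact zero_lt_one

end val

section compos

variable {K : Type*} [Field K] {W : ValuationSubring K}
  {P : ValuationSubring (IsLocalRing.ResidueField W)}

theorem apb_compos_lt {z : K} (hz : z ∈ W) (h : P.valuation (rs W z) < 1) :
    (compos W P).valuation z < 1 := by
  rw [apb_lt_iff]
  by_cases hz0 : z = 0
  · exact Or.inl hz0
  right
  rintro ⟨h1, h2⟩
  have h3 : rs W z * rs W z⁻¹ = 1 := by
    rw [← rs_mul hz h1, mul_inv_cancel₀ hz0, rs_one]
  have h4 := congrArg P.valuation h3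
  rw [map_mul, map_one] at h4
  have h5 : P.valuation (rs W z) * P.valuation (rs W z⁻¹) < 1 :=
    lt_of_le_of_lt (mul_le_of_le_one_right' ((P.valuation_le_one_iff _).2 h2)) h
  rw [h4] at h5
  exact lt_irrefl _ h5

theorem apb_compos_lt' {z : K} (hz : W.valuation z < 1) : (compos W P).valuation z < 1 := by
  have h1 : z ∈ W := apb_mem_of_lt hz
  refine apb_compos_lt h1 ?_
  rw [(rs_eq_zero h1).2 hz, map_zero]
  exact zero_lt_one

end compos

section lim

variable {K : Type*} [Field K]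

/-- ultralimit of valuation rings. -/
noncomputable def apbLim (Wn : ℕ → ValuationSubring K) (𝒰 : Ultrafilter ℕ) :
    ValuationSubring K where
  carrier := {z | ∀ᶠ n in (𝒰 : Filter ℕ), z ∈ Wn n}
  mul_mem' := by
    intro x y hx hy
    filter_upwards [hx, hy] with n h1 h2
    exact mul_mem h1 h2
  one_mem' := Eventually.of_forall fun n => one_mem _
  add_mem' := by
    intro x y hx hy
    filter_upwards [hx, hy] with n h1 h2
    exact add_mem h1 h2
  zero_mem' := Eventually.of_forall fun n => zero_mem _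
  neg_mem' := by
    intro x hx
    filter_upwards [hx] with n h1
    exact neg_mem h1
  mem_or_inv_mem' := by
    intro x
    have h1 : ∀ᶠ n in (𝒰 : Filter ℕ), x ∈ Wn n ∨ x⁻¹ ∈ Wn n :=
      Eventually.of_forall fun n => (Wn n).mem_or_inv_mem x
    exact (Ultrafilter.eventually_or).1 h1

theorem apbLim_mem {Wn : ℕ → ValuationSubring K} {𝒰 : Ultrafilter ℕ} {z : K} :
    z ∈ apbLim Wn 𝒰 ↔ ∀ᶠ n in (𝒰 : Filter ℕ), z ∈ Wn n := Iff.rfl

theorem apbLim_lt {Wn : ℕ → ValuationSubring K} {𝒰 : Ultrafilter ℕ} {z : K}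
    (h : ∀ᶠ n in (𝒰 : Filter ℕ), (Wn n).valuation z < 1) :
    (apbLim Wn 𝒰).valuation z < 1 := by
  rw [apb_lt_iff]
  by_cases hz0 : z = 0
  · exact Or.inl hz0
  right
  intro h1
  rw [apbLim_mem] at h1
  obtain ⟨n, h2, h3⟩ := (h.and h1).exists
  exact (apb_lt_iff.1 h2).resolve_left hz0 h3

end lim

section exist

variable {K : Type*} [Field K]

/-- valuation rings centred at the kernel of a specialization. -/
theorem apb_exists_val {R k' : Type*} [CommRing R] [CommRing k'] [Nontrivial k'] (f : R →+* K)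
    (g : R →+* k') (h : ∀ r, f r = 0 → g r = 0) :
    ∃ W : ValuationSubring K, (∀ r, f r ∈ W) ∧ ∀ r, g r = 0 → W.valuation (f r) < 1 := by
  have hprop : (RingHom.ker g).map f.rangeRestrict ≠ ⊤ := by
    intro h1
    rw [Ideal.eq_top_iff_one, Ideal.mem_map_iff_of_surjective _ f.rangeRestrict_surjective] at h1
    obtain ⟨r, hr, hr1⟩ := h1
    have h2 : f r = 1 := congrArg Subtype.val hr1
    have h3 := h (r - 1) (by rw [map_sub, h2, map_one, sub_self])
    rw [map_sub, (RingHom.mem_ker).1 hr, map_one, zero_sub, neg_eq_zero] at h3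
    exact one_ne_zero h3
  obtain ⟨W, hW1, hW2⟩ := exists_val_of_proper f.range _ hprop
  refine ⟨W, fun r => hW1 _ ⟨r, rfl⟩, fun r hr => ?_⟩
  exact hW2 (f.rangeRestrict r) (Ideal.mem_map_of_mem _ ((RingHom.mem_ker).2 hr))

end exist

end Vale.Agent.P019P
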