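import Vale.Agent.P019Q.ApB1

/-!
# Approximation: valuation rings on `k(t, s)`
-/

namespace Vale.Agent.P019P

open Vale.Agent.P019

set_option linter.style.haveILetI false
set_option linter.unusedSectionVars false

open Polynomial Filter

variable {K : Type*} [Field K] {k : Subfield K}

/-- elements of `k(s)(t)` as fractions. -/
theorem apb_mem_adj2 {t s z : K}
    (hz : z ∈ Vale.Agent.P019.adj (Vale.Agent.P019.adj k s) t) :
    ∃ f g : k[X][X], apbEv k.subtype t s g ≠ 0 ∧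
      z = apbEv k.subtype t s f / apbEv k.subtype t s g := by
  set A : Subring K := (apbEv k.subtype t s).range with hA
  have h1 : Vale.Agent.P019.adj (Vale.Agent.P019.adj k s) t ≤ Subfield.closure (A : Set K) := by
    refine Vale.Agent.P019.adj_le (Vale.Agent.P019.adj_le ?_ ?_) ?_
    · intro a ha
      exact Subfield.subset_closure ⟨C (C ⟨a, ha⟩), apbEv_CC _ _ _ _⟩
    · exact Subfield.subset_closure ⟨C X, apbEv_CX _ _ _⟩
    · exact Subfield.subset_closure ⟨X, apbEv_X _ _ _⟩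
  have h2 := h1 hz
  rw [Subfield.mem_closure_iff, Subring.closure_eq] at h2
  obtain ⟨_, ⟨f, rfl⟩, _, ⟨g, rfl⟩, rfl⟩ := h2
  by_cases hg : apbEv k.subtype t s g = 0
  · refine ⟨0, 1, by rw [map_one]; exact one_ne_zero, ?_⟩
    rw [hg, div_zero, map_zero, zero_div]
  · exact ⟨f, g, hg, rfl⟩

/-- the conditions determining a valuation ring on `k(t, s)`. -/
structure ApbLex (k : Subfield K) (t s : K) (R : ValuationSubring K) : Prop where
  triv : TrivOn R k
  ls : R.valuation s < 1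
  lt : ∀ m : ℕ, R.valuation (t / s ^ m) < 1

theorem ApbLex.lt0 {t s : K} {R : ValuationSubring K} (h : ApbLex k t s R) :
    R.valuation t < 1 := by
  have h1 := h.lt 0
  rwa [pow_zero, div_one] at h1

theorem apb_lex1 (t : K) {s : K} {P : k[X]} (hP : P ≠ 0) :
    ∃ (j : ℕ) (u : K), eval₂ k.subtype s P = s ^ j * u ∧
      ∀ R : ValuationSubring K, ApbLex k t s R → R.valuation u = 1 := by
  obtain ⟨Q, hQ, hQ2⟩ := exists_eq_pow_rootMultiplicity_mul_and_not_dvd P hP 0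
  rw [C_0, sub_zero] at hQ hQ2
  refine ⟨P.rootMultiplicity 0, eval₂ k.subtype s Q, ?_, ?_⟩
  · conv_lhs => rw [hQ]
    rw [eval₂_mul, eval₂_pow, eval₂_X]
  · intro R hR
    have h0 : Q.coeff 0 ≠ 0 := fun h => hQ2 (X_dvd_iff.2 h)
    have h1 : R.valuation ((Q.coeff 0 : k) : K) = 1 :=
      hR.triv.eq_one (Q.coeff 0).2 (fun h => h0 (Subtype.ext h))
    refine val_of_sub h1 ?_
    have h2 : eval₂ k.subtype 0 Q = ((Q.coeff 0 : k) : K) := by
      rw [eval₂_at_zero]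
      rfl
    rw [← h2]
    have hk : ∀ r : k, k.subtype r ∈ R := fun r => hR.triv _ r.2
    refine apb_cong hk hk (fun r => ?_) (apb_mem_of_lt hR.ls) (zero_mem R) ?_ Q
    · rw [sub_self, map_zero]
      exact zero_lt_one
    · rw [sub_zero]
      exact hR.ls

theorem apb_lex2 {t s : K} (hs : s ≠ 0) {f : k[X][X]} (hf : f ≠ 0) :
    ∃ (i j : ℕ) (u : K), apbEv k.subtype t s f = t ^ i * s ^ j * u ∧
      ∀ R : ValuationSubring K, ApbLex k t s R → R.valuation u = 1 := by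
  obtain ⟨h, hh, hh2⟩ := exists_eq_pow_rootMultiplicity_mul_and_not_dvd f hf 0
  rw [C_0, sub_zero] at hh hh2
  have h0 : h.coeff 0 ≠ 0 := fun h' => hh2 (X_dvd_iff.2 h')
  obtain ⟨j, u, hu, huR⟩ := apb_lex1 t (s := s) h0
  refine ⟨f.rootMultiplicity 0, j, u + t / s ^ j * apbEv k.subtype t s h.divX, ?_, ?_⟩
  · have h1 : apbEv k.subtype t s h = apbEv k.subtype t s h.divX * t + s ^ j * u := by
      conv_lhs => rw [← divX_mul_X_add h]
      rw [map_add, map_mul, apbEv_X, apbEv_C, hu]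
    conv_lhs => rw [hh]
    rw [map_mul, map_pow, apbEv_X, h1]
    have h2 : s ^ j ≠ 0 := pow_ne_zero _ hs
    field_simp
    ring
  · intro R hR
    have hk : ∀ r : k, k.subtype r ∈ R := fun r => hR.triv _ r.2
    have h1 : u + t / s ^ j * apbEv k.subtype t s h.divX - u =
        t / s ^ j * apbEv k.subtype t s h.divX := by ring
    refine val_of_sub (huR R hR) ?_
    rw [h1, map_mul]
    refine lt_of_le_of_lt (mul_le_of_le_one_right' ?_) (hR.lt j)
    rw [R.valuation_le_one_iff]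
    exact apbEv_mem hk (apb_mem_of_lt hR.lt0) (apb_mem_of_lt hR.ls) _

theorem apb_lex3 {t s : K} (ht : t ≠ 0) (hs : s ≠ 0) {z : K} (hz0 : z ≠ 0)
    (hz : z ∈ Vale.Agent.P019.adj (Vale.Agent.P019.adj k s) t) :
    ∃ (i j : ℤ) (u : K), z = t ^ i * s ^ j * u ∧
      ∀ R : ValuationSubring K, ApbLex k t s R → R.valuation u = 1 := by
  obtain ⟨f, g, hg, hfg⟩ := apb_mem_adj2 hz
  have hf : apbEv k.subtype t s f ≠ 0 := by
    intro h
    rw [h, zero_div] at hfg
    exact hz0 hfg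
  have hf0 : f ≠ 0 := by
    rintro rfl
    exact hf (map_zero _)
  have hg0 : g ≠ 0 := by
    rintro rfl
    exact hg (map_zero _)
  obtain ⟨i, j, u, h1, h2⟩ := apb_lex2 (t := t) hs hf0
  obtain ⟨i', j', u', h1', h2'⟩ := apb_lex2 (t := t) hs hg0
  refine ⟨(i : ℤ) - i', (j : ℤ) - j', u / u', ?_, ?_⟩
  · rw [hfg, h1, h1', zpow_sub₀ ht, zpow_sub₀ hs]
    simp only [zpow_natCast]
    ring
  · intro R hR
    rw [map_div₀, h2 R hR, h2' R hR, div_one]

theorem apb_lex_lt {t s : K} (hs : s ≠ 0) {R : ValuationSubring K}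
    (hR : ApbLex k t s R) {i j : ℤ} (hij : 0 < i ∨ (i = 0 ∧ 0 < j)) :
    R.valuation (t ^ i * s ^ j) < 1 := by
  rcases hij with hi | ⟨rfl, hj⟩
  · obtain ⟨n, hn⟩ := Int.eq_ofNat_of_zero_le (show 0 ≤ i - 1 by omega)
    have hi' : i = ((n + 1 : ℕ) : ℤ) := by push_cast; omega
    have hmj : 0 ≤ j + (j.natAbs : ℤ) * ((n + 1 : ℕ) : ℤ) := by
      have h1 : -j ≤ (j.natAbs : ℤ) := by omega
      have h2 : ∀ a : ℤ, 0 ≤ a → a ≤ a * ((n + 1 : ℕ) : ℤ) := by
        intro a ha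
        have h3 : (0 : ℤ) ≤ a * (n : ℤ) := mul_nonneg ha (Int.natCast_nonneg n)
        push_cast
        linarith
      have h4 := h2 (j.natAbs : ℤ) (Int.natCast_nonneg _)
      linarith
    obtain ⟨r, hr⟩ := Int.eq_ofNat_of_zero_le hmj
    have e : t ^ i * s ^ j = (t / s ^ j.natAbs) ^ (n + 1) * s ^ r := by
      have h1 : s ^ j = s ^ (r : ℤ) / (s ^ j.natAbs) ^ (n + 1) := by
        have h2 : (j : ℤ) = (r : ℤ) - (j.natAbs : ℤ) * ((n + 1 : ℕ) : ℤ) := by omega
        conv_lhs => rw [h2]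
        rw [zpow_sub₀ hs, zpow_mul, zpow_natCast, zpow_natCast, zpow_natCast]
      rw [h1, hi', zpow_natCast, zpow_natCast, div_pow]
      ring
    rw [e, map_mul, map_pow, map_pow]
    have h1 : R.valuation (t / s ^ j.natAbs) ^ (n + 1) < 1 :=
      pow_lt_one₀ zero_le (hR.lt _) (Nat.succ_ne_zero n)
    exact lt_of_le_of_lt (mul_le_of_le_one_right' (pow_le_one₀ zero_le hR.ls.le)) h1
  · obtain ⟨n, hn⟩ := Int.eq_ofNat_of_zero_le (show 0 ≤ j - 1 by omega)
    have hj' : j = ((n + 1 : ℕ) : ℤ) := by push_cast; omega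
    rw [zpow_zero, one_mul, hj', zpow_natCast, map_pow]
    exact pow_lt_one₀ zero_le hR.ls (Nat.succ_ne_zero n)

theorem apb_lex_mem {t s : K} (ht : t ≠ 0) (hs : s ≠ 0) {R : ValuationSubring K}
    (hR : ApbLex k t s R) {i j : ℤ} :
    t ^ i * s ^ j ∈ R ↔ 0 < i ∨ (i = 0 ∧ 0 ≤ j) := by
  constructor
  · intro h
    by_contra hcon
    have h1 : 0 < -i ∨ (-i = 0 ∧ 0 < -j) := by omega
    have h2 := apb_lex_lt hs hR h1
    rw [apb_lt_iff] at h2
    have h3 : t ^ (-i) * s ^ (-j) ≠ 0 := mul_ne_zero (zpow_ne_zero _ ht) (zpow_ne_zero _ hs)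
    apply h2.resolve_left h3
    have h4 : (t ^ (-i) * s ^ (-j))⁻¹ = t ^ i * s ^ j := by
      rw [mul_inv, zpow_neg, zpow_neg, inv_inv, inv_inv]
    rw [h4]
    exact h
  · rintro (hi | ⟨rfl, hj⟩)
    · exact apb_mem_of_lt (apb_lex_lt hs hR (Or.inl hi))
    · rcases hj.lt_or_eq with hj | rfl
      · exact apb_mem_of_lt (apb_lex_lt hs hR (Or.inr ⟨rfl, hj⟩))
      · rw [zpow_zero, zpow_zero, one_mul]
        exact one_mem R

theorem apb_lex4 {t s : K} (ht : t ≠ 0) (hs : s ≠ 0) {R₁ R₂ : ValuationSubring K}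
    (h₁ : ApbLex k t s R₁) (h₂ : ApbLex k t s R₂) {z : K}
    (hz : z ∈ Vale.Agent.P019.adj (Vale.Agent.P019.adj k s) t) : z ∈ R₁ ↔ z ∈ R₂ := by
  by_cases hz0 : z = 0
  · rw [hz0]
    exact ⟨fun _ => zero_mem _, fun _ => zero_mem _⟩
  obtain ⟨i, j, u, hu, huR⟩ := apb_lex3 ht hs hz0 hz
  have key : ∀ R : ValuationSubring K, ApbLex k t s R → (z ∈ R ↔ t ^ i * s ^ j ∈ R) := by
    intro R hR
    rw [← R.valuation_le_one_iff, ← R.valuation_le_one_iff, hu, map_mul, huR R hR, mul_one]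
  rw [key R₁ h₁, key R₂ h₂, apb_lex_mem ht hs h₁, apb_lex_mem ht hs h₂]

/-- `adj (adj k s) t` is contained in the perfect closure of the plain field `k(s)(t)`. -/
theorem apb_adj2_le [PerfectField K] (t s : K) :
    adj (adj k s) t ≤ pf (Vale.Agent.P019.adj (Vale.Agent.P019.adj k s) t) := by
  refine adj_le ?_ (le_pf _ (Vale.Agent.P019.mem_adj _ _))
  exact pf_mono (Vale.Agent.P019.le_adj _ _)

theorem apb_adj2_shift {t s b c : K} (hb : b ∈ k) (hc : c ∈ k) :
    Vale.Agent.P019.adj (Vale.Agent.P019.adj k s) t ≤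
      Vale.Agent.P019.adj (Vale.Agent.P019.adj k (s - c)) (t - b) := by
  have hk : k ≤ Vale.Agent.P019.adj (Vale.Agent.P019.adj k (s - c)) (t - b) :=
    (Vale.Agent.P019.le_adj _ _).trans (Vale.Agent.P019.le_adj _ _)
  refine Vale.Agent.P019.adj_le (Vale.Agent.P019.adj_le hk ?_) ?_
  · have h1 := Subfield.add_mem _ (Vale.Agent.P019.le_adj (Vale.Agent.P019.adj k (s - c)) (t - b)
      (Vale.Agent.P019.mem_adj k (s - c))) (hk hc)
    rwa [sub_add_cancel] at h1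
  · have h1 := Subfield.add_mem _
      (Vale.Agent.P019.mem_adj (Vale.Agent.P019.adj k (s - c)) (t - b)) (hk hb)
    rwa [sub_add_cancel] at h1

/-- two valuation rings with the same lexicographic data agree on `adj (adj k s) t`. -/
theorem apb_lex [PerfectField K] {t s b c : K} (hb : b ∈ k) (hc : c ∈ k) (ht : t - b ≠ 0)
    (hs : s - c ≠ 0) {R₁ R₂ : ValuationSubring K} (h₁ : ApbLex k (t - b) (s - c) R₁)
    (h₂ : ApbLex k (t - b) (s - c) R₂) {z : K} (hz : z ∈ adj (adj k s) t) :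
    z ∈ R₁ ↔ z ∈ R₂ := by
  obtain ⟨n, hn⟩ := mem_pf.1 (apb_adj2_le t s hz)
  have h1 := apb_lex4 ht hs h₁ h₂ (apb_adj2_shift hb hc hn)
  rwa [apb_mem_pow (qn_ne_zero K n), apb_mem_pow (qn_ne_zero K n)] at h1

end Vale.Agent.P019P
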