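import Vale.Agent.P019Q.ApB2

/-!
# Approximation: the model of a surface
-/

namespace Vale.Agent.P019P

open Vale.Agent.P019

set_option linter.style.haveILetI false
set_option linter.unusedSectionVars false

open Polynomial Filter

variable {K : Type*} [Field K] {k : Subfield K}

/-- a model of a surface. -/
structure ApbM (k : Subfield K) (t s θ : K) (Φ U V : k[X][X][X]) (δ : k[X][X]) : Prop where
  mon : Φ.Monic
  min : (minpoly (adj (adj k s) t) θ).map (algebraMap (adj (adj k s) t) K) =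
    Φ.map (apbEv k.subtype t s)
  top : ∀ z : K, ∃ n : ℕ, z ^ (ringExpChar K) ^ n ∈
    Vale.Agent.P019.adj (Vale.Agent.P019.adj (Vale.Agent.P019.adj k s) t) θ
  ne : δ ≠ 0
  bez : Φ * U + derivative Φ * V = C δ

theorem apb_eval₂_inj {E : Subfield K} {x : K} (hx : ¬ IsAlgebraic E x) {P : E[X]}
    (h : eval₂ E.subtype x P = 0) : P = 0 := by
  by_contra hP
  exact hx ⟨P, hP, h⟩

theorem apbEv_inj {t s : K} (ht : ¬ IsAlgebraic (adj k s) t) (hs : ¬ IsAlgebraic k s) :
    Function.Injective (apbEv k.subtype t s) := by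
  rw [injective_iff_map_eq_zero]
  intro f hf
  let j : k[X] →+* adj k s :=
    eval₂RingHom (Subfield.inclusion (le_adj k s)) ⟨s, mem_adj k s⟩
  have hj : (adj k s).subtype.comp j = eval₂RingHom k.subtype s := by
    ext
    · simp [j]
      rfl
    · simp [j]
  have h1 : eval₂ (adj k s).subtype t (f.map j) = 0 := by
    rw [eval₂_map, hj]
    exact hf
  have h2 := apb_eval₂_inj ht h1
  ext1 n
  have h3 : j (f.coeff n) = 0 := by
    rw [← coeff_map, h2, coeff_zero]
  have h4 : eval₂ k.subtype s (f.coeff n) = 0 := by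
    have h5 := congrArg (adj k s).subtype h3
    rw [map_zero] at h5
    rw [← h5]
    exact (RingHom.congr_fun hj (f.coeff n)).symm
  rw [apb_eval₂_inj hs h4, coeff_zero]

theorem apb_pow_mono {M₀ : Subfield K} {z : K} {m n : ℕ} (hmn : m ≤ n)
    (h : z ^ (ringExpChar K) ^ m ∈ M₀) : z ^ (ringExpChar K) ^ n ∈ M₀ := by
  obtain ⟨r, rfl⟩ := Nat.exists_eq_add_of_le hmn
  rw [pow_add, pow_mul]
  exact M₀.pow_mem h _

theorem apb_unif_pow {M₀ : Subfield K} (S : Finset K) (h : ∀ z ∈ S, z ∈ pf M₀) :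
    ∃ m : ℕ, ∀ z ∈ S, z ^ (ringExpChar K) ^ m ∈ M₀ := by
  classical
  induction S using Finset.induction_on with
  | empty => exact ⟨0, fun z hz => absurd hz (Finset.notMem_empty z)⟩
  | insert a S _ ih =>
    obtain ⟨m, hm⟩ := ih fun z hz => h z (Finset.mem_insert_of_mem hz)
    obtain ⟨n, hn⟩ := mem_pf.1 (h a (Finset.mem_insert_self a S))
    refine ⟨max m n, fun z hz => ?_⟩
    rcases Finset.mem_insert.1 hz with rfl | hz
    · exact apb_pow_mono (le_max_right _ _) hn
    · exact apb_pow_mono (le_max_left _ _) (hm z hz)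

theorem apb_common_den {t s : K} (S : Finset K)
    (h : ∀ z ∈ S, z ∈ Vale.Agent.P019.adj (Vale.Agent.P019.adj k s) t) :
    ∃ d : k[X][X], apbEv k.subtype t s d ≠ 0 ∧
      ∀ z ∈ S, ∃ f, apbEv k.subtype t s f = apbEv k.subtype t s d * z := by
  classical
  induction S using Finset.induction_on with
  | empty =>
    exact ⟨1, by rw [map_one]; exact one_ne_zero, fun z hz => absurd hz (Finset.notMem_empty z)⟩
  | insert a S _ ih =>
    obtain ⟨d, hd, hdS⟩ := ih fun z hz => h z (Finset.mem_insert_of_mem hz)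
    obtain ⟨f, g, hg, hfg⟩ := apb_mem_adj2 (h a (Finset.mem_insert_self a S))
    refine ⟨d * g, by rw [map_mul]; exact mul_ne_zero hd hg, fun z hz => ?_⟩
    rcases Finset.mem_insert.1 hz with rfl | hz
    · refine ⟨d * f, ?_⟩
      rw [map_mul, map_mul, hfg]
      field_simp
    · obtain ⟨f', hf'⟩ := hdS z hz
      refine ⟨g * f', ?_⟩
      rw [map_mul, map_mul, hf']
      ring

/-- minimal polynomials of `q ^ m`-th powers over perfect subfields. -/
theorem apb_minpoly_pow (M : Subfield K) [PerfectField M] {θ : K} (hθ : IsIntegral M θ) (m : ℕ)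
    (i : ℕ) : (((minpoly M (θ ^ (ringExpChar K) ^ m)).coeff i : M) : K) =
      (((minpoly M θ).coeff i : M) : K) ^ (ringExpChar K) ^ m := by
  haveI : PerfectRing M (ringExpChar K) := PerfectField.toPerfectRing _
  let e : M ≃+* M := RingEquiv.ofBijective (iterateFrobenius M (ringExpChar K) m)
    (bijective_iterateFrobenius M (ringExpChar K) (n := m))
  have h1 : Irreducible ((minpoly M θ).map (e : M →+* M)) :=
    (MulEquiv.irreducible_iff (Polynomial.mapEquiv e)).2 (minpoly.irreducible hθ)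
  have h2 : aeval (θ ^ (ringExpChar K) ^ m) ((minpoly M θ).map (e : M →+* M)) = 0 := by
    rw [aeval_def, eval₂_map]
    have h3 : (algebraMap M K).comp (e : M →+* M) =
        (iterateFrobenius K (ringExpChar K) m).comp (algebraMap M K) := by
      ext x
      change ((iterateFrobenius M (ringExpChar K) m x : M) : K) =
        iterateFrobenius K (ringExpChar K) m (x : K)
      rw [iterateFrobenius_def, iterateFrobenius_def]
      rfl
    have h4 := minpoly.aeval M θ
    rw [aeval_def] at h4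
    have h5 := congrArg (iterateFrobenius K (ringExpChar K) m) h4
    rw [hom_eval₂, map_zero, iterateFrobenius_def] at h5
    rw [h3]
    exact h5
  have h6 := minpoly.eq_of_irreducible_of_monic h1 h2 ((minpoly.monic hθ).map _)
  rw [← h6, coeff_map]
  change ((iterateFrobenius M (ringExpChar K) m _ : M) : K) = _
  rw [iterateFrobenius_def]
  rfl

theorem apb_scale_coeff {M : Subfield K} {d : M} (hd : d ≠ 0) {θ : K} (hθ : IsIntegral M θ)
    (i : ℕ) : (((minpoly M ((d : K) * θ)).coeff i : M) : K) =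
      (((minpoly M θ).coeff i : M) : K) * (d : K) ^ ((minpoly M θ).natDegree - i) := by
  have h1 := IsIntegrallyClosed.minpoly_smul hd hθ
  have h2 : d • θ = (d : K) * θ := by rw [Algebra.smul_def]; rfl
  rw [h2] at h1
  rw [h1, coeff_scaleRoots]
  rfl

/-- the coefficients of the minimal polynomial become polynomials after scaling. -/
theorem apb_scale_range {M : Subfield K} {t s : K} {d : k[X][X]}
    (hdM : apbEv k.subtype t s d ∈ M) (hd : apbEv k.subtype t s d ≠ 0) {θ : K}
    (hθ : IsIntegral M θ) (h : ∀ i, ∃ f, apbEv k.subtype t s f = apbEv k.subtype t s d *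
      (((minpoly M θ).coeff i : M) : K)) (i : ℕ) :
    ∃ f, apbEv k.subtype t s f =
      (((minpoly M (apbEv k.subtype t s d * θ)).coeff i : M) : K) := by
  have hd' : (⟨_, hdM⟩ : M) ≠ 0 := fun h' => hd (congrArg Subtype.val h')
  have h1 := apb_scale_coeff hd' hθ i
  have h2 : ((⟨_, hdM⟩ : M) : K) = apbEv k.subtype t s d := rfl
  rw [h2] at h1
  rw [h1]
  rcases lt_trichotomy i (minpoly M θ).natDegree with hi | hi | hi
  · obtain ⟨f, hf⟩ := h i
    refine ⟨f * d ^ ((minpoly M θ).natDegree - i - 1), ?_⟩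
    obtain ⟨r, hr⟩ := Nat.exists_eq_add_of_lt hi
    rw [map_mul, map_pow, hf, hr]
    have e1 : i + r + 1 - i - 1 = r := by omega
    have e2 : i + r + 1 - i = r + 1 := by omega
    rw [e1, e2, pow_succ]
    ring
  · refine ⟨1, ?_⟩
    have e1 : (minpoly M θ).coeff i = 1 := by
      rw [hi]
      exact (minpoly.monic hθ).coeff_natDegree
    rw [e1, hi, Nat.sub_self, pow_zero, mul_one, map_one]
    rfl
  · refine ⟨0, ?_⟩
    rw [coeff_eq_zero_of_natDegree_lt hi, map_zero]
    simp

theorem apb_exists_bez {t s θ : K} (hinj : Function.Injective (apbEv k.subtype t s))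
    {M : Subfield K} [PerfectField M] (hθ : IsIntegral M θ) {Φ : k[X][X][X]} (hΦ : Φ.Monic)
    (hmin : (minpoly M θ).map (algebraMap M K) = Φ.map (apbEv k.subtype t s)) :
    ∃ (U V : k[X][X][X]) (δ : k[X][X]), δ ≠ 0 ∧ Φ * U + derivative Φ * V = C δ := by
  have hsep : (Φ.map (apbEv k.subtype t s)).Separable := by
    rw [← hmin]
    exact (PerfectField.separable_of_irreducible (minpoly.irreducible hθ)).map
  have hdeg : Φ.natDegree = (minpoly M θ).natDegree := by
    have h1 := congrArg natDegree hmin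
    rw [natDegree_map_eq_of_injective (algebraMap M K).injective,
      natDegree_map_eq_of_injective hinj] at h1
    exact h1.symm
  have hpos : Φ.natDegree ≠ 0 := by
    rw [hdeg]
    exact (minpoly.natDegree_pos hθ).ne'
  obtain ⟨U, V, -, -, h⟩ := exists_mul_add_mul_eq_C_resultant Φ (derivative Φ) le_rfl le_rfl
    (Or.inl hpos)
  refine ⟨U, V, _, ?_, h⟩
  intro h0
  have h1 : IsCoprime (Φ.map (apbEv k.subtype t s)) ((derivative Φ).map (apbEv k.subtype t s)) := by
    rw [← derivative_map]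
    exact hsep
  have h2 := (isUnit_resultant_iff_isCoprime (hΦ.map (apbEv k.subtype t s))).2 h1
  rw [natDegree_map_eq_of_injective hinj, natDegree_map_eq_of_injective hinj, resultant_map_map,
    h0, map_zero] at h2
  exact not_isUnit_zero h2

/-- existence of models. -/
theorem apb_exists_model [PerfectField K] (hfg : FG k (⊤ : Subfield K)) {t s : K}
    (hS : Srf k t s) : ∃ (θ : K) (Φ U V : k[X][X][X]) (δ : k[X][X]), ApbM k t s θ Φ U V δ := by
  classical
  haveI : PerfectField (adj k s) := perfect_adj _ _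
  haveI : PerfectField (adj (adj k s) t) := perfect_adj _ _
  set M : Subfield K := adj (adj k s) t with hM
  set M₀ : Subfield K := Vale.Agent.P019.adj (Vale.Agent.P019.adj k s) t with hM₀
  have hM₀M : M₀ ≤ M := (Vale.Agent.P019.adj_mono (adj0_le_adj k s) t).trans (adj0_le_adj _ t)
  have hkM : k ≤ M := (le_adj k s).trans (le_adj _ t)
  obtain ⟨θ₀, hθ₀⟩ := exists_prim hkM hfg hS.alg
  have hint₀ : IsIntegral M θ₀ := (hS.alg θ₀).isIntegral
  obtain ⟨m, hm⟩ := apb_unif_pow (M₀ := M₀)
    ((minpoly M θ₀).support.image fun i => (((minpoly M θ₀).coeff i : M) : K)) (by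
      intro z hz
      obtain ⟨i, -, rfl⟩ := Finset.mem_image.1 hz
      exact apb_adj2_le t s ((minpoly M θ₀).coeff i).2)
  have hm' : ∀ i, (((minpoly M θ₀).coeff i : M) : K) ^ (ringExpChar K) ^ m ∈ M₀ := by
    intro i
    by_cases hi : i ∈ (minpoly M θ₀).support
    · exact hm _ (Finset.mem_image_of_mem _ hi)
    · rw [notMem_support_iff.1 hi]
      exact M₀.pow_mem M₀.zero_mem _
  set θ₁ : K := θ₀ ^ (ringExpChar K) ^ m with hθ₁
  have hint₁ : IsIntegral M θ₁ := hint₀.pow _
  have hc₁ : ∀ i, (((minpoly M θ₁).coeff i : M) : K) ∈ M₀ := by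
    intro i
    rw [hθ₁, apb_minpoly_pow M hint₀ m i]
    exact hm' i
  obtain ⟨d, hd, hdS⟩ := apb_common_den (k := k) (t := t) (s := s)
    ((minpoly M θ₁).support.image fun i => (((minpoly M θ₁).coeff i : M) : K)) (by
      intro z hz
      obtain ⟨i, -, rfl⟩ := Finset.mem_image.1 hz
      exact hc₁ i)
  have hd' : ∀ i, ∃ f, apbEv k.subtype t s f = apbEv k.subtype t s d *
      (((minpoly M θ₁).coeff i : M) : K) := by
    intro i
    by_cases hi : i ∈ (minpoly M θ₁).support
    · exact hdS _ (Finset.mem_image_of_mem _ hi)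
    · refine ⟨0, ?_⟩
      rw [notMem_support_iff.1 hi, map_zero]
      simp
  have hevM₀ : ∀ f, apbEv k.subtype t s f ∈ M₀ := by
    intro f
    have hk : ∀ r : k, k.subtype r ∈ M₀ := fun r =>
      (Vale.Agent.P019.le_adj _ _) ((Vale.Agent.P019.le_adj _ _) r.2)
    have h1 : ∀ P : k[X], eval₂ k.subtype s P ∈ M₀ := by
      intro P
      rw [eval₂_eq_sum_range]
      exact sum_mem fun i _ => mul_mem (hk _)
        (pow_mem (Vale.Agent.P019.le_adj _ _ (Vale.Agent.P019.mem_adj _ _)) _)
    change eval₂ (eval₂RingHom k.subtype s) t f ∈ M₀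
    rw [eval₂_eq_sum_range]
    exact sum_mem fun i _ => mul_mem (h1 _) (pow_mem (Vale.Agent.P019.mem_adj _ _) _)
  set D : K := apbEv k.subtype t s d with hD
  have hDM : D ∈ M := hM₀M (hevM₀ d)
  set θ : K := D * θ₁ with hθ
  have hint : IsIntegral M θ := (hS.alg θ).isIntegral
  have hrange := apb_scale_range (k := k) (t := t) (s := s) (d := d) hDM hd hint₁ hd'
  have hinj : Function.Injective (apbEv k.subtype t s) := apbEv_inj hS.tt hS.ss
  have hlift : (minpoly M θ).map (algebraMap M K) ∈ lifts (apbEv k.subtype t s) := by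
    rw [lifts_iff_coeff_lifts]
    intro i
    rw [coeff_map]
    exact hrange i
  obtain ⟨Φ, hΦ, -, hΦm⟩ := lifts_and_natDegree_eq_and_monic hlift ((minpoly.monic hint).map _)
  obtain ⟨U, V, δ, hδ, hb⟩ := apb_exists_bez hinj hint hΦm hΦ.symm
  refine ⟨θ, Φ, U, V, δ, ⟨hΦm, hΦ.symm, ?_, hδ, hb⟩⟩
  intro z
  rw [← mem_pf]
  have h1 : Vale.Agent.P019.adj M θ₀ ≤ pf (Vale.Agent.P019.adj M₀ θ) := by
    refine Vale.Agent.P019.adj_le ?_ ?_
    · exact (apb_adj2_le t s).trans (pf_mono (Vale.Agent.P019.le_adj _ _))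
    · refine mem_pf.2 ⟨m, ?_⟩
      have h2 : θ₀ ^ (ringExpChar K) ^ m = θ / D := by
        rw [hθ, mul_comm, mul_div_assoc, div_self hd, mul_one]
      rw [h2]
      exact Subfield.div_mem _ (Vale.Agent.P019.mem_adj _ _)
        (Vale.Agent.P019.le_adj _ _ (hevM₀ d))
  exact h1 (hθ₀ z)

end Vale.Agent.P019P
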