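import Vale.Agent.P019Q.ApB3

/-!
# Approximation: the approximating valuation rings
-/

namespace Vale.Agent.P019P

open Vale.Agent.P019

set_option linter.style.haveILetI false
set_option linter.unusedSectionVars false

open Polynomial Filter

variable {K : Type*} [Field K] {k F : Subfield K}

/-- the substitution `T = b + τ (S - c) ^ (N + 1)`. -/
noncomputable def apbSub (hkF : k ≤ F) (τ : F) (b c : k) (N : ℕ) : k[X][X] →+* F[X] :=
  apbEv ((C : F →+* F[X]).comp (Subfield.inclusion hkF))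
    (C (Subfield.inclusion hkF b) + C τ * (X - C (Subfield.inclusion hkF c)) ^ (N + 1)) X

theorem apbSub_ev (hkF : k ≤ F) (τ : F) (b c : k) (N : ℕ) {t s : K}
    (ht : t = b + τ * (s - c) ^ (N + 1)) :
    (eval₂RingHom F.subtype s).comp (apbSub hkF τ b c N) = apbEv k.subtype t s := by
  unfold apbSub
  rw [apbEv_comp]
  congr 1
  · ext x
    simp
    rfl
  · rw [ht, coe_eval₂RingHom, eval₂_add, eval₂_mul, eval₂_pow, eval₂_sub, eval₂_C, eval₂_C,
      eval₂_X, eval₂_C]
    rfl
  · simp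

theorem apbSub_eval (hkF : k ≤ F) (τ : F) (b c : k) (N : ℕ) :
    (evalRingHom (Subfield.inclusion hkF c)).comp (apbSub hkF τ b c N) =
      (Subfield.inclusion hkF).comp (apbEv (RingHom.id k) b c) := by
  unfold apbSub
  rw [apbEv_comp, apbEv_comp]
  congr 1
  · ext x
    simp
  · simp
  · simp

/-- the homomorphism `F[S] → M`, `S ↦ s`. -/
noncomputable def apbJ {M : Subfield K} (hFM : F ≤ M) {s : K} (hs : s ∈ M) : F[X] →+* M :=
  eval₂RingHom (Subfield.inclusion hFM) ⟨s, hs⟩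

theorem apbJ_comp {M : Subfield K} (hFM : F ≤ M) {s : K} (hs : s ∈ M) :
    (algebraMap M K).comp (apbJ hFM hs) = eval₂RingHom F.subtype s := by
  unfold apbJ
  ext
  · simp
    rfl
  · simp
    rfl

theorem apbJ_inj {M : Subfield K} (hFM : F ≤ M) {s : K} (hs : s ∈ M) (hsF : ¬ IsAlgebraic F s) :
    Function.Injective (apbJ hFM hs) := by
  rw [injective_iff_map_eq_zero]
  intro P hP
  refine apb_eval₂_inj hsF ?_
  have h1 := congrArg (algebraMap M K) hP
  rw [map_zero] at h1
  rw [← h1]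
  exact (RingHom.congr_fun (apbJ_comp hFM hs) P).symm

section main

variable {t s θ : K} {Φ U V : k[X][X][X]} {δ : k[X][X]}

theorem ApbM.root (hM : ApbM k t s θ Φ U V δ) : eval₂ (apbEv k.subtype t s) θ Φ = 0 := by
  have h1 := minpoly.aeval (adj (adj k s) t) θ
  rw [aeval_def, ← eval_map, hM.min, eval_map] at h1
  exact h1

/-- the specialization kills the kernel. -/
theorem apb_ker (hM : ApbM k t s θ Φ U V δ) (hkF : k ≤ F) (hFM : F ≤ adj (adj k s) t)
    (hsF : ¬ IsAlgebraic F s) (τ : F) (b c ϑ : k) (N : ℕ) (ht : t = b + τ * (s - c) ^ (N + 1))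
    (h0 : eval₂ (apbEv (RingHom.id k) b c) ϑ Φ = 0) (P : F[X][X])
    (hP : apbEv F.subtype θ s P = 0) :
    apbEv (RingHom.id F) (Subfield.inclusion hkF ϑ) (Subfield.inclusion hkF c) P = 0 := by
  have hsM : s ∈ adj (adj k s) t := le_adj _ _ (mem_adj k s)
  set j := apbJ hFM hsM with hj
  set σ := apbSub hkF τ b c N with hσ
  have h1 : (Φ.map σ).map j = minpoly (adj (adj k s) t) θ := by
    apply Polynomial.map_injective (algebraMap (adj (adj k s) t) K)
      (algebraMap (adj (adj k s) t) K).injective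
    rw [hM.min, Polynomial.map_map, Polynomial.map_map, hj, apbJ_comp, hσ, apbSub_ev hkF τ b c N ht]
  have h2 : aeval θ (P.map j) = 0 := by
    rw [aeval_def, eval₂_map, hj, apbJ_comp]
    exact hP
  have h3 : (Φ.map σ).map j ∣ P.map j := by
    rw [h1]
    exact minpoly.dvd _ _ h2
  rw [map_dvd_map j (apbJ_inj hFM hsM hsF) (hM.mon.map σ)] at h3
  obtain ⟨Q, rfl⟩ := h3
  rw [map_mul]
  have h4 : apbEv (RingHom.id F) (Subfield.inclusion hkF ϑ) (Subfield.inclusion hkF c)
      (Φ.map σ) = 0 := by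
    change eval₂ (eval₂RingHom (RingHom.id F) (Subfield.inclusion hkF c))
      (Subfield.inclusion hkF ϑ) (Φ.map σ) = 0
    rw [eval₂_map]
    have h5 : (eval₂RingHom (RingHom.id F) (Subfield.inclusion hkF c)).comp σ =
        (Subfield.inclusion hkF).comp (apbEv (RingHom.id k) b c) := apbSub_eval hkF τ b c N
    rw [h5, ← hom_eval₂, h0, map_zero]
  rw [h4, zero_mul]

theorem apb_ev_der (hkF : k ≤ F) (τ : F) (b c ϑ : k) (N : ℕ) (G : k[X][X][X]) :
    apbEv (RingHom.id F) (Subfield.inclusion hkF ϑ) (Subfield.inclusion hkF c)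
      (G.map (apbSub hkF τ b c N)) =
      Subfield.inclusion hkF (eval₂ (apbEv (RingHom.id k) b c) ϑ G) := by
  change eval₂ (eval₂RingHom (RingHom.id F) (Subfield.inclusion hkF c))
      (Subfield.inclusion hkF ϑ) (G.map (apbSub hkF τ b c N)) = _
  rw [eval₂_map, hom_eval₂]
  congr 1
  exact apbSub_eval hkF τ b c N

theorem apb_ev_K (hkF : k ≤ F) (τ : F) (b c : k) (N : ℕ) (ht : t = b + τ * (s - c) ^ (N + 1))
    (G : k[X][X][X]) :
    apbEv F.subtype θ s (G.map (apbSub hkF τ b c N)) = eval₂ (apbEv k.subtype t s) θ G := by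
  change eval₂ (eval₂RingHom F.subtype s) θ (G.map (apbSub hkF τ b c N)) = _
  rw [eval₂_map, apbSub_ev hkF τ b c N ht]

/-- the valuation ring. -/
theorem apb_exists_W (hM : ApbM k t s θ Φ U V δ) (hkF : k ≤ F) (hFM : F ≤ adj (adj k s) t)
    (hsF : ¬ IsAlgebraic F s) (τ : F) (b c ϑ : k) (N : ℕ) (ht : t = b + τ * (s - c) ^ (N + 1))
    (h0 : eval₂ (apbEv (RingHom.id k) b c) ϑ Φ = 0)
    (h1 : eval₂ (apbEv (RingHom.id k) b c) ϑ (derivative Φ) ≠ 0) :
    ∃ W : ValuationSubring K, TrivOn W F ∧ s ∈ W ∧ W.valuation (s - c) < 1 ∧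
      W.valuation (θ - ϑ) < 1 ∧
      W.valuation (eval₂ (apbEv k.subtype t s) θ (derivative Φ)) = 1 := by
  obtain ⟨W, hW1, hW2⟩ := apb_exists_val (apbEv F.subtype θ s)
    (apbEv (RingHom.id F) (Subfield.inclusion hkF ϑ) (Subfield.inclusion hkF c))
    (apb_ker hM hkF hFM hsF τ b c ϑ N ht h0)
  have hWF : TrivOn W F := by
    intro a ha
    have h2 := hW1 (C (C ⟨a, ha⟩))
    rwa [apbEv_CC] at h2
  refine ⟨W, hWF, ?_, ?_, ?_, ?_⟩
  · have h2 := hW1 (C X)
    rwa [apbEv_CX] at h2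
  · have h2 := hW2 (C X - C (C (Subfield.inclusion hkF c))) (by
      rw [map_sub, apbEv_CX, apbEv_CC, RingHom.id_apply, sub_self])
    rw [map_sub, apbEv_CX, apbEv_CC] at h2
    exact h2
  · have h2 := hW2 (X - C (C (Subfield.inclusion hkF ϑ))) (by
      rw [map_sub, apbEv_X, apbEv_CC, RingHom.id_apply, sub_self])
    rw [map_sub, apbEv_X, apbEv_CC] at h2
    exact h2
  · set a : F := Subfield.inclusion hkF (eval₂ (apbEv (RingHom.id k) b c) ϑ (derivative Φ))
      with ha
    have ha0 : (a : K) ≠ 0 := by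
      intro h
      apply h1
      have h3 : a = 0 := Subtype.ext h
      exact (map_eq_zero _).1 h3
    refine val_of_sub (hWF.eq_one a.2 ha0) ?_
    have h2 := hW2 ((derivative Φ).map (apbSub hkF τ b c N) - C (C a)) (by
      rw [map_sub, apb_ev_der, apbEv_CC, RingHom.id_apply, ← ha, sub_self])
    rw [map_sub, apb_ev_K hkF τ b c N ht, apbEv_CC] at h2
    exact h2

/-- the valuation ring is nice. -/
theorem apb_nice [PerfectField K] [PerfectField F] (hM : ApbM k t s θ Φ U V δ) (hkF : k ≤ F)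
    (τ : F) (b c : k) (N : ℕ) (ht : t = b + τ * (s - c) ^ (N + 1)) (hsc : s - c ≠ 0)
    {W : ValuationSubring K} (hWF : TrivOn W F) (hsW : s ∈ W) (hWs : W.valuation (s - c) < 1)
    (hder : W.valuation (eval₂ (apbEv k.subtype t s) θ (derivative Φ)) = 1) :
    Nice W F (s - c) θ := by
  set F' : IntermediateField F K := IntermediateField.adjoin F {s - (c : K)} with hF'
  have hFF' : ∀ a ∈ F, a ∈ F' := fun a ha => F'.algebraMap_mem ⟨a, ha⟩
  have hcF' : (c : K) ∈ F' := hFF' _ (hkF c.2)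
  have hscF' : s - (c : K) ∈ F' := IntermediateField.mem_adjoin_simple_self F _
  have hsF' : s ∈ F' := by
    have h1 := F'.add_mem hscF' hcF'
    rwa [sub_add_cancel] at h1
  have htF' : t ∈ F' := by
    rw [ht]
    exact F'.add_mem (hFF' _ (hkF b.2)) (F'.mul_mem (hFF' _ τ.2) (pow_mem hscF' _))
  let j' : F[X] →+* F' := eval₂RingHom (algebraMap F F') ⟨s, hsF'⟩
  have hj' : (algebraMap F' K).comp j' = eval₂RingHom F.subtype s := by
    ext
    · simp [j']
      rfl
    · simp [j']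
  set σ := apbSub hkF τ b c N with hσ
  have hcomp : (algebraMap F' K).comp (j'.comp σ) = apbEv k.subtype t s := by
    rw [← RingHom.comp_assoc, hj', hσ, apbSub_ev hkF τ b c N ht]
  set Φ' : F'[X] := Φ.map (j'.comp σ) with hΦ'
  have hroot : aeval θ Φ' = 0 := by
    rw [aeval_def, hΦ', eval₂_map, hcomp]
    exact hM.root
  have hder' : W.valuation (aeval θ (derivative Φ')) = 1 := by
    rw [aeval_def, hΦ', derivative_map, eval₂_map, hcomp]
    exact hder
  have hint : IntCoeff W Φ' := by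
    intro i
    rw [hΦ', coeff_map]
    have h1 : algebraMap F' K ((j'.comp σ) (Φ.coeff i)) =
        eval₂ F.subtype s (σ (Φ.coeff i)) := by
      have h2 := RingHom.congr_fun hj' (σ (Φ.coeff i))
      exact h2
    rw [h1]
    exact apb_eval₂_mem (fun r => hWF _ r.2) hsW _
  obtain ⟨hθW, hrep, hres, halg⟩ := frp_core hsc hWF hWs F' hF' Φ' (hM.mon.map _) hint hroot hder'
  have hall : ∀ z : K, ∃ n : ℕ, z ^ (ringExpChar K) ^ n ∈ IntermediateField.adjoin F' {θ} := by
    intro z
    obtain ⟨n, hn⟩ := hM.top z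
    refine ⟨n, ?_⟩
    have h1 : Vale.Agent.P019.adj (Vale.Agent.P019.adj (Vale.Agent.P019.adj k s) t) θ ≤
        (IntermediateField.adjoin F' {θ}).toSubfield := by
      have h2 : ∀ a ∈ F', a ∈ (IntermediateField.adjoin F' {θ}).toSubfield := fun a ha =>
        (IntermediateField.adjoin F' {θ}).algebraMap_mem ⟨a, ha⟩
      refine Vale.Agent.P019.adj_le (Vale.Agent.P019.adj_le (Vale.Agent.P019.adj_le ?_ ?_) ?_) ?_
      · exact fun a ha => h2 a (hFF' a (hkF ha))
      · exact h2 _ hsF'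
      · exact h2 _ htF'
      · exact IntermediateField.mem_adjoin_simple_self F' θ
    exact h1 hn
  refine ⟨inferInstance, ⟨hsc, hWs, ?_⟩, hWF, hθW, ?_, halg⟩
  · intro z hz0
    obtain ⟨n, hn⟩ := hall z
    obtain ⟨i, hi⟩ := hrep _ hn (pow_ne_zero _ hz0)
    exact ⟨n, i, hi⟩
  · intro z hz
    obtain ⟨n, hn⟩ := hall z
    refine frp_res hWF hθW halg hz (n := n) (hres _ hn ?_)
    rw [map_pow]
    exact pow_le_one₀ zero_le hz

end main

end Vale.Agent.P019P
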