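import Vale.Agent.P019Q.ApB4

/-!
# Approximation: the limit of the approximating valuation rings
-/

namespace Vale.Agent.P019P

open Vale.Agent.P019

set_option linter.style.haveILetI false
set_option linter.unusedSectionVars false

open Polynomial Filter

variable {K : Type*} [Field K] {k : Subfield K}

section main

variable {t s θ : K} {Φ U V : k[X][X][X]} {δ : k[X][X]}

theorem apb_s_sub (hS : Srf k t s) (c : k) : s - (c : K) ≠ 0 := by
  intro h
  apply hS.ss
  rw [sub_eq_zero.1 h]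
  exact isAlgebraic_of_mem c.2

theorem apb_t_sub (hS : Srf k t s) (b : k) : t - (b : K) ≠ 0 := by
  intro h
  apply hS.tt
  rw [sub_eq_zero.1 h]
  exact isAlgebraic_of_mem (le_adj k s b.2)

theorem ApbM.coeff_eq (hM : ApbM k t s θ Φ U V δ) (i : ℕ) :
    (((minpoly (adj (adj k s) t) θ).coeff i : adj (adj k s) t) : K) =
      apbEv k.subtype t s (Φ.coeff i) := by
  have h1 := congrArg (fun p => Polynomial.coeff p i) hM.min
  simp only [coeff_map] at h1
  exact h1

theorem ApbM.der (hM : ApbM k t s θ Φ U V δ) :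
    aeval θ (derivative (minpoly (adj (adj k s) t) θ)) =
      eval₂ (apbEv k.subtype t s) θ (derivative Φ) := by
  rw [aeval_def, ← eval_map, ← derivative_map, hM.min, derivative_map, eval_map]

/-- the limit is lexicographic. -/
theorem apb_lim_lex {b c : k} (Wn : ℕ → ValuationSubring K) (F : ℕ → Subfield K)
    (hWF : ∀ n, TrivOn (Wn n) (F n)) (hkF : ∀ n, k ≤ F n) (hsc : s - (c : K) ≠ 0)
    (hτ : ∀ n, (t - b) / (s - c) ^ (n + 1) ∈ F n) (hWs : ∀ n, (Wn n).valuation (s - c) < 1)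
    (𝒰 : Ultrafilter ℕ) (h𝒰 : (𝒰 : Filter ℕ) ≤ atTop) :
    ApbLex k (t - b) (s - c) (apbLim Wn 𝒰) := by
  refine ⟨?_, ?_, ?_⟩
  · intro a ha
    exact Eventually.of_forall fun n => hWF n a (hkF n ha)
  · exact apbLim_lt (Eventually.of_forall hWs)
  · intro m
    refine apbLim_lt (h𝒰 ?_)
    filter_upwards [eventually_ge_atTop m] with n hn
    have e : (t - b) / (s - c) ^ m = (t - b) / (s - c) ^ (n + 1) * (s - c) ^ (n + 1 - m) := by
      have h1 : (s - (c : K)) ^ (n + 1) = (s - c) ^ m * (s - c) ^ (n + 1 - m) := by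
        rw [← pow_add]
        congr 1
        omega
      rw [h1]
      have h2 : (s - (c : K)) ^ (n + 1 - m) ≠ 0 := pow_ne_zero _ hsc
      have h3 : (s - (c : K)) ^ m ≠ 0 := pow_ne_zero _ hsc
      field_simp
    rw [e, map_mul, map_pow]
    have h1 : (Wn n).valuation ((t - b) / (s - c) ^ (n + 1)) ≤ 1 := (hWF n).le_one (hτ n)
    have h2 : (Wn n).valuation (s - c) ^ (n + 1 - m) < 1 :=
      pow_lt_one₀ zero_le (hWs n) (by omega)
    exact lt_of_le_of_lt (mul_le_of_le_one_left' h1) h2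

/-- the approximation property. -/
theorem apb_limit [PerfectField K] (hS : Srf k t s) (hM : ApbM k t s θ Φ U V δ) {b c ϑ : k}
    {R₀ : ValuationSubring K} (hR : ApbLex k (t - b) (s - c) R₀)
    (hθ : R₀.valuation (θ - ϑ) < 1)
    (hder : R₀.valuation (eval₂ (apbEv k.subtype t s) θ (derivative Φ)) = 1)
    (Wn : ℕ → ValuationSubring K) (F : ℕ → Subfield K)
    (hWF : ∀ n, TrivOn (Wn n) (F n)) (hkF : ∀ n, k ≤ F n)
    (hτ : ∀ n, (t - b) / (s - c) ^ (n + 1) ∈ F n) (hWs : ∀ n, (Wn n).valuation (s - c) < 1)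
    (hWθ : ∀ n, (Wn n).valuation (θ - ϑ) < 1) {z : K} (hz : z ∈ R₀) :
    ∀ᶠ n in atTop, z ∈ Wn n := by
  by_contra hcon
  rw [not_eventually] at hcon
  have hne : (atTop ⊓ 𝓟 {n : ℕ | z ∉ Wn n}).NeBot := frequently_mem_iff_neBot.1 hcon
  set 𝒰 : Ultrafilter ℕ := Ultrafilter.of (atTop ⊓ 𝓟 {n : ℕ | z ∉ Wn n}) with h𝒰
  have hle : (𝒰 : Filter ℕ) ≤ atTop ⊓ 𝓟 {n : ℕ | z ∉ Wn n} := Ultrafilter.of_le _
  have hlex := apb_lim_lex (k := k) (t := t) (s := s) Wn F hWF hkF (apb_s_sub hS c) hτ hWs 𝒰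
    (hle.trans inf_le_left)
  have hkR : ∀ r : k, k.subtype r ∈ R₀ := fun r => hR.triv _ r.2
  have htR : t ∈ R₀ := by
    have h1 := add_mem (apb_mem_of_lt hR.lt0) (hR.triv _ b.2)
    rwa [sub_add_cancel] at h1
  have hsR : s ∈ R₀ := by
    have h1 := add_mem (apb_mem_of_lt hR.ls) (hR.triv _ c.2)
    rwa [sub_add_cancel] at h1
  have heq : R₀ = apbLim Wn 𝒰 := by
    refine uniq_ext (adj (adj k s) t) (hS.alg θ) ?_ (le_adj _ _ (le_adj _ _ ϑ.2)) ?_ ?_ hθ
      (apbLim_lt (Eventually.of_forall hWθ)) ?_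
    · intro w
      obtain ⟨n, hn⟩ := hM.top w
      refine ⟨n, ?_⟩
      exact Vale.Agent.P019.adj_mono
        ((Vale.Agent.P019.adj_mono (adj0_le_adj k s) t).trans (adj0_le_adj _ t)) θ hn
    · intro w hw
      exact apb_lex b.2 c.2 (apb_t_sub hS b) (apb_s_sub hS c) hR hlex hw
    · intro i
      rw [hM.coeff_eq i]
      exact apbEv_mem hkR htR hsR _
    · rw [hM.der]
      exact hder
  rw [heq] at hz
  have h1 : ∀ᶠ n in (𝒰 : Filter ℕ), z ∉ Wn n := hle (mem_inf_of_right (mem_principal_self _))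
  obtain ⟨n, h2, h3⟩ := ((apbLim_mem.1 hz).and h1).exists
  exact h3 h2

end main

end Vale.Agent.P019P
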