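import Vale.Agent.P019Q.ApB5

/-!
# Approximation: the residue field
-/

namespace Vale.Agent.P019P

open Vale.Agent.P019

set_option linter.style.haveILetI false
set_option linter.unusedSectionVars false

open Polynomial Filter

variable {K : Type*} [Field K] {k : Subfield K}

section rs

variable {W : ValuationSubring K}

theorem apb_rs_eval₂ {R : Type*} [CommRing R] {φ : R →+* K} (hφ : ∀ r, φ r ∈ W)
    {ψ : R →+* IsLocalRing.ResidueField W} (h : ∀ r, ψ r = rs W (φ r)) {x : K} (hx : x ∈ W)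
    (f : R[X]) : rs W (eval₂ φ x f) = eval₂ ψ (rs W x) f := by
  induction f using Polynomial.induction_on' with
  | add p q hp hq =>
    rw [eval₂_add, eval₂_add, rs_add (apb_eval₂_mem hφ hx p) (apb_eval₂_mem hφ hx q), hp, hq]
  | monomial n a =>
    rw [eval₂_monomial, eval₂_monomial, rs_mul (hφ a) (pow_mem hx n), rs_pow hx, h a]

theorem apb_rs_ev (hW : TrivOn W k) {t s : K} (ht : t ∈ W) (hs : s ∈ W) (f : k[X][X]) :
    rs W (apbEv k.subtype t s f) = apbEv (barHom hW) (rs W t) (rs W s) f := by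
  refine apb_rs_eval₂ (φ := eval₂RingHom k.subtype s) (ψ := eval₂RingHom (barHom hW) (rs W s))
    (fun r => apb_eval₂_mem (fun a => hW _ a.2) hs r) (fun r => ?_) ht f
  exact (apb_rs_eval₂ (φ := k.subtype) (ψ := barHom hW) (fun a => hW _ a.2) (fun a => rfl)
    hs r).symm

theorem apb_rs_ev3 (hW : TrivOn W k) {t s θ : K} (ht : t ∈ W) (hs : s ∈ W) (hθ : θ ∈ W)
    (f : k[X][X][X]) :
    rs W (eval₂ (apbEv k.subtype t s) θ f) =
      eval₂ (apbEv (barHom hW) (rs W t) (rs W s)) (rs W θ) f :=
  apb_rs_eval₂ (fun r => apbEv_mem (fun a => hW _ a.2) ht hs r)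
    (fun r => (apb_rs_ev hW ht hs r).symm) hθ f

end rs

section main

variable {t s θ : K} {Φ U V : k[X][X][X]} {δ : k[X][X]}

/-- the generic description of the valuations over `t = b`. -/
theorem apb_core [PerfectField K] (hS : Srf k t s) (hM : ApbM k t s θ Φ U V δ) :
    ∀ᶠ b in ae k, ∀ W : ValuationSubring K, Over W (adj k s) t b → θ ∈ W ∧
      ∀ z : K, W.valuation z ≤ 1 → ∃ P Q : (adj k s)[X], W.valuation (aeval θ Q) = 1 ∧
        W.valuation (z * aeval θ Q - aeval θ P) < 1 := by
  haveI : PerfectField (adj k s) := perfect_adj _ _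
  haveI : PerfectField (adj (adj k s) t) := perfect_adj _ _
  set F : Subfield K := adj k s with hF
  set F' : IntermediateField F K := IntermediateField.adjoin F {t} with hF'
  have htF' : t ∈ F' := IntermediateField.mem_adjoin_simple_self F t
  have hsF' : s ∈ F' := F'.algebraMap_mem ⟨s, mem_adj k s⟩
  let e : k[X][X] →+* F' :=
    apbEv ((algebraMap F F').comp (Subfield.inclusion (le_adj k s))) ⟨t, htF'⟩ ⟨s, hsF'⟩
  have he : (algebraMap F' K).comp e = apbEv k.subtype t s := by
    have h1 : (algebraMap F' K).comp ((algebraMap F F').comp (Subfield.inclusion (le_adj k s))) =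
        k.subtype := by
      ext x
      rfl
    change (algebraMap F' K).comp (apbEv _ _ _) = _
    rw [apbEv_comp, h1]
    rfl
  have hint : IsIntegral (adj F t) θ := (hS.alg θ).isIntegral
  have hroot : aeval θ (Φ.map e) = 0 := by
    rw [aeval_def, eval₂_map, he]
    exact hM.root
  have hsep : (Φ.map e).Separable := by
    rw [← separable_map (algebraMap F' K), Polynomial.map_map, he, ← hM.min]
    exact (PerfectField.separable_of_irreducible (minpoly.irreducible hint)).map
  have h1 := frp_core_ae (F := F) (y := t) (θ := θ) hS.tt F' hF' (Φ.map e) (hM.mon.map e) hroot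
    hsep
  filter_upwards [ae_mono (le_adj k s) h1] with b hb W hW
  obtain ⟨hθW, -, hres, halg⟩ := hb W hW
  refine ⟨hθW, fun z hz => ?_⟩
  obtain ⟨n, hn⟩ := hM.top z
  refine frp_res hW.triv hθW halg hz (n := n) (hres _ ?_ ?_)
  · exact Vale.Agent.P019.adj_mono (Vale.Agent.P019.adj_mono (adj0_le_adj k s) t) θ hn
  · rw [map_pow]
    exact pow_le_one₀ zero_le hz

/-- the residue field is generated by the residue of `θ`. -/
theorem apb_gen {W : ValuationSubring K} {F : Subfield K} (hF : TrivOn W F) (hθ : θ ∈ W)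
    (h : ∀ z : K, W.valuation z ≤ 1 → ∃ P Q : F[X], W.valuation (aeval θ Q) = 1 ∧
        W.valuation (z * aeval θ Q - aeval θ P) < 1) (w : IsLocalRing.ResidueField W) :
    w ∈ Vale.Agent.P019.adj (bar hF) (rs W θ) := by
  obtain ⟨z, hz, rfl⟩ := rs_surj w
  obtain ⟨P, Q, hQ, hPQ⟩ := h z ((W.valuation_le_one_iff z).2 hz)
  have hmem : ∀ Q : F[X], aeval θ Q ∈ W := fun Q =>
    apb_eval₂_mem (φ := algebraMap F K) (fun r => hF _ r.2) hθ Q
  have haev : ∀ Q : F[X], rs W (aeval θ Q) ∈ Vale.Agent.P019.adj (bar hF) (rs W θ) := by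
    intro Q
    rw [rs_aeval hF hθ]
    exact frp_aeval_mem _ _
  have hQ0 : rs W (aeval θ Q) ≠ 0 := (rs_ne_zero (hmem Q)).2 hQ
  have h1 : rs W z * rs W (aeval θ Q) = rs W (aeval θ P) := by
    rw [← rs_mul hz (hmem Q), rs_eq (mul_mem hz (hmem Q)) (hmem P)]
    exact hPQ
  rw [eq_div_of_mul_eq hQ0 h1]
  exact Subfield.div_mem _ (haev P) (haev Q)

/-- degree of a simple extension. -/
theorem apb_finrank_le {κ : Type*} [Field κ] {E : Subfield κ} {x : κ}
    (hgen : ∀ w : κ, w ∈ Vale.Agent.P019.adj E x) {G : E[X]} (hG : G.Monic)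
    (h0 : aeval x G = 0) : Module.finrank E κ ≤ G.natDegree := by
  have hint : IsIntegral E x := ⟨G, hG, h0⟩
  have htop : IntermediateField.adjoin E {x} = ⊤ := by
    rw [eq_top_iff]
    intro w _
    exact mem_adjoin_simple.2 (hgen w)
  rw [← IntermediateField.finrank_top', ← htop, IntermediateField.adjoin.finrank hint]
  exact natDegree_le_of_dvd (minpoly.dvd _ _ h0) hG.ne_zero

end main

section res

variable {t s θ : K} {Φ U V : k[X][X][X]} {δ : k[X][X]} {W : ValuationSubring K}

/-- the reduction of coefficients. -/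
noncomputable def apbRed (hW : TrivOn W k) (b : k) (s : K) :
    k[X][X] →+* adj (bar hW) (rs W s) :=
  apbEv ((Subfield.inclusion (le_adj (bar hW) (rs W s))).comp (barEquiv hW).toRingHom)
    ((Subfield.inclusion (le_adj (bar hW) (rs W s))) (barEquiv hW b)) ⟨rs W s, mem_adj _ _⟩

theorem apbRed_coe (hW : TrivOn W k) (b : k) (s : K) :
    (algebraMap (adj (bar hW) (rs W s)) (IsLocalRing.ResidueField W)).comp (apbRed hW b s) =
      apbEv (barHom hW) (rs W b) (rs W s) := by
  unfold apbRed
  rw [apbEv_comp]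
  rfl

/-- the equation of the residue of `θ`. -/
theorem apb_red_root (hW : TrivOn W k) (hM : ApbM k t s θ Φ U V δ) {b : k}
    (hb : W.valuation (t - b) < 1) (hs : s ∈ W) (hθ : θ ∈ W) :
    aeval (rs W θ) (Φ.map (apbRed hW b s)) = 0 := by
  have ht : t ∈ W := by
    have h1 := add_mem (apb_mem_of_lt hb) (hW _ b.2)
    rwa [sub_add_cancel] at h1
  rw [aeval_def, eval₂_map, apbRed_coe, ← (rs_eq ht (hW _ b.2)).2 hb, ← apb_rs_ev3 hW ht hs hθ,
    hM.root, rs_zero]

end res

end Vale.Agent.P019P
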