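import Vale.Agent.P019Q.ApA
import Vale.Agent.P019Q.Res

/-!
# Transfer of places of the residue curve
-/

namespace Vale.Agent.P019P

open Vale.Agent.P019

set_option linter.style.haveILetI false
set_option linter.unusedSectionVars false

open Polynomial Filter

section apc

variable {F : Type*} [Field F]

theorem apc_val_one {O : ValuationSubring F} {z : F} :
    O.valuation z = 1 ↔ z ≠ 0 ∧ z ∈ O ∧ z⁻¹ ∈ O := by
  constructor
  · intro h
    refine ⟨?_, mem_of_val h, mem_of_val (by rw [map_inv₀, h, inv_one])⟩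
    rintro rfl
    rw [map_zero] at h
    exact zero_ne_one h
  · rintro ⟨h0, h1, h2⟩
    rw [← O.valuation_le_one_iff] at h1 h2
    rw [map_inv₀] at h2
    have h3 : 0 < O.valuation z := zero_lt_iff.2 ((Valuation.ne_zero_iff _).2 h0)
    exact le_antisymm h1 ((inv_le_one₀ h3).1 h2)

theorem apc_lt_one {O : ValuationSubring F} {z : F} (hz : z ∉ O) : O.valuation z⁻¹ < 1 := by
  rw [← O.valuation_le_one_iff, not_le] at hz
  rw [map_inv₀]
  exact inv_lt_one_of_one_lt₀ hz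

theorem apc_inv_notMem {O : ValuationSubring F} {z : F} (h0 : z ≠ 0) (hz : O.valuation z < 1) :
    z⁻¹ ∉ O := by
  intro h
  have h1 : O.valuation z = 1 :=
    apc_val_one.2 ⟨h0, (O.valuation_le_one_iff z).1 hz.le, h⟩
  exact hz.ne h1

/-- ultraproduct of valuation rings. -/
def apc_ultVal (𝒰 : Ultrafilter ℕ) (O : ℕ → ValuationSubring F) : ValuationSubring F where
  carrier := {z | ∀ᶠ n in 𝒰, z ∈ O n}
  mul_mem' := fun hx hy => by
    filter_upwards [hx, hy] with n h1 h2 using mul_mem h1 h2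
  one_mem' := Filter.Eventually.of_forall fun n => one_mem _
  add_mem' := fun hx hy => by
    filter_upwards [hx, hy] with n h1 h2 using add_mem h1 h2
  zero_mem' := Filter.Eventually.of_forall fun n => zero_mem _
  neg_mem' := fun hx => by
    filter_upwards [hx] with n h1 using neg_mem h1
  mem_or_inv_mem' := by
    intro x
    exact Ultrafilter.eventually_or.1
      (Filter.Eventually.of_forall fun n => (O n).mem_or_inv_mem x)

theorem apc_mem_ultVal {𝒰 : Ultrafilter ℕ} {O : ℕ → ValuationSubring F} {z : F} :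
    z ∈ apc_ultVal 𝒰 O ↔ ∀ᶠ n in 𝒰, z ∈ O n := Iff.rfl

theorem apc_ultVal_unit {𝒰 : Ultrafilter ℕ} {O : ℕ → ValuationSubring F} {z : F}
    (hz : (apc_ultVal 𝒰 O).valuation z = 1) : ∀ᶠ n in 𝒰, (O n).valuation z = 1 := by
  obtain ⟨h0, h1, h2⟩ := apc_val_one.1 hz
  filter_upwards [apc_mem_ultVal.1 h1, apc_mem_ultVal.1 h2] with n h3 h4
  exact apc_val_one.2 ⟨h0, h3, h4⟩

/-- ultralimit of functionals. -/
theorem apc_exists_ulim {ℓ : ℕ} [Fact ℓ.Prime] {M : Type*} [AddCommGroup M] [Module (ZMod ℓ) M]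
    (𝒰 : Ultrafilter ℕ) (f : ℕ → M →ₗ[ZMod ℓ] ZMod ℓ) :
    ∃ g : M →ₗ[ZMod ℓ] ZMod ℓ, ∀ v, ∀ᶠ n in 𝒰, f n v = g v := by
  haveI : NeZero ℓ := ⟨(Fact.out : ℓ.Prime).ne_zero⟩
  have h1 : ∀ v : M, ∃ c : ZMod ℓ, ∀ᶠ n in 𝒰, f n v = c := by
    intro v
    obtain ⟨c, hc⟩ := (𝒰.map fun n => f n v).eq_pure_of_finite
    refine ⟨c, ?_⟩
    have h2 : ({c} : Set (ZMod ℓ)) ∈ 𝒰.map fun n => f n v := by
      rw [hc]
      exact Ultrafilter.mem_pure.2 rfl
    exact h2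
  choose g hg using h1
  refine ⟨{ toFun := g, map_add' := ?_, map_smul' := ?_ }, hg⟩
  · intro v w
    obtain ⟨n, hn, hn1, hn2⟩ := ((hg (v + w)).and ((hg v).and (hg w))).exists
    rw [← hn, ← hn1, ← hn2, map_add]
  · intro c v
    obtain ⟨n, hn, hn1⟩ := ((hg (c • v)).and (hg v)).exists
    rw [← hn, ← hn1, map_smul, RingHom.id_apply]

/-- units of the composite ring. -/
theorem apc_compos_unit {W : ValuationSubring F} {P : ValuationSubring (IsLocalRing.ResidueField W)}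
    {z : F} (hz : W.valuation z = 1) (hz' : P.valuation (rs W z) = 1) :
    (compos W P).valuation z = 1 := by
  obtain ⟨h0, h1, h2⟩ := apc_val_one.1 hz
  obtain ⟨-, h3, h4⟩ := apc_val_one.1 hz'
  exact apc_val_one.2 ⟨h0, mem_compos.2 ⟨h1, h3⟩, mem_compos.2 ⟨h2, by rwa [rs_inv hz]⟩⟩

/-- functionals killing `U1` induce functionals on the classes of the residue field. -/
theorem apc_exists_ind {ℓ : ℕ} [Fact ℓ.Prime] (W : ValuationSubring F)
    (f : V ℓ F →ₗ[ZMod ℓ] ZMod ℓ) (hf : ∀ v ∈ U1 ℓ W, f v = 0) :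
    ∃ h : V ℓ (IsLocalRing.ResidueField W) →ₗ[ZMod ℓ] ZMod ℓ,
      ∀ z : F, W.valuation z = 1 → h (cl ℓ (rs W z)) = f (cl ℓ z) := by
  obtain ⟨r, hr1, hrs, hrk⟩ := exists_resmap (ℓ := ℓ) W
  obtain ⟨s, hs⟩ := LinearMap.exists_rightInverse_of_surjective r (LinearMap.range_eq_top.2 hrs)
  refine ⟨f ∘ₗ (UC ℓ W).subtype ∘ₗ s, fun z hz => ?_⟩
  rw [← hr1 z hz]
  have h1 : r (s (r ⟨cl ℓ z, cl_mem_UC hz⟩) - ⟨cl ℓ z, cl_mem_UC hz⟩) = 0 := by
    rw [map_sub, sub_eq_zero]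
    exact LinearMap.congr_fun hs _
  have h2 := hf _ ((hrk _).1 h1)
  have h3 : f ((s (r ⟨cl ℓ z, cl_mem_UC hz⟩) - ⟨cl ℓ z, cl_mem_UC hz⟩ : UC ℓ W) : V ℓ F) =
      f (s (r ⟨cl ℓ z, cl_mem_UC hz⟩) : V ℓ F) - f (cl ℓ z) := by
    rw [← map_sub]; rfl
  rw [h3, sub_eq_zero] at h2
  exact h2

theorem apc_ker_of_unif [PerfectField F] {ℓ : ℕ} [Fact ℓ.Prime] [NeZero (ℓ : F)]
    {P : ValuationSubring F} {ϖ : F} (hP : IsUnif P ϖ) (h : V ℓ F →ₗ[ZMod ℓ] ZMod ℓ)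
    (h0 : ∀ z, P.valuation z = 1 → h (cl ℓ z) = 0) (hne : h ≠ 0) (v : V ℓ F) :
    v ∈ UC ℓ P ↔ h v = 0 := by
  have h1 := hP.eq_smul_fn ℓ h h0
  have h2 : h (cl ℓ ϖ) ≠ 0 := by
    intro h3
    apply hne
    ext w
    rw [h1 w, h3, zero_mul, LinearMap.zero_apply]
  rw [hP.mem_UC_iff, h1 v, mul_eq_zero, or_iff_right h2]

/-- archimedean property. -/
theorem apc_arch {O : ValuationSubring F} {ϖ : F} (h : IsUnif O ϖ) {z y : F}
    (hy : 1 < O.valuation y) : ∃ N : ℕ, O.valuation z < O.valuation y ^ N := by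
  by_cases hz : z = 0
  · exact ⟨0, by rw [hz, map_zero, pow_zero]; exact zero_lt_one⟩
  have hy0 : y ≠ 0 := by
    rintro rfl
    rw [map_zero] at hy
    exact not_lt_zero hy
  obtain ⟨i, a, ha⟩ := h.rep z hz
  obtain ⟨j, b, hb⟩ := h.rep y hy0
  have hϖ : 0 < O.valuation ϖ := zero_lt_iff.2 ((Valuation.ne_zero_iff _).2 h.ne)
  have e1 : O.valuation z ^ (ringExpChar F ^ i) = O.valuation ϖ ^ (-a) := by
    rw [map_mul, map_pow, map_zpow₀] at ha
    rw [zpow_neg, eq_inv_of_mul_eq_one_left ha]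
  have e2 : O.valuation y ^ (ringExpChar F ^ j) = O.valuation ϖ ^ (-b) := by
    rw [map_mul, map_pow, map_zpow₀] at hb
    rw [zpow_neg, eq_inv_of_mul_eq_one_left hb]
  have hb1 : -b ≤ -1 := by
    by_contra hcon
    have h3 : O.valuation ϖ ^ (-b) ≤ 1 := by
      have h4 := zpow_le_zpow_right_of_le_one₀ hϖ h.lt.le (show (0 : ℤ) ≤ -b by omega)
      rwa [zpow_zero] at h4
    rw [← e2] at h3
    exact absurd (one_lt_pow₀ hy (qpow_pos F j).ne') (not_lt.2 h3)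
  have h4 : (O.valuation ϖ)⁻¹ ≤ O.valuation y ^ (ringExpChar F ^ j) := by
    rw [e2, ← zpow_neg_one]
    exact zpow_le_zpow_right_of_le_one₀ hϖ h.lt.le hb1
  -- bound of `z`
  have h5 : O.valuation z ≤ (O.valuation ϖ)⁻¹ ^ a.natAbs := by
    rw [← pow_le_pow_iff_left₀ zero_le zero_le (qpow_pos F i).ne', e1]
    have h6 : (O.valuation ϖ)⁻¹ ^ a.natAbs = O.valuation ϖ ^ (-(a.natAbs : ℤ)) := by
      rw [zpow_neg, zpow_natCast, inv_pow]
    have h7 : O.valuation ϖ ^ (-a) ≤ (O.valuation ϖ)⁻¹ ^ a.natAbs := by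
      rw [h6]
      exact zpow_le_zpow_right_of_le_one₀ hϖ h.lt.le (by omega)
    have h8 : 1 ≤ (O.valuation ϖ)⁻¹ ^ a.natAbs :=
      one_le_pow₀ ((one_le_inv₀ hϖ).2 h.lt.le)
    exact h7.trans (le_self_pow₀ h8 (qpow_pos F i).ne')
  refine ⟨ringExpChar F ^ j * a.natAbs + 1, ?_⟩
  have h9 : O.valuation z ≤ O.valuation y ^ (ringExpChar F ^ j * a.natAbs) := by
    refine h5.trans ?_
    rw [pow_mul]
    exact pow_le_pow_left₀ zero_le h4 _
  refine lt_of_le_of_lt h9 ?_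
  exact pow_lt_pow_right₀ hy (Nat.lt_succ_self _)

/-- the image of a smaller valuation ring in the residue field. -/
noncomputable def apc_resVal {O O' : ValuationSubring F} (hO : O' ≤ O) :
    ValuationSubring (IsLocalRing.ResidueField O) where
  carrier := {c | ∃ z ∈ O', rs O z = c}
  mul_mem' := by
    rintro _ _ ⟨x, hx, rfl⟩ ⟨y, hy, rfl⟩
    exact ⟨x * y, mul_mem hx hy, rs_mul (hO hx) (hO hy)⟩
  one_mem' := ⟨1, one_mem _, rs_one⟩
  add_mem' := by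
    rintro _ _ ⟨x, hx, rfl⟩ ⟨y, hy, rfl⟩
    exact ⟨x + y, add_mem hx hy, rs_add (hO hx) (hO hy)⟩
  zero_mem' := ⟨0, zero_mem _, rs_zero⟩
  neg_mem' := by
    rintro _ ⟨x, hx, rfl⟩
    exact ⟨-x, neg_mem hx, rs_neg (hO hx)⟩
  mem_or_inv_mem' := by
    intro c
    obtain ⟨z, hz, rfl⟩ := rs_surj c
    by_cases h0 : rs O z = 0
    · exact Or.inl ⟨0, zero_mem _, by rw [h0, rs_zero]⟩
    have hz1 : O.valuation z = 1 := (rs_ne_zero hz).1 h0
    rcases O'.mem_or_inv_mem z with h | h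
    · exact Or.inl ⟨z, h, rfl⟩
    · exact Or.inr ⟨z⁻¹, h, rs_inv hz1⟩

theorem apc_max_le {O O' : ValuationSubring F} (hO : O' ≤ O) {x : F} (hx : O.valuation x < 1) :
    x ∈ O' := by
  by_contra h
  have h1 : x ≠ 0 := by
    rintro rfl
    exact h (zero_mem _)
  have h2 : x⁻¹ ∈ O' := (O'.mem_or_inv_mem x).resolve_left h
  exact apc_inv_notMem h1 hx (hO h2)

theorem apc_mem_resVal {O O' : ValuationSubring F} (hO : O' ≤ O) {z : F} (hz : z ∈ O) :
    rs O z ∈ apc_resVal hO ↔ z ∈ O' := by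
  constructor
  · rintro ⟨w, hw, hwz⟩
    have h1 := (rs_eq (hO hw) hz).1 hwz
    have h2 := apc_max_le hO h1
    have h3 := sub_mem hw h2
    rwa [sub_sub_cancel] at h3
  · intro h
    exact ⟨z, h, rfl⟩

end apc

variable {K L : Type*} [Field K] [Field L] [PerfectField K] [PerfectField L] {ℓ : ℕ}
  [Fact ℓ.Prime] [NeZero (ℓ : K)] [NeZero (ℓ : L)] {Θ : V ℓ K ≃ₗ[ZMod ℓ] V ℓ L}

/-- a valuation ring killed by a functional killing `U1 ℓ O` is contained in `O`. -/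
theorem apc_le {O O' : ValuationSubring L} {ϖ' : L} (hϖ' : IsUnif O ϖ')
    (f : V ℓ L →ₗ[ZMod ℓ] ZMod ℓ) (hf : ∀ v ∈ U1 ℓ O, f v = 0)
    (hf' : ∀ z, O'.valuation z = 1 → f (cl ℓ z) = 0) (hne : f ≠ 0) : O' ≤ O := by
  intro y hy
  by_contra hyO
  apply hne
  have hyv : 1 < O.valuation y := by
    rw [← O.valuation_le_one_iff, not_le] at hyO
    exact hyO
  have hy0 : y ≠ 0 := by
    rintro rfl
    exact hyO (zero_mem _)
  have key : ∀ z : L, z ∉ O' → f (cl ℓ z) = 0 := by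
    intro z hz
    have hz0 : z ≠ 0 := by
      rintro rfl
      exact hz (zero_mem _)
    obtain ⟨N, hN⟩ := apc_arch hϖ' (z := z) hyv
    have hyN : O.valuation z < O.valuation (y ^ N) ^ ℓ := by
      refine lt_of_lt_of_le hN ?_
      rw [map_pow]
      exact le_self_pow₀ (one_le_pow₀ hyv.le) (Fact.out : ℓ.Prime).ne_zero
    set w : L := (y ^ N) ^ ℓ with hw
    have hw0 : w ≠ 0 := pow_ne_zero _ (pow_ne_zero _ hy0)
    have hwO' : w ∈ O' := pow_mem (pow_mem hy N) ℓ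
    have hm : O.valuation (z / w) < 1 := by
      rw [map_div₀, hw, map_pow _ (y ^ N) ℓ]
      refine (div_lt_one₀ ?_).2 hyN
      exact lt_of_le_of_lt zero_le hyN
    have e1 : w + z = w * (1 + z / w) := by
      field_simp
    have h1 : f (cl ℓ (w + z)) = 0 := by
      rw [e1, cl_mul ℓ hw0 (one_add_ne_zero hm), map_add, hf _ (cl_mem_U1 hm), hw, cl_pow_self,
        map_zero, add_zero]
    have hm' : O'.valuation (w * z⁻¹) < 1 := by
      rw [map_mul]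
      exact mul_lt_one_of_nonneg_of_lt_one_right ((O'.valuation_le_one_iff w).2 hwO') zero_le
        (apc_lt_one hz)
    have e2 : w + z = z * (1 + w * z⁻¹) := by
      field_simp
      ring
    rw [e2, cl_mul ℓ hz0 (one_add_ne_zero hm'), map_add, hf' _ (val_one_add hm'), add_zero] at h1
    exact h1
  refine LinearMap.ext fun v => ?_
  obtain ⟨z, hz0, rfl⟩ := cl_surj ℓ v
  rw [LinearMap.zero_apply]
  by_cases hz : z ∈ O'
  · by_cases hz' : z⁻¹ ∈ O'
    · exact hf' _ (apc_val_one.2 ⟨hz0, hz, hz'⟩)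
    · have h1 := key _ hz'
      rw [cl_inv, map_neg, neg_eq_zero] at h1
      exact h1
  · exact key _ hz

/-- transfer of a place of the residue curve which is approximated. -/
theorem place_transfer {k : Subfield K} (hk : IsAlgClosed k) (hfgk : FG k (⊤ : Subfield K))
    {l : Subfield L} (hl : IsAlgClosed l) (hfgl : FG l (⊤ : Subfield L)) (hfl : Fin' l)
    (hΘ : Compatible Θ) {x y : L} (hL : Srf l x y) {W : ValuationSubring K} (hW : TrivOn W k)
    (hCv : Cv (bar hW)) {ϖ : K} (hϖ : IsUnif W ϖ) {O : ValuationSubring L} (hT : Tr Θ W ϖ O)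
    {Θ' : V ℓ (IsLocalRing.ResidueField W) ≃ₗ[ZMod ℓ] V ℓ (IsLocalRing.ResidueField O)}
    (hΘ' : ResMap ℓ Θ W O Θ') {P : ValuationSubring (IsLocalRing.ResidueField W)}
    (hP : P ∈ Plc (bar hW))
    {π : K} {F : ℕ → Subfield K} {Wn : ℕ → ValuationSubring K} {θ : ℕ → K}
    (hπ : W.valuation π = 1) (hπ' : P.valuation (rs W π) < 1)
    (hn : ∀ n, k ≤ F n ∧ FG k (F n) ∧ ¬ F n ≤ k ∧ Nice (Wn n) (F n) π (θ n))
    (hlim : ∀ z : K, z ∈ compos W P → ∀ᶠ n in atTop, z ∈ Wn n) :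
    ∃ Q ∈ Plc (bar (hfl.triv O)), ∀ v, Θ' v ∈ UC ℓ Q ↔ v ∈ UC ℓ P := by
  -- the transferred valuations
  have hO : ∀ n, ∃ O' : ValuationSubring L, Tr Θ (Wn n) π O' := by
    intro n
    obtain ⟨h1, h2, h3, h4⟩ := hn n
    obtain ⟨y, hyF, hyk⟩ := SetLike.not_le_iff_exists.1 h3
    haveI := h4.pf
    exact exists_tr0 hk hfgk hl hΘ h1 h2 h4 hyk (h4.triv.mono (adj_le h1 hyF))
  choose On hOn using hO
  set 𝒰 : Ultrafilter ℕ := Filter.hyperfilter ℕ with h𝒰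
  have h𝒰le : (𝒰 : Filter ℕ) ≤ atTop := Nat.hyperfilter_le_atTop
  -- the limit functional
  obtain ⟨fU, hfU⟩ := apc_exists_ulim 𝒰 (fun n => (hn n).2.2.2.unif.fn ℓ)
  have hfUπ : fU (cl ℓ π) = 1 := by
    obtain ⟨n, hn1⟩ := (hfU (cl ℓ π)).exists
    rw [← hn1]
    exact (hn n).2.2.2.unif.fn_self ℓ
  set O' : ValuationSubring L := apc_ultVal 𝒰 On with hO'
  set f' : V ℓ L →ₗ[ZMod ℓ] ZMod ℓ := fU ∘ₗ Θ.symm.toLinearMap with hf'
  have hf'a : ∀ v, f' v = fU (Θ.symm v) := fun v => rfl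
  have hf'π : f' (Θ (cl ℓ π)) = 1 := by
    rw [hf'a, LinearEquiv.symm_apply_apply, hfUπ]
  have hf'O' : ∀ z, O'.valuation z = 1 → f' (cl ℓ z) = 0 := by
    intro z hz
    obtain ⟨n, h1, h2⟩ := ((apc_ultVal_unit hz).and (hfU (Θ.symm (cl ℓ z)))).exists
    rw [hf'a, ← h2]
    exact (hOn n).unit _ z h1
  -- step 2
  have hfR : ∀ z : K, (compos W P).valuation z = 1 → fU (cl ℓ z) = 0 := by
    intro z hz
    obtain ⟨h0, h1, h2⟩ := apc_val_one.1 hz
    have h3 := h𝒰le ((hlim z h1).and (hlim _ h2))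
    obtain ⟨n, ⟨h4, h5⟩, h6⟩ := (Filter.Eventually.and h3 (hfU (cl ℓ z))).exists
    rw [← h6]
    exact (hn n).2.2.2.unif.fn_unit ℓ z (apc_val_one.2 ⟨h0, h4, h5⟩)
  have hfU1 : ∀ v ∈ U1 ℓ W, fU v = 0 := by
    rintro _ ⟨m, hm, rfl⟩
    apply hfR
    have h1 : rs W (1 + m) = 1 := by
      have h2 : m ∈ W := (W.valuation_le_one_iff m).1 hm.le
      rw [rs_add (one_mem _) h2, rs_one, (rs_eq_zero h2).2 hm, add_zero]
    exact apc_compos_unit (val_one_add hm) (by rw [h1, map_one])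
  obtain ⟨h, hh⟩ := apc_exists_ind W fU hfU1
  haveI : PerfectField (IsLocalRing.ResidueField W) := rs_perfect hW
  haveI : NeZero (ℓ : IsLocalRing.ResidueField W) := rs_neZero hW
  have hhP : ∀ c, P.valuation c = 1 → h (cl ℓ c) = 0 := by
    intro c hc
    obtain ⟨z, hz, rfl⟩ := rs_surj c
    have hz1 : W.valuation z = 1 := (rs_ne_zero hz).1 (apc_val_one.1 hc).1
    rw [hh z hz1]
    exact hfR z (apc_compos_unit hz1 hc)
  have hhne : h ≠ 0 := by
    intro h0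
    have h1 := hh π hπ
    rw [h0, LinearMap.zero_apply, hfUπ] at h1
    exact zero_ne_one h1
  obtain ⟨⟨πP, hπP⟩, -⟩ := hCv.place hP
  have hkerP := apc_ker_of_unif hπP h hhP hhne
  -- step 3
  have hf'U1 : ∀ v ∈ U1 ℓ O, f' v = 0 := by
    intro v hv
    rw [hf'a]
    apply hfU1
    rw [← hT.iff, LinearEquiv.apply_symm_apply]
    exact hv
  obtain ⟨xc, hxc, -⟩ := hCv.ex
  have hNC : NoCtr ℓ (IsLocalRing.ResidueField W) := noCtr hCv.ac hCv.fg hxc
  have hUC := Tr.uc hΘ (exists_neg hk) (exists_neg hl) hϖ hT hNC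
  have hOtop : O ≠ ⊤ := by
    intro htop
    have h1 : Θ (cl ℓ ϖ) ∈ UC ℓ O := by
      obtain ⟨z, hz0, hz⟩ := cl_surj ℓ (Θ (cl ℓ ϖ))
      rw [← hz]
      refine cl_mem_UC (apc_val_one.2 ⟨hz0, ?_, ?_⟩)
      · rw [htop]; exact ValuationSubring.mem_top _
      · rw [htop]; exact ValuationSubring.mem_top _
    have h2 := (hUC _).1 h1
    rw [LinearEquiv.symm_apply_apply, hϖ.fn_self ℓ] at h2
    exact one_ne_zero h2
  have hres : ∃ c : IsLocalRing.ResidueField O, c ∉ bar (hfl.triv O) := by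
    by_contra hcon
    push Not at hcon
    have hac : IsAlgClosed (bar (hfl.triv O)) := bar_isAlgClosed (hfl.triv O) hl
    apply hhne
    refine LinearMap.ext fun v => ?_
    obtain ⟨c, hc0, hc⟩ := cl_surj ℓ (Θ' v)
    have h1 : Θ' v = 0 := by
      rw [← hc]
      exact line_cl_const hac (hcon c)
    have h2 : v = 0 := by
      rw [← Θ'.symm_apply_apply v, h1, map_zero]
    rw [h2, map_zero, map_zero]
  obtain ⟨⟨ϖ', hϖ'⟩, hCvO, -⟩ := hL.val hl hfgl (hfl.triv O) hOtop hres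
  -- step 4
  have hf'ne : f' ≠ 0 := by
    intro h0
    rw [h0, LinearMap.zero_apply] at hf'π
    exact zero_ne_one hf'π
  have hle : O' ≤ O := apc_le hϖ' f' hf'U1 hf'O' hf'ne
  -- step 5
  have hneO : ¬ O ≤ O' := by
    intro hcon
    have h1 : O' = O := le_antisymm hle hcon
    have h2 : Θ (cl ℓ π) ∈ UC ℓ O := by
      rw [hUC, LinearEquiv.symm_apply_apply]
      exact hϖ.fn_unit ℓ π hπ
    obtain ⟨z, hz, hz'⟩ := h2
    rw [hz', hf'O' z (by rw [h1]; exact hz)] at hf'π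
    exact zero_ne_one hf'π
  -- step 6
  haveI : PerfectField (IsLocalRing.ResidueField O) := rs_perfect (hfl.triv O)
  haveI : NeZero (ℓ : IsLocalRing.ResidueField O) := rs_neZero (hfl.triv O)
  have hQ : apc_resVal hle ∈ Plc (bar (hfl.triv O)) := by
    refine ⟨?_, ?_⟩
    · intro c hc
      obtain ⟨e, he, rfl⟩ := (mem_bar (hfl.triv O)).1 hc
      exact ⟨e, hfl.triv O' e he, rfl⟩
    · intro htop
      apply hneO
      intro z hz
      rw [← apc_mem_resVal hle hz, htop]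
      exact ValuationSubring.mem_top _
  refine ⟨apc_resVal hle, hQ, ?_⟩
  obtain ⟨h', hh'⟩ := apc_exists_ind O f' hf'U1
  have hh'Q : ∀ c, (apc_resVal hle).valuation c = 1 → h' (cl ℓ c) = 0 := by
    intro c hc
    obtain ⟨z, hz, rfl⟩ := rs_surj c
    obtain ⟨h1, h2, h3⟩ := apc_val_one.1 hc
    have hz1 : O.valuation z = 1 := (rs_ne_zero hz).1 h1
    obtain ⟨h4, -, h5⟩ := apc_val_one.1 hz1
    rw [hh' z hz1]
    rw [← rs_inv hz1] at h3
    exact hf'O' z (apc_val_one.2 ⟨h4, (apc_mem_resVal hle hz).1 h2, (apc_mem_resVal hle h5).1 h3⟩)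
  have hcomp : ∀ v, h' (Θ' v) = h v := by
    intro v
    obtain ⟨c, hc0, rfl⟩ := cl_surj ℓ v
    obtain ⟨z, hz, rfl⟩ := rs_surj c
    have hz1 : W.valuation z = 1 := (rs_ne_zero hz).1 hc0
    have h1 : Θ (cl ℓ z) ∈ UC ℓ O := by
      rw [hUC, LinearEquiv.symm_apply_apply]
      exact hϖ.fn_unit ℓ z hz1
    obtain ⟨z', hz', hzz⟩ := h1
    rw [hΘ' z z' hz1 hz' hzz, hh' z' hz', hf'a, ← hzz, LinearEquiv.symm_apply_apply, hh z hz1]
  have hh'ne : h' ≠ 0 := by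
    intro h0
    apply hhne
    refine LinearMap.ext fun v => ?_
    rw [← hcomp, h0, LinearMap.zero_apply, LinearMap.zero_apply]
  obtain ⟨⟨πQ, hπQ⟩, -⟩ := hCvO.place hQ
  have hkerQ := apc_ker_of_unif hπQ h' hh'Q hh'ne
  intro v
  rw [hkerQ, hkerP, hcomp]

end Vale.Agent.P019P
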