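import Vale.Agent.P019Q.Res
import Vale.Agent.P019Q.Curve

/-!
# Uniform bounds for the residue curves of a pencil
-/

namespace Vale.Agent.P019P

open Vale.Agent.P019

set_option linter.style.haveILetI false
set_option linter.unusedSectionVars false

open Polynomial Filter

section apdalg

/-- degree of an element satisfying an equation. -/
theorem apd_minpoly {E L : Type*} [Field E] [Field L] [Algebra E L] {x : L} {n : ℕ} {a : ℕ → E}
    (h0 : ∃ i ∈ Finset.range (n + 1), a i ≠ 0)
    (h : ∑ i ∈ Finset.range (n + 1), algebraMap E L (a i) * x ^ i = 0) :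
    IsAlgebraic E x ∧ (minpoly E x).natDegree ≤ n := by
  set p : E[X] := ∑ i ∈ Finset.range (n + 1), C (a i) * X ^ i with hp
  have hcoef : ∀ i ∈ Finset.range (n + 1), p.coeff i = a i := by
    intro i hi
    rw [hp, finsetSum_coeff]
    simp only [coeff_C_mul_X_pow]
    rw [Finset.sum_eq_single i]
    · rw [if_pos rfl]
    · intro j _ hj
      rw [if_neg (Ne.symm hj)]
    · intro hi'
      exact absurd hi hi'
  have hp0 : p ≠ 0 := by
    obtain ⟨i, hi, hai⟩ := h0
    intro h1
    apply hai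
    rw [← hcoef i hi, h1, coeff_zero]
  have hpr : aeval x p = 0 := by
    rw [hp, map_sum, ← h]
    refine Finset.sum_congr rfl fun i _ => ?_
    rw [map_mul, aeval_C, map_pow, aeval_X]
  have hpd : p.natDegree ≤ n := by
    refine natDegree_sum_le_of_forall_le _ _ fun i hi => ?_
    refine (natDegree_C_mul_X_pow_le _ _).trans ?_
    have := Finset.mem_range.1 hi
    omega
  refine ⟨⟨p, hp0, hpr⟩, ?_⟩
  exact (natDegree_le_of_dvd (minpoly.dvd E x hpr) hp0).trans hpd

/-- polynomial expressions in a non-constant element. -/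
theorem apd_ne_zero {L : Type*} [Field L] {k : Subfield L} (hk : RAC k) {x : L} (hx : x ∉ k)
    {n : ℕ} {a : ℕ → L} (ha : ∀ i, a i ∈ k) (h0 : ∃ i ∈ Finset.range (n + 1), a i ≠ 0) :
    ∑ i ∈ Finset.range (n + 1), a i * x ^ i ≠ 0 := by
  intro h
  apply hx
  apply hk
  refine (apd_minpoly (E := k) (a := fun i => ⟨a i, ha i⟩) (n := n) ?_ h).1
  obtain ⟨i, hi, hai⟩ := h0
  exact ⟨i, hi, fun h1 => hai (congrArg Subtype.val h1)⟩

theorem apd_deg {L : Type*} [Field L] [PerfectField L] {k : Subfield L} (hk : RAC k) {x y z : L}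
    (hx : x ∉ k) (hz : z ∉ k) (htop : adj (adj k x) y = ⊤) {m n : ℕ} {c d : ℕ → ℕ → L}
    (hc : ∀ i j, c i j ∈ k) (hd : ∀ i j, d i j ∈ k)
    (hc0 : ∃ i ∈ Finset.range (m + 1), ∃ j ∈ Finset.range (m + 1), c i j ≠ 0)
    (hd0 : ∃ i ∈ Finset.range (n + 1), ∃ j ∈ Finset.range (n + 1), d i j ≠ 0)
    (hcr : ∑ i ∈ Finset.range (m + 1), ∑ j ∈ Finset.range (m + 1), c i j * x ^ i * z ^ j = 0)
    (hdr : ∑ i ∈ Finset.range (n + 1), ∑ j ∈ Finset.range (n + 1), d i j * x ^ i * y ^ j = 0) :
    Module.finrank (adj k z) L ≤ m * n := by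
  set E : Subfield L := adj k z with hE
  haveI : PerfectField E := perfect_adj _ _
  -- the degree of `x`
  have h1 : IsAlgebraic E x ∧ (minpoly E x).natDegree ≤ m := by
    have hmem : ∀ i, ∑ j ∈ Finset.range (m + 1), c i j * z ^ j ∈ E := fun i =>
      Subfield.sum_mem _ fun j _ => E.mul_mem (le_adj k z (hc i j)) (E.pow_mem (mem_adj k z) j)
    refine apd_minpoly (n := m) (a := fun i => ⟨_, hmem i⟩) ?_ ?_
    · obtain ⟨i, hi, hij⟩ := hc0
      refine ⟨i, hi, fun h => ?_⟩
      exact apd_ne_zero hk hz (fun j => hc i j) hij (congrArg Subtype.val h)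
    · rw [← hcr]
      refine Finset.sum_congr rfl fun i _ => ?_
      change (∑ j ∈ Finset.range (m + 1), c i j * z ^ j) * x ^ i = _
      rw [Finset.sum_mul]
      refine Finset.sum_congr rfl fun j _ => ?_
      ring
  set L₂ : IntermediateField E L := IntermediateField.adjoin E {x} with hL₂
  haveI hL2alg : Algebra.IsAlgebraic E L₂ :=
    IntermediateField.isAlgebraic_adjoin_simple h1.1.isIntegral
  haveI : PerfectField L₂ := Algebra.IsAlgebraic.perfectField (K := E) (L := L₂)
  haveI : PerfectField L₂.toSubfield := inferInstanceAs (PerfectField L₂)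
  have hf1 : Module.finrank E L₂ ≤ m := by
    rw [hL₂, IntermediateField.adjoin.finrank h1.1.isIntegral]
    exact h1.2
  have hkx : adj k x ≤ L₂.toSubfield := by
    refine adj_le ?_ ?_
    · intro e he
      exact L₂.algebraMap_mem ⟨e, le_adj k z he⟩
    · exact IntermediateField.mem_adjoin_simple_self E x
  have h2 : IsAlgebraic L₂ y ∧ (minpoly L₂ y).natDegree ≤ n := by
    have hmem : ∀ j, ∑ i ∈ Finset.range (n + 1), d i j * x ^ i ∈ L₂ := fun j =>
      hkx (Subfield.sum_mem _ fun i _ => (adj k x).mul_mem (le_adj k x (hd i j))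
        ((adj k x).pow_mem (mem_adj k x) i))
    refine apd_minpoly (n := n) (a := fun i => ⟨_, hmem i⟩) ?_ ?_
    · obtain ⟨i, hi, j, hj, hij⟩ := hd0
      refine ⟨j, hj, fun h => ?_⟩
      exact apd_ne_zero hk hx (fun i => hd i j) ⟨i, hi, hij⟩ (congrArg Subtype.val h)
    · rw [← hdr, Finset.sum_comm]
      refine Finset.sum_congr rfl fun j _ => ?_
      change (∑ i ∈ Finset.range (n + 1), d i j * x ^ i) * y ^ j = _
      rw [Finset.sum_mul]
  have h3 : IntermediateField.adjoin L₂ {y} = ⊤ := by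
    set L₃ : IntermediateField L₂ L := IntermediateField.adjoin L₂ {y} with hL₃
    haveI hL3alg : Algebra.IsAlgebraic L₂ L₃ :=
      IntermediateField.isAlgebraic_adjoin_simple h2.1.isIntegral
    haveI : PerfectField L₃ := Algebra.IsAlgebraic.perfectField (K := L₂) (L := L₃)
    haveI : PerfectField L₃.toSubfield := inferInstanceAs (PerfectField L₃)
    have h4 : adj (adj k x) y ≤ L₃.toSubfield := by
      refine adj_le ?_ ?_
      · intro e he
        exact L₃.algebraMap_mem ⟨e, hkx he⟩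
      · exact IntermediateField.mem_adjoin_simple_self L₂ y
    rw [htop] at h4
    rw [eq_top_iff]
    intro e _
    exact h4 (Subfield.mem_top e)
  have hf2 : Module.finrank L₂ L ≤ n := by
    have h4 := IntermediateField.adjoin.finrank h2.1.isIntegral
    rw [h3, IntermediateField.finrank_top'] at h4
    rw [h4]
    exact h2.2
  rw [← Module.finrank_mul_finrank E L₂ L]
  exact Nat.mul_le_mul hf1 hf2

end apdalg

section apdrel

variable {K : Type*} [Field K]

theorem apd_mvp {k : Subfield K} {t s w : K} (hw : IsAlgebraic (adj (adj k s) t) w) :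
    ∃ p : MvPolynomial (Fin 3) k, p ≠ 0 ∧
      ∑ d ∈ p.support, ((p.coeff d : k) : K) * (t ^ d 0 * s ^ d 1 * w ^ d 2) = 0 := by
  have h1 : IsAlgebraic (IntermediateField.adjoin k {t, s}).toSubfield w := by
    set F0 : Subfield K := (IntermediateField.adjoin k {t, s}).toSubfield with hF0
    have hk : k ≤ F0 := fun e he => (IntermediateField.adjoin k {t, s}).algebraMap_mem ⟨e, he⟩
    have hs : s ∈ F0 := IntermediateField.subset_adjoin k {t, s} (by simp)
    have ht : t ∈ F0 := IntermediateField.subset_adjoin k {t, s} (by simp)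
    have h2 : adj k s ≤ pf F0 := pf_mono (Vale.Agent.P019.adj_le hk hs)
    have h3 : adj (adj k s) t ≤ pf F0 := by
      have h4 := pf_mono (Vale.Agent.P019.adj_le h2 (le_pf F0 ht))
      rw [pf_pf] at h4
      exact h4
    exact isAlgebraic_pf.1 (isAlgebraic_mono h3 hw)
  have h2 : IsAlgebraic (Algebra.adjoin k {t, s}) w :=
    IntermediateField.isAlgebraic_adjoin_iff.1 h1
  by_contra hcon
  push Not at hcon
  have h3 : AlgebraicIndependent k ![t, s, w] := by
    rw [algebraicIndependent_iff]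
    intro p hp
    by_contra hp0
    apply hcon p hp0
    rw [MvPolynomial.aeval_def, MvPolynomial.eval₂_eq'] at hp
    rw [← hp]
    refine Finset.sum_congr rfl fun d _ => ?_
    rw [Fin.prod_univ_three]
    rfl
  have h4 := h3.transcendental_adjoin (s := {0, 1}) (i := 2) (by decide)
  apply h4
  have h5 : (![t, s, w] : Fin 3 → K) '' {0, 1} = {t, s} := by
    rw [Set.image_pair]
    rfl
  rw [h5]
  exact h2

/-- the reduction of an algebraic relation. -/
theorem apd_rel {k : Subfield K} {t s w : K} (hw : IsAlgebraic (adj (adj k s) t) w) :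
    ∃ m : ℕ, ∀ᶠ b in ae k, ∀ (W : ValuationSubring K) (hW : TrivOn W k),
      W.valuation (t - b) < 1 → t ∈ W → s ∈ W → w ∈ W →
      ∃ c : ℕ → ℕ → IsLocalRing.ResidueField W, (∀ i j, c i j ∈ bar hW) ∧
        (∃ i ∈ Finset.range (m + 1), ∃ j ∈ Finset.range (m + 1), c i j ≠ 0) ∧
        ∑ i ∈ Finset.range (m + 1), ∑ j ∈ Finset.range (m + 1),
          c i j * rs W s ^ i * rs W w ^ j = 0 := by
  classical
  obtain ⟨p, hp0, hp⟩ := apd_mvp hw
  set m : ℕ := p.support.sup (fun d => max (d 1) (d 2)) with hm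
  have hd1 : ∀ d ∈ p.support, d 1 ∈ Finset.range (m + 1) := fun d hd => by
    have := Finset.le_sup (f := fun d : Fin 3 →₀ ℕ => max (d 1) (d 2)) hd
    rw [Finset.mem_range]
    have h2 : d 1 ≤ max (d 1) (d 2) := le_max_left _ _
    omega
  have hd2 : ∀ d ∈ p.support, d 2 ∈ Finset.range (m + 1) := fun d hd => by
    have := Finset.le_sup (f := fun d : Fin 3 →₀ ℕ => max (d 1) (d 2)) hd
    rw [Finset.mem_range]
    have h2 : d 2 ≤ max (d 1) (d 2) := le_max_right _ _
    omega
  obtain ⟨e, he⟩ := (MvPolynomial.support_nonempty).2 hp0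
  -- the coefficients as polynomials in `t`
  let P : ℕ → ℕ → k[X] := fun i j => ∑ d ∈ p.support with (d 1 = i ∧ d 2 = j),
    C (p.coeff d) * X ^ (d 0)
  have hP : P (e 1) (e 2) ≠ 0 := by
    intro h0
    have h1 := congrArg (fun q => q.coeff (e 0)) h0
    simp only [P, finsetSum_coeff, coeff_C_mul_X_pow, coeff_zero] at h1
    rw [Finset.sum_eq_single e] at h1
    · rw [if_pos rfl] at h1
      exact (MvPolynomial.mem_support_iff.1 he) h1
    · intro d hd hde
      rw [Finset.mem_filter] at hd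
      rw [if_neg]
      intro h2
      apply hde
      ext i
      fin_cases i
      · exact h2.symm
      · exact hd.2.1
      · exact hd.2.2
    · intro h2
      exact absurd (Finset.mem_filter.2 ⟨he, rfl, rfl⟩) h2
  refine ⟨m, ?_⟩
  have hev : ∀ᶠ b in ae k, ∃ hb : b ∈ k, (P (e 1) (e 2)).eval ⟨b, hb⟩ ≠ 0 := by
    refine frb_ae ?_
    filter_upwards [eval_ne_zero_ae hP] with b hb
    exact ⟨b.2, hb⟩
  filter_upwards [hev] with b hb W hW hlt htW hsW hwW
  obtain ⟨hbk, hb0⟩ := hb
  have hbW : b ∈ W := hW b hbk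
  have hres : ∀ q : k, rs W (q : K) = barHom hW q := fun q => rfl
  let c : ℕ → ℕ → k := fun i j => (P i j).eval ⟨b, hbk⟩
  refine ⟨fun i j => rs W (c i j : K), fun i j => rs_mem_bar hW (c i j).2,
    ⟨e 1, hd1 e he, e 2, hd2 e he, ?_⟩, ?_⟩
  · intro h0
    have h1 : barHom hW (c (e 1) (e 2)) = 0 := h0
    exact hb0 ((map_eq_zero _).1 h1)
  · have hrt : rs W t = rs W b := (rs_eq htW hbW).2 hlt
    have h1 : rs W (∑ d ∈ p.support, ((p.coeff d : k) : K) * (t ^ d 0 * s ^ d 1 * w ^ d 2)) =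
        ∑ d ∈ p.support, rs W ((p.coeff d : k) : K) * (rs W b ^ d 0 * rs W s ^ d 1 * rs W w ^ d 2) := by
      have hgen : ∀ S : Finset (Fin 3 →₀ ℕ),
          (∑ d ∈ S, ((p.coeff d : k) : K) * (t ^ d 0 * s ^ d 1 * w ^ d 2)) ∈ W ∧
          rs W (∑ d ∈ S, ((p.coeff d : k) : K) * (t ^ d 0 * s ^ d 1 * w ^ d 2)) =
          ∑ d ∈ S, rs W ((p.coeff d : k) : K) * (rs W b ^ d 0 * rs W s ^ d 1 * rs W w ^ d 2) := by
        intro S
        induction S using Finset.induction_on with
        | empty =>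
          refine ⟨?_, ?_⟩
          · rw [Finset.sum_empty]; exact W.zero_mem
          · rw [Finset.sum_empty, Finset.sum_empty, rs_zero]
        | insert d S hd ih =>
          have hm1 : t ^ d 0 * s ^ d 1 * w ^ d 2 ∈ W :=
            mul_mem (mul_mem (pow_mem htW _) (pow_mem hsW _)) (pow_mem hwW _)
          have hm2 : ((p.coeff d : k) : K) * (t ^ d 0 * s ^ d 1 * w ^ d 2) ∈ W :=
            mul_mem (hW _ (p.coeff d).2) hm1
          refine ⟨?_, ?_⟩
          · rw [Finset.sum_insert hd]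
            exact add_mem hm2 ih.1
          · rw [Finset.sum_insert hd, Finset.sum_insert hd, rs_add hm2 ih.1, ih.2,
              rs_mul (hW _ (p.coeff d).2) hm1,
              rs_mul (mul_mem (pow_mem htW _) (pow_mem hsW _)) (pow_mem hwW _),
              rs_mul (pow_mem htW _) (pow_mem hsW _), rs_pow htW, rs_pow hsW, rs_pow hwW, hrt]
      exact (hgen _).2
    rw [hp, rs_zero] at h1
    have h2 : ∀ i j, rs W (c i j : K) = ∑ d ∈ p.support,
        if d 1 = i ∧ d 2 = j then rs W ((p.coeff d : k) : K) * rs W b ^ d 0 else 0 := by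
      intro i j
      rw [hres]
      simp only [c, P, eval_finsetSum, eval_mul, eval_C, eval_pow, eval_X, map_sum, map_mul,
        map_pow]
      rw [Finset.sum_filter]
      rfl
    rw [h1]
    simp only [h2, Finset.sum_mul]
    rw [Finset.sum_congr rfl fun i _ => Finset.sum_comm, Finset.sum_comm]
    refine Finset.sum_congr rfl fun d hd => ?_
    rw [Finset.sum_eq_single (d 1), Finset.sum_eq_single (d 2)]
    · rw [if_pos ⟨rfl, rfl⟩]
      ring
    · intro j _ hj
      rw [if_neg (fun h => hj h.2.symm), zero_mul, zero_mul]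
    · intro h
      exact absurd (hd2 d hd) h
    · intro i _ hi
      refine Finset.sum_eq_zero fun j _ => ?_
      rw [if_neg (fun h => hi h.1.symm), zero_mul, zero_mul]
    · intro h
      exact absurd (hd1 d hd) h

end apdrel

section apdres

variable {K : Type*} [Field K] [PerfectField K]

/-- the residue field is generated by the residues of `s` and `θ`. -/
theorem apd_top {k : Subfield K} {W : ValuationSubring K} {π s θ : K}
    (hN : Nice W (adj k s) π θ) (hW : TrivOn W k) :
    adj (adj (bar hW) (rs W s)) (rs W θ) = ⊤ := by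
  rw [eq_top_iff, ← bar_adj hW hN.triv]
  intro c _
  obtain ⟨z, hz, rfl⟩ := rs_surj c
  obtain ⟨P, Q, hQ, hPQ⟩ := hN.res z ((W.valuation_le_one_iff z).2 hz)
  have hmem : ∀ R : (adj k s)[X], aeval θ R ∈ W := fun R =>
    aeval_mem hN.mem (fun i => hN.triv _ (R.coeff i).2)
  have hin : ∀ R : (adj k s)[X], rs W (aeval θ R) ∈ adj (bar hN.triv) (rs W θ) := by
    intro R
    rw [rs_aeval hN.triv hN.mem]
    exact adj0_le_adj _ _ (frp_aeval_mem _ _)
  have h1 : rs W z * rs W (aeval θ Q) = rs W (aeval θ P) := by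
    rw [← rs_mul hz (hmem Q), rs_eq (mul_mem hz (hmem Q)) (hmem P)]
    exact hPQ
  have hQ0 : rs W (aeval θ Q) ≠ 0 := (rs_ne_zero (hmem Q)).2 hQ
  rw [eq_div_of_mul_eq hQ0 h1]
  exact Subfield.div_mem _ (hin P) (hin Q)

/-- the residue of `s` is not constant. -/
theorem apd_notMem {k : Subfield K} {W : ValuationSubring K} {s : K} (hs : ¬ IsAlgebraic k s)
    (hF : TrivOn W (adj k s)) (hW : TrivOn W k) : rs W s ∉ bar hW := by
  intro h
  obtain ⟨e, he, hes⟩ := (mem_bar hW).1 h
  have h1 : e = s := rs_injOn hF (le_adj k s he) (mem_adj k s) hes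
  exact hs (isAlgebraic_of_mem (h1 ▸ he))

end apdres

variable {K : Type*} [Field K] [PerfectField K] {ℓ : ℕ} [Fact ℓ.Prime] [NeZero (ℓ : K)]

/-- the residue fields `κ(W)`, `W` over `t = b`, have bounded degree over `k(s)` and over `k(z)`. -/
theorem Srf.deg_le {k : Subfield K} (hk : IsAlgClosed k) (hfg : FG k (⊤ : Subfield K)) {t s : K}
    (hS : Srf k t s) {z : K} (hz : z ≠ 0) :
    ∃ M : ℕ, ∀ᶠ b in ae k, ∀ W : ValuationSubring K, Over W (adj k s) t b →
      W.valuation z = 1 ∧ ∀ hW : TrivOn W k, rs W z ∉ bar hW →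
        Module.finrank (adj (bar hW) (rs W z)) (IsLocalRing.ResidueField W) ≤ M := by
  obtain ⟨θ, hθ⟩ := Frame.nice hS hfg
  obtain ⟨m, hm⟩ := apd_rel (hS.alg z)
  obtain ⟨n, hn⟩ := apd_rel (hS.alg θ)
  refine ⟨m * n, ?_⟩
  filter_upwards [ae_mono (le_adj k s) hθ, ae_mono (le_adj k s) (Frame.unit hS hz), hm, hn,
    ae_mem k] with b h1 h2 h3 h4 hbk W hO
  have hN := h1 W hO
  have hzv := h2 W hO
  refine ⟨hzv, fun hW hzb => ?_⟩
  have htW : t ∈ W := hO.mem (le_adj k s hbk)
  have hsW : s ∈ W := hO.triv _ (mem_adj k s)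
  obtain ⟨c, hc, hc0, hcr⟩ := h3 W hW hO.lt htW hsW (mem_of_val hzv)
  obtain ⟨d, hd, hd0, hdr⟩ := h4 W hW hO.lt htW hsW hN.mem
  haveI : PerfectField (IsLocalRing.ResidueField W) := rs_perfect hW
  exact apd_deg (RAC_of_isAlgClosed _ (bar_isAlgClosed hW hk)) (apd_notMem hS.ss hO.triv hW) hzb
    (apd_top hN hW) hc hd hc0 hd0 hcr hdr

/-- the genus of the residue fields is bounded. -/
theorem Srf.gen_le {k : Subfield K} (hk : IsAlgClosed k) (hfg : FG k (⊤ : Subfield K)) {t s : K}
    (hS : Srf k t s) :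
    ∃ G : ℕ, ∀ᶠ b in ae k, ∀ W : ValuationSubring K, Over W (adj k s) t b →
      ∀ (hW : TrivOn W k) (g : ℕ), CurveRH ℓ (bar hW) g → g ≤ G := by
  obtain ⟨θ, hθ⟩ := Frame.nice hS hfg
  obtain ⟨n, hn⟩ := apd_rel (hS.alg θ)
  refine ⟨n * n, ?_⟩
  filter_upwards [ae_mono (le_adj k s) hθ, hn, ae_mem k] with b h1 h4 hbk W hO hW g hC
  have hN := h1 W hO
  have htW : t ∈ W := hO.mem (le_adj k s hbk)
  have hsW : s ∈ W := hO.triv _ (mem_adj k s)
  obtain ⟨d, hd, hd0, hdr⟩ := h4 W hW hO.lt htW hsW hN.mem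
  exact hC.gb (rs W s) (rs W θ) (apd_notMem hS.ss hO.triv hW) (apd_top hN hW) n n d hd hd0 hdr

end Vale.Agent.P019P
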