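import Vale.Agent.P019Q.ApB
import Vale.Agent.P019Q.ApC
import Vale.Agent.P019Q.ApD

/-!
# The degree bound
-/

namespace Vale.Agent.P019P

open Vale.Agent.P019

set_option linter.style.haveILetI false
set_option linter.unusedSectionVars false

open Polynomial Filter

/-! ### two curves with corresponding places -/

section dbd

variable {F₁ F₂ : Type*} [Field F₁] [Field F₂] {ℓ : ℕ} [Fact ℓ.Prime]
  {k₁ : Subfield F₁} {k₂ : Subfield F₂} {Θ' : V ℓ F₁ ≃ₗ[ZMod ℓ] V ℓ F₂}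
  {T : Finset (ValuationSubring F₁)} {Q : ValuationSubring F₁ → ValuationSubring F₂}

/-- comparison of the numbers of classes with bounded ramification. -/
theorem dbd_count {g₁ g₂ : ℕ} (h₁ : CurveCard ℓ k₁ g₁) (h₂ : CurveCard ℓ k₂ g₂)
    (hT : ∀ P ∈ T, P ∈ Plc k₁)
    (hQ : ∀ P ∈ Plc k₁, P ∉ T → Q P ∈ Plc k₂ ∧ ∀ v, Θ' v ∈ UC ℓ (Q P) ↔ v ∈ UC ℓ P)
    (T' : Finset (ValuationSubring F₂)) (hT' : ∀ O ∈ T', O ∈ Plc k₂ ∧
      ∀ P ∈ Plc k₁, P ∉ T → Q P ≠ O) :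
    2 * g₂ + (T'.card - 1) ≤ 2 * g₁ + (T.card - 1) := by
  have e1 := h₁ T hT
  have e2 := h₂ T' fun O hO => (hT' O hO).1
  have hℓ : 2 ≤ ℓ := (Fact.out : ℓ.Prime).two_le
  have hfin : Finite {v : V ℓ F₁ // ∀ O ∈ Plc k₁, O ∉ T → v ∈ UC ℓ O} := by
    apply Nat.finite_of_card_ne_zero
    rw [e1]
    exact pow_ne_zero _ (by omega)
  have hle : Nat.card {v : V ℓ F₂ // ∀ O ∈ Plc k₂, O ∉ T' → v ∈ UC ℓ O} ≤
      Nat.card {v : V ℓ F₁ // ∀ O ∈ Plc k₁, O ∉ T → v ∈ UC ℓ O} := by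
    refine Nat.card_le_card_of_injective (fun v => ⟨Θ'.symm v.1, fun P hP hPT => ?_⟩) ?_
    · obtain ⟨hQP, hv⟩ := hQ P hP hPT
      rw [← hv, LinearEquiv.apply_symm_apply]
      exact v.2 _ hQP fun h => (hT' _ h).2 P hP hPT rfl
    · intro v w hvw
      have h3 : Θ'.symm v.1 = Θ'.symm w.1 := congrArg Subtype.val hvw
      exact Subtype.ext (Θ'.symm.injective h3)
  rw [e1, e2] at hle
  exact (Nat.pow_le_pow_iff_right hℓ).1 hle

/-- the genera. -/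
theorem dbd_genus {g₁ g₂ : ℕ} (h₁ : CurveCard ℓ k₁ g₁) (h₂ : CurveCard ℓ k₂ g₂)
    (hT : ∀ P ∈ T, P ∈ Plc k₁)
    (hQ : ∀ P ∈ Plc k₁, P ∉ T → Q P ∈ Plc k₂ ∧ ∀ v, Θ' v ∈ UC ℓ (Q P) ↔ v ∈ UC ℓ P) :
    g₂ ≤ g₁ + T.card := by
  have h := dbd_count h₁ h₂ hT hQ ∅ fun O hO => absurd hO (Finset.notMem_empty O)
  rw [Finset.card_empty] at h
  omega

/-- the places which do not correspond. -/
theorem dbd_rest {g₁ g₂ : ℕ} (h₁ : CurveCard ℓ k₁ g₁) (h₂ : CurveCard ℓ k₂ g₂)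
    (hT : ∀ P ∈ T, P ∈ Plc k₁)
    (hQ : ∀ P ∈ Plc k₁, P ∉ T → Q P ∈ Plc k₂ ∧ ∀ v, Θ' v ∈ UC ℓ (Q P) ↔ v ∈ UC ℓ P) :
    {O : ValuationSubring F₂ | O ∈ Plc k₂ ∧ ∀ P ∈ Plc k₁, P ∉ T → Q P ≠ O}.encard ≤
      (2 * g₁ + T.card + 1 : ℕ) := by
  by_contra hcon
  push Not at hcon
  obtain ⟨t, hts, htc⟩ := Set.exists_subset_encard_eq
    (k := ((2 * g₁ + T.card + 2 : ℕ) : ℕ∞)) (Order.add_one_le_of_lt hcon)
  have hfin : t.Finite := Set.finite_of_encard_eq_coe htc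
  have h := dbd_count h₁ h₂ hT hQ hfin.toFinset fun O hO => hts (hfin.mem_toFinset.1 hO)
  have h3 : hfin.toFinset.card = 2 * g₁ + T.card + 2 := by
    have h4 : (hfin.toFinset.card : ℕ∞) = t.encard := (hfin.encard_eq_coe_toFinset_card).symm
    rw [htc] at h4
    exact_mod_cast h4
  omega

/-- inverse of a generator. -/
theorem dbd_adj_inv {F : Type*} [Field F] [PerfectField F] (E : Subfield F) (x : F) :
    adj E x⁻¹ = adj E x := by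
  have key : ∀ z : F, adj E z⁻¹ ≤ adj E z := by
    intro z
    haveI : PerfectField (adj E z) := perfect_of_pf_le (by
      unfold adj
      rw [pf_pf])
    exact adj_le (le_adj E z) ((adj E z).inv_mem (mem_adj E z))
  refine le_antisymm (key x) ?_
  have h := key x⁻¹
  rwa [inv_inv] at h

/-- the non-units of a function. -/
theorem dbd_nonunit {F : Type*} [Field F] [PerfectField F] [NeZero (ℓ : F)] {k : Subfield F}
    (h : Cv k) {y : F} (hy0 : y ≠ 0) {M : ℕ} (hM : y ∉ k → Module.finrank (adj k y) F ≤ M) :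
    {P : ValuationSubring F | P ∈ Plc k ∧ cl ℓ y ∉ UC ℓ P}.encard ≤ (2 * M : ℕ) := by
  by_cases hy : y ∈ k
  · have h0 : {P : ValuationSubring F | P ∈ Plc k ∧ cl ℓ y ∉ UC ℓ P} = ∅ := by
      rw [Set.eq_empty_iff_forall_notMem]
      rintro P ⟨hP, hc⟩
      apply hc
      exact ⟨y, hP.1.eq_one hy hy0, rfl⟩
    rw [h0, Set.encard_empty]
    exact zero_le
  · have h1 := h.fib_card hy
    have hy' : y⁻¹ ∉ k := fun h2 => hy (by simpa using k.inv_mem h2)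
    have h2 := h.fib_card hy'
    rw [dbd_adj_inv] at h2
    have hsub : {P : ValuationSubring F | P ∈ Plc k ∧ cl ℓ y ∉ UC ℓ P} ⊆
        {O : ValuationSubring F | O ∈ Plc k ∧ O.valuation y < 1} ∪
          {O : ValuationSubring F | O ∈ Plc k ∧ O.valuation y⁻¹ < 1} := by
      rintro P ⟨hP, hc⟩
      rcases lt_trichotomy (P.valuation y) 1 with h3 | h3 | h3
      · exact Or.inl ⟨hP, h3⟩
      · exact absurd ⟨y, h3, rfl⟩ hc
      · refine Or.inr ⟨hP, ?_⟩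
        rw [map_inv₀]
        exact inv_lt_one_of_one_lt₀ h3
    refine (Set.encard_le_encard hsub).trans ((Set.encard_union_le _ _).trans ?_)
    rw [← h1.1.cast_ncard_eq, ← h2.1.cast_ncard_eq]
    have h5 := h1.2.trans (hM hy)
    have h6 := h2.2.trans (hM hy)
    exact_mod_cast (by omega : _ ≤ 2 * M)

/-- the degree bound for two curves with corresponding places. -/
theorem dbd_abs [PerfectField F₁] [NeZero (ℓ : F₁)] {g₁ g₂ : ℕ} (hcv : Cv k₁)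
    (h₁ : CurveCard ℓ k₁ g₁) (h₂ : CurveCard ℓ k₂ g₂) (hrh : CurveRH ℓ k₂ g₂)
    (hT : ∀ P ∈ T, P ∈ Plc k₁)
    (hQ : ∀ P ∈ Plc k₁, P ∉ T → Q P ∈ Plc k₂ ∧ ∀ v, Θ' v ∈ UC ℓ (Q P) ↔ v ∈ UC ℓ P)
    {x : F₂} (hx : x ∉ k₂) (s : Finset F₂) (hs : ∀ c ∈ s, c ∈ k₂) (hs5 : s.card = 5) {M : ℕ}
    (hy : ∀ c ∈ s, ∃ y : F₁, y ≠ 0 ∧ Θ' (cl ℓ y) = cl ℓ (x - c) ∧
      (y ∉ k₁ → Module.finrank (adj k₁ y) F₁ ≤ M)) :
    Module.finrank (adj k₂ x) F₂ ≤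
      4 * (g₁ + T.card) + 5 * (2 * M + (2 * g₁ + T.card + 1)) := by
  refine (hrh.rh x hx (2 * M + (2 * g₁ + T.card + 1)) s hs hs5 fun c hc => ?_).trans ?_
  · obtain ⟨y, hy0, hyc, hyM⟩ := hy c hc
    have hsub : {O : ValuationSubring F₂ | O ∈ Plc k₂ ∧ O.valuation (x - c) < 1 ∧
        cl ℓ (x - c) ∉ UC ℓ O} ⊆
        Q '' {P : ValuationSubring F₁ | P ∈ Plc k₁ ∧ cl ℓ y ∉ UC ℓ P} ∪
          {O : ValuationSubring F₂ | O ∈ Plc k₂ ∧ ∀ P ∈ Plc k₁, P ∉ T → Q P ≠ O} := by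
      rintro O ⟨hO, -, hOc⟩
      by_cases h : ∀ P ∈ Plc k₁, P ∉ T → Q P ≠ O
      · exact Or.inr ⟨hO, h⟩
      · left
        push Not at h
        obtain ⟨P, hP, hPT, rfl⟩ := h
        refine ⟨P, ⟨hP, fun hcP => hOc ?_⟩, rfl⟩
        rw [← hyc, (hQ P hP hPT).2]
        exact hcP
    refine (Set.encard_le_encard hsub).trans ((Set.encard_union_le _ _).trans ?_)
    rw [Nat.cast_add]
    exact add_le_add ((Set.encard_image_le _ _).trans (dbd_nonunit hcv hy0 hyM))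
      (dbd_rest h₁ h₂ hT hQ)
  · have h3 := dbd_genus h₁ h₂ hT hQ
    omega

end dbd

variable {K L : Type*} [Field K] [Field L] [PerfectField K] [PerfectField L] {ℓ : ℕ}
  [Fact ℓ.Prime] [NeZero (ℓ : K)] [NeZero (ℓ : L)] {Θ : V ℓ K ≃ₗ[ZMod ℓ] V ℓ L}

theorem dbd_fin {K : Type*} [Field K] {k : Subfield K} (hk : Fin' k) {W : ValuationSubring K}
    (hW : TrivOn W k) : Fin' (bar hW) := by
  intro a ha ha0
  obtain ⟨e, he, rfl⟩ := (mem_bar hW).1 ha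
  have he0 : e ≠ 0 := by
    rintro rfl
    exact ha0 rs_zero
  obtain ⟨n, hn, h⟩ := hk e he he0
  exact ⟨n, hn, by rw [← rs_pow (hW e he), h, rs_one]⟩

theorem dbd_ne_top {W : ValuationSubring K} {π : K} {O : ValuationSubring L}
    (hT : Tr Θ W π O) (hW : IsUnif W π) : O ≠ ⊤ := by
  rintro rfl
  refine hT.not_triv hW (E := ⊤) ?_ fun z _ => ValuationSubring.mem_top z
  obtain ⟨z, hz0, hz⟩ := cl_surj ℓ (Θ (cl ℓ π))
  rw [← hz]
  exact cl_mem_VS (Subfield.mem_top z)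

/-- the degree bound for a single valuation. -/
theorem dbd_point {k : Subfield K} (hk : IsAlgClosed k) (hfgk : FG k (⊤ : Subfield K))
    (hfk : Fin' k) {l : Subfield L} (hl : IsAlgClosed l) (hfgl : FG l (⊤ : Subfield L))
    (hfl : Fin' l) (hΘ : Compatible Θ) {x y : L} (hL : Srf l x y) {g : L}
    {W : ValuationSubring K} (hW : TrivOn W k) (hcv : Cv (bar hW)) {ϖ : K} (hϖ : IsUnif W ϖ)
    {O : ValuationSubring L} (hT : Tr Θ W ϖ O) (hOg : O.valuation g = 1)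
    (hgO : rs O g ∉ bar (hfl.triv O)) {τ G M : ℕ}
    (happr : ∃ T : Finset (ValuationSubring (IsLocalRing.ResidueField W)),
        T.card ≤ τ ∧ (∀ P ∈ T, P ∈ Plc (bar hW)) ∧ ∀ P ∈ Plc (bar hW), P ∉ T →
        ∃ (π : K) (F : ℕ → Subfield K) (Wn : ℕ → ValuationSubring K) (θ : ℕ → K),
          W.valuation π = 1 ∧ P.valuation (rs W π) < 1 ∧
          (∀ n, k ≤ F n ∧ FG k (F n) ∧ ¬ F n ≤ k ∧ Nice (Wn n) (F n) π (θ n)) ∧
          ∀ z : K, z ∈ compos W P → ∀ᶠ n in atTop, z ∈ Wn n)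
    (hG : ∀ g : ℕ, CurveRH ℓ (bar hW) g → g ≤ G) (s₀ : Finset L) (hs₀ : ∀ c ∈ s₀, c ∈ l)
    (hs5 : s₀.card = 5) (hy : ∀ c ∈ s₀, ∃ y : K, W.valuation y = 1 ∧
      Θ (cl ℓ y) = cl ℓ (g - c) ∧ (rs W y ∉ bar hW →
        Module.finrank (adj (bar hW) (rs W y)) (IsLocalRing.ResidueField W) ≤ M)) :
    Module.finrank (adj (bar (hfl.triv O)) (rs O g)) (IsLocalRing.ResidueField O) ≤
      4 * (G + τ) + 5 * (2 * M + (2 * G + τ + 1)) := by
  classical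
  haveI := rs_perfect hW
  haveI := rs_neZero (ℓ := ℓ) hW
  haveI := rs_perfect (hfl.triv O)
  haveI := rs_neZero (ℓ := ℓ) (hfl.triv O)
  obtain ⟨x₁, hx₁, -⟩ := hcv.ex
  have hNC : NoCtr ℓ (IsLocalRing.ResidueField W) := noCtr hcv.ac hcv.fg hx₁
  obtain ⟨Θ', hΘ', hres⟩ := Tr.res hΘ (exists_neg hk) (exists_neg hl) hϖ hT hNC
  obtain ⟨-, hcvO, -⟩ := Srf.val hl hfgl hL (hfl.triv O) (dbd_ne_top hT hϖ) ⟨_, hgO⟩
  obtain ⟨g₁, hrh1, hcc1⟩ := exists_curve (ℓ := ℓ) hcv (dbd_fin hfk hW)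
  obtain ⟨g₂, hrh2, hcc2⟩ := exists_curve (ℓ := ℓ) hcvO (dbd_fin hfl _)
  obtain ⟨T, hTτ, hT1, hT2⟩ := happr
  have hQ : ∀ P : ValuationSubring (IsLocalRing.ResidueField W),
      ∃ Q : ValuationSubring (IsLocalRing.ResidueField O), P ∈ Plc (bar hW) → P ∉ T →
        Q ∈ Plc (bar (hfl.triv O)) ∧ ∀ v, Θ' v ∈ UC ℓ Q ↔ v ∈ UC ℓ P := by
    intro P
    by_cases hP : P ∈ Plc (bar hW) ∧ P ∉ T
    · obtain ⟨π, F, Wn, θ, h1, h2, h3, h4⟩ := hT2 P hP.1 hP.2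
      obtain ⟨Q, hQ1, hQ2⟩ := place_transfer hk hfgk hl hfgl hfl hΘ hL hW hcv hϖ hT hres hP.1
        h1 h2 h3 h4
      exact ⟨Q, fun _ _ => ⟨hQ1, hQ2⟩⟩
    · exact ⟨⊤, fun h1 h2 => absurd ⟨h1, h2⟩ hP⟩
  choose Q hQ using hQ
  have hinj : Set.InjOn (rs O) (s₀ : Set L) := fun c hc c' hc' h =>
    rs_injOn (hfl.triv O) (hs₀ c hc) (hs₀ c' hc') h
  have key := dbd_abs (Θ' := Θ') hcv hcc1 hcc2 hrh2 hT1 hQ hgO (s₀.image (rs O))
    (fun c hc => by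
      obtain ⟨c', hc', rfl⟩ := Finset.mem_image.1 hc
      exact rs_mem_bar _ (hs₀ c' hc'))
    (by rw [Finset.card_image_of_injOn hinj, hs5]) (M := M)
    (fun c hc => by
      obtain ⟨c', hc', rfl⟩ := Finset.mem_image.1 hc
      obtain ⟨z, hz, hzc, hzM⟩ := hy c' hc'
      have hc'O : c' ∈ O := hfl.triv O c' (hs₀ c' hc')
      have hgc : O.valuation (g - c') = 1 := by
        rw [← rs_ne_zero (sub_mem (mem_of_val hOg) hc'O), rs_sub (mem_of_val hOg) hc'O,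
          sub_ne_zero]
        intro h
        exact hgO (h ▸ rs_mem_bar _ (hs₀ c' hc'))
      refine ⟨rs W z, (rs_ne_zero (mem_of_val hz)).2 hz, ?_, hzM⟩
      rw [hres z (g - c') hz hgc hzc, rs_sub (mem_of_val hOg) hc'O])
  have hg₁ := hG g₁ hrh1
  omega

/-- the degree bound. -/
theorem deg_bound {k : Subfield K} (hk : IsAlgClosed k) (hfgk : FG k (⊤ : Subfield K))
    (hfk : Fin' k) {l : Subfield L} (hl : IsAlgClosed l) (hfgl : FG l (⊤ : Subfield L))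
    (hfl : Fin' l) (hΘ : Compatible Θ) {t s : K} (hK : Srf k t s) {x y : L} (hL : Srf l x y)
    {g : L} (hg : g ∉ l) : ∃ d : ℕ, ∀ᶠ b in ae k, ∀ W : ValuationSubring K,
      Over W (adj k s) t b → ∀ O : ValuationSubring L, Tr Θ W (t - b) O → O.valuation g = 1 →
        rs O g ∉ bar (hfl.triv O) →
        Module.finrank (adj (bar (hfl.triv O)) (rs O g)) (IsLocalRing.ResidueField O) ≤ d := by
  classical
  -- constants
  obtain ⟨s₀, hs₀, hs₀5⟩ := (infinite_of_isAlgClosed hl).exists_subset_card_eq 5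
  have hy : ∀ c : L, ∃ z : K, z ≠ 0 ∧ cl ℓ z = Θ.symm (cl ℓ (g - c)) := fun c =>
    cl_surj ℓ _
  choose y' hy0 hyc using hy
  obtain ⟨τ, hτ⟩ := exists_appr hk hfgk hK
  obtain ⟨G, hG⟩ := Srf.gen_le (ℓ := ℓ) hk hfgk hK
  have hM := fun c : L => Srf.deg_le hk hfgk hK (hy0 c)
  choose M hM using hM
  refine ⟨4 * (G + τ) + 5 * (2 * (∑ c ∈ s₀, M c) + (2 * G + τ + 1)), ?_⟩
  have hMs : ∀ᶠ b in ae k, ∀ c ∈ s₀, ∀ W : ValuationSubring K, Over W (adj k s) t b →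
      W.valuation (y' c) = 1 ∧ ∀ hW : TrivOn W k, rs W (y' c) ∉ bar hW →
        Module.finrank (adj (bar hW) (rs W (y' c))) (IsLocalRing.ResidueField W) ≤ M c :=
    (Filter.eventually_all_finset s₀).2 fun c _ => hM c
  filter_upwards [hτ, hG, hMs, Srf.over hk hfgk hK] with b hτb hGb hMb hov W hW O hT hOg hgO
  obtain ⟨hunif, hWk, hcvW, hsW⟩ := hov W hW
  refine dbd_point hk hfgk hfk hl hfgl hfl hΘ hL hWk hcvW hunif hT hOg hgO (hτb W hW hWk)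
    (hGb W hW hWk) s₀ (fun c hc => hs₀ hc) hs₀5 fun c hc => ⟨y' c, (hMb c hc W hW).1, ?_, ?_⟩
  · rw [hyc, LinearEquiv.apply_symm_apply]
  · intro h
    exact ((hMb c hc W hW).2 hWk h).trans (Finset.single_le_sum (fun _ _ => Nat.zero_le _) hc)

end Vale.Agent.P019P
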