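import Vale.Agent.P019P.MobB
import Vale.Agent.P019P.Sigma1

/-!
# Coprime pairs which are twisted Moebius transformations
-/

namespace Vale.Agent.P019P

open Vale.Agent.P019

set_option linter.style.haveILetI false
set_option linter.unusedSectionVars false

open Polynomial Filter

section pair

variable {l : Type*} [Field l]

theorem bl_add_pow (a b : l) (m j : ℕ) :
    (C a * X ^ m + C b : l[X]) ^ (ringExpChar l) ^ j =
      C (a ^ (ringExpChar l) ^ j) * X ^ (m * (ringExpChar l) ^ j) +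
        C (b ^ (ringExpChar l) ^ j) := by
  haveI : ExpChar l[X] (ringExpChar l) := expChar_of_injective_ringHom (C_injective (R := l)) _
  rw [add_pow_expChar_pow, mul_pow, ← pow_mul, C_pow, C_pow]

theorem bl_frob_inj {p r : l[X]} {j : ℕ}
    (h : p ^ (ringExpChar l) ^ j = r ^ (ringExpChar l) ^ j) : p = r := by
  haveI : ExpChar l[X] (ringExpChar l) := expChar_of_injective_ringHom (C_injective (R := l)) _
  have h1 : (p - r) ^ (ringExpChar l) ^ j = 0 := by
    rw [sub_pow_expChar_pow, h, sub_self]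
  exact sub_eq_zero.1 ((pow_eq_zero_iff (pow_pos (expChar_pos l _) j).ne').1 h1)

theorem bl_coeff (x y : l) (M e : ℕ) : (C x * X ^ M + C y : l[X]).coeff e =
    (if e = M then x else 0) + (if e = 0 then y else 0) := by
  rw [coeff_add, coeff_C_mul, coeff_X_pow, coeff_C]
  split_ifs <;> simp

theorem bl_lin_coprime {A B C' D : l} (hdet : A * D - B * C' ≠ 0) (m : ℕ) :
    IsCoprime (C A * X ^ m + C B : l[X]) (C C' * X ^ m + C D) := by
  refine ⟨C (-C' / (A * D - B * C')), C (A / (A * D - B * C')), ?_⟩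
  have h1 : (C (-C' / (A * D - B * C')) * (C A * X ^ m + C B) +
      C (A / (A * D - B * C')) * (C C' * X ^ m + C D) : l[X]) =
      C (-C' / (A * D - B * C') * A + A / (A * D - B * C') * C') * X ^ m +
      C (-C' / (A * D - B * C') * B + A / (A * D - B * C') * D) := by
    simp only [C_add, C_mul]
    ring
  rw [h1]
  have h2 : -C' / (A * D - B * C') * A + A / (A * D - B * C') * C' = 0 := by
    rw [div_mul_eq_mul_div, div_mul_eq_mul_div, ← add_div, div_eq_zero_iff]
    left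
    ring
  have h3 : -C' / (A * D - B * C') * B + A / (A * D - B * C') * D = 1 := by
    rw [div_mul_eq_mul_div, div_mul_eq_mul_div, ← add_div, div_eq_one_iff_eq hdet]
    ring
  rw [h2, h3]
  simp

theorem bl_natDegree_lin {a b : l} (ha : a ≠ 0) {m : ℕ} :
    (C a * X ^ m + C b : l[X]).natDegree = m := by
  rw [natDegree_add_C, natDegree_C_mul_X_pow m a ha]

theorem bl_pair [IsAlgClosed l] {p r : l[X]} (hcop : IsCoprime p r) {A B C' D : l}
    (hdet : A * D - B * C' ≠ 0) {n i j : ℕ}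
    (h : p ^ (ringExpChar l) ^ i * (C C' * X ^ (ringExpChar l) ^ j + C D) ^ (ringExpChar l) ^ n =
      r ^ (ringExpChar l) ^ i * (C A * X ^ (ringExpChar l) ^ j + C B) ^ (ringExpChar l) ^ n) :
    ∃ (m : ℕ) (a b c d : l), a * d - b * c ≠ 0 ∧ p = C a * X ^ (ringExpChar l) ^ m + C b ∧
      r = C c * X ^ (ringExpChar l) ^ m + C d := by
  haveI : ExpChar l[X] (ringExpChar l) := expChar_of_injective_ringHom (C_injective (R := l)) _
  have hq0 : 0 < ringExpChar l := expChar_pos l _
  -- absorb `n`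
  rw [bl_add_pow, bl_add_pow, ← pow_add] at h
  have hdet' : A ^ (ringExpChar l) ^ n * D ^ (ringExpChar l) ^ n -
      B ^ (ringExpChar l) ^ n * C' ^ (ringExpChar l) ^ n ≠ 0 := by
    rw [sg1_det_pow]
    exact pow_ne_zero _ hdet
  generalize A ^ (ringExpChar l) ^ n = A₁ at h hdet'
  generalize B ^ (ringExpChar l) ^ n = B₁ at h hdet'
  generalize C' ^ (ringExpChar l) ^ n = C₁ at h hdet'
  generalize D ^ (ringExpChar l) ^ n = D₁ at h hdet'
  generalize j + n = J at h
  set f : l[X] := C A₁ * X ^ (ringExpChar l) ^ J + C B₁ with hf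
  set g : l[X] := C C₁ * X ^ (ringExpChar l) ^ J + C D₁ with hg
  have hfg : IsCoprime f g := bl_lin_coprime hdet' _
  have hpr : IsCoprime (p ^ (ringExpChar l) ^ i) (r ^ (ringExpChar l) ^ i) := hcop.pow
  have d1 : p ^ (ringExpChar l) ^ i ∣ f := hpr.dvd_of_dvd_mul_left (Dvd.intro _ h)
  have d2 : f ∣ p ^ (ringExpChar l) ^ i := hfg.dvd_of_dvd_mul_right (Dvd.intro_left _ h.symm)
  have hf0 : f ≠ 0 := by
    intro h0
    have h1 : f.coeff ((ringExpChar l) ^ J) = 0 := by rw [h0]; simp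
    have h2 : f.coeff 0 = 0 := by rw [h0]; simp
    have hJ : (ringExpChar l) ^ J ≠ 0 := (pow_pos hq0 J).ne'
    rw [hf, bl_coeff, if_pos rfl, if_neg hJ, add_zero] at h1
    rw [hf, bl_coeff, if_pos rfl, if_neg hJ.symm, zero_add] at h2
    apply hdet'
    rw [h1, h2]
    ring
  obtain ⟨u, hu⟩ := associated_of_dvd_dvd d1 d2
  obtain ⟨e, he, heu⟩ := Polynomial.isUnit_iff.1 u.isUnit
  have he0 : e ≠ 0 := he.ne_zero
  obtain ⟨e', rfl⟩ := exists_root e i
  have hfp : f = (C e' * p) ^ (ringExpChar l) ^ i := by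
    rw [mul_pow, ← C_pow, heu, mul_comm, hu]
  have hp0 : p ≠ 0 := by
    rintro rfl
    apply hf0
    rw [hfp, mul_zero, zero_pow (pow_pos hq0 i).ne']
  have hgr : g = (C e' * r) ^ (ringExpChar l) ^ i := by
    rw [mul_pow, ← C_pow]
    apply mul_left_cancel₀ (pow_ne_zero ((ringExpChar l) ^ i) hp0)
    rw [h, hfp, mul_pow, ← C_pow]
    ring
  have he'0 : e' ≠ 0 := by
    rintro rfl
    exact he0 (zero_pow (pow_pos hq0 i).ne')
  -- degrees
  have hdeg : ∃ N : ℕ, (ringExpChar l) ^ J = (ringExpChar l) ^ i * N := by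
    by_cases hA : A₁ = 0
    · have hC : C₁ ≠ 0 := by
        rintro rfl
        apply hdet'
        rw [hA]
        ring
      have h1 := congrArg natDegree hgr
      rw [hg, bl_natDegree_lin hC, natDegree_pow] at h1
      exact ⟨_, h1⟩
    · have h1 := congrArg natDegree hfp
      rw [hf, bl_natDegree_lin hA, natDegree_pow] at h1
      exact ⟨_, h1⟩
  have hJ : (ringExpChar l) ^ J = (ringExpChar l) ^ (J - i) * (ringExpChar l) ^ i := by
    obtain ⟨N, hN⟩ := hdeg
    rcases Nat.lt_or_ge 1 (ringExpChar l) with hq | hq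
    · have hij : i ≤ J := by
        apply (Nat.pow_le_pow_iff_right hq).1
        rw [hN]
        apply Nat.le_mul_of_pos_right
        rcases Nat.eq_zero_or_pos N with h0 | h0
        · rw [h0, mul_zero] at hN
          exact absurd hN (pow_pos hq0 J).ne'
        · exact h0
      rw [← pow_add]
      congr 1
      omega
    · have hq1 : ringExpChar l = 1 := by omega
      rw [hq1]
      simp
  obtain ⟨a, ha⟩ := exists_root A₁ i
  obtain ⟨b, hb⟩ := exists_root B₁ i
  obtain ⟨c, hc⟩ := exists_root C₁ i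
  obtain ⟨d, hd⟩ := exists_root D₁ i
  have e1 : C a * X ^ (ringExpChar l) ^ (J - i) + C b = C e' * p := by
    apply bl_frob_inj (j := i)
    rw [← hfp, bl_add_pow, ha, hb, ← hJ]
  have e2 : C c * X ^ (ringExpChar l) ^ (J - i) + C d = C e' * r := by
    apply bl_frob_inj (j := i)
    rw [← hgr, bl_add_pow, hc, hd, ← hJ]
  have hdet2 : a * d - b * c ≠ 0 := by
    intro h0
    apply hdet'
    rw [← ha, ← hb, ← hc, ← hd, sg1_det_pow, h0, zero_pow (pow_pos hq0 i).ne']
  have hCe : (C e'⁻¹ * C e' : l[X]) = 1 := by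
    rw [← C_mul, inv_mul_cancel₀ he'0, C_1]
  refine ⟨J - i, e'⁻¹ * a, e'⁻¹ * b, e'⁻¹ * c, e'⁻¹ * d, ?_, ?_, ?_⟩
  · have : e'⁻¹ * a * (e'⁻¹ * d) - e'⁻¹ * b * (e'⁻¹ * c) =
        e'⁻¹ * e'⁻¹ * (a * d - b * c) := by ring
    rw [this]
    exact mul_ne_zero (mul_ne_zero (inv_ne_zero he'0) (inv_ne_zero he'0)) hdet2
  · calc p = (C e'⁻¹ * C e') * p := by rw [hCe, one_mul]
      _ = C e'⁻¹ * (C e' * p) := by ring
      _ = C e'⁻¹ * (C a * X ^ (ringExpChar l) ^ (J - i) + C b) := by rw [e1]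
      _ = _ := by rw [C_mul, C_mul]; ring
  · calc r = (C e'⁻¹ * C e') * r := by rw [hCe, one_mul]
      _ = C e'⁻¹ * (C e' * r) := by ring
      _ = C e'⁻¹ * (C c * X ^ (ringExpChar l) ^ (J - i) + C d) := by rw [e2]
      _ = _ := by rw [C_mul, C_mul]; ring

/-- the form used below: `N` is the maximal degree. -/
theorem bl_fib [IsAlgClosed l] {p r : l[X]} (hcop : IsCoprime p r) {A B C' D : l}
    (hdet : A * D - B * C' ≠ 0) {n i j N : ℕ}
    (h : p ^ (ringExpChar l) ^ i * (C C' * X ^ (ringExpChar l) ^ j + C D) ^ (ringExpChar l) ^ n =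
      r ^ (ringExpChar l) ^ i * (C A * X ^ (ringExpChar l) ^ j + C B) ^ (ringExpChar l) ^ n)
    (hp : p.natDegree ≤ N) (hr : r.natDegree ≤ N) (hN : p.coeff N ≠ 0 ∨ r.coeff N ≠ 0) :
    (∃ m : ℕ, N = (ringExpChar l) ^ m) ∧
      (∀ e, e ≠ 0 → e ≠ N → p.coeff e = 0 ∧ r.coeff e = 0) ∧
      p.coeff N * r.coeff 0 - p.coeff 0 * r.coeff N ≠ 0 := by
  obtain ⟨m, a, b, c, d, hd, rfl, rfl⟩ := bl_pair hcop hdet h
  have hM : 0 < (ringExpChar l) ^ m := pow_pos (expChar_pos l _) m
  generalize hMd : (ringExpChar l) ^ m = M at *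
  have hc : ∀ (x y : l) (e : ℕ), (C x * X ^ M + C y : l[X]).coeff e =
      (if e = M then x else 0) + (if e = 0 then y else 0) := fun x y e => bl_coeff x y M e
  have hMN : M ≤ N := by
    by_cases ha : a = 0
    · have hc0 : c ≠ 0 := by
        rintro rfl
        apply hd
        rw [ha]
        ring
      rwa [bl_natDegree_lin hc0] at hr
    · rwa [bl_natDegree_lin ha] at hp
  have hNM : N = M := by
    by_contra hne
    have h0 : N ≠ 0 := by omega
    rw [hc, hc, if_neg hne, if_neg h0, if_neg hne, if_neg h0] at hN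
    simp at hN
  subst hNM
  refine ⟨⟨m, hMd.symm⟩, ?_, ?_⟩
  · intro e he0 heN
    rw [hc, hc, if_neg he0, if_neg heN, if_neg he0, if_neg heN]
    simp
  · rw [hc, hc, hc, hc]
    simp [hM.ne', hM.ne]
    exact hd

end pair

end Vale.Agent.P019P
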