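import Vale.Agent.P019P.RatDesc
import Vale.Agent.P019P.Line
import Vale.Agent.P019.RelB

/-!
# Rational functions of two variables
-/

namespace Vale.Agent.P019P

open Vale.Agent.P019

set_option linter.style.haveILetI false
set_option linter.unusedSectionVars false

open Polynomial Filter

section ev

variable {L : Type*} [Field L] {l : Subfield L}

/-- evaluation of a polynomial in two variables. -/
noncomputable def blE (l : Subfield L) (x y : L) : l[X][X] →+* L :=
  eval₂RingHom (aeval x : l[X] →ₐ[l] L).toRingHom y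

theorem blE_monomial (x y : L) (n : ℕ) (c : l[X]) :
    blE l x y (monomial n c) = aeval x c * y ^ n := by
  simp [blE]

theorem blE_C (x y : L) (c : l[X]) : blE l x y (C c) = aeval x c := by
  simp [blE]

theorem blE_X (x y : L) : blE l x y X = y := by
  simp [blE]

/-- congruence modulo the maximal ideal. -/
def blR (W : ValuationSubring L) (u v : L) : Prop := u ∈ W ∧ v ∈ W ∧ W.valuation (u - v) < 1

theorem blR.add {W : ValuationSubring L} {u v u' v' : L} (h : blR W u v) (h' : blR W u' v') :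
    blR W (u + u') (v + v') := by
  refine ⟨add_mem h.1 h'.1, add_mem h.2.1 h'.2.1, ?_⟩
  have : u + u' - (v + v') = (u - v) + (u' - v') := by ring
  rw [this]
  exact Valuation.map_add_lt _ h.2.2 h'.2.2

theorem blR.mul {W : ValuationSubring L} {u v u' v' : L} (h : blR W u v) (h' : blR W u' v') :
    blR W (u * u') (v * v') := by
  refine ⟨mul_mem h.1 h'.1, mul_mem h.2.1 h'.2.1, ?_⟩
  have : u * u' - v * v' = (u - v) * u' + v * (u' - v') := by ring
  rw [this]
  have h1 := (W.valuation_le_one_iff _).2 h'.1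
  have h2 := (W.valuation_le_one_iff _).2 h.2.1
  refine Valuation.map_add_lt _ ?_ ?_
  · rw [map_mul]
    exact lt_of_le_of_lt (mul_le_of_le_one_right' h1) h.2.2
  · rw [map_mul]
    exact lt_of_le_of_lt (mul_le_of_le_one_left' h2) h'.2.2

theorem blR.refl {W : ValuationSubring L} {u : L} (h : u ∈ W) : blR W u u :=
  ⟨h, h, by rw [sub_self, map_zero]; exact zero_lt_one⟩

theorem blR.pow {W : ValuationSubring L} {u v : L} (h : blR W u v) (n : ℕ) :
    blR W (u ^ n) (v ^ n) := by
  induction n with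
  | zero => simpa using blR.refl (one_mem W)
  | succ n ih => rw [pow_succ, pow_succ]; exact ih.mul h

theorem blR.aeval {W : ValuationSubring L} (hW : TrivOn W l) {x x' : L} (hx : blR W x x')
    (P : l[X]) : blR W (aeval x P) (aeval x' P) := by
  induction P using Polynomial.induction_on' with
  | add p q hp hq => rw [map_add, map_add]; exact hp.add hq
  | monomial n a =>
    rw [aeval_monomial, aeval_monomial]
    exact (blR.refl (hW _ a.2)).mul (hx.pow n)

theorem blR.blE {W : ValuationSubring L} (hW : TrivOn W l) {x x' y y' : L} (hx : blR W x x')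
    (hy : blR W y y') (P : l[X][X]) : blR W (blE l x y P) (blE l x' y' P) := by
  induction P using Polynomial.induction_on' with
  | add p q hp hq => rw [map_add, map_add]; exact hp.add hq
  | monomial n a =>
    rw [blE_monomial, blE_monomial]
    exact (blR.aeval hW hx a).mul (hy.pow n)

/-- specialization of a relation. -/
theorem bl_spec {W : ValuationSubring L} {F : Subfield L} (hW : TrivOn W F) {n i : ℕ}
    {z Ps Qs P₁ Q₁ c d : L} (hP1 : P₁ ∈ F) (hQ1 : Q₁ ∈ F) (hc : c ∈ F) (hd : d ∈ F)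
    (hP : blR W Ps P₁) (hQ : blR W Qs Q₁)
    (hz : W.valuation (z ^ (ringExpChar L) ^ i * c - d) < 1)
    (h : z ^ (ringExpChar L) ^ n * Qs = Ps) :
    P₁ ^ (ringExpChar L) ^ i * c ^ (ringExpChar L) ^ n =
      Q₁ ^ (ringExpChar L) ^ i * d ^ (ringExpChar L) ^ n := by
  have hu : blR W (z ^ (ringExpChar L) ^ i * c) d := by
    have hdW := hW d hd
    refine ⟨?_, hdW, hz⟩
    have : z ^ (ringExpChar L) ^ i * c = (z ^ (ringExpChar L) ^ i * c - d) + d := by ring
    rw [this]
    exact add_mem ((W.valuation_le_one_iff _).1 hz.le) hdW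
  have h1 : blR W (Ps ^ (ringExpChar L) ^ i * c ^ (ringExpChar L) ^ n)
      (P₁ ^ (ringExpChar L) ^ i * c ^ (ringExpChar L) ^ n) :=
    (hP.pow _).mul ((blR.refl (hW c hc)).pow _)
  have h2 : blR W (Qs ^ (ringExpChar L) ^ i * (z ^ (ringExpChar L) ^ i * c) ^ (ringExpChar L) ^ n)
      (Q₁ ^ (ringExpChar L) ^ i * d ^ (ringExpChar L) ^ n) := (hQ.pow _).mul (hu.pow _)
  have h3 : Qs ^ (ringExpChar L) ^ i * (z ^ (ringExpChar L) ^ i * c) ^ (ringExpChar L) ^ n =
      Ps ^ (ringExpChar L) ^ i * c ^ (ringExpChar L) ^ n := by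
    rw [← h, mul_pow, mul_pow, ← pow_mul, ← pow_mul, mul_comm ((ringExpChar L) ^ n)]
    ring
  rw [h3] at h2
  rw [← sub_eq_zero]
  refine hW.eq_zero (sub_mem (mul_mem (pow_mem hP1 _) (pow_mem hc _))
    (mul_mem (pow_mem hQ1 _) (pow_mem hd _))) ?_
  have h4 : P₁ ^ (ringExpChar L) ^ i * c ^ (ringExpChar L) ^ n -
      Q₁ ^ (ringExpChar L) ^ i * d ^ (ringExpChar L) ^ n =
      (Ps ^ (ringExpChar L) ^ i * c ^ (ringExpChar L) ^ n -
        Q₁ ^ (ringExpChar L) ^ i * d ^ (ringExpChar L) ^ n) -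
      (Ps ^ (ringExpChar L) ^ i * c ^ (ringExpChar L) ^ n -
        P₁ ^ (ringExpChar L) ^ i * c ^ (ringExpChar L) ^ n) := by ring
  rw [h4]
  exact Valuation.map_sub_lt _ h2.2.2 h1.2.2

end ev

section rep

variable {L : Type*} [Field L] {l : Subfield L}

/-- the embedding of the polynomials. -/
noncomputable def blF (l : Subfield L) (s : L) : l[X] →+* Vale.Agent.P019.adj l s :=
  eval₂RingHom (Subfield.inclusion (Vale.Agent.P019.le_adj l s))
    ⟨s, Vale.Agent.P019.mem_adj l s⟩

theorem blF_coe (s : L) (p : l[X]) : (blF l s p : L) = aeval s p := by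
  unfold blF
  rw [coe_eval₂RingHom, aeval_def]
  have := Polynomial.hom_eval₂ p (Subfield.inclusion (Vale.Agent.P019.le_adj l s))
    (Vale.Agent.P019.adj l s).subtype ⟨s, Vale.Agent.P019.mem_adj l s⟩
  exact this

theorem blF_inj (hl : IsAlgClosed l) {s : L} (hs : s ∉ l) : Function.Injective (blF l s) := by
  rw [injective_iff_map_eq_zero]
  intro p hp
  by_contra h
  apply line_aeval_ne hl hs h
  rw [← blF_coe, hp]
  rfl

theorem bl_clear (hl : IsAlgClosed l) {s : L} (hs : s ∉ l)
    (p : (Vale.Agent.P019.adj l s)[X]) :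
    ∃ d : l[X], d ≠ 0 ∧ ∃ P : l[X][X], P.map (blF l s) = C (blF l s d) * p := by
  induction p using Polynomial.induction_on' with
  | add p q hp hq =>
    obtain ⟨d, hd, P, hP⟩ := hp
    obtain ⟨e, he, Q, hQ⟩ := hq
    refine ⟨d * e, mul_ne_zero hd he, C e * P + C d * Q, ?_⟩
    rw [Polynomial.map_add, Polynomial.map_mul, Polynomial.map_mul, hP, hQ, map_C, map_C,
      map_mul, C_mul]
    ring
  | monomial n c =>
    obtain ⟨a, b, hab⟩ := line_mem c.2
    by_cases hb : b = 0
    · refine ⟨1, one_ne_zero, 0, ?_⟩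
      have hc : c = 0 := by
        apply Subtype.ext
        rw [hab, hb]
        simp
      rw [hc]
      simp
    · refine ⟨b, hb, monomial n a, ?_⟩
      rw [map_monomial, C_mul_monomial]
      congr 1
      apply Subtype.ext
      change (blF l s a : L) = (blF l s b : L) * (c : L)
      rw [blF_coe, blF_coe, hab]
      have := line_aeval_ne hl hs hb
      field_simp

theorem blE_eq_map (s t : L) (P : l[X][X]) :
    blE l s t P = aeval t (P.map (blF l s)) := by
  induction P using Polynomial.induction_on' with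
  | add p q hp hq => rw [map_add, Polynomial.map_add, map_add, hp, hq]
  | monomial n a =>
    rw [blE_monomial, map_monomial, aeval_monomial, ← blF_coe]
    rfl

theorem bl_pf_adj (E : Subfield L) (t : L) :
    Vale.Agent.P019.adj (pf E) t ≤ adj E t :=
  Vale.Agent.P019.adj_le (pf_mono (Vale.Agent.P019.le_adj E t)) (mem_adj E t)

/-- elements of the perfect closure of `l(s)(t)`. -/
theorem bl_rep (hl : IsAlgClosed l) {s t z : L} (hs : s ∉ l) (hz : z ∈ adj (adj l s) t) :
    ∃ (n : ℕ) (P Q U V : l[X][X]) (D : l[X]), D ≠ 0 ∧ U * P + V * Q = C D ∧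
      z ^ (ringExpChar L) ^ n * blE l s t Q = blE l s t P := by
  classical
  have h1 : z ∈ adj (Vale.Agent.P019.adj l s) t := by
    have h2 : adj (adj l s) t ≤ adj (Vale.Agent.P019.adj l s) t := by
      change pf (Vale.Agent.P019.adj (pf (Vale.Agent.P019.adj l s)) t) ≤ _
      refine (pf_mono (bl_pf_adj (Vale.Agent.P019.adj l s) t)).trans ?_
      change pf (pf _) ≤ pf _
      rw [pf_pf]
    exact h2 hz
  obtain ⟨n, hn⟩ := mem_adj_iff.1 h1
  obtain ⟨p, r, hpr⟩ := line_mem hn
  by_cases hr : aeval t r = 0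
  · refine ⟨n, 0, 1, 0, 1, 1, one_ne_zero, by simp, ?_⟩
    rw [hpr, hr, div_zero, zero_mul, map_zero]
  have hr0 : r ≠ 0 := by
    rintro rfl
    exact hr (map_zero _)
  set g := EuclideanDomain.gcd p r with hg
  have hg0 : g ≠ 0 := by
    intro h
    exact hr0 (EuclideanDomain.gcd_eq_zero_iff.1 h).2
  have e1 : p = g * (p / g) := (EuclideanDomain.mul_div_cancel' hg0
    (EuclideanDomain.gcd_dvd_left p r)).symm
  have e2 : r = g * (r / g) := (EuclideanDomain.mul_div_cancel' hg0
    (EuclideanDomain.gcd_dvd_right p r)).symm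
  obtain ⟨u, v, huv⟩ : ∃ u v, u * (p / g) + v * (r / g) = 1 := by
    obtain ⟨u, v, h3⟩ : ∃ u v, g = p * u + r * v :=
      ⟨_, _, EuclideanDomain.gcd_eq_gcd_ab p r⟩
    refine ⟨u, v, mul_left_cancel₀ hg0 ?_⟩
    calc g * (u * (p / g) + v * (r / g)) = (g * (p / g)) * u + (g * (r / g)) * v := by ring
      _ = p * u + r * v := by rw [← e1, ← e2]
      _ = g * 1 := by rw [← h3, mul_one]
  generalize p / g = p' at e1 huv
  generalize r / g = r' at e2 huv
  have hgt : aeval t g ≠ 0 := by
    intro h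
    apply hr
    rw [e2, map_mul, h, zero_mul]
  have hrt : aeval t r' ≠ 0 := by
    intro h
    apply hr
    rw [e2, map_mul, h, mul_zero]
  have hz' : z ^ (ringExpChar L) ^ n * aeval t r' = aeval t p' := by
    rw [hpr, e1, e2, map_mul, map_mul]
    field_simp
  obtain ⟨d1, hd1, P1, hP1⟩ := bl_clear hl hs p'
  obtain ⟨d2, hd2, Q1, hQ1⟩ := bl_clear hl hs r'
  obtain ⟨d3, hd3, U1, hU1⟩ := bl_clear hl hs u
  obtain ⟨d4, hd4, V1, hV1⟩ := bl_clear hl hs v
  have hP : (C d2 * P1).map (blF l s) = C (blF l s (d1 * d2)) * p' := by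
    rw [Polynomial.map_mul, hP1, map_C, map_mul, C_mul]
    ring
  have hQ : (C d1 * Q1).map (blF l s) = C (blF l s (d1 * d2)) * r' := by
    rw [Polynomial.map_mul, hQ1, map_C, map_mul, C_mul]
    ring
  have hU : (C d4 * U1).map (blF l s) = C (blF l s (d3 * d4)) * u := by
    rw [Polynomial.map_mul, hU1, map_C, map_mul, C_mul]
    ring
  have hV : (C d3 * V1).map (blF l s) = C (blF l s (d3 * d4)) * v := by
    rw [Polynomial.map_mul, hV1, map_C, map_mul, C_mul]
    ring
  refine ⟨n, C d2 * P1, C d1 * Q1, C d4 * U1, C d3 * V1, d1 * d2 * (d3 * d4),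
    mul_ne_zero (mul_ne_zero hd1 hd2) (mul_ne_zero hd3 hd4), ?_, ?_⟩
  · apply Polynomial.map_injective _ (blF_inj hl hs)
    rw [Polynomial.map_add, Polynomial.map_mul (blF l s) (p := C d4 * U1),
      Polynomial.map_mul (blF l s) (p := C d3 * V1), hP, hQ, hU, hV, map_C,
      map_mul (blF l s) (d1 * d2), C_mul]
    calc C (blF l s (d3 * d4)) * u * (C (blF l s (d1 * d2)) * p') +
          C (blF l s (d3 * d4)) * v * (C (blF l s (d1 * d2)) * r')
        = C (blF l s (d1 * d2)) * C (blF l s (d3 * d4)) * (u * p' + v * r') := by ring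
      _ = _ := by rw [huv, mul_one]
  · rw [blE_eq_map, blE_eq_map, hP, hQ, map_mul (aeval t), map_mul (aeval t), ← hz']
    ring

end rep

end Vale.Agent.P019P
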