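import Vale.Agent.P019Q.RelCa
import Vale.Agent.P019Q.BilA
import Vale.Agent.P019Q.BilB

/-!
# The bilinear form, preparations
-/

namespace Vale.Agent.P019P

open Vale.Agent.P019

set_option linter.style.haveILetI false
set_option linter.unusedSectionVars false

open Polynomial Filter

section alg

theorem bl_q {L : Type*} [Field L] (l : Subfield L) : ringExpChar l = ringExpChar L :=
  ringExpChar.eq l (ringExpChar L)

theorem bl_aeval_coe {L : Type*} [Field L] {l : Subfield L} (β : l) (c : l[X]) :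
    aeval (β : L) c = ((c.eval β : l) : L) := by
  have h := aeval_algebraMap_apply L β c
  rw [coe_aeval_eq_eval] at h
  exact h

theorem blE_eval {L : Type*} [Field L] {l : Subfield L} (β : l) (y : L) (P : l[X][X]) :
    blE l (β : L) y P = aeval y (P.map (evalRingHom β)) := by
  induction P using Polynomial.induction_on' with
  | add p q hp hq => rw [map_add, Polynomial.map_add, map_add, hp, hq]
  | monomial n a =>
    rw [blE_monomial, map_monomial, aeval_monomial, bl_aeval_coe]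
    rfl

/-- division by the greatest common divisor of four polynomials. -/
theorem bl_gcd4 {l : Type*} [Field l] {P₁ P₀ Q₁ Q₀ : l[X]} (h : P₁ * Q₀ - P₀ * Q₁ ≠ 0) :
    ∃ g p₁ p₀ q₁ q₀ u₁ u₀ v₁ v₀ : l[X], g ≠ 0 ∧ P₁ = g * p₁ ∧ P₀ = g * p₀ ∧ Q₁ = g * q₁ ∧
      Q₀ = g * q₀ ∧ u₁ * p₁ + u₀ * p₀ + v₁ * q₁ + v₀ * q₀ = 1 ∧ p₁ * q₀ - p₀ * q₁ ≠ 0 := by
  obtain ⟨g, hg⟩ := (IsPrincipalIdealRing.principal
    (Ideal.span ({P₁, P₀, Q₁, Q₀} : Set l[X]))).principal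
  have hmem : ∀ x ∈ ({P₁, P₀, Q₁, Q₀} : Set l[X]), ∃ y, x = g * y := by
    intro x hx
    have h1 : x ∈ Ideal.span ({P₁, P₀, Q₁, Q₀} : Set l[X]) := Ideal.subset_span hx
    rw [hg] at h1
    obtain ⟨y, hy⟩ := Submodule.mem_span_singleton.1 h1
    exact ⟨y, by rw [← hy, smul_eq_mul, mul_comm]⟩
  obtain ⟨p₁, hp₁⟩ := hmem P₁ (by simp)
  obtain ⟨p₀, hp₀⟩ := hmem P₀ (by simp)
  obtain ⟨q₁, hq₁⟩ := hmem Q₁ (by simp)
  obtain ⟨q₀, hq₀⟩ := hmem Q₀ (by simp)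
  have hg0 : g ≠ 0 := by
    rintro rfl
    apply h
    rw [hp₁, hp₀]
    ring
  have h2 : g ∈ Ideal.span ({P₁, P₀, Q₁, Q₀} : Set l[X]) := by
    rw [hg]
    exact Submodule.mem_span_singleton_self g
  rw [Ideal.mem_span_insert] at h2
  obtain ⟨u₁, z₁, hz₁, e₁⟩ := h2
  rw [Ideal.mem_span_insert] at hz₁
  obtain ⟨u₀, z₂, hz₂, e₂⟩ := hz₁
  rw [Ideal.mem_span_pair] at hz₂
  obtain ⟨v₁, v₀, e₃⟩ := hz₂
  refine ⟨g, p₁, p₀, q₁, q₀, u₁, u₀, v₁, v₀, hg0, hp₁, hp₀, hq₁, hq₀, ?_, ?_⟩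
  · apply mul_left_cancel₀ hg0
    calc g * (u₁ * p₁ + u₀ * p₀ + v₁ * q₁ + v₀ * q₀) =
        u₁ * (g * p₁) + (u₀ * (g * p₀) + (v₁ * (g * q₁) + v₀ * (g * q₀))) := by ring
      _ = u₁ * P₁ + (u₀ * P₀ + (v₁ * Q₁ + v₀ * Q₀)) := by rw [← hp₁, ← hp₀, ← hq₁, ← hq₀]
      _ = g := by rw [e₃, ← e₂, ← e₁]
      _ = g * 1 := (mul_one g).symm
  · intro h0
    apply h
    rw [hp₁, hp₀, hq₁, hq₀]
    have : g * p₁ * (g * q₀) - g * p₀ * (g * q₁) = g * g * (p₁ * q₀ - p₀ * q₁) := by ring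
    rw [this, h0, mul_zero]

/-- the leading coefficient of a pair. -/
theorem bl_top {R : Type*} [CommRing R] {P Q : R[X]} (h : P ≠ 0 ∨ Q ≠ 0) :
    P.coeff (max P.natDegree Q.natDegree) ≠ 0 ∨ Q.coeff (max P.natDegree Q.natDegree) ≠ 0 := by
  by_cases hP : P = 0
  · right
    have hQ := h.resolve_left (not_not.2 hP)
    rw [hP, natDegree_zero, max_eq_right (Nat.zero_le _)]
    exact leadingCoeff_ne_zero.2 hQ
  · by_cases hQ : Q = 0
    · left
      rw [hQ, natDegree_zero, max_eq_left (Nat.zero_le _)]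
      exact leadingCoeff_ne_zero.2 hP
    · rcases le_total P.natDegree Q.natDegree with h1 | h1
      · right
        rw [max_eq_right h1]
        exact leadingCoeff_ne_zero.2 hQ
      · left
        rw [max_eq_left h1]
        exact leadingCoeff_ne_zero.2 hP

end alg

section hyp

variable {K L : Type*} [Field K] [Field L] [PerfectField K] [PerfectField L] {ℓ : ℕ}
  [Fact ℓ.Prime] [NeZero (ℓ : K)] [NeZero (ℓ : L)]
  {k : Subfield K} {l : Subfield L} {Θ : V ℓ K ≃ₗ[ZMod ℓ] V ℓ L}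

/-- a polynomial which vanishes at almost all corresponding points is zero. -/
theorem bl_ae_zero (hk : IsAlgClosed k) (hl : IsAlgClosed l) {s : K} {s' : L}
    (hR : Rt k l Θ s s') {ψ : K → L} {e : K → ZMod ℓ} (p : Psi k l Θ s s' ψ e) {F : l[X]}
    (h : ∀ᶠ b in ae k, ∀ hb : ψ b ∈ l, F.eval ⟨ψ b, hb⟩ = 0) : F = 0 := by
  by_contra hF
  haveI := ae_neBot_of_isAlgClosed hk
  have h1 := Psi.relb_pull hk hl hR p (relb_root_ae hF)
  obtain ⟨b, ⟨h2, h3⟩, h4⟩ := ((h.and h1).and p.cor).exists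
  exact (h3 h4.1).2 (h2 h4.1)

/-- a nonzero polynomial does not vanish at almost all corresponding points. -/
theorem bl_ae_ne (hk : IsAlgClosed k) (hl : IsAlgClosed l) {s : K} {s' : L}
    (hR : Rt k l Θ s s') {ψ : K → L} {e : K → ZMod ℓ} (p : Psi k l Θ s s' ψ e) {F : l[X]}
    (hF : F ≠ 0) : ∀ᶠ b in ae k, ∀ hb : ψ b ∈ l, F.eval ⟨ψ b, hb⟩ ≠ 0 := by
  filter_upwards [Psi.relb_pull hk hl hR p (relb_root_ae hF)] with b h hb
  exact (h hb).2

/-- the relation on the fibres of `t`, in terms of polynomials. -/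
theorem Hyp.bl_fibre (H : Hyp ℓ k l Θ) {t s z : K} {t' s' z' : L}
    (hts : ¬ IsAlgebraic (adj k s) t) (ht : Rt k l Θ t t') (hs : Rt k l Θ s s')
    (hz : Rt k l Θ z z') {m : K → K → K} (hm : Shift ℓ k t s z m) {ψt ψs ψz : K → L}
    {et es ez : K → ZMod ℓ} (pt : Psi k l Θ t t' ψt et) (ps : Psi k l Θ s s' ψs es)
    (pz : Psi k l Θ z z' ψz ez) :
    ∀ᶠ a in ae k, ψt a ∈ l ∧ ∃ (i j : ℕ) (A B C' D : l), A * D - B * C' ≠ 0 ∧
      (∀ᶠ b in ae k, ψz (m a b) ^ (ringExpChar L) ^ i * (C' * ψs b ^ (ringExpChar L) ^ j + D) =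
            A * ψs b ^ (ringExpChar L) ^ j + B) ∧
      ∀ (n : ℕ) (Ps Qs : L) (P₁ Q₁ : l[X]),
        (∀ W : ValuationSubring L, TrivOn W l → s' ∈ W → t' ∈ W → W.valuation (t' - ψt a) < 1 →
          blR W Ps (aeval s' P₁) ∧ blR W Qs (aeval s' Q₁)) →
        z' ^ (ringExpChar L) ^ n * Qs = Ps →
        P₁ ^ (ringExpChar l) ^ i *
            (C C' * X ^ (ringExpChar l) ^ j + C D) ^ (ringExpChar l) ^ n =
          Q₁ ^ (ringExpChar l) ^ i *
            (C A * X ^ (ringExpChar l) ^ j + C B) ^ (ringExpChar l) ^ n := by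
  have hl := H.acl
  obtain ⟨G', hfr, h⟩ := H.rel_all hts ht hs hz hm pt ps pz
  filter_upwards [h] with a ha
  obtain ⟨hα, hW⟩ := ha
  refine ⟨hα, ?_⟩
  have hlF : l ≤ adj G' s' := hfr.le.trans (le_adj G' s')
  obtain ⟨W, hWo⟩ := exists_over hfr.tt (hlF hα)
  obtain ⟨i, j, A, hA, B, hB, C', hC, D, hD, hdet, hgen, hval⟩ := hW W hWo
  refine ⟨i, j, ⟨A, hA⟩, ⟨B, hB⟩, ⟨C', hC⟩, ⟨D, hD⟩, ?_, hgen, ?_⟩
  · intro h0
    exact hdet (congrArg Subtype.val h0)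
  · intro n Ps Qs P₁ Q₁ hPQ hzz
    have hWl : TrivOn W l := hWo.triv.mono hlF
    have hsW : s' ∈ W := hWo.triv _ (mem_adj G' s')
    have htW : t' ∈ W := hWo.mem (hlF hα)
    obtain ⟨h1, h2⟩ := hPQ W hWl hsW htW hWo.lt
    have hmem : ∀ P : l[X], aeval s' P ∈ adj G' s' := fun P =>
      adj_mono hfr.le s' (relb_aeval_mem s' P)
    have hsp : ∀ e : ℕ, s' ^ e ∈ adj G' s' := fun e => pow_mem (mem_adj G' s') e
    have h3 := bl_spec (n := n) (i := i) hWo.triv (hmem P₁) (hmem Q₁)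
      (add_mem (mul_mem (hlF hC) (hsp _)) (hlF hD)) (add_mem (mul_mem (hlF hA) (hsp _)) (hlF hB))
      h1 h2 hval hzz
    apply line_transc hl hs.good'.1
    rw [bl_q l]
    simp only [map_mul, map_pow, map_add, aeval_C, aeval_X]
    exact h3

end hyp

end Vale.Agent.P019P
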