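import Vale.Agent.P019Q.CRiem

/-!
# Finitely supported adeles modulo functions
-/

namespace Vale.Agent.P019P

open IntermediateField

section

variable {k F : Type*} [Field k] [Field F] [Algebra k F] [CFF k F]

/-- the finitely supported adeles which become integral with respect to `D` after subtraction of
a function. -/
noncomputable def KD (D : Plk k F →₀ ℤ) : Submodule k (Plk k F →₀ F) where
  carrier := {β | ∃ z : F, ∀ P, β P - z ∈ Mge P (-D P)}
  zero_mem' := ⟨0, fun P => by simp⟩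
  add_mem' := by
    rintro β γ ⟨z, hz⟩ ⟨w, hw⟩
    refine ⟨z + w, fun P => ?_⟩
    have h := add_mem (hz P) (hw P)
    rwa [← add_sub_add_comm] at h
  smul_mem' := by
    rintro a β ⟨z, hz⟩
    refine ⟨a • z, fun P => ?_⟩
    have h := Submodule.smul_mem _ a (hz P)
    rwa [smul_sub] at h

theorem mem_KD {D : Plk k F →₀ ℤ} {β : Plk k F →₀ F} :
    β ∈ KD D ↔ ∃ z : F, ∀ P, β P - z ∈ Mge P (-D P) := Iff.rfl

theorem KD_mono {D E : Plk k F →₀ ℤ} (h : D ≤ E) : KD D ≤ KD E := by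
  rintro β ⟨z, hz⟩
  exact ⟨z, fun P => Mge_mono P (neg_le_neg (h P)) (hz P)⟩

theorem exists_mem_KD (D : Plk k F →₀ ℤ) (β : Plk k F →₀ F) :
    ∃ E : Plk k F →₀ ℤ, D ≤ E ∧ β ∈ KD E := by
  classical
  let N : Plk k F →₀ ℤ := Finsupp.onFinset β.support (fun P => -ord P (β P)) (by
    intro P hP
    rw [Finsupp.mem_support_iff]
    intro h
    apply hP
    show -ord P (β P) = 0
    rw [h, ord_zero, neg_zero])
  have hN : ∀ P, N P = -ord P (β P) := fun P => rfl
  refine ⟨D ⊔ N, le_sup_left, 0, fun P => ?_⟩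
  rw [sub_zero, mem_Mge]
  right
  have h1 : N P ≤ (D ⊔ N) P := (le_sup_right : N ≤ D ⊔ N) P
  rw [hN] at h1
  linarith

omit [CFF k F] in
theorem CAd_le (D : Plk k F →₀ ℤ) (P : Plk k F) : D ≤ D + Finsupp.single P 1 := by
  classical
  intro Q
  rw [Finsupp.add_apply, Finsupp.single_apply]
  split_ifs <;> simp

omit [CFF k F] in
theorem CAd_at (D : Plk k F →₀ ℤ) (P : Plk k F) :
    (D + Finsupp.single P 1 : Plk k F →₀ ℤ) P = D P + 1 := by
  rw [Finsupp.add_apply, Finsupp.single_eq_same]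

omit [CFF k F] in
theorem CAd_ne (D : Plk k F →₀ ℤ) {P Q : Plk k F} (h : Q ≠ P) :
    (D + Finsupp.single P 1 : Plk k F →₀ ℤ) Q = D Q := by
  rw [Finsupp.add_apply, Finsupp.single_eq_of_ne h, add_zero]

/-- the step towards `D` at the point `P`, in both cases. -/
theorem CAd_step {D : Plk k F →₀ ℤ} {P : Plk k F} {t : F} (ht : t ≠ 0)
    (ht1 : ord P t = -D P - 1) {β : Plk k F →₀ F} {w : F}
    (hw : ∀ Q, β Q - w ∈ Mge Q (-(D + Finsupp.single P 1 : Plk k F →₀ ℤ) Q)) :
    (∃ a : k, β P - w - a • t ∈ Mge P (-D P)) ∧ ∀ Q, Q ≠ P → β Q - w ∈ Mge Q (-D Q) := by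
  constructor
  · have h1 := hw P
    rw [CAd_at, neg_add'] at h1
    obtain ⟨a, ha⟩ := exists_sub_mem ht ht1 h1
    rw [sub_add_cancel] at ha
    exact ⟨a, ha⟩
  · intro Q hQ
    have h1 := hw Q
    rwa [CAd_ne D hQ] at h1

theorem KD_step_of_mem {D : Plk k F →₀ ℤ} {P : Plk k F} {z : F}
    (hz : z ∈ LL k (D + Finsupp.single P 1)) (hz' : z ∉ LL k D) :
    KD (D + Finsupp.single P 1) = KD D := by
  have hz0 : z ≠ 0 := by
    rintro rfl
    exact hz' (zero_mem _)
  have hz1 : ∀ Q, -(D + Finsupp.single P 1 : Plk k F →₀ ℤ) Q ≤ ord Q z := (mem_LL.1 hz).resolve_left hz0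
  have hne : ∀ Q, Q ≠ P → -D Q ≤ ord Q z := by
    intro Q hQ
    have h1 := hz1 Q
    rwa [CAd_ne D hQ] at h1
  have hP : ord P z = -D P - 1 := by
    have h1 := hz1 P
    rw [CAd_at] at h1
    have h2 : ord P z < -D P := by
      by_contra hc
      push Not at hc
      apply hz'
      rw [mem_LL]
      right
      intro Q
      by_cases hQ : Q = P
      · rw [hQ]; exact hc
      · exact hne Q hQ
    omega
  refine le_antisymm ?_ (KD_mono (CAd_le D P))
  rintro β ⟨w, hw⟩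
  obtain ⟨⟨a, ha⟩, h2⟩ := CAd_step hz0 hP hw
  refine ⟨w + a • z, fun Q => ?_⟩
  rw [← sub_sub]
  by_cases hQ : Q = P
  · rw [hQ]; exact ha
  · exact sub_mem (h2 Q hQ) (Submodule.smul_mem _ a (mem_Mge.2 (Or.inr (hne Q hQ))))

theorem KD_step_of_eq {D : Plk k F →₀ ℤ} {P : Plk k F}
    (h : LL k (D + Finsupp.single P 1) ≤ LL k D) :
    ∃ e : Plk k F →₀ F, e ∉ KD D ∧ KD (D + Finsupp.single P 1) = KD D ⊔ Submodule.span k {e} := by
  obtain ⟨π, hπ, hπ1⟩ := exists_unif P
  obtain ⟨t, ht, ht1⟩ : ∃ t : F, t ≠ 0 ∧ ord P t = -D P - 1 :=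
    ⟨π ^ (-D P - 1), zpow_ne_zero _ hπ, by rw [ord_zpow, hπ1, mul_one]⟩
  have e1 : (Finsupp.single P t : Plk k F →₀ F) P = t := Finsupp.single_eq_same
  have e2 : ∀ Q, Q ≠ P → (Finsupp.single P t : Plk k F →₀ F) Q = 0 := fun Q hQ =>
    Finsupp.single_eq_of_ne hQ
  refine ⟨Finsupp.single P t, ?_, le_antisymm ?_ ?_⟩
  · rintro ⟨w, hw⟩
    have hwP : t - w ∈ Mge P (-D P) := by
      have h1 := hw P
      rwa [e1] at h1
    have hwL : w ∈ LL k (D + Finsupp.single P 1) := by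
      rw [mem_LL_iff]
      intro Q
      by_cases hQ : Q = P
      · subst hQ
        rw [CAd_at, neg_add']
        have h1 : t - w ∈ Mge Q (-D Q - 1) := Mge_mono Q (by omega) hwP
        have h2 : t ∈ Mge Q (-D Q - 1) := mem_Mge.2 (Or.inr ht1.ge)
        have h3 := sub_mem h2 h1
        rwa [sub_sub_cancel] at h3
      · rw [CAd_ne D hQ]
        have h1 := hw Q
        rw [e2 Q hQ, zero_sub] at h1
        exact neg_mem_iff.1 h1
    have h3 := mem_LL_iff.1 (h hwL) P
    have h4 := add_mem hwP h3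
    rw [sub_add_cancel, mem_Mge] at h4
    have h5 := h4.resolve_left ht
    omega
  · rintro β ⟨w, hw⟩
    obtain ⟨⟨a, ha⟩, h2⟩ := CAd_step ht ht1 hw
    rw [Submodule.mem_sup]
    refine ⟨β - a • Finsupp.single P t, ⟨w, fun Q => ?_⟩, a • Finsupp.single P t,
      Submodule.smul_mem _ _ (Submodule.mem_span_singleton_self _), sub_add_cancel _ _⟩
    rw [Finsupp.sub_apply, Finsupp.smul_apply]
    by_cases hQ : Q = P
    · rw [hQ, e1, sub_right_comm]
      exact ha
    · rw [e2 Q hQ, smul_zero, sub_zero]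
      exact h2 Q hQ
  · refine sup_le (KD_mono (CAd_le D P)) ?_
    rw [Submodule.span_singleton_le_iff_mem]
    refine ⟨0, fun Q => ?_⟩
    rw [sub_zero]
    by_cases hQ : Q = P
    · rw [hQ, e1, CAd_at, neg_add']
      exact mem_Mge.2 (Or.inr ht1.ge)
    · rw [e2 Q hQ]
      exact zero_mem _

/-- the function space attached to `D` is everything if the degree is large. -/
theorem KD_eq_top {g : ℕ} {c : ℤ} (hc : ∀ D : Plk k F →₀ ℤ, c ≤ dg D →
    (Module.finrank k (LL k D) : ℤ) = dg D + 1 - g) {D : Plk k F →₀ ℤ} (hD : c ≤ dg D) :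
    KD D = ⊤ := by
  have key : ∀ E : Plk k F →₀ ℤ, D ≤ E → KD E = KD D := by
    intro E hE
    refine dv_induct (motive := fun E => KD E = KD D) rfl (fun E P hDE hEk => ?_) hE
    refine Eq.trans ?_ hEk
    have h1 : c ≤ dg E := hD.trans (dg_mono hDE)
    have h2 : dg (E + Finsupp.single P 1) = dg E + 1 := by rw [map_add, dg_sgl]
    have h3 := hc E h1
    have h4 := hc (E + Finsupp.single P 1) (by rw [h2]; omega)
    by_cases hle : LL k (E + Finsupp.single P 1) ≤ LL k E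
    · exfalso
      have h5 := l_step_of_eq hle
      rw [h5, h2] at h4
      omega
    · rw [SetLike.not_le_iff_exists] at hle
      obtain ⟨z, hz, hz'⟩ := hle
      exact KD_step_of_mem hz hz'
  rw [eq_top_iff]
  intro β _
  obtain ⟨E, hE, hβ⟩ := exists_mem_KD D β
  rwa [key E hE] at hβ

end

end Vale.Agent.P019P
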