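import Vale.Agent.P019Q.COrd

/-!
# Weak approximation
-/

namespace Vale.Agent.P019P

section

variable {k F : Type*} [Field k] [Field F] [Algebra k F] [CFF k F]

theorem CAppr_add {P : Plk k F} {x y : F} (hx : x ≠ 0) (hy : y ≠ 0) (h : ord P x ≠ ord P y) :
    x + y ≠ 0 ∧ ord P (x + y) = min (ord P x) (ord P y) := by
  rcases lt_or_gt_of_ne h with h | h
  · have h1 := ord_add_of_lt (P := P) (w := y) hx (mem_Mge.2 (Or.inr (by omega)))
    rw [min_eq_left h.le]
    exact h1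
  · have h1 := ord_add_of_lt (P := P) (w := x) hy (mem_Mge.2 (Or.inr (by omega)))
    rw [min_eq_right h.le, add_comm]
    exact h1

theorem CAppr_pair {P Q : Plk k F} (h : P ≠ Q) :
    ∃ u : F, u ≠ 0 ∧ 0 < ord P u ∧ ord Q u < 0 := by
  have key : ∀ P Q : Plk k F, P ≠ Q → ∃ y : F, y ≠ 0 ∧ 0 ≤ ord P y ∧ ord Q y < 0 := by
    intro P Q h
    by_contra hc
    push Not at hc
    refine h (Plk.eq_of_le fun z hz => ?_)
    rw [mem_iff_ord] at hz ⊢
    by_cases hz0 : z = 0
    · exact Or.inl hz0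
    · exact Or.inr (hc z hz0 (hz.resolve_left hz0))
  obtain ⟨y, hy0, hy1, hy2⟩ := key P Q h
  obtain ⟨z, hz0, hz1, hz2⟩ := key Q P h.symm
  refine ⟨y * z⁻¹, mul_ne_zero hy0 (inv_ne_zero hz0), ?_, ?_⟩
  · rw [ord_mul P hy0 (inv_ne_zero hz0), ord_inv]
    omega
  · rw [ord_mul Q hy0 (inv_ne_zero hz0), ord_inv]
    omega

theorem CAppr_sep (P : Plk k F) (S : Finset (Plk k F)) (hP : P ∉ S) :
    ∃ u : F, u ≠ 0 ∧ 0 < ord P u ∧ ∀ Q ∈ S, ord Q u < 0 := by
  classical
  induction S using Finset.induction_on with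
  | empty =>
    obtain ⟨u, hu0, hu1⟩ := exists_unif P
    exact ⟨u, hu0, by omega, fun Q hQ => absurd hQ (Finset.notMem_empty Q)⟩
  | insert Q S hQ ih =>
    rw [Finset.mem_insert, not_or] at hP
    obtain ⟨y, hy0, hy1, hy2⟩ := ih hP.2
    by_cases hQy : ord Q y < 0
    · refine ⟨y, hy0, hy1, fun R hR => ?_⟩
      rcases Finset.mem_insert.1 hR with rfl | hR
      · exact hQy
      · exact hy2 R hR
    · obtain ⟨z, hz0, hz1, hz2⟩ := CAppr_pair hP.1
      set r : ℕ := 1 + ∑ R ∈ S, (ord R y).natAbs with hr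
      have hr1 : 1 ≤ r := Nat.le_add_right _ _
      have hrS : ∀ R ∈ S, (ord R y).natAbs < r := by
        intro R hR
        have := Finset.single_le_sum (f := fun R => (ord R y).natAbs)
          (fun _ _ => Nat.zero_le _) hR
        omega
      have hzr : z ^ r ≠ 0 := pow_ne_zero r hz0
      have hQ1 : ord Q (z ^ r) < 0 := by
        rw [ord_pow]
        have : (0 : ℤ) < r := by exact_mod_cast hr1
        exact mul_neg_of_pos_of_neg this hz2
      have hQ2 := CAppr_add (P := Q) hy0 hzr (by omega)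
      refine ⟨y + z ^ r, hQ2.1, ?_, fun R hR => ?_⟩
      · have h1 := ord_le_add P hy0 hzr hQ2.1
        have h2 : 0 < ord P (z ^ r) := by
          rw [ord_pow]
          have : (0 : ℤ) < r := by exact_mod_cast hr1
          exact mul_pos this hz1
        exact (lt_min hy1 h2).trans_le h1
      · rcases Finset.mem_insert.1 hR with rfl | hR
        · rw [hQ2.2]
          exact (min_le_right _ _).trans_lt hQ1
        · have h1 : ord R y ≠ ord R (z ^ r) := by
            rw [ord_pow]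
            intro h
            have h2 := hrS R hR
            have h3 := hy2 R hR
            rw [h, Int.natAbs_mul, Int.natAbs_natCast] at h2
            have h4 : (ord R z).natAbs = 0 := by
              by_contra h5
              have : r * 1 ≤ r * (ord R z).natAbs := Nat.mul_le_mul_left r (by omega)
              omega
            rw [Int.natAbs_eq_zero] at h4
            rw [h4, mul_zero] at h
            omega
          rw [(CAppr_add hy0 hzr h1).2]
          exact (min_le_left _ _).trans_lt (hy2 R hR)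

theorem CAppr_one (P : Plk k F) (S : Finset (Plk k F)) (hP : P ∉ S) (N : ℤ) :
    ∃ w : F, w - 1 ∈ Mge P N ∧ ∀ Q ∈ S, w ∈ Mge Q N := by
  obtain ⟨u, hu0, hu1, hu2⟩ := CAppr_sep P S hP
  set s : ℕ := 1 + N.toNat with hs
  have hs1 : (1 : ℤ) ≤ s := by omega
  have hsN : N ≤ s := by omega
  have hv0 : u ^ s ≠ 0 := pow_ne_zero s hu0
  have hPv : (s : ℤ) ≤ ord P (u ^ s) := by
    rw [ord_pow]
    nlinarith
  have hP1 := ord_add_of_lt (P := P) (z := 1) (w := u ^ s) one_ne_zero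
    (mem_Mge.2 (Or.inr (by rw [ord_one]; omega)))
  rw [ord_one] at hP1
  refine ⟨(1 + u ^ s)⁻¹, ?_, fun Q hQ => ?_⟩
  · have e : (1 + u ^ s)⁻¹ - 1 = -(u ^ s * (1 + u ^ s)⁻¹) := by
      field_simp [hP1.1]
      ring
    rw [e]
    have h1 : u ^ s ∈ Mge P (s : ℤ) := mem_Mge.2 (Or.inr hPv)
    have h2 : (1 + u ^ s)⁻¹ ∈ Mge P 0 :=
      mem_Mge.2 (Or.inr (by rw [ord_inv, hP1.2, neg_zero]))
    have h3 := mul_mem_Mge h1 h2
    exact (Mge P N).neg_mem (Mge_mono P (by omega) h3)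
  · have hQv : ord Q (u ^ s) ≤ -(s : ℤ) := by
      rw [ord_pow]
      have := hu2 Q hQ
      nlinarith
    have h1 := CAppr_add (P := Q) (x := 1) (y := u ^ s) one_ne_zero hv0
      (by rw [ord_one]; omega)
    refine mem_Mge.2 (Or.inr ?_)
    rw [ord_inv, h1.2, ord_one, min_eq_right (by omega)]
    omega

theorem weak_appr (S : Finset (Plk k F)) (f : Plk k F → F) (N : ℤ) :
    ∃ z : F, ∀ P ∈ S, z - f P ∈ Mge P N := by
  classical
  set M : ℤ := ∑ P ∈ S, ∑ Q ∈ S, |ord Q (f P)| with hM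
  have hMb : ∀ P ∈ S, ∀ Q ∈ S, |ord Q (f P)| ≤ M := by
    intro P hP Q hQ
    have h1 : |ord Q (f P)| ≤ ∑ Q ∈ S, |ord Q (f P)| :=
      Finset.single_le_sum (f := fun Q => |ord Q (f P)|) (fun _ _ => abs_nonneg _) hQ
    have h2 : ∑ Q ∈ S, |ord Q (f P)| ≤ M :=
      Finset.single_le_sum (f := fun P => ∑ Q ∈ S, |ord Q (f P)|)
        (fun _ _ => Finset.sum_nonneg fun _ _ => abs_nonneg _) hP
    exact h1.trans h2
  have hex : ∀ P : Plk k F, ∃ w : F, w - 1 ∈ Mge P (N + M) ∧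
      ∀ Q ∈ S.erase P, w ∈ Mge Q (N + M) := fun P =>
    CAppr_one P (S.erase P) (Finset.notMem_erase P S) (N + M)
  choose w hw1 hw2 using hex
  refine ⟨∑ P ∈ S, f P * w P, fun P hP => ?_⟩
  have hf : ∀ Q ∈ S, f Q ∈ Mge P (-M) := fun Q hQ =>
    mem_Mge.2 (Or.inr (neg_le_of_abs_le (hMb Q hQ P hP)))
  have e : ∑ Q ∈ S, f Q * w Q - f P = f P * (w P - 1) + ∑ Q ∈ S.erase P, f Q * w Q := by
    rw [← Finset.add_sum_erase S _ hP]
    ring
  rw [e]
  have e2 : -M + (N + M) = N := by ring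
  refine (Mge P N).add_mem ?_ ((Mge P N).sum_mem fun Q hQ => ?_)
  · have := mul_mem_Mge (hf P hP) (hw1 P)
    rwa [e2] at this
  · have hQ' := Finset.mem_erase.1 hQ
    have := mul_mem_Mge (hf Q hQ'.2) (hw2 Q P (Finset.mem_erase.2 ⟨hQ'.1.symm, hP⟩))
    rwa [e2] at this

/-- elements with given orders. -/
theorem exists_ord_eq (S : Finset (Plk k F)) (m : Plk k F → ℤ) :
    ∃ z : F, z ≠ 0 ∧ ∀ P ∈ S, ord P z = m P := by
  rcases S.eq_empty_or_nonempty with rfl | ⟨P0, hP0⟩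
  · exact ⟨1, one_ne_zero, fun P hP => absurd hP (Finset.notMem_empty P)⟩
  choose π hπ0 hπ1 using fun P : Plk k F => exists_unif P
  obtain ⟨z, hz⟩ := weak_appr S (fun P => π P ^ m P) (1 + ∑ P ∈ S, |m P|)
  have key : ∀ P ∈ S, z ≠ 0 ∧ ord P z = m P := by
    intro P hP
    have h1 : |m P| ≤ ∑ P ∈ S, |m P| :=
      Finset.single_le_sum (f := fun P => |m P|) (fun _ _ => abs_nonneg _) hP
    have h2 : ord P (π P ^ m P) = m P := by rw [ord_zpow, hπ1, mul_one]
    have h3 : z - π P ^ m P ∈ Mge P (ord P (π P ^ m P) + 1) := by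
      rw [h2]
      exact Mge_mono P (by linarith [le_abs_self (m P)]) (hz P hP)
    have h4 := ord_add_of_lt (zpow_ne_zero (m P) (hπ0 P)) h3
    rw [add_sub_cancel, h2] at h4
    exact h4
  exact ⟨z, (key P0 hP0).1, fun P hP => (key P hP).2⟩

end

end Vale.Agent.P019P
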