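import Vale.Agent.P019Q.Dg

/-!
# Function fields of one variable: definitions
-/

namespace Vale.Agent.P019P

open Polynomial IntermediateField

section defs

variable (k F : Type*) [Field k] [Field F] [Algebra k F]

/-- function fields of one variable over an algebraically closed field. -/
class CFF : Prop where
  ac : IsAlgClosed k
  ex : ∃ x : F, Transcendental k x ∧ FiniteDimensional k⟮x⟯ F

/-- the places of `F` over `k`. -/
def Plk : Type _ :=
  {O : ValuationSubring F // (∀ a : k, algebraMap k F a ∈ O) ∧ O ≠ ⊤}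

end defs

/-- `f` is the normalised additive valuation of `O` (with `f 0 = 0`). -/
structure IsOrd {F : Type*} [Field F] (O : ValuationSubring F) (f : F → ℤ) : Prop where
  zero : f 0 = 0
  mul : ∀ x y, x ≠ 0 → y ≠ 0 → f (x * y) = f x + f y
  add : ∀ x y, x ≠ 0 → y ≠ 0 → x + y ≠ 0 → min (f x) (f y) ≤ f (x + y)
  mem : ∀ x, x ∈ O ↔ x = 0 ∨ 0 ≤ f x
  one : ∃ π, f π = 1

end Vale.Agent.P019P
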