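import Vale.Agent.P019Q.CL

/-!
# The degree of a principal divisor is zero
-/

namespace Vale.Agent.P019P

open IntermediateField

section

variable {k F : Type*} [Field k] [Field F] [Algebra k F] [CFF k F]

variable (k) in
/-- the divisor of poles. -/
noncomputable def pol (x : F) : Plk k F →₀ ℤ :=
  (dv k x).mapRange (fun n => max 0 (-n)) (by simp)

theorem pol_apply (x : F) (P : Plk k F) : pol k x P = max 0 (-ord P x) := by
  rw [pol, Finsupp.mapRange_apply, dv_apply]

theorem pol_nonneg (x : F) : 0 ≤ pol k x := by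
  intro P
  rw [pol_apply]
  exact le_max_left _ _

theorem dv_eq_pol_sub (x : F) : dv k x = pol k x⁻¹ - pol k x := by
  ext P
  rw [Finsupp.sub_apply, pol_apply, pol_apply, dv_apply, ord_inv]
  omega

/-- the elements `x ^ j * u i`, for a basis `u` over `k(x)`, lie in the Riemann-Roch space of a
divisor close to `r` times the divisor of poles. -/
theorem cDeg_mem {x : F} (hx : x ≠ 0) {ι : Type*} [Fintype ι] {u : ι → F} (hu : ∀ i, u i ≠ 0)
    {r j : ℕ} (hj : j ≤ r) (i : ι) :
    x ^ j * u i ∈ LL k (r • pol k x + ∑ i, pol k (u i)) := by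
  right
  intro P
  rw [ord_mul P (pow_ne_zero _ hx) (hu i), ord_pow, Finsupp.add_apply, Finsupp.smul_apply,
    pol_apply, Finsupp.finsetSum_apply, nsmul_eq_mul]
  have h1 : pol k (u i) P ≤ ∑ i, pol k (u i) P :=
    Finset.single_le_sum (f := fun i => pol k (u i) P) (fun i _ => pol_nonneg (u i) P)
      (Finset.mem_univ i)
  rw [pol_apply] at h1
  have h2 : (j : ℤ) * -(max 0 (-ord P x)) ≤ j * ord P x :=
    mul_le_mul_of_nonneg_left (by omega) (Int.natCast_nonneg j)
  have h3 : (j : ℤ) * max 0 (-ord P x) ≤ r * max 0 (-ord P x) :=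
    mul_le_mul_of_nonneg_right (by exact_mod_cast hj) (le_max_left _ _)
  rw [mul_neg] at h2
  omega

/-- a lower bound for the dimensions of the Riemann-Roch spaces of the multiples of the divisor of
poles. -/
theorem cDeg_lower {x : F} (hx : ∀ a : k, x ≠ algebraMap k F a) :
    ∃ C : ℤ, ∀ r : ℕ, (r + 1) * (Module.finrank k⟮x⟯ F : ℤ) - C ≤
      Module.finrank k (LL k (r • pol k x)) := by
  obtain ⟨hx1, hx2⟩ := finite_of_notMem hx
  have hx0 : x ≠ 0 := fun h => hx 0 (by rw [h, map_zero])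
  set u := Module.finBasis k⟮x⟯ F with hu
  have hu0 : ∀ i, u i ≠ 0 := fun i => u.ne_zero i
  refine ⟨dg (∑ i, pol k (u i)), fun r => ?_⟩
  have h1 := l_sub_le (k := k) (D := r • pol k x) (E := r • pol k x + ∑ i, pol k (u i))
    (le_add_of_nonneg_right (Finset.sum_nonneg fun i _ => pol_nonneg (u i)))
  rw [map_add] at h1
  have h2 := indep_pow_mul hx1 u.linearIndependent
  let e : Fin (Module.finrank k⟮x⟯ F) × Fin (r + 1) → Fin (Module.finrank k⟮x⟯ F) × ℕ :=
    fun p => (p.1, p.2)
  have he : Function.Injective e := by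
    rintro ⟨a, b⟩ ⟨c, d⟩ h
    rw [Prod.mk.injEq] at h ⊢
    exact ⟨h.1, Fin.ext h.2⟩
  have h3 := h2.comp e he
  have h4 : LinearIndependent k (fun p : Fin (Module.finrank k⟮x⟯ F) × Fin (r + 1) =>
      (⟨x ^ (p.2 : ℕ) * u p.1, cDeg_mem hx0 hu0 (Nat.lt_succ_iff.1 p.2.2) p.1⟩ :
        LL k (r • pol k x + ∑ i, pol k (u i)))) :=
    LinearIndependent.of_comp (LL k (r • pol k x + ∑ i, pol k (u i))).subtype h3
  have h5 := h4.fintype_card_le_finrank
  rw [Fintype.card_prod, Fintype.card_fin, Fintype.card_fin] at h5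
  have h6 : (Module.finrank k⟮x⟯ F : ℤ) * (r + 1) ≤
      Module.finrank k (LL k (r • pol k x + ∑ i, pol k (u i))) := by exact_mod_cast h5
  rw [mul_comm] at h6
  omega

omit [CFF k F] in
theorem cDeg_finrank_inv (x : F) : Module.finrank k⟮x⁻¹⟯ F = Module.finrank k⟮x⟯ F := by
  rw [adjoin_inv_eq]

theorem dg_pol {x : F} (hx : ∀ a : k, x ≠ algebraMap k F a) :
    dg (pol k x) = Module.finrank k⟮x⟯ F := by
  apply le_antisymm
  · have h1 := sum_ord_le (nc_inv hx) (pol k x).support fun P hP => by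
      rw [Finsupp.mem_support_iff, pol_apply] at hP
      rw [ord_inv]
      omega
    rw [cDeg_finrank_inv] at h1
    rw [dg_eq_sum (S := (pol k x).support) fun P hP => Finsupp.notMem_support_iff.1 hP]
    refine le_trans (le_of_eq (Finset.sum_congr rfl fun P hP => ?_)) h1
    rw [Finsupp.mem_support_iff, pol_apply] at hP
    rw [pol_apply, ord_inv]
    omega
  · obtain ⟨C, hC⟩ := cDeg_lower hx
    by_contra hlt
    rw [not_le] at hlt
    have h0 : (0 : ℤ) ≤ dg (pol k x) := by
      have := dg_mono (pol_nonneg (k := k) x)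
      rwa [map_zero] at this
    have h1 := hC (C.toNat + 1)
    have h2 := l_sub_le (k := k) (D := 0) (E := (C.toNat + 1) • pol k x)
      (nsmul_nonneg (pol_nonneg x) _)
    rw [l_zero, map_nsmul, map_zero, nsmul_eq_mul, Nat.cast_one] at h2
    push_cast at h1 h2
    have h3 : C ≤ C.toNat := Int.self_le_toNat C
    have h4 : ((C.toNat : ℤ) + 1 + 1) * (dg (pol k x) + 1) ≤
        (C.toNat + 1 + 1) * (Module.finrank k⟮x⟯ F : ℤ) :=
      mul_le_mul_of_nonneg_left (by omega) (by omega)
    have h5 : ((C.toNat : ℤ) + 1 + 1) * (dg (pol k x) + 1) =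
      (C.toNat + 1) * dg (pol k x) + dg (pol k x) + C.toNat + 2 := by ring
    omega

/-- Riemann's lower bound for the multiples of the divisor of poles. -/
theorem exists_l_pol {x : F} (hx : ∀ a : k, x ≠ algebraMap k F a) :
    ∃ C : ℤ, ∀ r : ℕ, r * (Module.finrank k⟮x⟯ F : ℤ) - C ≤
      Module.finrank k (LL k (r • pol k x)) := by
  obtain ⟨C, hC⟩ := cDeg_lower hx
  refine ⟨C, fun r => ?_⟩
  have h1 := hC r
  rw [add_mul, one_mul] at h1
  omega

theorem dg_dv (z : F) : dg (dv k z) = 0 := by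
  by_cases hz : ∃ a : k, z = algebraMap k F a
  · obtain ⟨a, rfl⟩ := hz
    rw [dv_const, map_zero]
  · rw [not_exists] at hz
    rw [dv_eq_pol_sub, map_sub, dg_pol (nc_inv hz), dg_pol hz, cDeg_finrank_inv, sub_self]

/-- the degree of the fibre. -/
theorem fib_sum {x : F} (hx : ∀ a : k, x ≠ algebraMap k F a) (c : k) :
    ∑ P ∈ (fib_finite hx c).toFinset, ord P (x - algebraMap k F c) = Module.finrank k⟮x⟯ F := by
  have h1 := dg_pol (nc_inv (nc_sub hx c))
  rw [cDeg_finrank_inv, adjoin_sub_eq, dg_eq_sum (S := (fib_finite hx c).toFinset)] at h1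
  · rw [← h1]
    refine Finset.sum_congr rfl fun P hP => ?_
    rw [Set.Finite.mem_toFinset, Set.mem_ofPred_eq] at hP
    rw [pol_apply, ord_inv]
    omega
  · intro P hP
    rw [Set.Finite.mem_toFinset, Set.mem_ofPred_eq] at hP
    rw [pol_apply, ord_inv]
    omega

theorem LL_eq_bot {D : Plk k F →₀ ℤ} (h : dg D < 0) : LL k D = ⊥ := by
  rw [eq_bot_iff]
  rintro z (hz | hz)
  · exact hz
  · exfalso
    have h1 : 0 ≤ D + dv k z := by
      intro P
      have h2 := hz P
      rw [Finsupp.add_apply, dv_apply, Finsupp.zero_apply]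
      omega
    have h3 := dg_mono h1
    rw [map_zero, map_add, dg_dv, add_zero] at h3
    omega

theorem l_eq_zero {D : Plk k F →₀ ℤ} (h : dg D < 0) : Module.finrank k (LL k D) = 0 := by
  rw [LL_eq_bot h, finrank_bot]

variable (k F) in
/-- divisors of large degree. -/
theorem exists_dg_eq (n : ℤ) : ∃ D : Plk k F →₀ ℤ, dg D = n := by
  obtain ⟨P⟩ := nonempty_Plk k F
  exact ⟨Finsupp.single P n, dg_sgl P n⟩

end

end Vale.Agent.P019P
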