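import Mathlib

/-!
# Determinants of polynomial matrices
-/

namespace Vale.Agent.P019P

open Polynomial

variable {k : Type*} [Field k] {ι : Type*} [Fintype ι] [DecidableEq ι]

/-- a basis of `ι → k` adapted to a subspace -/
private theorem CDet_basis (N : Submodule k (ι → k)) :
    ∃ (B : Module.Basis ι k (ι → k)) (J : Finset ι), J.card = Module.finrank k N ∧
      ∀ j ∈ J, B j ∈ N := by
  classical
  obtain ⟨N', hN⟩ := Submodule.exists_isCompl N
  set s := Module.finrank k N
  set t := Module.finrank k N'
  let b := ((Module.finBasis k N).prod (Module.finBasis k N')).map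
    (Submodule.prodEquivOfIsCompl N N' hN)
  have hcard : Fintype.card (Fin s ⊕ Fin t) = Fintype.card ι := by
    rw [← Module.finrank_eq_card_basis b, Module.finrank_fintype_fun_eq_card]
  let e : Fin s ⊕ Fin t ≃ ι := Fintype.equivOfCardEq hcard
  refine ⟨b.reindex e, (Finset.univ : Finset (Fin s)).image fun i => e (Sum.inl i), ?_, ?_⟩
  · rw [Finset.card_image_of_injective _ fun x y h => Sum.inl_injective (e.injective h),
      Finset.card_univ, Fintype.card_fin]
  · intro j hj
    obtain ⟨i, -, rfl⟩ := Finset.mem_image.1 hj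
    rw [Module.Basis.reindex_apply, e.symm_apply_apply]
    simp only [b, Module.Basis.map_apply, Module.Basis.prod_apply, Sum.elim_inl,
      Function.comp_apply, Submodule.coe_prodEquivOfIsCompl', LinearMap.coe_inl,
      ZeroMemClass.coe_zero, add_zero]
    exact (Module.finBasis k N i).2

/-- the determinant of a matrix whose value at `c` has a large kernel. -/
theorem pow_dvd_det (G : Matrix ι ι k[X]) (c : k) (N : Submodule k (ι → k))
    (h : ∀ v ∈ N, (G.map (Polynomial.eval c)).mulVec v = 0) :
    (X - C c) ^ Module.finrank k N ∣ G.det := by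
  obtain ⟨B, J, hJ, hB⟩ := CDet_basis N
  let U : Matrix ι ι k := (Pi.basisFun k ι).toMatrix B
  have hU : U * (B.toMatrix (Pi.basisFun k ι)) = 1 :=
    (Pi.basisFun k ι).toMatrix_mul_toMatrix_flip B
  have hdet : U.det ≠ 0 := by
    intro h0
    have := congrArg Matrix.det hU
    rw [Matrix.det_mul, h0, zero_mul, Matrix.det_one] at this
    exact zero_ne_one this
  let A : Matrix ι ι k[X] := G * U.map C
  have hA : ∀ j ∈ J, ∀ i, (X - C c) ∣ A i j := by
    intro j hj i
    rw [dvd_iff_isRoot, IsRoot.def]
    have h1 := congrFun (h (B j) (hB j hj)) i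
    simp only [Matrix.mulVec, dotProduct, Matrix.map_apply, Pi.zero_apply] at h1
    simp only [A, Matrix.mul_apply, Matrix.map_apply, eval_finsetSum, eval_mul, eval_C, U,
      Module.Basis.toMatrix_apply, Pi.basisFun_repr]
    exact h1
  let v : ι → k[X] := fun j => if j ∈ J then X - C c else 1
  have hv : ∀ i j, v j ∣ A i j := by
    intro i j
    by_cases hj : j ∈ J
    · simp only [v, if_pos hj]
      exact hA j hj i
    · simp only [v, if_neg hj]
      exact one_dvd _
  choose G' hG' using hv
  have e1 : A = fun i j => v j * G' i j := by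
    funext i j
    exact hG' i j
  have e2 : A.det = (∏ j, v j) * Matrix.det (fun i j => G' i j) := by
    rw [e1]
    exact Matrix.det_mul_row v _
  have e3 : (∏ j, v j) = (X - C c) ^ Module.finrank k N := by
    simp only [v]
    rw [Finset.prod_ite_mem, Finset.univ_inter, Finset.prod_const, hJ]
  have e4 : A.det = G.det * C U.det := by
    simp only [A]
    rw [Matrix.det_mul]
    congr 1
    exact (RingHom.map_det C U).symm
  have h5 : (X - C c) ^ Module.finrank k N ∣ G.det * C U.det := by
    rw [← e4, e2, e3]
    exact dvd_mul_right _ _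
  have hu : IsUnit (C U.det) := isUnit_C.2 (isUnit_iff_ne_zero.2 hdet)
  exact (hu.dvd_mul_right).1 h5

theorem natDegree_det_le' (G : Matrix ι ι k[X]) (a b : ι → ℕ)
    (h : ∀ i j, (G i j).natDegree ≤ a i + b j) :
    G.det.natDegree ≤ ∑ i, a i + ∑ j, b j := by
  rw [Matrix.det_apply]
  refine natDegree_sum_le_of_forall_le _ _ fun σ _ => ?_
  have h1 : (Equiv.Perm.sign σ • ∏ i, G (σ i) i).natDegree ≤ (∏ i, G (σ i) i).natDegree := by
    rcases Int.units_eq_one_or (Equiv.Perm.sign σ) with h | h <;> rw [h]
    · simp
    · simp [Units.smul_def]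
  refine h1.trans ((natDegree_prod_le _ _).trans ?_)
  calc ∑ i, (G (σ i) i).natDegree ≤ ∑ i, (a (σ i) + b i) := Finset.sum_le_sum fun i _ => h _ _
    _ = ∑ i, a i + ∑ j, b j := by
      rw [Finset.sum_add_distrib, Equiv.sum_comp σ a]

end Vale.Agent.P019P
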