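import Vale.Agent.P019Q.Dg

/-!
# Divisors: degree, induction along points
-/

namespace Vale.Agent.P019P

variable {P : Type*}

theorem dg_apply (D : P →₀ ℤ) : dg D = D.sum fun _ n => n := by
  unfold dg
  rw [Finsupp.liftAddHom_apply]
  rfl

theorem dg_sgl (p : P) (n : ℤ) : dg (Finsupp.single p n) = n := by
  rw [dg_apply, Finsupp.sum_single_index rfl]

private theorem dg_nonneg {D : P →₀ ℤ} (h : 0 ≤ D) : 0 ≤ dg D := by
  rw [dg_apply]
  exact Finset.sum_nonneg fun p _ => h p

theorem dg_mono {D E : P →₀ ℤ} (h : D ≤ E) : dg D ≤ dg E := by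
  have h1 : 0 ≤ dg (E - D) := dg_nonneg (sub_nonneg.2 h)
  rw [map_sub] at h1
  linarith

theorem eq_of_le_of_dg_le {D E : P →₀ ℤ} (h : D ≤ E) (h1 : dg E ≤ dg D) : D = E := by
  have h2 : dg (E - D) ≤ 0 := by rw [map_sub]; linarith
  rw [dg_apply] at h2
  have hn : ∀ p ∈ (E - D).support, 0 ≤ (E - D) p := fun p _ => by
    rw [Finsupp.sub_apply]
    exact sub_nonneg.2 (h p)
  have h3 : (E - D).sum (fun _ n => n) = 0 := le_antisymm h2 (Finset.sum_nonneg hn)
  have h4 := (Finset.sum_eq_zero_iff_of_nonneg hn).1 h3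
  ext p
  by_cases hp : p ∈ (E - D).support
  · have := h4 p hp
    rw [Finsupp.sub_apply] at this
    linarith
  · rw [Finsupp.notMem_support_iff, Finsupp.sub_apply] at hp
    linarith

theorem dg_eq_sum {D : P →₀ ℤ} {S : Finset P} (h : ∀ p, p ∉ S → D p = 0) :
    dg D = ∑ p ∈ S, D p := by
  rw [dg_apply]
  refine Finsupp.sum_of_support_subset D ?_ _ fun _ _ => rfl
  intro p hp
  by_contra hps
  exact Finsupp.mem_support_iff.1 hp (h p hps)

/-- induction upwards from a divisor, adding one point at a time. -/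
theorem dv_induct {motive : (P →₀ ℤ) → Prop} {D : P →₀ ℤ} (h0 : motive D)
    (hs : ∀ (E : P →₀ ℤ) (p : P), D ≤ E → motive E → motive (E + Finsupp.single p 1))
    {E : P →₀ ℤ} (hE : D ≤ E) : motive E := by
  obtain ⟨n, hn⟩ : ∃ n : ℕ, n = (dg (E - D)).toNat := ⟨_, rfl⟩
  induction n generalizing E with
  | zero =>
    have h1 : dg E ≤ dg D := by
      have : dg (E - D) ≤ 0 := by
        by_contra hc
        push Not at hc
        have := Int.toNat_of_nonneg hc.le
        omega
      rw [map_sub] at this
      linarith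
    rw [← eq_of_le_of_dg_le hE h1]
    exact h0
  | succ n ih =>
    have hne : E ≠ D := by
      rintro rfl
      rw [sub_self, map_zero] at hn
      simp at hn
    obtain ⟨p, hp⟩ : ∃ p, E p ≠ D p := by
      by_contra hc
      push Not at hc
      exact hne (Finsupp.ext hc)
    have hp1 : D p < E p := lt_of_le_of_ne (hE p) (Ne.symm hp)
    have hE' : D ≤ E - Finsupp.single p 1 := by
      intro q
      rw [Finsupp.sub_apply]
      by_cases hq : q = p
      · subst hq
        rw [Finsupp.single_eq_same]
        omega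
      · rw [Finsupp.single_eq_of_ne hq, sub_zero]
        exact hE q
    have h2 : n = (dg (E - Finsupp.single p 1 - D)).toNat := by
      have : dg (E - Finsupp.single p 1 - D) = dg (E - D) - 1 := by
        rw [map_sub, map_sub, map_sub, dg_sgl]
        ring
      rw [this]
      omega
    have h3 := hs _ p hE' (ih hE' h2)
    rwa [sub_add_cancel] at h3

/-- a function of divisors which is invariant under adding a point is constant. -/
theorem const_of_step {α : Type*} {f : (P →₀ ℤ) → α}
    (h : ∀ (D : P →₀ ℤ) (p : P), f (D + Finsupp.single p 1) = f D) (D E : P →₀ ℤ) :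
    f D = f E := by
  have key : ∀ {D E : P →₀ ℤ}, D ≤ E → f E = f D := by
    intro D E hDE
    exact dv_induct (motive := fun E => f E = f D) rfl (fun E p _ hE => (h E p).trans hE) hDE
  exact (key (le_sup_left : D ≤ D ⊔ E)).symm.trans (key (le_sup_right : E ≤ D ⊔ E))

end Vale.Agent.P019P
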