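import Vale.Agent.P019Q.CTrc
import Vale.Agent.P019Q.CDet

/-!
# The discriminant of a graded basis
-/

namespace Vale.Agent.P019P

open Polynomial IntermediateField

section

variable {k F : Type*} [Field k] [Field F] [Algebra k F] [CFF k F]

/-- vanishing at the points of a finite set is a small number of conditions. -/
theorem finrank_vanish {n : ℕ} {e : Fin n → F} (S : Finset (Plk k F))
    (he : ∀ P ∈ S, ∀ i, e i ∈ Mge P 0) :
    ∃ N : Submodule k (Fin n → k), n ≤ Module.finrank k N + S.card ∧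
      ∀ v ∈ N, ∀ P ∈ S, ∑ i, v i • e i ∈ Mge P 1 := by
  have hres : ∀ P : S, ∀ i, ∃ c : k, e i - algebraMap k F c ∈ Mge P.1 1 := by
    intro P i
    rcases mem_Mge.1 (he P.1 P.2 i) with h0 | h0
    · exact ⟨0, by rw [h0, map_zero, sub_zero]; exact Submodule.zero_mem _⟩
    · obtain ⟨c, hc⟩ := exists_cst P.1 ((mem_iff_ord P.1 _).2 (Or.inr h0))
      refine ⟨c, ?_⟩
      rcases hc with hc | hc
      · rw [← hc, sub_self]; exact Submodule.zero_mem _
      · exact Or.inr hc
  choose c hc using hres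
  refine ⟨LinearMap.ker (Matrix.mulVecLin (Matrix.of c)), ?_, ?_⟩
  · have h1 := LinearMap.finrank_range_add_finrank_ker (Matrix.mulVecLin (Matrix.of c))
    have h2 : Module.finrank k (LinearMap.range (Matrix.mulVecLin (Matrix.of c))) ≤ S.card :=
      (Submodule.finrank_le _).trans
        (by rw [Module.finrank_fintype_fun_eq_card, Fintype.card_coe])
    rw [Module.finrank_fin_fun] at h1
    omega
  · intro v hv P hP
    have h3 : ∑ i, c ⟨P, hP⟩ i * v i = 0 := congrFun (LinearMap.mem_ker.1 hv) ⟨P, hP⟩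
    have h5 : ∑ i, v i • algebraMap k F (c ⟨P, hP⟩ i) = 0 := by
      have h6 : ∀ i, v i • algebraMap k F (c ⟨P, hP⟩ i) =
          algebraMap k F (c ⟨P, hP⟩ i * v i) := by
        intro i
        rw [Algebra.smul_def, ← map_mul, mul_comm]
      rw [Finset.sum_congr rfl fun i _ => h6 i, ← map_sum, h3, map_zero]
    have h4 : ∑ i, v i • e i = ∑ i, v i • (e i - algebraMap k F (c ⟨P, hP⟩ i)) := by
      simp only [smul_sub]
      rw [Finset.sum_sub_distrib, h5, sub_zero]
    rw [h4]
    exact Submodule.sum_mem _ fun i _ => Submodule.smul_mem _ _ (hc ⟨P, hP⟩ i)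

/-- the discriminant. -/
theorem exists_disc {x : F} (hx : ∀ a : k, x ≠ algebraMap k F a) [Algebra.IsSeparable k⟮x⟯ F] :
    ∃ Δ : k[X], Δ ≠ 0 ∧
      (Δ.natDegree : ℤ) ≤ 2 * gen k F - 2 + 2 * Module.finrank k⟮x⟯ F ∧
      ∀ c : k, (X - C c) ^ (Module.finrank k⟮x⟯ F - (fib_finite hx c).toFinset.card) ∣ Δ := by
  classical
  obtain ⟨e, a, he, ha⟩ := exists_GrB hx
  obtain ⟨-, hfd⟩ := finite_of_notMem hx
  have hmul : ∀ i j, e i * e j ∈ Mr k x ((a i + a j : ℕ) : ℤ) := fun i j => by
    rw [Nat.cast_add]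
    exact Mr_mul (he.mem i) (he.mem j)
  choose T hTd hT using fun i j => he.exists_trace hx rfl (hmul i j)
  have hpos : 0 < Module.finrank k⟮x⟯ F := Module.finrank_pos
  have hne : Nonempty (Fin (Module.finrank k⟮x⟯ F)) := ⟨⟨0, hpos⟩⟩
  have hdisc := Algebra.discr_not_zero_of_basis k⟮x⟯
    (basisOfLinearIndependentOfCardEqFinrank he.ind (Fintype.card_fin _))
  rw [coe_basisOfLinearIndependentOfCardEqFinrank, Algebra.discr_def] at hdisc
  have hdet : algebraMap k⟮x⟯ F (Algebra.traceMatrix k⟮x⟯ e).det =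
      aeval x (Matrix.of T).det := by
    rw [RingHom.map_det, AlgHom.map_det]
    congr 1
    ext i j
    change algebraMap k⟮x⟯ F (Algebra.trace k⟮x⟯ F (e i * e j)) = aeval x (T i j)
    exact hT i j
  refine ⟨(Matrix.of T).det, ?_, ?_, ?_⟩
  · intro h0
    rw [h0, map_zero] at hdet
    exact hdisc ((map_eq_zero _).1 hdet)
  · have h1 := natDegree_det_le' (Matrix.of T) a a hTd
    have h2 : ((Matrix.of T).det.natDegree : ℤ) ≤ ∑ i, (a i : ℤ) + ∑ i, (a i : ℤ) := by
      exact_mod_cast h1
    rw [ha] at h2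
    linarith
  · intro c
    have hS : ∀ P ∈ (fib_finite hx c).toFinset, ∀ i, e i ∈ Mge P 0 := by
      intro P hP i
      have h1 : 0 < ord P (x - algebraMap k F c) := (Set.Finite.mem_toFinset (fib_finite hx c)).1 hP
      have h2 : x ∈ Mge P 0 := by
        have h3 : x = (x - algebraMap k F c) + algebraMap k F c := by ring
        rw [h3]
        exact Submodule.add_mem _ (Or.inr h1.le) (Or.inr (ord_const P c).ge)
      have h4 : 0 ≤ ord P x := by
        rcases h2 with h2 | h2
        · rw [h2, ord_zero]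
        · exact h2
      have h5 : pol k x P = 0 := by
        rw [pol_apply]
        exact max_eq_left (by omega)
      have h6 := mem_Mr.1 (he.mem i) P
      rwa [h5, mul_zero, neg_zero] at h6
    obtain ⟨N, hN1, hN2⟩ := finrank_vanish (fib_finite hx c).toFinset hS
    refine (pow_dvd_pow _ (by omega)).trans (pow_dvd_det (Matrix.of T) c N ?_)
    intro v hv
    funext i
    have hsum : e i * ∑ j, v j • e j = ∑ j, v j • (e i * e j) := by
      rw [Finset.mul_sum]
      exact Finset.sum_congr rfl fun j _ => mul_smul_comm _ _ _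
    have hmem : e i * ∑ j, v j • e j ∈ Mr k x ((a i + ∑ j, a j : ℕ) : ℤ) := by
      rw [hsum]
      refine Submodule.sum_mem _ fun j _ => Submodule.smul_mem _ _ ?_
      refine (flt_Mr hx).mono ?_ (hmul i j)
      have h7 := Finset.single_le_sum (f := a) (fun _ _ => Nat.zero_le _) (Finset.mem_univ j)
      exact_mod_cast Nat.add_le_add_left h7 _
    have h0 : ∀ P : Plk k F, 0 < ord P (x - algebraMap k F c) →
        e i * ∑ j, v j • e j ∈ Mge P 1 := by
      intro P hP
      have hP' : P ∈ (fib_finite hx c).toFinset := (Set.Finite.mem_toFinset (fib_finite hx c)).2 hP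
      have h8 := mul_mem_Mge (hS P hP' i) (hN2 v hv P hP')
      rwa [zero_add] at h8
    have hτ : algebraMap k⟮x⟯ F (Algebra.trace k⟮x⟯ F (e i * ∑ j, v j • e j)) =
        aeval x (∑ j, C (v j) * T i j) := by
      rw [hsum, map_sum, map_sum, map_sum]
      refine Finset.sum_congr rfl fun j _ => ?_
      rw [LinearMap.map_smul_of_tower, Algebra.smul_def, map_mul,
        ← IsScalarTower.algebraMap_apply k k⟮x⟯ F, hT i j, map_mul, aeval_C]
    have h9 := he.trace_eval hx rfl hmem h0 hτ
    rw [eval_finsetSum] at h9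
    change ∑ j, (T i j).eval c * v j = 0
    rw [← h9]
    refine Finset.sum_congr rfl fun j _ => ?_
    rw [eval_mul, eval_C, mul_comm]

end

end Vale.Agent.P019P
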