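import Vale.Agent.P019Q.COne

/-!
# The Riemann-Roch theorem, the genus
-/

namespace Vale.Agent.P019P

open IntermediateField

theorem CDual_tw_zero {k F : Type*} [Field k] [Field F] [Algebra k F] [CFF k F]
    (ω : Module.Dual k (Plk k F →₀ F)) : tw (0 : F) ω = 0 := by
  have h := tw_add (0 : F) 0 ω
  rw [add_zero] at h
  exact left_eq_add.mp h

/-- the differentials regular with respect to `D` are the multiples of a fixed one by the
functions in `LL k (W - D)`. -/
theorem CDual_finrank {k F : Type*} [Field k] [Field F] [Algebra k F] [CFF k F]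
    {ω : Module.Dual k (Plk k F →₀ F)} {A W : Plk k F →₀ ℤ} (h0 : ω ≠ 0) (hA : ω ∈ Om A)
    (hW : ∀ D, ω ∈ Om D ↔ D ≤ W) (D : Plk k F →₀ ℤ) :
    Module.finrank k (Om D) = Module.finrank k (LL k (W - D)) := by
  have hiff : ∀ z : F, z ≠ 0 → (tw z ω ∈ Om D ↔ z ∈ LL k (W - D)) := by
    intro z hz
    rw [tw_mem_Om hz, hW, mem_LL]
    constructor
    · intro h
      refine Or.inr fun P => ?_
      have h1 := h P
      rw [Finsupp.sub_apply, dv_apply] at h1
      rw [Finsupp.sub_apply]
      linarith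
    · rintro (h | h)
      · exact absurd h hz
      · intro P
        have h1 := h P
        rw [Finsupp.sub_apply] at h1
        rw [Finsupp.sub_apply, dv_apply]
        linarith
  have hmem : ∀ z : LL k (W - D), tw (z : F) ω ∈ Om D := by
    rintro ⟨z, hz⟩
    by_cases h : z = 0
    · subst h
      change tw (0 : F) ω ∈ Om D
      rw [CDual_tw_zero]
      exact zero_mem _
    · exact (hiff z h).2 hz
  let T : LL k (W - D) →ₗ[k] Om D :=
    { toFun := fun z => ⟨tw (z : F) ω, hmem z⟩
      map_add' := fun z w => Subtype.ext (tw_add (z : F) w ω)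
      map_smul' := fun a z => Subtype.ext (tw_smul a (z : F) ω) }
  have hT : Function.Bijective T := by
    constructor
    · rw [injective_iff_map_eq_zero]
      intro z hz
      have h1 : tw (z : F) ω = 0 := congrArg Subtype.val hz
      by_contra hne
      have h2 : (z : F) ≠ 0 := fun h => hne (Subtype.ext h)
      apply h0
      have h3 : tw (((z : F))⁻¹ * (z : F)) ω = tw ((z : F))⁻¹ (tw (z : F) ω) := tw_mul _ _ _
      rw [inv_mul_cancel₀ h2, tw_one, h1, map_zero] at h3
      exact h3
    · rintro ⟨ω', h'⟩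
      obtain ⟨z, hz⟩ := exists_tw h0 hA h'
      by_cases h : z = 0
      · refine ⟨0, Subtype.ext ?_⟩
        rw [map_zero]
        change (0 : Module.Dual k (Plk k F →₀ F)) = ω'
        rw [hz, h, CDual_tw_zero]
      · refine ⟨⟨z, (hiff z h).1 (hz ▸ h')⟩, Subtype.ext ?_⟩
        exact hz.symm
  exact (LinearEquiv.ofBijective T hT).finrank_eq.symm

/-- the Riemann-Roch theorem. -/
theorem exists_RR (k F : Type*) [Field k] [Field F] [Algebra k F] [CFF k F] :
    ∃ (g : ℕ) (κ : Plk k F →₀ ℤ), ∀ D : Plk k F →₀ ℤ,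
      (Module.finrank k (LL k D) : ℤ) - Module.finrank k (LL k (κ - D)) = dg D + 1 - g := by
  obtain ⟨g, _, c, hc⟩ := exists_riem k F
  obtain ⟨D₀, hD₀⟩ := exists_dg_eq k F (-2)
  have h1 : 0 < Module.finrank k (Om D₀) := by
    have h := finrank_Om hc D₀
    omega
  obtain ⟨ω, hω, hne⟩ : ∃ ω ∈ Om D₀, ω ≠ 0 := by
    have hnt : Nontrivial (Om D₀) := Module.nontrivial_of_finrank_pos h1
    obtain ⟨⟨ω, hω⟩, h⟩ := exists_ne (0 : Om D₀)
    exact ⟨ω, hω, fun h' => h (Subtype.ext h')⟩
  obtain ⟨W, hW⟩ := exists_dvOm hne hω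
  refine ⟨g, W, fun D => ?_⟩
  rw [← CDual_finrank hne hω hW D, finrank_Om hc D]
  ring

section

variable (k F : Type*) [Field k] [Field F] [Algebra k F] [CFF k F]

/-- the genus. -/
noncomputable def gen : ℕ := (exists_RR k F).choose

/-- a canonical divisor. -/
noncomputable def can : Plk k F →₀ ℤ := (exists_RR k F).choose_spec.choose

end

section

variable {k F : Type*} [Field k] [Field F] [Algebra k F] [CFF k F]

theorem RR (D : Plk k F →₀ ℤ) :
    (Module.finrank k (LL k D) : ℤ) - Module.finrank k (LL k (can k F - D)) =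
      dg D + 1 - gen k F := (exists_RR k F).choose_spec.choose_spec D

/-- Riemann-Roch for large degree. -/
theorem RR_large {D : Plk k F →₀ ℤ} (h : dg (can k F) < dg D) :
    (Module.finrank k (LL k D) : ℤ) = dg D + 1 - gen k F := by
  have h1 := RR D
  have h2 : Module.finrank k (LL k (can k F - D)) = 0 :=
    l_eq_zero (by rw [map_sub]; linarith)
  rw [h2] at h1
  simpa using h1

/-- the dimensions attached to the multiples of the divisor of poles. -/
theorem exists_l_pol_eq {x : F} (hx : ∀ a : k, x ≠ algebraMap k F a) :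
    ∃ r₀ : ℕ, ∀ r : ℕ, r₀ ≤ r → (Module.finrank k (LL k (r • pol k x)) : ℤ) =
      r * Module.finrank k⟮x⟯ F + 1 - gen k F := by
  have hfd : FiniteDimensional k⟮x⟯ F := (finite_of_notMem hx).2
  have hpos : 0 < Module.finrank k⟮x⟯ F := Module.finrank_pos
  refine ⟨(dg (can k F) + 1).toNat, fun r hr => ?_⟩
  have hdg : dg (r • pol k x) = r * (Module.finrank k⟮x⟯ F : ℤ) := by
    rw [map_nsmul, dg_pol hx, nsmul_eq_mul]
  rw [← hdg]
  refine RR_large ?_
  rw [hdg]
  have h1 : dg (can k F) + 1 ≤ r := Int.toNat_le.mp hr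
  have h2 : (1 : ℤ) ≤ Module.finrank k⟮x⟯ F := by exact_mod_cast hpos
  have h3 : (r : ℤ) * 1 ≤ r * (Module.finrank k⟮x⟯ F : ℤ) :=
    mul_le_mul_of_nonneg_left h2 (Int.natCast_nonneg r)
  linarith

/-- uniqueness of the genus. -/
theorem gen_unique {g : ℤ} {c : ℤ} (h : ∀ D : Plk k F →₀ ℤ, c ≤ dg D →
    (Module.finrank k (LL k D) : ℤ) = dg D + 1 - g) : g = gen k F := by
  obtain ⟨D, hD⟩ := exists_dg_eq k F (max c (dg (can k F) + 1))
  have h1 := h D (by rw [hD]; exact le_max_left _ _)
  have h2 := RR_large (D := D) (by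
    rw [hD]
    exact lt_of_lt_of_le (lt_add_one _) (le_max_right _ _))
  linarith

end

end Vale.Agent.P019P
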