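import Vale.Agent.P019Q.CDef

/-!
# Function fields of one variable: field theory
-/

namespace Vale.Agent.P019P

open Polynomial IntermediateField

section

variable {k F : Type*} [Field k] [Field F] [Algebra k F]

theorem adjoin_inv_eq (x : F) : k⟮x⁻¹⟯ = k⟮x⟯ := by
  refine le_antisymm ?_ ?_
  · exact adjoin_simple_le_iff.2 (inv_mem (mem_adjoin_simple_self k x))
  · refine adjoin_simple_le_iff.2 ?_
    have h := inv_mem (mem_adjoin_simple_self k x⁻¹)
    rwa [inv_inv] at h

theorem adjoin_sub_eq (x : F) (c : k) : k⟮x - algebraMap k F c⟯ = k⟮x⟯ := by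
  refine le_antisymm ?_ ?_
  · exact adjoin_simple_le_iff.2 (sub_mem (mem_adjoin_simple_self k x)
      (IntermediateField.algebraMap_mem _ c))
  · refine adjoin_simple_le_iff.2 ?_
    have h := add_mem (mem_adjoin_simple_self k (x - algebraMap k F c))
      (IntermediateField.algebraMap_mem k⟮x - algebraMap k F c⟯ c)
    rwa [sub_add_cancel] at h

theorem nc_inv {x : F} (hx : ∀ a : k, x ≠ algebraMap k F a) (a : k) : x⁻¹ ≠ algebraMap k F a := by
  intro h
  apply hx a⁻¹
  rw [map_inv₀, ← h, inv_inv]

theorem nc_sub {x : F} (hx : ∀ a : k, x ≠ algebraMap k F a) (c a : k) :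
    x - algebraMap k F c ≠ algebraMap k F a := by
  intro h
  apply hx (a + c)
  rw [map_add, ← h, sub_add_cancel]

theorem CFld_essFin {t : F} (h : FiniteDimensional k⟮t⟯ F) : Algebra.EssFiniteType k F := by
  have h1 : Algebra.EssFiniteType k k⟮t⟯ :=
    essFiniteType_iff.2 ⟨{t}, by simp⟩
  have h2 : Algebra.EssFiniteType k⟮t⟯ F := inferInstance
  exact Algebra.EssFiniteType.comp k k⟮t⟯ F

theorem CFld_basis {t : F} (ht : Transcendental k t) (h : FiniteDimensional k⟮t⟯ F) :
    IsTranscendenceBasis k (fun _ : Unit => t) := by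
  have hai : AlgebraicIndependent k (fun _ : Unit => t) := algebraicIndependent_unique_type_iff.2 ht
  rw [isTranscendenceBasis_iff_algebraicIndependent_isAlgebraic]
  refine ⟨hai, ?_⟩
  have h3 : Algebra.IsAlgebraic k⟮t⟯ F := inferInstance
  have h4 : Set.range (fun _ : Unit => t) = {t} := by ext; simp [eq_comm]
  rw [h4]
  exact (IntermediateField.isAlgebraic_adjoin_iff_top).1 h3

end

theorem CFld_finite {k F : Type*} [Field k] [Field F] [Algebra k F] [CFF k F] {x : F}
    (hx : Transcendental k x) : FiniteDimensional k⟮x⟯ F := by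
  obtain ⟨t, ht, hfd⟩ := CFF.ex (k := k) (F := F)
  have hb := CFld_basis ht hfd
  have htr : Cardinal.lift (Cardinal.mk Unit) = Cardinal.lift (Algebra.trdeg k F) :=
    hb.lift_cardinalMk_eq_trdeg
  have hai : AlgebraicIndependent k (fun _ : Unit => x) := algebraicIndependent_unique_type_iff.2 hx
  have hbx : IsTranscendenceBasis k (fun _ : Unit => x) :=
    hai.isTranscendenceBasis_of_lift_trdeg_le_of_finite htr.ge
  have h4 : Set.range (fun _ : Unit => x) = {x} := by ext; simp [eq_comm]
  have h5 := hbx.isAlgebraic_field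
  rw [h4] at h5
  have h6 : Algebra.EssFiniteType k F := CFld_essFin hfd
  have h7 : Algebra.EssFiniteType k⟮x⟯ F := Algebra.EssFiniteType.of_comp k k⟮x⟯ F
  exact Algebra.finite_of_essFiniteType_of_isAlgebraic

/-- existence of separating elements. -/
theorem exists_sep (k F : Type*) [Field k] [Field F] [Algebra k F] [CFF k F] :
    ∃ x : F, Transcendental k x ∧ FiniteDimensional k⟮x⟯ F ∧ Algebra.IsSeparable k⟮x⟯ F := by
  obtain ⟨t, ht, hfd⟩ := CFF.ex (k := k) (F := F)
  have : Algebra.EssFiniteType k F := CFld_essFin hfd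
  have : IsAlgClosed k := CFF.ac (k := k) (F := F)
  obtain ⟨s, hs, hsep⟩ := exists_isTranscendenceBasis_and_isSeparable_of_perfectField k F
  have hb := CFld_basis ht hfd
  have hcard : Cardinal.lift (Cardinal.mk Unit) = Cardinal.lift (Cardinal.mk s) :=
    hb.lift_cardinalMk_eq hs
  have h1 : s.card = 1 := by
    simpa using hcard.symm
  obtain ⟨x, rfl⟩ := Finset.card_eq_one.1 h1
  have hx : Transcendental k x := hs.1.transcendental ⟨x, by simp⟩
  refine ⟨x, hx, CFld_finite hx, ?_⟩
  rw [Finset.coe_singleton] at hsep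
  exact hsep

/-- every non-constant element is transcendental with finite degree. -/
theorem finite_of_notMem {k F : Type*} [Field k] [Field F] [Algebra k F] [CFF k F] {x : F}
    (hx : ∀ a : k, x ≠ algebraMap k F a) :
    Transcendental k x ∧ FiniteDimensional k⟮x⟯ F := by
  have : IsAlgClosed k := CFF.ac (k := k) (F := F)
  have htr : Transcendental k x := by
    intro halg
    have hint : IsIntegral k x := halg.isIntegral
    obtain ⟨a, ha⟩ := minpoly.mem_range_of_degree_eq_one k x
      (IsAlgClosed.degree_eq_one_of_irreducible k (minpoly.irreducible hint))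
    exact hx a ha.symm
  exact ⟨htr, CFld_finite htr⟩

end Vale.Agent.P019P
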