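import Vale.Agent.P019Q.CRel

/-!
# Graded bases
-/

namespace Vale.Agent.P019P

open Polynomial IntermediateField

section

variable {k F : Type*} [Field k] [Field F] [Algebra k F]

/-- a filtration of a subspace of `F` by finite dimensional spaces, compatible with multiplication
by `x`. -/
structure Flt (x : F) (M : ℤ → Submodule k F) : Prop where
  fin : ∀ r, FiniteDimensional k (M r)
  neg : ∀ r, r < 0 → M r = ⊥
  mono : Monotone M
  mul : ∀ r z, z ∈ M r → x * z ∈ M (r + 1)
  colon : ∀ r s z, z ∈ M s → x * z ∈ M r → z ∈ M (r - 1)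

/-- a graded basis of a filtration. -/
structure GrB (x : F) (M : ℤ → Submodule k F) {ι : Type*} [Fintype ι] (e : ι → F)
    (a : ι → ℕ) : Prop where
  mem : ∀ i, e i ∈ M (a i)
  ind : LinearIndependent k⟮x⟯ e
  span : ∀ (r : ℤ) (z : F), z ∈ M r → ∃ φ : ι → k[X], z = ∑ i, aeval x (φ i) * e i ∧
    ∀ i, φ i ≠ 0 → ((φ i).natDegree : ℤ) + a i ≤ r

/-- complement of a subspace by a family. -/
private theorem CGrA_cpl (V W : Submodule k F) [FiniteDimensional k V] :
    ∃ (n : ℕ) (e : Fin n → F), (∀ i, e i ∈ V) ∧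
      (∀ c : Fin n → k, ∑ i, c i • e i ∈ W → ∀ i, c i = 0) ∧
      ∀ z ∈ V, ∃ c : Fin n → k, z - ∑ i, c i • e i ∈ W := by
  let W' := W.comap V.subtype
  let b := Module.finBasis k (V ⧸ W')
  have hl : ∀ i, ∃ v : V, W'.mkQ v = b i := fun i => W'.mkQ_surjective (b i)
  choose v hv using hl
  refine ⟨Module.finrank k (V ⧸ W'), fun i => (v i : F), fun i => (v i).2, ?_, ?_⟩
  · intro c hc i
    have h1 : (∑ i, c i • v i) ∈ W' := by
      show V.subtype (∑ i, c i • v i) ∈ W
      rw [map_sum]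
      exact hc
    have h2 : ∑ i, c i • b i = 0 := by
      have h3 : W'.mkQ (∑ i, c i • v i) = 0 := (Submodule.Quotient.mk_eq_zero W').2 h1
      rw [map_sum] at h3
      rw [← h3]
      exact Finset.sum_congr rfl fun j _ => by rw [map_smul, hv]
    exact (Fintype.linearIndependent_iff.1 b.linearIndependent) c h2 i
  · intro z hz
    refine ⟨fun i => b.repr (W'.mkQ ⟨z, hz⟩) i, ?_⟩
    have h1 : ((⟨z, hz⟩ : V) - ∑ i, b.repr (W'.mkQ ⟨z, hz⟩) i • v i) ∈ W' := by
      rw [← Submodule.Quotient.mk_eq_zero W']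
      show W'.mkQ ((⟨z, hz⟩ : V) - ∑ i, b.repr (W'.mkQ ⟨z, hz⟩) i • v i) = 0
      rw [map_sub, map_sum, sub_eq_zero]
      conv_lhs => rw [← b.sum_repr (W'.mkQ ⟨z, hz⟩)]
      exact Finset.sum_congr rfl fun j _ => by rw [map_smul, hv]
    have h2 : V.subtype ((⟨z, hz⟩ : V) - ∑ i, b.repr (W'.mkQ ⟨z, hz⟩) i • v i) ∈ W := h1
    rw [map_sub, map_sum] at h2
    exact h2

private theorem CGrA_pow {x : F} {M : ℤ → Submodule k F} (h : Flt x M) {s : ℤ} {z : F}
    (hz : z ∈ M s) (j : ℕ) : x ^ j * z ∈ M (s + j) := by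
  induction j with
  | zero => simpa using hz
  | succ j ih =>
    have h1 := h.mul _ _ ih
    rw [← mul_assoc, ← pow_succ'] at h1
    rw [Nat.cast_succ, ← add_assoc]
    exact h1

/-- the triangular step. -/
private theorem CGrA_tri {x : F} {M : ℤ → Submodule k F} (h : Flt x M) {ι : Type*} [Fintype ι]
    (e : ι → F) (a : ι → ℕ) (h1 : ∀ i, e i ∈ M (a i))
    (h2 : ∀ (r : ℕ) (c : ι → k), (∃ z₁ ∈ M ((r : ℤ) - 1), ∃ z₂ ∈ M ((r : ℤ) - 1),
      (∑ i, if a i = r then c i • e i else 0) = z₁ + x * z₂) → ∀ i, a i = r → c i = 0)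
    (c : ι → k) : ∀ r : ℕ,
      (∑ i, if a i ≤ r then c i • (x ^ (r - a i) * e i) else 0) ∈ M ((r : ℤ) - 1) →
      ∀ i, a i ≤ r → c i = 0 := by
  intro r
  induction r with
  | zero =>
    intro hr i hi
    refine h2 0 c ⟨_, hr, 0, Submodule.zero_mem _, ?_⟩ i (by omega)
    rw [mul_zero, add_zero]
    refine Finset.sum_congr rfl fun j _ => ?_
    by_cases hj : a j = 0
    · rw [if_pos hj, if_pos hj.le, hj, Nat.sub_self, pow_zero, one_mul]
    · rw [if_neg hj, if_neg (by omega)]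
  | succ r ih =>
    intro hr
    have hr' : (((r + 1 : ℕ) : ℤ) - 1) = r := by push_cast; ring
    rw [hr'] at hr
    have e1 : (∑ i, if a i ≤ r + 1 then c i • (x ^ (r + 1 - a i) * e i) else 0) =
        x * (∑ i, if a i ≤ r then c i • (x ^ (r - a i) * e i) else 0) +
          ∑ i, if a i = r + 1 then c i • e i else 0 := by
      rw [Finset.mul_sum, ← Finset.sum_add_distrib]
      refine Finset.sum_congr rfl fun j _ => ?_
      rcases lt_trichotomy (a j) (r + 1) with hj | hj | hj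
      · rw [if_pos hj.le, if_pos (by omega), if_neg (by omega), add_zero, mul_smul_comm,
          ← mul_assoc, ← pow_succ', show r + 1 - a j = r - a j + 1 by omega]
      · rw [if_pos hj.le, if_neg (by omega), if_pos hj, hj, Nat.sub_self, pow_zero, one_mul,
          mul_zero, zero_add]
      · rw [if_neg (by omega), if_neg (by omega), if_neg (by omega), mul_zero, zero_add]
    have hSr : (∑ i, if a i ≤ r then c i • (x ^ (r - a i) * e i) else 0) ∈ M (r : ℤ) := by
      refine Submodule.sum_mem _ fun j _ => ?_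
      split_ifs with hj
      · refine Submodule.smul_mem _ _ ?_
        have h3 := CGrA_pow h (h1 j) (r - a j)
        have h4 : ((a j : ℤ) + ((r - a j : ℕ) : ℤ)) = r := by omega
        rwa [h4] at h3
      · exact Submodule.zero_mem _
    have hc1 := h2 (r + 1) c ⟨_, hr' ▸ hr, _, hr' ▸ (Submodule.neg_mem _ hSr), by
      rw [e1]; ring⟩
    have e2 : (∑ i, if a i = r + 1 then c i • e i else 0) = 0 := by
      refine Finset.sum_eq_zero fun j _ => ?_
      split_ifs with hj
      · rw [hc1 j hj, zero_smul]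
      · rfl
    rw [e1, e2, add_zero] at hr
    have h5 := ih (h.colon _ _ _ hSr hr)
    intro i hi
    rcases Nat.lt_or_ge (a i) (r + 1) with h6 | h6
    · exact h5 i (by omega)
    · exact hc1 i (by omega)

/-- independence. -/
private theorem CGrA_ind {x : F} {M : ℤ → Submodule k F} (h : Flt x M)
    (hx : Transcendental k x) {ι : Type*} [Fintype ι]
    (e : ι → F) (a : ι → ℕ) (h1 : ∀ i, e i ∈ M (a i))
    (h2 : ∀ (r : ℕ) (c : ι → k), (∃ z₁ ∈ M ((r : ℤ) - 1), ∃ z₂ ∈ M ((r : ℤ) - 1),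
      (∑ i, if a i = r then c i • e i else 0) = z₁ + x * z₂) → ∀ i, a i = r → c i = 0) :
    LinearIndependent k⟮x⟯ e := by
  refine indep_of_poly hx fun φ h0 => ?_
  have key : ∀ N : ℕ, (∀ i j, N + 1 ≤ j + a i → (φ i).coeff j = 0) →
      ∀ i j, N ≤ j + a i → (φ i).coeff j = 0 := by
    intro N hN
    have h3 : (∑ i, if a i ≤ N then (φ i).coeff (N - a i) • (x ^ (N - a i) * e i) else 0) ∈
        M ((N : ℤ) - 1) := by
      have h4 : (∑ i, (aeval x (φ i) * e i -
          if a i ≤ N then (φ i).coeff (N - a i) • (x ^ (N - a i) * e i) else 0)) ∈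
          M ((N : ℤ) - 1) := by
        refine Submodule.sum_mem _ fun i _ => ?_
        by_cases hi : a i ≤ N
        · rw [if_pos hi]
          have hd : (φ i).natDegree < N - a i + 1 := by
            rw [Nat.lt_succ_iff, natDegree_le_iff_coeff_eq_zero]
            intro j hj
            exact hN i j (by omega)
          rw [aeval_eq_sum_range' hd, Finset.sum_range_succ, add_mul, Finset.sum_mul,
            smul_mul_assoc, add_sub_cancel_right]
          refine Submodule.sum_mem _ fun j hj => ?_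
          rw [smul_mul_assoc]
          refine Submodule.smul_mem _ _ (h.mono ?_ (CGrA_pow h (h1 i) j))
          have := Finset.mem_range.1 hj
          omega
        · rw [if_neg hi, sub_zero]
          have h5 : φ i = 0 := by
            ext j
            rw [coeff_zero]
            exact hN i j (by omega)
          rw [h5, map_zero, zero_mul]
          exact Submodule.zero_mem _
      rw [Finset.sum_sub_distrib, h0, zero_sub] at h4
      exact (Submodule.neg_mem_iff _).1 h4
    have h6 := CGrA_tri h e a h1 h2 (fun i => (φ i).coeff (N - a i)) N h3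
    intro i j hij
    rcases Nat.lt_or_ge N (j + a i) with h7 | h7
    · exact hN i j h7
    · have h8 := h6 i (by omega)
      rwa [show N - a i = j by omega] at h8
  have hbig : ∀ i j, (∑ i, ((φ i).natDegree + a i)) + 1 ≤ j + a i → (φ i).coeff j = 0 := by
    intro i j hij
    refine coeff_eq_zero_of_natDegree_lt ?_
    have := Finset.single_le_sum (f := fun i => (φ i).natDegree + a i)
      (fun _ _ => Nat.zero_le _) (Finset.mem_univ i)
    omega
  have hall : ∀ N : ℕ, (∀ i j, N ≤ j + a i → (φ i).coeff j = 0) → ∀ i j, (φ i).coeff j = 0 := by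
    intro N
    induction N with
    | zero => intro hN i j; exact hN i j (Nat.zero_le _)
    | succ N ih => intro hN; exact ih (key N hN)
  intro i
  ext j
  rw [coeff_zero]
  exact hall _ hbig i j

/-- the span. -/
private theorem CGrA_span {x : F} {M : ℤ → Submodule k F} (h : Flt x M) {ι : Type*} [Fintype ι]
    (e : ι → F) (a : ι → ℕ)
    (h3 : ∀ (r : ℕ) (z : F), z ∈ M r → ∃ c : ι → k, ∃ z₁ ∈ M ((r : ℤ) - 1),
      ∃ z₂ ∈ M ((r : ℤ) - 1), z = (∑ i, if a i = r then c i • e i else 0) + (z₁ + x * z₂)) :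
    ∀ (N : ℕ) (z : F), z ∈ M ((N : ℤ) - 1) → ∃ φ : ι → k[X], z = ∑ i, aeval x (φ i) * e i ∧
      ∀ i j, (φ i).coeff j ≠ 0 → j + a i < N := by
  intro N
  induction N with
  | zero =>
    intro z hz
    rw [h.neg _ (by norm_num), Submodule.mem_bot] at hz
    refine ⟨fun _ => 0, ?_, ?_⟩
    · rw [hz]
      simp
    · intro i j hj
      exact absurd (coeff_zero j) hj
  | succ N ih =>
    intro z hz
    have hr' : (((N + 1 : ℕ) : ℤ) - 1) = N := by push_cast; ring
    rw [hr'] at hz
    obtain ⟨c, z₁, hz₁, z₂, hz₂, hzz⟩ := h3 N z hz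
    obtain ⟨φ₁, e₁, d₁⟩ := ih z₁ hz₁
    obtain ⟨φ₂, e₂, d₂⟩ := ih z₂ hz₂
    refine ⟨fun i => (if a i = N then C (c i) else 0) + (φ₁ i + X * φ₂ i), ?_, ?_⟩
    · rw [hzz]
      conv_lhs => rw [e₁, e₂]
      rw [Finset.mul_sum, ← Finset.sum_add_distrib, ← Finset.sum_add_distrib]
      refine Finset.sum_congr rfl fun i _ => ?_
      rw [map_add, map_add, map_mul, aeval_X]
      split_ifs
      · rw [aeval_C, Algebra.smul_def]
        ring
      · rw [map_zero]
        ring
    · intro i j hj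
      by_contra hcon
      apply hj
      rw [coeff_add, coeff_add]
      have g1 : (φ₁ i).coeff j = 0 := by
        by_contra hne
        have := d₁ i j hne
        omega
      have g2 : (X * φ₂ i).coeff j = 0 := by
        cases j with
        | zero => rw [mul_coeff_zero, coeff_X_zero, zero_mul]
        | succ j =>
          rw [coeff_X_mul]
          by_contra hne
          have := d₂ i j hne
          omega
      have g3 : (if a i = N then C (c i) else (0 : k[X])).coeff j = 0 := by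
        split_ifs with hi
        · rw [coeff_C_of_ne_zero]
          omega
        · exact coeff_zero j
      rw [g1, g2, g3, add_zero, add_zero]

/-- existence of graded bases. -/
theorem Flt.exists_GrB {x : F} {M : ℤ → Submodule k F} (h : Flt x M) (hx : Transcendental k x)
    [FiniteDimensional k⟮x⟯ F] : ∃ (n : ℕ) (e : Fin n → F) (a : Fin n → ℕ), GrB x M e a := by
  classical
  have hex : ∀ r : ℕ, ∃ (n : ℕ) (e : Fin n → F), (∀ i, e i ∈ M r) ∧
      (∀ c : Fin n → k, ∑ i, c i • e i ∈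
        M ((r : ℤ) - 1) ⊔ (M ((r : ℤ) - 1)).map (LinearMap.mulLeft k x) → ∀ i, c i = 0) ∧
      ∀ z ∈ M r, ∃ c : Fin n → k, z - ∑ i, c i • e i ∈
        M ((r : ℤ) - 1) ⊔ (M ((r : ℤ) - 1)).map (LinearMap.mulLeft k x) := by
    intro r
    have := h.fin r
    exact CGrA_cpl (M r) _
  choose n e he1 he2 he3 using hex
  have hW : ∀ (r : ℕ) (w : F),
      w ∈ M ((r : ℤ) - 1) ⊔ (M ((r : ℤ) - 1)).map (LinearMap.mulLeft k x) ↔
        ∃ z₁ ∈ M ((r : ℤ) - 1), ∃ z₂ ∈ M ((r : ℤ) - 1), w = z₁ + x * z₂ := by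
    intro r w
    rw [Submodule.mem_sup]
    constructor
    · rintro ⟨y, hy, z, hz, rfl⟩
      obtain ⟨z', hz', rfl⟩ := Submodule.mem_map.1 hz
      exact ⟨y, hy, z', hz', rfl⟩
    · rintro ⟨y, hy, z, hz, rfl⟩
      exact ⟨y, hy, x * z, Submodule.mem_map.2 ⟨z, hz, rfl⟩, rfl⟩
  -- the sums over the finite families
  have hsum : ∀ (R r : ℕ) (hr : r < R) (c : (Σ s : Fin R, Fin (n s)) → k),
      (∑ p : (Σ s : Fin R, Fin (n s)), if (p.1 : ℕ) = r then c p • e p.1 p.2 else 0) =
        ∑ i : Fin (n r), c ⟨⟨r, hr⟩, i⟩ • e r i := by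
    intro R r hr c
    rw [Fintype.sum_sigma, Finset.sum_eq_single (⟨r, hr⟩ : Fin R)]
    · exact Finset.sum_congr rfl fun i _ => if_pos rfl
    · intro s _ hs
      refine Finset.sum_eq_zero fun i _ => if_neg ?_
      intro h4
      exact hs (Fin.ext h4)
    · intro h4
      exact absurd (Finset.mem_univ _) h4
  have hI1 : ∀ (R : ℕ) (p : (Σ s : Fin R, Fin (n s))), e p.1 p.2 ∈ M ((p.1 : ℕ) : ℤ) :=
    fun R p => he1 p.1 p.2
  have hI2 : ∀ (R : ℕ) (r : ℕ) (c : (Σ s : Fin R, Fin (n s)) → k),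
      (∃ z₁ ∈ M ((r : ℤ) - 1), ∃ z₂ ∈ M ((r : ℤ) - 1),
        (∑ p : (Σ s : Fin R, Fin (n s)), if (p.1 : ℕ) = r then c p • e p.1 p.2 else 0) =
          z₁ + x * z₂) → ∀ p : (Σ s : Fin R, Fin (n s)), (p.1 : ℕ) = r → c p = 0 := by
    intro R r c hc p hp
    have hr : r < R := hp ▸ p.1.2
    rw [hsum R r hr] at hc
    have h4 := he2 r _ ((hW r _).2 hc)
    obtain ⟨⟨s, hs⟩, i⟩ := p
    simp only at hp
    subst hp
    exact h4 i
  have hind : ∀ R : ℕ, LinearIndependent k⟮x⟯
      (fun p : (Σ s : Fin R, Fin (n s)) => e p.1 p.2) := fun R =>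
    CGrA_ind h hx (fun p : (Σ s : Fin R, Fin (n s)) => e p.1 p.2) (fun p => (p.1 : ℕ)) (hI1 R)
      (hI2 R)
  -- finiteness
  have hbd : ∀ R : ℕ, ∑ s ∈ Finset.range R, n s ≤ Module.finrank k⟮x⟯ F := by
    intro R
    have h4 := (hind R).fintype_card_le_finrank
    rw [Fintype.card_sigma] at h4
    simp only [Fintype.card_fin] at h4
    rwa [Fin.sum_univ_eq_sum_range (fun s => n s) R] at h4
  obtain ⟨R, hR⟩ : ∃ R : ℕ, ∀ s, R ≤ s → n s = 0 := by
    have hb : BddAbove (Set.range fun R : ℕ => ∑ s ∈ Finset.range R, n s) :=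
      ⟨_, by rintro _ ⟨R, rfl⟩; exact hbd R⟩
    obtain ⟨R, hR⟩ := Nat.sSup_mem (Set.range_nonempty fun R : ℕ => ∑ s ∈ Finset.range R, n s) hb
    refine ⟨R, fun s hs => ?_⟩
    have h4 : ∑ s ∈ Finset.range (s + 1), n s ≤ ∑ s ∈ Finset.range R, n s := by
      have h5 := le_csSup hb (Set.mem_range_self (f := fun R : ℕ => ∑ s ∈ Finset.range R, n s)
        (s + 1))
      rw [← hR] at h5
      exact h5
    have h6 : ∑ s ∈ Finset.range R, n s ≤ ∑ s ∈ Finset.range s, n s :=
      Finset.sum_le_sum_of_subset (Finset.range_subset_range.2 hs)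
    rw [Finset.sum_range_succ] at h4
    omega
  -- the third property
  have hI3 : ∀ (r : ℕ) (z : F), z ∈ M r → ∃ c : (Σ s : Fin R, Fin (n s)) → k,
      ∃ z₁ ∈ M ((r : ℤ) - 1), ∃ z₂ ∈ M ((r : ℤ) - 1),
      z = (∑ p : (Σ s : Fin R, Fin (n s)), if (p.1 : ℕ) = r then c p • e p.1 p.2 else 0) +
        (z₁ + x * z₂) := by
    intro r z hz
    obtain ⟨c, hc⟩ := he3 r z hz
    obtain ⟨z₁, hz₁, z₂, hz₂, hzz⟩ := (hW r _).1 hc
    rcases Nat.lt_or_ge r R with hr | hr
    · refine ⟨fun p => if hp : (p.1 : ℕ) = r then c (hp ▸ p.2) else 0, z₁, hz₁, z₂, hz₂, ?_⟩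
      rw [hsum R r hr, ← hzz]
      have h4 : ∀ i : Fin (n r), (if hp : r = r then c (hp ▸ i) else 0) = c i := by
        intro i
        rw [dif_pos rfl]
      have h5 : (∑ i : Fin (n r), (if hp : r = r then c (hp ▸ i) else 0) • e r i) =
          ∑ i, c i • e r i := Finset.sum_congr rfl fun i _ => by rw [h4]
      show z = (∑ i : Fin (n r), (if hp : r = r then c (hp ▸ i) else 0) • e r i) + _
      rw [h5]
      ring
    · refine ⟨0, z₁, hz₁, z₂, hz₂, ?_⟩
      have h4 : ∑ i, c i • e r i = 0 := by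
        refine Finset.sum_eq_zero fun i _ => ?_
        have h9 := i.2
        have h10 := hR r hr
        omega
      rw [h4, sub_zero] at hzz
      have h5 : (∑ p : (Σ s : Fin R, Fin (n s)),
          if (p.1 : ℕ) = r then (0 : (Σ s : Fin R, Fin (n s)) → k) p • e p.1 p.2 else 0) = 0 := by
        refine Finset.sum_eq_zero fun p _ => ?_
        split_ifs
        · rw [Pi.zero_apply, zero_smul]
        · rfl
      rw [h5, zero_add]
      exact hzz
  have hspan := CGrA_span h (fun p : (Σ s : Fin R, Fin (n s)) => e p.1 p.2) (fun p => (p.1 : ℕ))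
    hI3
  have hspan2 : ∀ (r : ℤ) (z : F), z ∈ M r → ∃ φ : (Σ s : Fin R, Fin (n s)) → k[X],
      z = ∑ p, aeval x (φ p) * e p.1 p.2 ∧
        ∀ p, φ p ≠ 0 → ((φ p).natDegree : ℤ) + ((p.1 : ℕ) : ℤ) ≤ r := by
    intro r z hz
    rcases lt_or_ge r 0 with hr | hr
    · rw [h.neg _ hr, Submodule.mem_bot] at hz
      refine ⟨fun _ => 0, ?_, fun p hp => absurd rfl hp⟩
      rw [hz]
      simp
    · obtain ⟨N, rfl⟩ := Int.eq_ofNat_of_zero_le hr
      obtain ⟨φ, hφ1, hφ2⟩ := hspan (N + 1) z (by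
        have hr' : (((N + 1 : ℕ) : ℤ) - 1) = N := by push_cast; ring
        rw [hr']
        exact hz)
      refine ⟨φ, hφ1, fun p hp => ?_⟩
      have h4 := hφ2 p (φ p).natDegree (by
        rw [coeff_natDegree]
        exact leadingCoeff_ne_zero.2 hp)
      omega
  -- reindexing
  let E := Fintype.equivFin (Σ s : Fin R, Fin (n s))
  refine ⟨Fintype.card (Σ s : Fin R, Fin (n s)), fun i => e (E.symm i).1 (E.symm i).2,
    fun i => ((E.symm i).1 : ℕ), ⟨fun i => hI1 R (E.symm i), ?_, ?_⟩⟩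
  · exact (hind R).comp E.symm E.symm.injective
  · intro r z hz
    obtain ⟨φ, hφ1, hφ2⟩ := hspan2 r z hz
    refine ⟨fun i => φ (E.symm i), ?_, fun i hi => hφ2 (E.symm i) hi⟩
    rw [hφ1]
    exact (E.symm.sum_comp fun p => aeval x (φ p) * e p.1 p.2).symm

end

end Vale.Agent.P019P
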