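import Vale.Agent.P019Q.CGrA

/-!
# Dimensions of a filtration with a graded basis
-/

namespace Vale.Agent.P019P

open Polynomial IntermediateField

section

variable {k F : Type*} [Field k] [Field F] [Algebra k F]

theorem CGrD_pow_mem {x : F} {M : ℤ → Submodule k F} (h : Flt x M) {s : ℤ} {z : F}
    (hz : z ∈ M s) (j : ℕ) : x ^ j * z ∈ M (s + j) := by
  induction j with
  | zero => simpa using hz
  | succ j ih =>
    have h1 := h.mul _ _ ih
    have h2 : x * (x ^ j * z) = x ^ (j + 1) * z := by ring
    have h3 : s + (j : ℤ) + 1 = s + ((j + 1 : ℕ) : ℤ) := by push_cast; ring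
    rwa [h2, h3] at h1

/-- the dimensions of a filtration with a graded basis. -/
theorem GrB.finrank_eq {x : F} {M : ℤ → Submodule k F} (h : Flt x M) (hx : Transcendental k x)
    {ι : Type*} [Fintype ι] {e : ι → F} {a : ι → ℕ} (he : GrB x M e a) {r : ℤ}
    (hr : ∀ i, (a i : ℤ) ≤ r) : (Module.finrank k (M r) : ℤ) = ∑ i, (r - a i + 1) := by
  classical
  let g : (Σ i : ι, Fin (r - a i + 1).toNat) → F := fun p => x ^ (p.2 : ℕ) * e p.1
  have hg : LinearIndependent k g := by
    have h1 := (indep_pow_mul hx he.ind).comp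
      (fun p : (Σ i : ι, Fin (r - a i + 1).toNat) => ((p.1, (p.2 : ℕ)) : ι × ℕ)) (by
        rintro ⟨i, j⟩ ⟨i', j'⟩ hij
        simp only [Prod.mk.injEq] at hij
        obtain ⟨hi, hj⟩ := hij
        subst hi
        rw [Fin.ext hj])
    exact h1
  have hspan : Submodule.span k (Set.range g) = M r := by
    apply le_antisymm
    · rw [Submodule.span_le]
      rintro _ ⟨⟨i, j⟩, rfl⟩
      have h1 := CGrD_pow_mem h (he.mem i) (j : ℕ)
      have hj := j.2
      have h2 : (a i : ℤ) + ((j : ℕ) : ℤ) ≤ r := by omega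
      exact h.mono h2 h1
    · intro z hz
      obtain ⟨φ, hφ, hd⟩ := he.span r z hz
      rw [hφ]
      refine Submodule.sum_mem _ fun i _ => ?_
      by_cases h0 : φ i = 0
      · rw [h0, map_zero, zero_mul]
        exact Submodule.zero_mem _
      · rw [aeval_eq_sum_range, Finset.sum_mul]
        refine Submodule.sum_mem _ fun j hj => ?_
        rw [smul_mul_assoc]
        refine Submodule.smul_mem _ _ (Submodule.subset_span ?_)
        have h1 := hd i h0
        have h2 : j ≤ (φ i).natDegree := Nat.lt_succ_iff.1 (Finset.mem_range.1 hj)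
        exact ⟨⟨i, ⟨j, by omega⟩⟩, rfl⟩
  have h1 : Module.finrank k (M r) = ∑ i, (r - a i + 1).toNat := by
    rw [← hspan, finrank_span_eq_card hg, Fintype.card_sigma]
    simp only [Fintype.card_fin]
  rw [h1]
  push_cast
  refine Finset.sum_congr rfl fun i _ => ?_
  have := hr i
  omega

end

end Vale.Agent.P019P
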