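import Vale.Agent.P019Q.CDual
import Vale.Agent.P019Q.CGrD

/-!
# The filtration by the order of the pole at infinity
-/

namespace Vale.Agent.P019P

open Polynomial IntermediateField

section

variable {k F : Type*} [Field k] [Field F] [Algebra k F] [CFF k F]

variable (k) in
/-- the functions with poles at most `r` times those of `x`. -/
noncomputable def Mr (x : F) (r : ℤ) : Submodule k F := LL k (r • pol k x)

theorem mem_Mr {x : F} {r : ℤ} {z : F} : z ∈ Mr k x r ↔ ∀ P, z ∈ Mge P (-(r * pol k x P)) := by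
  rw [Mr, mem_LL_iff]
  refine forall_congr' fun P => ?_
  rw [Finsupp.smul_apply, smul_eq_mul]

theorem Mr_mul {x : F} {r s : ℤ} {z w : F} (hz : z ∈ Mr k x r) (hw : w ∈ Mr k x s) :
    z * w ∈ Mr k x (r + s) := by
  rw [mem_Mr] at hz hw ⊢
  intro P
  have h := mul_mem_Mge (hz P) (hw P)
  have e : -(r * pol k x P) + -(s * pol k x P) = -((r + s) * pol k x P) := by ring
  rwa [e] at h

theorem flt_Mr {x : F} (hx : ∀ a : k, x ≠ algebraMap k F a) : Flt x (Mr k x) := by
  have hx0 : x ≠ 0 := fun h => hx 0 (by rw [h, map_zero])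
  have hp : ∀ P : Plk k F, 0 ≤ pol k x P := fun P => pol_nonneg x P
  refine ⟨fun r => LL_finite _, fun r hr => ?_, fun r s hrs => ?_, fun r z hz => ?_,
    fun r s z hz hxz => ?_⟩
  · apply LL_eq_bot
    obtain ⟨-, hfin⟩ := finite_of_notMem hx
    have hn : 0 < Module.finrank k⟮x⟯ F := Module.finrank_pos
    rw [map_zsmul, dg_pol hx, smul_eq_mul]
    exact mul_neg_of_neg_of_pos hr (by exact_mod_cast hn)
  · refine LL_mono (fun P => ?_)
    rw [Finsupp.smul_apply, Finsupp.smul_apply]
    exact mul_le_mul_of_nonneg_right hrs (hp P)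
  · have h1 : x ∈ Mr k x 1 := by
      rw [mem_Mr]
      intro P
      right
      rw [one_mul, pol_apply]
      have := le_max_right 0 (-ord P x)
      linarith only [this]
    rw [add_comm]
    exact Mr_mul h1 hz
  · rw [mem_Mr] at hz hxz ⊢
    intro P
    by_cases h : ord P x < 0
    · have h1 : pol k x P = -ord P x := by
        rw [pol_apply]; exact max_eq_right (by linarith only [h])
      have h2 := (mul_mem_Mge_iff hx0).1 (hxz P)
      have e : -(r * pol k x P) - ord P x = -((r - 1) * pol k x P) := by rw [h1]; ring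
      rwa [e] at h2
    · have h1 : pol k x P = 0 := by
        rw [pol_apply]; exact max_eq_left (by linarith only [h])
      have h2 := hz P
      rw [h1, mul_zero] at h2 ⊢
      exact h2

/-- functions without poles outside the poles of `x` belong to the filtration. -/
theorem exists_mem_Mr {x z : F} (h : ∀ P : Plk k F, 0 ≤ ord P x → z ∈ Mge P 0) :
    ∃ r : ℕ, z ∈ Mr k x r := by
  by_cases hz : z = 0
  · exact ⟨0, hz ▸ zero_mem _⟩
  refine ⟨∑ P ∈ (dv_finite (k := k) hz).toFinset, (ord P z).natAbs, ?_⟩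
  rw [mem_Mr]
  intro P
  right
  have hr : (0 : ℤ) ≤ ((∑ P ∈ (dv_finite (k := k) hz).toFinset, (ord P z).natAbs : ℕ) : ℤ) :=
    Int.natCast_nonneg _
  have hP : 0 ≤ pol k x P := pol_nonneg x P
  by_cases h1 : 0 ≤ ord P z
  · have := mul_nonneg hr hP
    linarith only [this, h1]
  · have h2 : ord P x < 0 := by
      by_contra hcon
      rcases mem_Mge.1 (h P (not_lt.1 hcon)) with h3 | h3
      · exact hz h3
      · exact h1 h3
    have h3 : 1 ≤ pol k x P := by
      rw [pol_apply]
      exact le_max_of_le_right (by omega)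
    have h4 : (ord P z).natAbs ≤ ∑ P ∈ (dv_finite (k := k) hz).toFinset, (ord P z).natAbs := by
      refine Finset.single_le_sum (f := fun P => (ord P z).natAbs) (fun _ _ => Nat.zero_le _) ?_
      rw [Set.Finite.mem_toFinset]
      intro h0
      exact h1 h0.ge
    have h5 : ((ord P z).natAbs : ℤ) ≤
        ((∑ P ∈ (dv_finite (k := k) hz).toFinset, (ord P z).natAbs : ℕ) : ℤ) := by
      exact_mod_cast h4
    have h6 : ((ord P z).natAbs : ℤ) = -ord P z := by omega
    have h7 := mul_le_mul_of_nonneg_left h3 hr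
    rw [mul_one] at h7
    linarith only [h5, h6, h7]

/-- existence of a graded basis, with the formula for the sum of the degrees. -/
theorem exists_GrB {x : F} (hx : ∀ a : k, x ≠ algebraMap k F a) :
    ∃ (e : Fin (Module.finrank k⟮x⟯ F) → F) (a : Fin (Module.finrank k⟮x⟯ F) → ℕ),
      GrB x (Mr k x) e a ∧ ∑ i, (a i : ℤ) = Module.finrank k⟮x⟯ F + gen k F - 1 := by
  obtain ⟨htr, hfin⟩ := finite_of_notMem hx
  obtain ⟨n, e, a, he⟩ := (flt_Mr hx).exists_GrB htr
  obtain ⟨r₀, hr₀⟩ := exists_l_pol_eq hx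
  set r₁ : ℕ := r₀ + ∑ i, a i with hr₁
  have key : ∀ r : ℕ, r₁ ≤ r →
      (n : ℤ) * (r + 1) - ∑ i, (a i : ℤ) = r * Module.finrank k⟮x⟯ F + 1 - gen k F := by
    intro r hr
    have h1 := hr₀ r ((Nat.le_add_right _ _).trans hr)
    have h2 := he.finrank_eq (flt_Mr hx) htr (r := (r : ℤ)) (fun i => by
      have : a i ≤ ∑ i, a i :=
        Finset.single_le_sum (f := a) (fun _ _ => Nat.zero_le _) (Finset.mem_univ i)
      have : a i ≤ r := by omega
      exact_mod_cast this)
    rw [Mr, natCast_zsmul] at h2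
    rw [h2] at h1
    rw [← h1]
    have e : ∀ i, ((r : ℤ) - a i + 1) = (r + 1) - a i := fun i => by ring
    simp only [e]
    rw [Finset.sum_sub_distrib, Finset.sum_const, Finset.card_univ, Fintype.card_fin, nsmul_eq_mul]
  have k1 := key r₁ le_rfl
  have k2 := key (r₁ + 1) (Nat.le_succ _)
  have hn : n = Module.finrank k⟮x⟯ F := by
    push_cast at k2
    have : (n : ℤ) = Module.finrank k⟮x⟯ F := by linarith only [k1, k2]
    exact_mod_cast this
  subst hn
  exact ⟨e, a, he, by linarith only [k1]⟩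

end

end Vale.Agent.P019P
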