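import Vale.Agent.P019Q.CPole
import Vale.Agent.P019Q.CDg

/-!
# Riemann-Roch spaces: finiteness and elementary estimates
-/

namespace Vale.Agent.P019P

open IntermediateField

section

variable {k F : Type*} [Field k] [Field F] [Algebra k F] [CFF k F]

theorem LL_mono {D E : Plk k F →₀ ℤ} (h : D ≤ E) : LL k D ≤ LL k E := by
  intro z hz
  rcases mem_LL.1 hz with h0 | h1
  · exact mem_LL.2 (Or.inl h0)
  · exact mem_LL.2 (Or.inr fun P => (neg_le_neg (h P)).trans (h1 P))

theorem LL_zero_le {z : F} (hz : z ∈ LL k (0 : Plk k F →₀ ℤ)) : ∃ a : k, z = algebraMap k F a := by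
  by_contra hc
  have hc' : ∀ a : k, z ≠ algebraMap k F a := fun a ha => hc ⟨a, ha⟩
  obtain ⟨P, hP⟩ := exists_pole hc'
  rcases mem_LL.1 hz with h0 | h1
  · exact hc' 0 (by rw [h0, map_zero])
  · have h2 := h1 P
    rw [Finsupp.zero_apply, neg_zero] at h2
    omega

/-- adding a point adds at most one element. -/
theorem LL_step {D : Plk k F →₀ ℤ} {P : Plk k F} {z w : F}
    (hz : z ∈ LL k (D + Finsupp.single P 1)) (hz' : z ∉ LL k D)
    (hw : w ∈ LL k (D + Finsupp.single P 1)) : ∃ a : k, w - a • z ∈ LL k D := by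
  classical
  have hz0 : z ≠ 0 := fun h => hz' (by rw [h]; exact Submodule.zero_mem _)
  have hzo : ∀ Q, -(D + Finsupp.single P (1 : ℤ)) Q ≤ ord Q z := (mem_LL.1 hz).resolve_left hz0
  have hne : ∀ Q, Q ≠ P → (D + Finsupp.single P (1 : ℤ)) Q = D Q := fun Q hQ => by
    rw [Finsupp.add_apply, Finsupp.single_apply, if_neg (Ne.symm hQ), add_zero]
  have hPP : (D + Finsupp.single P (1 : ℤ)) P = D P + 1 := by
    rw [Finsupp.add_apply, Finsupp.single_eq_same]
  have hzP : ord P z = -D P - 1 := by
    have h1 := hzo P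
    rw [hPP] at h1
    by_contra hc
    refine hz' (mem_LL.2 (Or.inr fun Q => ?_))
    by_cases hQ : Q = P
    · rw [hQ]; omega
    · have h2 := hzo Q
      rw [hne Q hQ] at h2
      exact h2
  have hwM := mem_LL_iff.1 hw
  have hzM := mem_LL_iff.1 hz
  have hwP : w ∈ Mge P (-D P - 1) := by
    have h := hwM P
    rw [hPP] at h
    have e : -(D P + 1) = -D P - 1 := by ring
    rwa [e] at h
  obtain ⟨a, ha⟩ := exists_sub_mem hz0 hzP hwP
  refine ⟨a, mem_LL_iff.2 fun Q => ?_⟩
  by_cases hQ : Q = P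
  · rw [hQ]
    have e : -D P - 1 + 1 = -D P := by ring
    rwa [e] at ha
  · have h1 := hwM Q
    have h2 := hzM Q
    rw [hne Q hQ] at h1 h2
    exact Submodule.sub_mem _ h1 (Submodule.smul_mem _ _ h2)

theorem CL_le_sup {D : Plk k F →₀ ℤ} {P : Plk k F} {z : F}
    (hz : z ∈ LL k (D + Finsupp.single P 1)) (hz' : z ∉ LL k D) :
    LL k (D + Finsupp.single P 1) ≤ LL k D ⊔ Submodule.span k {z} := by
  intro w hw
  obtain ⟨a, ha⟩ := LL_step hz hz' hw
  rw [Submodule.mem_sup]
  exact ⟨w - a • z, ha, a • z, Submodule.smul_mem _ _ (Submodule.mem_span_singleton_self z),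
    by rw [sub_add_cancel]⟩

omit [CFF k F] in
theorem CL_le_single (D : Plk k F →₀ ℤ) (P : Plk k F) : D ≤ D + Finsupp.single P 1 := by
  classical
  intro Q
  rw [Finsupp.add_apply, Finsupp.single_apply]
  split_ifs <;> omega

theorem CL_zero_le_span : LL k (0 : Plk k F →₀ ℤ) ≤ Submodule.span k {(1 : F)} := by
  intro z hz
  obtain ⟨a, rfl⟩ := LL_zero_le hz
  rw [Algebra.algebraMap_eq_smul_one]
  exact Submodule.smul_mem _ _ (Submodule.mem_span_singleton_self _)

instance LL_finite (D : Plk k F →₀ ℤ) : FiniteDimensional k (LL k D) := by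
  classical
  have key : ∀ E : Plk k F →₀ ℤ, 0 ≤ E → FiniteDimensional k (LL k E) := by
    intro E hE
    refine dv_induct (motive := fun E => FiniteDimensional k (LL k E)) (D := 0) ?_ ?_ hE
    · exact Submodule.finiteDimensional_of_le CL_zero_le_span
    · intro E P _ ih
      by_cases h : LL k (E + Finsupp.single P 1) ≤ LL k E
      · exact Submodule.finiteDimensional_of_le h
      · obtain ⟨z, hz, hz'⟩ := Set.not_subset.1 h
        exact Submodule.finiteDimensional_of_le (CL_le_sup hz hz')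
  have h1 : D ≤ D ⊔ 0 := le_sup_left
  have h2 : FiniteDimensional k (LL k (D ⊔ 0)) := key _ le_sup_right
  exact Submodule.finiteDimensional_of_le (LL_mono h1)

theorem l_mono {D E : Plk k F →₀ ℤ} (h : D ≤ E) :
    Module.finrank k (LL k D) ≤ Module.finrank k (LL k E) :=
  Submodule.finrank_mono (LL_mono h)

theorem l_zero : Module.finrank k (LL k (0 : Plk k F →₀ ℤ)) = 1 := by
  have h : LL k (0 : Plk k F →₀ ℤ) = Submodule.span k {(1 : F)} := by
    refine le_antisymm CL_zero_le_span ?_
    rw [Submodule.span_singleton_le_iff_mem]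
    refine mem_LL.2 (Or.inr fun P => ?_)
    rw [ord_one, Finsupp.zero_apply, neg_zero]
  rw [h]
  exact finrank_span_singleton one_ne_zero

/-- the dimension of `LL k D` jumps by one if there is a new element, and not otherwise. -/
theorem l_step_of_mem {D : Plk k F →₀ ℤ} {P : Plk k F} {z : F}
    (hz : z ∈ LL k (D + Finsupp.single P 1)) (hz' : z ∉ LL k D) :
    Module.finrank k (LL k (D + Finsupp.single P 1)) = Module.finrank k (LL k D) + 1 := by
  have hz0 : z ≠ 0 := fun h => hz' (by rw [h]; exact Submodule.zero_mem _)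
  have h1 : LL k (D + Finsupp.single P 1) = LL k D ⊔ Submodule.span k {z} := by
    refine le_antisymm (CL_le_sup hz hz') (sup_le (LL_mono (CL_le_single D P)) ?_)
    rw [Submodule.span_singleton_le_iff_mem]
    exact hz
  have h2 : LL k D ⊓ Submodule.span k {z} = ⊥ := by
    rw [Submodule.eq_bot_iff]
    rintro w ⟨hw1, hw2⟩
    obtain ⟨a, rfl⟩ := Submodule.mem_span_singleton.1 hw2
    by_cases ha : a = 0
    · rw [ha, zero_smul]
    · exfalso
      apply hz'
      have h3 := Submodule.smul_mem (LL k D) a⁻¹ hw1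
      rwa [smul_smul, inv_mul_cancel₀ ha, one_smul] at h3
  have h3 := Submodule.finrank_sup_add_finrank_inf_eq (LL k D) (Submodule.span k {z})
  rw [h2, finrank_bot, add_zero, finrank_span_singleton hz0] at h3
  rw [h1]
  exact h3

theorem l_step_of_eq {D : Plk k F →₀ ℤ} {P : Plk k F}
    (h : LL k (D + Finsupp.single P 1) ≤ LL k D) :
    Module.finrank k (LL k (D + Finsupp.single P 1)) = Module.finrank k (LL k D) :=
  le_antisymm (Submodule.finrank_mono h) (l_mono (CL_le_single D P))

/-- `l(E) - l(D) ≤ deg E - deg D`. -/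
theorem l_sub_le {D E : Plk k F →₀ ℤ} (h : D ≤ E) :
    (Module.finrank k (LL k E) : ℤ) - Module.finrank k (LL k D) ≤ dg E - dg D := by
  refine dv_induct (motive := fun E => (Module.finrank k (LL k E) : ℤ) -
    Module.finrank k (LL k D) ≤ dg E - dg D) (D := D) ?_ ?_ h
  · simp
  · intro E P _ ih
    have h1 : dg (E + Finsupp.single P 1) = dg E + 1 := by
      rw [map_add, dg_sgl]
    rw [h1]
    by_cases h : LL k (E + Finsupp.single P 1) ≤ LL k E
    · rw [l_step_of_eq h]
      omega
    · obtain ⟨z, hz, hz'⟩ := Set.not_subset.1 h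
      rw [l_step_of_mem hz hz']
      push_cast
      omega

/-- linear equivalence. -/
theorem mul_mem_LL_iff {D : Plk k F →₀ ℤ} {z w : F} (hz : z ≠ 0) :
    z * w ∈ LL k D ↔ w ∈ LL k (D + dv k z) := by
  rw [mem_LL, mem_LL, mul_eq_zero, or_iff_right_of_imp (a := z = 0) (fun h => absurd h hz)]
  by_cases hw : w = 0
  · simp [hw]
  · simp only [hw, false_or]
    refine forall_congr' fun P => ?_
    rw [ord_mul P hz hw, Finsupp.add_apply, dv_apply]
    omega

theorem l_add_dv (D : Plk k F →₀ ℤ) {z : F} (hz : z ≠ 0) :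
    Module.finrank k (LL k (D + dv k z)) = Module.finrank k (LL k D) := by
  have h1 : (LL k (D + dv k z)).map (LinearMap.mulLeft k z) = LL k D := by
    ext w
    rw [Submodule.mem_map]
    constructor
    · rintro ⟨u, hu, rfl⟩
      rw [LinearMap.mulLeft_apply]
      exact (mul_mem_LL_iff hz).2 hu
    · intro hw
      refine ⟨z⁻¹ * w, ?_, ?_⟩
      · rw [← mul_mem_LL_iff hz, mul_inv_cancel_left₀ hz]
        exact hw
      · rw [LinearMap.mulLeft_apply, mul_inv_cancel_left₀ hz]
  have hinj : Function.Injective (LinearMap.mulLeft k z) := by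
    intro u v huv
    rw [LinearMap.mulLeft_apply, LinearMap.mulLeft_apply] at huv
    exact mul_left_cancel₀ hz huv
  rw [← h1]
  exact (LinearEquiv.finrank_eq (Submodule.equivMapOfInjective _ hinj _))

/-- a nonzero element of `LL k D` gives an effective divisor. -/
theorem exists_ne_zero_of_l {D : Plk k F →₀ ℤ} (h : 0 < Module.finrank k (LL k D)) :
    ∃ z : F, z ≠ 0 ∧ 0 ≤ D + dv k z := by
  have hne : LL k D ≠ ⊥ := by
    intro hb
    rw [hb, finrank_bot] at h
    exact lt_irrefl _ h
  obtain ⟨z, hz, hz0⟩ := Submodule.exists_mem_ne_zero_of_ne_bot hne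
  refine ⟨z, hz0, fun P => ?_⟩
  have h1 := ((mem_LL.1 hz).resolve_left hz0) P
  rw [Finsupp.zero_apply, Finsupp.add_apply, dv_apply]
  omega

end

end Vale.Agent.P019P
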