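import Vale.Agent.P019Q.CIface
import Vale.Agent.P019Q.Defs

/-!
# Function fields with a given perfect closure
-/

namespace Vale.Agent.P019P

open Vale.Agent.P019

set_option linter.style.haveILetI false
set_option linter.unusedSectionVars false

open Polynomial IntermediateField

/-- finitely generated algebraic extensions are finite. -/
theorem finite_of_ess {K L : Type*} [Field K] [Field L] [Algebra K L] [Algebra.EssFiniteType K L]
    (h : ∀ z : L, IsAlgebraic K z) : FiniteDimensional K L := by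
  obtain ⟨s, hs⟩ := IntermediateField.fg_top K L
  have h1 := IntermediateField.finiteDimensional_adjoin (S := (s : Set L)) (K := K)
    fun x _ => (h x).isIntegral
  rw [hs] at h1
  exact Module.Finite.equiv (IntermediateField.topEquiv (F := K) (E := L)).toLinearEquiv

variable {F : Type*} [Field F] {k : Subfield F}

/-- elements outside the constants are transcendental. -/
theorem transc_of_notMem (hk : IsAlgClosed k) {x : F} (hx : x ∉ k) : ¬ IsAlgebraic k x :=
  fun h => hx (RAC_of_isAlgClosed k hk x h)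

theorem Cv.isAlgebraic (h : Cv k) {x : F} (hx : x ∉ k) (z : F) : IsAlgebraic (adj k x) z := by
  obtain ⟨y, hy, hy'⟩ := h.ex
  have hx' := transc_of_notMem h.ac hx
  have h1 : IsAlgebraic (adj k x) y := exchange hx' (hy' x)
  have h2 : ∀ w ∈ adj k y, IsAlgebraic (adj k x) w := by
    intro w hw
    have h3 : y ∈ rac (adj k x) := mem_rac.2 h1
    have h4 : Vale.Agent.P019.adj k y ≤ rac (adj k x) :=
      Vale.Agent.P019.adj_le ((le_adj k x).trans (le_rac _)) h3
    obtain ⟨n, hn⟩ := mem_adj_iff.1 hw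
    exact IsAlgebraic.of_pow (pow_pos (expChar_pos F (ringExpChar F)) n) (mem_rac.1 (h4 hn))
  have h3 : adj k y ≤ rac (adj k x) := fun w hw => mem_rac.2 (h2 w hw)
  exact isAlgebraic_rac (isAlgebraic_mono h3 (hy' z))

theorem isAlgebraic_coe (F0 : IntermediateField k F) (x z : F0)
    (h : IsAlgebraic (adj k (x : F)) (z : F)) : IsAlgebraic k⟮x⟯ z := by
  have h1 := isAlgebraic_adj.1 h
  let g : F0 →+* F := algebraMap F0 F
  let f0 : k⟮x⟯ →+* F := g.comp (algebraMap k⟮x⟯ F0)
  have hf0 : ∀ w : k⟮x⟯, f0 w ∈ Vale.Agent.P019.adj k (x : F) := by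
    intro w
    let E : IntermediateField k F0 :=
      { (Vale.Agent.P019.adj k (x : F)).comap g with
        algebraMap_mem' := fun a => (Vale.Agent.P019.le_adj k (x : F)) a.2 }
    have hE : k⟮x⟯ ≤ E := by
      rw [IntermediateField.adjoin_simple_le_iff]
      exact Vale.Agent.P019.mem_adj k (x : F)
    exact hE w.2
  let f : k⟮x⟯ →+* Vale.Agent.P019.adj k (x : F) :=
    f0.codRestrict (Vale.Agent.P019.adj k (x : F)) hf0
  refine IsAlgebraic.of_ringHom_of_comp_eq (S := Vale.Agent.P019.adj k (x : F)) (B := F) f g h1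
    ?_ g.injective ?_
  · intro a
    have h2 : Vale.Agent.P019.adj k (x : F) ≤ f0.fieldRange := by
      refine Vale.Agent.P019.adj_le ?_ ?_
      · intro b hb
        exact ⟨algebraMap k k⟮x⟯ ⟨b, hb⟩, rfl⟩
      · exact ⟨AdjoinSimple.gen k x, rfl⟩
    obtain ⟨b, hb⟩ := h2 a.2
    exact ⟨b, Subtype.ext hb⟩
  · rfl

/-- finitely generated subfields containing a nonconstant are function fields. -/
theorem cff_of (h : Cv k) (F0 : IntermediateField k F) (hF : F0.FG) {x : F} (hxF : x ∈ F0)
    (hx : x ∉ k) : CFF k F0 := by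
  haveI : Algebra.EssFiniteType k F0 := IntermediateField.essFiniteType_iff.2 hF
  let x0 : F0 := ⟨x, hxF⟩
  haveI : Algebra.EssFiniteType k⟮x0⟯ F0 := Algebra.EssFiniteType.of_comp k k⟮x0⟯ F0
  refine ⟨h.ac, x0, ?_, ?_⟩
  · intro h1
    apply transc_of_notMem h.ac hx
    exact h1.algebraMap (A := F)
  · exact finite_of_ess fun z => isAlgebraic_coe F0 x0 z (h.isAlgebraic hx _)

/-- existence of function fields with the given perfect closure. -/
theorem exists_model (h : Cv k) : ∃ F0 : IntermediateField k F, F0.FG ∧ CFF k F0 ∧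
    IsPurelyInseparable F0 F := by
  classical
  obtain ⟨S, hS⟩ := h.fg
  obtain ⟨x, hx, -⟩ := h.ex
  let T : Finset F := insert x S
  let F0 : IntermediateField k F := IntermediateField.adjoin k (T : Set F)
  have hFG : F0.FG := ⟨T, rfl⟩
  have hx0 : x ∈ F0 := IntermediateField.subset_adjoin k _ (by simp [T])
  refine ⟨F0, hFG, cff_of h F0 hFG hx0 hx, ?_⟩
  haveI : ExpChar F0 (ringExpChar F) :=
    (algebraMap F0 F).expChar (algebraMap F0 F).injective _
  rw [isPurelyInseparable_iff_pow_mem F0 (ringExpChar F)]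
  intro z
  have h1 : z ∈ pf (k ⊔ Subfield.closure (S : Set F)) := by
    rw [← hS]; trivial
  obtain ⟨n, hn⟩ := mem_pf.1 h1
  have h2 : k ⊔ Subfield.closure (S : Set F) ≤ F0.toSubfield := by
    refine sup_le ?_ (Subfield.closure_le.2 ?_)
    · intro a ha
      exact F0.algebraMap_mem ⟨a, ha⟩
    · intro a ha
      exact IntermediateField.subset_adjoin k _ (by simp [T, Finset.mem_coe.1 ha])
  exact ⟨n, ⟨_, h2 hn⟩, rfl⟩

end Vale.Agent.P019P
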