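import Vale.Agent.P019Q.CIso
import Vale.Agent.P019Q.Defs
import Vale.Agent.P019Q.GModel

/-!
# Finitely generated models of the perfect field of functions of a curve
-/

namespace Vale.Agent.P019P

open Vale.Agent.P019

set_option linter.style.haveILetI false
set_option linter.unusedSectionVars false

open Polynomial IntermediateField

/-- `E` is a finitely generated field with perfect closure `F`. -/
structure Mod {F : Type*} [Field F] (k : Subfield F) (E : IntermediateField k F) : Prop where
  fg : E.FG
  pf : ∀ z : F, ∃ n : ℕ, z ^ ringExpChar F ^ n ∈ E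

variable {F : Type*} [Field F] [PerfectField F] {k : Subfield F}

theorem Mod.pure {E : IntermediateField k F} (hE : Mod k E) : IsPurelyInseparable E F := by
  haveI : ExpChar E (ringExpChar F) := (algebraMap E F).expChar (algebraMap E F).injective _
  rw [isPurelyInseparable_iff_pow_mem E (ringExpChar F)]
  intro z
  obtain ⟨n, hn⟩ := hE.pf z
  exact ⟨n, ⟨_, hn⟩, rfl⟩

theorem Mod.of_pure {E : IntermediateField k F} (hfg : E.FG) [IsPurelyInseparable E F] :
    Mod k E := by
  refine ⟨hfg, fun z => ?_⟩
  haveI : ExpChar E (ringExpChar F) := (algebraMap E F).expChar (algebraMap E F).injective _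
  obtain ⟨n, w, hw⟩ := (isPurelyInseparable_iff_pow_mem E (ringExpChar F)).1
    (inferInstance : IsPurelyInseparable E F) z
  refine ⟨n, ?_⟩
  rw [← hw]
  exact w.2

theorem Cv.exists_mod (h : Cv k) : ∃ E : IntermediateField k F, Mod k E := by
  obtain ⟨E, hfg, _, hpi⟩ := exists_model h
  exact ⟨E, Mod.of_pure hfg⟩

theorem Mod.cff (h : Cv k) {E : IntermediateField k F} (hE : Mod k E) : CFF k E := by
  obtain ⟨x, hx, _⟩ := h.ex
  obtain ⟨n, hn⟩ := hE.pf x
  refine cff_of h E hE.fg hn fun h1 => hx ?_
  have h2 : IsAlgebraic k (x ^ ringExpChar F ^ n) := isAlgebraic_of_mem h1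
  exact RAC_of_isAlgClosed k h.ac x
    (IsAlgebraic.of_pow (pow_pos (expChar_pos F (ringExpChar F)) n) h2)

/-- a subfield containing a model is a model if it is finitely generated. -/
theorem Mod.of_adjoin (h : Cv k) {x y : F} (hxy : adj (adj k x) y = ⊤) :
    Mod k (IntermediateField.adjoin k {x, y}) := by
  classical
  set E : IntermediateField k F := IntermediateField.adjoin k ({x, y} : Set F) with hE
  have hfg : E.FG := ⟨{x, y}, by rw [Finset.coe_insert, Finset.coe_singleton]⟩
  refine ⟨hfg, fun z => ?_⟩
  have hx : x ∈ E := IntermediateField.subset_adjoin k _ (by simp)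
  have hy : y ∈ E := IntermediateField.subset_adjoin k _ (by simp)
  have h1 : adj (adj k x) y ≤ Vale.Agent.P019P.pf E.toSubfield := by
    refine adj_le (adj_le ?_ ?_) ?_
    · intro a ha
      exact le_pf _ (E.algebraMap_mem ⟨a, ha⟩)
    · exact le_pf _ hx
    · exact le_pf _ hy
  rw [hxy] at h1
  exact mem_pf.1 (h1 (Subfield.mem_top z))

end Vale.Agent.P019P
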