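import Vale.Agent.P019Q.CAd

/-!
# Weil differentials and the index of speciality
-/

namespace Vale.Agent.P019P

open IntermediateField

section

variable {k F : Type*} [Field k] [Field F] [Algebra k F] [CFF k F]

/-- the differentials which are regular with respect to `D`. -/
noncomputable def Om (D : Plk k F →₀ ℤ) : Submodule k (Module.Dual k (Plk k F →₀ F)) :=
  (KD D).dualAnnihilator

theorem mem_Om {D : Plk k F →₀ ℤ} {ω : Module.Dual k (Plk k F →₀ F)} :
    ω ∈ Om D ↔ ∀ β ∈ KD D, ω β = 0 := by
  rw [Om, Submodule.mem_dualAnnihilator]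

theorem Om_anti {D E : Plk k F →₀ ℤ} (h : D ≤ E) : Om E ≤ Om D :=
  Submodule.dualAnnihilator_anti (KD_mono h)

/-- a subspace which is cut out by one functional has codimension one. -/
theorem COm_cut {K A : Type*} [Field K] [AddCommGroup A] [Module K A] (U U' : Submodule K A)
    (ev : A →ₗ[K] K) (h : ∀ ω, ω ∈ U' ↔ ω ∈ U ∧ ev ω = 0) (ω₀ : A) (h₀ : ω₀ ∈ U)
    (h₁ : ev ω₀ ≠ 0) (hf : FiniteDimensional K U') :
    FiniteDimensional K U ∧ Module.finrank K U = Module.finrank K U' + 1 := by
  let f : U →ₗ[K] K := ev.domRestrict U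
  have hsurj : Function.Surjective f := by
    intro a
    refine ⟨(a / ev ω₀) • ⟨ω₀, h₀⟩, ?_⟩
    change ev ((a / ev ω₀) • ω₀) = a
    rw [map_smul, smul_eq_mul, div_mul_cancel₀ _ h₁]
  have hker : LinearMap.ker f = U'.comap U.subtype := by
    ext ω
    rw [LinearMap.mem_ker, Submodule.mem_comap, Submodule.subtype_apply, h]
    exact ⟨fun h2 => ⟨ω.2, h2⟩, fun h2 => h2.2⟩
  have hle : U' ≤ U := fun ω hω => ((h ω).1 hω).1
  have hequiv : LinearMap.ker f ≃ₗ[K] U' := by
    rw [hker]
    exact Submodule.comapSubtypeEquivOfLe hle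
  have hfk : FiniteDimensional K (LinearMap.ker f) := Module.Finite.equiv hequiv.symm
  have hfq : FiniteDimensional K (U ⧸ LinearMap.ker f) :=
    Module.Finite.equiv (f.quotKerEquivOfSurjective hsurj).symm
  have hfin : FiniteDimensional K U := Module.Finite.of_submodule_quotient (LinearMap.ker f)
  refine ⟨hfin, ?_⟩
  have h1 := LinearMap.finrank_range_add_finrank_ker f
  rw [LinearMap.range_eq_top.2 hsurj, finrank_top, Module.finrank_self, hequiv.finrank_eq] at h1
  omega

/-- the annihilator of a subspace grows by one dimension if a vector is removed. -/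
theorem COm_aux {K V : Type*} [Field K] [AddCommGroup V] [Module K V] (W W' : Submodule K V)
    (e : V) (he : e ∉ W) (hW : W' = W ⊔ Submodule.span K {e})
    (hf : FiniteDimensional K W'.dualAnnihilator) :
    FiniteDimensional K W.dualAnnihilator ∧
      Module.finrank K W.dualAnnihilator = Module.finrank K W'.dualAnnihilator + 1 := by
  obtain ⟨f, hf1, hf2⟩ := Submodule.exists_dual_map_eq_bot_of_notMem he inferInstance
  refine COm_cut W.dualAnnihilator W'.dualAnnihilator (Module.Dual.eval K V e) ?_ f ?_ hf1 hf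
  · intro ω
    rw [Submodule.mem_dualAnnihilator, Submodule.mem_dualAnnihilator]
    constructor
    · intro h
      exact ⟨fun w hw => h w (hW ▸ Submodule.mem_sup_left hw),
        h e (hW ▸ Submodule.mem_sup_right (Submodule.mem_span_singleton_self e))⟩
    · rintro ⟨h1, h2⟩ w hw
      rw [hW, Submodule.mem_sup] at hw
      obtain ⟨u, hu, v, hv, rfl⟩ := hw
      obtain ⟨a, rfl⟩ := Submodule.mem_span_singleton.1 hv
      have h3 : ω e = 0 := h2
      rw [map_add, map_smul, h3, h1 u hu, smul_zero, add_zero]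
  · rw [Submodule.mem_dualAnnihilator]
    intro w hw
    have h4 : f w ∈ W.map f := Submodule.mem_map_of_mem hw
    rw [hf2] at h4
    exact (Submodule.mem_bot K).1 h4

theorem COm_both {g : ℕ} {c : ℤ} (hc : ∀ D : Plk k F →₀ ℤ, c ≤ dg D →
    (Module.finrank k (LL k D) : ℤ) = dg D + 1 - g) (D : Plk k F →₀ ℤ) :
    FiniteDimensional k (Om D) ∧
    (Module.finrank k (Om D) : ℤ) = Module.finrank k (LL k D) - dg D - 1 + g := by
  have hbig : ∀ D : Plk k F →₀ ℤ, c ≤ dg D → FiniteDimensional k (Om D) ∧
      (Module.finrank k (Om D) : ℤ) = Module.finrank k (LL k D) - dg D - 1 + g := by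
    intro D hD
    have h1 : Om D = ⊥ := by rw [Om, KD_eq_top hc hD, Submodule.dualAnnihilator_top]
    rw [h1, hc D hD]
    refine ⟨inferInstance, ?_⟩
    rw [finrank_bot]
    push_cast
    ring
  have hstep : ∀ (D : Plk k F →₀ ℤ) (P : Plk k F),
      (FiniteDimensional k (Om (D + Finsupp.single P 1)) ∧
      (Module.finrank k (Om (D + Finsupp.single P 1)) : ℤ)
        = Module.finrank k (LL k (D + Finsupp.single P 1)) - dg (D + Finsupp.single P 1) - 1 + g)
      → FiniteDimensional k (Om D) ∧
      (Module.finrank k (Om D) : ℤ) = Module.finrank k (LL k D) - dg D - 1 + g := by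
    rintro D P ⟨h1, h2⟩
    rw [map_add, dg_sgl] at h2
    by_cases hle : LL k (D + Finsupp.single P 1) ≤ LL k D
    · obtain ⟨e, he, hKD⟩ := KD_step_of_eq hle
      have h3 := COm_aux (KD D) _ e he hKD h1
      refine ⟨h3.1, ?_⟩
      have h4 : Module.finrank k (Om D) = Module.finrank k (Om (D + Finsupp.single P 1)) + 1 :=
        h3.2
      rw [l_step_of_eq hle] at h2
      rw [h4]
      push_cast
      linarith
    · obtain ⟨z, hz, hz'⟩ := Set.not_subset.1 hle
      have h3 : Om (D + Finsupp.single P 1) = Om D := by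
        rw [Om, Om, KD_step_of_mem hz hz']
      rw [h3] at h1 h2
      rw [l_step_of_mem hz hz'] at h2
      refine ⟨h1, ?_⟩
      rw [h2]
      push_cast
      ring
  obtain ⟨P⟩ := nonempty_Plk k F
  have hN : ∀ (N : ℕ) (D : Plk k F →₀ ℤ), c ≤ dg D + N → FiniteDimensional k (Om D) ∧
      (Module.finrank k (Om D) : ℤ) = Module.finrank k (LL k D) - dg D - 1 + g := by
    intro N
    induction N with
    | zero => intro D hD; exact hbig D (by simpa using hD)
    | succ n ih =>
      intro D hD
      refine hstep D P (ih _ ?_)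
      rw [map_add, dg_sgl]
      push_cast at hD
      linarith
  refine hN (c - dg D).toNat D ?_
  have := Int.self_le_toNat (c - dg D)
  linarith

theorem Om_finite {g : ℕ} {c : ℤ} (hc : ∀ D : Plk k F →₀ ℤ, c ≤ dg D →
    (Module.finrank k (LL k D) : ℤ) = dg D + 1 - g) (D : Plk k F →₀ ℤ) :
    FiniteDimensional k (Om D) :=
  (COm_both hc D).1

/-- the index of speciality. -/
theorem finrank_Om {g : ℕ} {c : ℤ} (hc : ∀ D : Plk k F →₀ ℤ, c ≤ dg D →
    (Module.finrank k (LL k D) : ℤ) = dg D + 1 - g) (D : Plk k F →₀ ℤ) :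
    (Module.finrank k (Om D) : ℤ) = Module.finrank k (LL k D) - dg D - 1 + g :=
  (COm_both hc D).2

end

end Vale.Agent.P019P
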