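import Vale.Agent.P019Q.CTw

/-!
# Differentials are one-dimensional over the function field
-/

namespace Vale.Agent.P019P

open IntermediateField

section

variable {k F : Type*} [Field k] [Field F] [Algebra k F] [CFF k F]

private theorem COne_tw_zero (ω : Module.Dual k (Plk k F →₀ F)) : tw 0 ω = 0 := by
  have h := tw_smul (0 : k) (0 : F) ω
  rwa [zero_smul, zero_smul] at h

private theorem COne_tw_mem {A E : Plk k F →₀ ℤ} {ω : Module.Dual k (Plk k F →₀ F)}
    (h : ω ∈ Om A) {x : F} (hx : x ∈ LL k (A + E)) : tw x ω ∈ Om (-E) := by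
  by_cases h0 : x = 0
  · rw [h0, COne_tw_zero]
    exact zero_mem _
  · refine (tw_mem_Om h0).2 (Om_anti (fun P => ?_) h)
    have h1 := (hx.resolve_left h0) P
    rw [Finsupp.add_apply] at h1
    rw [Finsupp.sub_apply, Finsupp.neg_apply, dv_apply]
    omega

/-- the map `x ↦ tw x ω` from a Riemann-Roch space to the differentials. -/
private noncomputable def COne_map {A : Plk k F →₀ ℤ} (E : Plk k F →₀ ℤ)
    {ω : Module.Dual k (Plk k F →₀ F)} (h : ω ∈ Om A) : LL k (A + E) →ₗ[k] Om (-E) where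
  toFun x := ⟨tw x.1 ω, COne_tw_mem h x.2⟩
  map_add' x y := Subtype.ext (tw_add x.1 y.1 ω)
  map_smul' a x := Subtype.ext (tw_smul a x.1 ω)

/-- the differentials form a space of dimension one over `F`. -/
theorem exists_tw {A B : Plk k F →₀ ℤ} {ω ω' : Module.Dual k (Plk k F →₀ F)} (h0 : ω ≠ 0)
    (h : ω ∈ Om A) (h' : ω' ∈ Om B) : ∃ z : F, ω' = tw z ω := by
  by_contra hne
  obtain ⟨g, hmin, c, hc⟩ := exists_riem k F
  obtain ⟨E, hE⟩ := exists_dg_eq k F (max 1 (3 * (g : ℤ) - 2 - dg A - dg B))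
  have hinj : Function.Injective ((COne_map E h).coprod (COne_map E h')) := by
    refine (injective_iff_map_eq_zero _).2 ?_
    rintro ⟨⟨x, hx⟩, ⟨y, hy⟩⟩ hxy
    have h1 : tw x ω + tw y ω' = 0 := congrArg Subtype.val hxy
    have h2 : y = 0 := by
      by_contra h2
      refine hne ⟨y⁻¹ * -x, ?_⟩
      have h3 : tw y ω' = tw (-x) ω := by
        have h4 : tw (x + -x) ω = 0 := by rw [add_neg_cancel, COne_tw_zero]
        rw [tw_add, ← h1] at h4
        exact (add_left_cancel h4).symm
      rw [tw_mul, ← h3, ← tw_mul, inv_mul_cancel₀ h2, tw_one]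
    have h3 : x = 0 := by
      by_contra h3
      refine h0 ?_
      rw [h2, COne_tw_zero, add_zero] at h1
      rw [← tw_one ω, ← inv_mul_cancel₀ h3, tw_mul, h1, map_zero]
    subst h2
    subst h3
    rfl
  have := Om_finite hc (-E)
  have h1 := LinearMap.finrank_le_finrank_of_injective hinj
  rw [Module.finrank_prod] at h1
  have h2 := finrank_Om hc (-E)
  have h3 : dg (-E) < 0 := by
    rw [map_neg, hE]
    have := le_max_left 1 (3 * (g : ℤ) - 2 - dg A - dg B)
    omega
  rw [l_eq_zero h3] at h2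
  have h4 := hmin (A + E)
  have h5 := hmin (B + E)
  rw [map_add] at h4 h5
  rw [map_neg] at h2
  have h6 := le_max_right 1 (3 * (g : ℤ) - 2 - dg A - dg B)
  rw [← hE] at h6
  push_cast at h2
  omega

end

end Vale.Agent.P019P
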