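import Vale.Agent.P019Q.CVal

/-!
# Rules for the order at a place
-/

namespace Vale.Agent.P019P

open Polynomial IntermediateField

section

variable {k F : Type*} [Field k] [Field F] [Algebra k F] [CFF k F]

theorem ord_zero (P : Plk k F) : ord P 0 = 0 := (ord_spec P).zero

theorem ord_mul (P : Plk k F) {x y : F} (hx : x ≠ 0) (hy : y ≠ 0) :
    ord P (x * y) = ord P x + ord P y := (ord_spec P).mul x y hx hy

theorem ord_one (P : Plk k F) : ord P 1 = 0 := by
  have h := ord_mul P (one_ne_zero (α := F)) (one_ne_zero (α := F))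
  rw [one_mul] at h
  omega

theorem ord_inv (P : Plk k F) (x : F) : ord P x⁻¹ = -ord P x := by
  by_cases hx : x = 0
  · rw [hx, inv_zero, ord_zero, neg_zero]
  have h := ord_mul P hx (inv_ne_zero hx)
  rw [mul_inv_cancel₀ hx, ord_one] at h
  omega

theorem ord_neg (P : Plk k F) (x : F) : ord P (-x) = ord P x := by
  have h0 : (-1 : F) ≠ 0 := neg_ne_zero.2 one_ne_zero
  have h1 : ord P (-1) = 0 := by
    have h := ord_mul P h0 h0
    rw [neg_mul_neg, one_mul, ord_one] at h
    omega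
  by_cases hx : x = 0
  · rw [hx, neg_zero]
  have h := ord_mul P h0 hx
  rw [neg_one_mul, h1, zero_add] at h
  exact h

theorem ord_pow (P : Plk k F) (x : F) (n : ℕ) : ord P (x ^ n) = n * ord P x := by
  by_cases hx : x = 0
  · rw [hx, ord_zero, mul_zero]
    rcases Nat.eq_zero_or_pos n with rfl | hn
    · rw [pow_zero, ord_one]
    · rw [zero_pow hn.ne', ord_zero]
  induction n with
  | zero => rw [pow_zero, ord_one, Nat.cast_zero, zero_mul]
  | succ n ih => rw [pow_succ, ord_mul P (pow_ne_zero n hx) hx, ih, Nat.cast_succ, add_mul, one_mul]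

theorem ord_zpow (P : Plk k F) (x : F) (n : ℤ) : ord P (x ^ n) = n * ord P x := by
  cases n with
  | ofNat n => rw [Int.ofNat_eq_natCast, zpow_natCast, ord_pow]
  | negSucc n =>
    rw [zpow_negSucc, ord_inv, ord_pow, Int.negSucc_eq, ← neg_mul]
    push_cast
    rfl

theorem ord_const (P : Plk k F) (a : k) : ord P (algebraMap k F a) = 0 := by
  by_cases ha : a = 0
  · rw [ha, map_zero, ord_zero]
  have h1 : algebraMap k F a ≠ 0 := by rwa [Ne, map_eq_zero]
  have h2 := (((ord_spec P).mem _).1 (P.2.1 a)).resolve_left h1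
  have h3 := (((ord_spec P).mem _).1 (P.2.1 a⁻¹)).resolve_left
    (by rw [map_inv₀]; exact inv_ne_zero h1)
  rw [map_inv₀, ord_inv] at h3
  omega

theorem ord_le_add (P : Plk k F) {x y : F} (hx : x ≠ 0) (hy : y ≠ 0) (h : x + y ≠ 0) :
    min (ord P x) (ord P y) ≤ ord P (x + y) := (ord_spec P).add x y hx hy h

theorem mem_iff_ord (P : Plk k F) (x : F) : x ∈ P.1 ↔ x = 0 ∨ 0 ≤ ord P x :=
  (ord_spec P).mem x

theorem exists_unif (P : Plk k F) : ∃ π : F, π ≠ 0 ∧ ord P π = 1 := by
  obtain ⟨π, h⟩ := (ord_spec P).one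
  refine ⟨π, ?_, h⟩
  rintro rfl
  rw [ord_zero] at h
  exact zero_ne_one h

/-- two places one of which contains the other are equal. -/
theorem Plk.eq_of_le {P Q : Plk k F} (h : ∀ z, z ∈ P.1 → z ∈ Q.1) : P = Q := by
  obtain ⟨π, hπ0, hπ⟩ := exists_unif P
  have key : ∀ u : F, u ≠ 0 → ord P u = 0 → ord Q u = 0 := by
    intro u hu hu0
    have h1 : u ∈ Q.1 := h u ((mem_iff_ord P u).2 (Or.inr hu0.ge))
    have h2 : u⁻¹ ∈ Q.1 := h _ ((mem_iff_ord P _).2 (Or.inr (by rw [ord_inv, hu0, neg_zero])))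
    have h3 := ((mem_iff_ord Q u).1 h1).resolve_left hu
    have h4 := ((mem_iff_ord Q _).1 h2).resolve_left (inv_ne_zero hu)
    rw [ord_inv] at h4
    omega
  have key2 : ∀ z : F, z ≠ 0 → ord Q z = ord P z * ord Q π := by
    intro z hz
    have h1 : π ^ (-ord P z) ≠ 0 := zpow_ne_zero _ hπ0
    have h2 := key (z * π ^ (-ord P z)) (mul_ne_zero hz h1)
      (by rw [ord_mul P hz h1, ord_zpow, hπ, mul_one, add_neg_cancel])
    rw [ord_mul Q hz h1, ord_zpow, neg_mul] at h2
    omega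
  obtain ⟨w, hw⟩ : ∃ w, w ∉ Q.1 := by
    by_contra hcon
    push Not at hcon
    exact Q.2.2 (ValuationSubring.ext _ _ fun z => ⟨fun _ => ValuationSubring.mem_top z,
      fun _ => hcon z⟩)
  have hw0 : w ≠ 0 := by
    rintro rfl
    exact hw (zero_mem _)
  have hwP : ord P w < 0 := by
    by_contra hcon
    exact hw (h w ((mem_iff_ord P w).2 (Or.inr (not_lt.1 hcon))))
  have hwQ : ord Q w < 0 := by
    by_contra hcon
    exact hw ((mem_iff_ord Q w).2 (Or.inr (not_lt.1 hcon)))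
  have hπQ : 0 < ord Q π := by
    rw [key2 w hw0] at hwQ
    by_contra hcon
    exact absurd (mul_nonneg_of_nonpos_of_nonpos hwP.le (not_lt.1 hcon)) (not_le.2 hwQ)
  refine Subtype.ext (ValuationSubring.ext _ _ fun z => ⟨h z, fun hz => ?_⟩)
  by_cases hz0 : z = 0
  · rw [hz0]; exact zero_mem _
  have h1 := ((mem_iff_ord Q z).1 hz).resolve_left hz0
  rw [key2 z hz0] at h1
  exact (mem_iff_ord P z).2 (Or.inr (nonneg_of_mul_nonneg_left h1 hπQ))

/-- the elements of order at least `n` at `P`. -/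
def Mge (P : Plk k F) (n : ℤ) : Submodule k F where
  carrier := {z | z = 0 ∨ n ≤ ord P z}
  zero_mem' := Or.inl rfl
  add_mem' := by
    rintro z w hz hw
    by_cases h1 : z = 0
    · rw [h1, zero_add]; exact hw
    by_cases h2 : w = 0
    · rw [h2, add_zero]; exact hz
    by_cases h3 : z + w = 0
    · exact Or.inl h3
    · exact Or.inr ((le_min (hz.resolve_left h1) (hw.resolve_left h2)).trans
        (ord_le_add P h1 h2 h3))
  smul_mem' := by
    rintro a z hz
    by_cases h1 : z = 0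
    · left; rw [h1, smul_zero]
    by_cases h2 : a = 0
    · left; rw [h2, zero_smul]
    right
    have h3 : algebraMap k F a ≠ 0 := by rwa [Ne, map_eq_zero]
    rw [Algebra.smul_def, ord_mul P h3 h1, ord_const, zero_add]
    exact hz.resolve_left h1

theorem mem_Mge {P : Plk k F} {n : ℤ} {z : F} : z ∈ Mge P n ↔ z = 0 ∨ n ≤ ord P z := Iff.rfl

theorem Mge_mono (P : Plk k F) {m n : ℤ} (h : m ≤ n) : Mge P n ≤ Mge P m := by
  intro z hz
  rcases hz with h0 | h1
  · exact Or.inl h0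
  · exact Or.inr (h.trans h1)

theorem mul_mem_Mge {P : Plk k F} {m n : ℤ} {z w : F} (hz : z ∈ Mge P m) (hw : w ∈ Mge P n) :
    z * w ∈ Mge P (m + n) := by
  by_cases h1 : z = 0
  · left; rw [h1, zero_mul]
  by_cases h2 : w = 0
  · left; rw [h2, mul_zero]
  right
  rw [ord_mul P h1 h2]
  exact add_le_add (hz.resolve_left h1) (hw.resolve_left h2)

/-- multiplication by a nonzero element shifts the orders. -/
theorem mul_mem_Mge_iff {P : Plk k F} {n : ℤ} {z w : F} (hz : z ≠ 0) :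
    z * w ∈ Mge P n ↔ w ∈ Mge P (n - ord P z) := by
  by_cases h2 : w = 0
  · rw [h2, mul_zero]
    exact ⟨fun _ => Or.inl rfl, fun _ => Or.inl rfl⟩
  rw [mem_Mge, mem_Mge, ord_mul P hz h2, mul_eq_zero, or_iff_right hz, sub_le_iff_le_add']

theorem ord_add_of_lt {P : Plk k F} {z w : F} (hz : z ≠ 0) (hw : w ∈ Mge P (ord P z + 1)) :
    z + w ≠ 0 ∧ ord P (z + w) = ord P z := by
  by_cases h1 : w = 0
  · rw [h1, add_zero]; exact ⟨hz, rfl⟩
  have h2 := hw.resolve_left h1
  have h3 : z + w ≠ 0 := by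
    intro h
    rw [eq_neg_of_add_eq_zero_right h, ord_neg] at h2
    omega
  refine ⟨h3, ?_⟩
  have h4 := ord_le_add P hz h1 h3
  have h5 := ord_le_add P h3 (neg_ne_zero.2 h1) (by rw [add_neg_cancel_right]; exact hz)
  rw [add_neg_cancel_right, ord_neg] at h5
  omega

/-- a sum with one dominating term. -/
theorem ord_sum_of_lt {P : Plk k F} {ι : Type*} {s : Finset ι} {f : ι → F} {i : ι} (hi : i ∈ s)
    (h0 : f i ≠ 0) (h : ∀ j ∈ s, j ≠ i → f j ∈ Mge P (ord P (f i) + 1)) :
    ∑ j ∈ s, f j ≠ 0 ∧ ord P (∑ j ∈ s, f j) = ord P (f i) := by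
  classical
  rw [← Finset.add_sum_erase s f hi]
  exact ord_add_of_lt h0 (Submodule.sum_mem _ fun j hj =>
    h j (Finset.mem_of_mem_erase hj) (Finset.ne_of_mem_erase hj))

/-- polynomials in an element of nonnegative order. -/
theorem COrd_aeval_mem {P : Plk k F} {x : F} (hx : 0 ≤ ord P x) (φ : k[X]) :
    aeval x φ ∈ Mge P 0 := by
  rw [Polynomial.aeval_eq_sum_range]
  refine Submodule.sum_mem _ fun i _ => Submodule.smul_mem _ _ (Or.inr ?_)
  rw [ord_pow]
  exact mul_nonneg (Int.natCast_nonneg i) hx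

theorem COrd_aeval_divX {P : Plk k F} {x : F} (hx : 0 < ord P x) (φ : k[X]) :
    aeval x φ.divX * x ∈ Mge P (ord P x) := by
  have h := mul_mem_Mge (COrd_aeval_mem hx.le φ.divX) (show x ∈ Mge P (ord P x) from Or.inr le_rfl)
  rwa [zero_add] at h

omit [CFF k F] in
theorem COrd_aeval_eq (x : F) (φ : k[X]) :
    aeval x φ = algebraMap k F (φ.coeff 0) + aeval x φ.divX * x := by
  conv_lhs => rw [← Polynomial.divX_mul_X_add φ]
  rw [map_add, map_mul, aeval_X, aeval_C, add_comm]

/-- the values of a polynomial at an element of positive order. -/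
theorem ord_aeval_of_coeff_ne {P : Plk k F} {x : F} (hx : 0 < ord P x) {φ : k[X]}
    (h : φ.coeff 0 ≠ 0) : aeval x φ ≠ 0 ∧ ord P (aeval x φ) = 0 := by
  rw [COrd_aeval_eq]
  have h1 : algebraMap k F (φ.coeff 0) ≠ 0 := by rwa [Ne, map_eq_zero]
  have h2 := ord_add_of_lt h1 (P := P) (w := aeval x φ.divX * x)
    (Mge_mono P (by rw [ord_const, zero_add]; exact hx) (COrd_aeval_divX hx φ))
  rw [ord_const] at h2
  exact h2

theorem aeval_mem_of_coeff_eq {P : Plk k F} {x : F} (hx : 0 < ord P x) {φ : k[X]}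
    (h : φ.coeff 0 = 0) : aeval x φ ∈ Mge P (ord P x) := by
  rw [COrd_aeval_eq, h, map_zero, zero_add]
  exact COrd_aeval_divX hx φ

theorem aeval_mem_zero {P : Plk k F} {x : F} (hx : 0 ≤ ord P x) (φ : k[X]) :
    aeval x φ ∈ Mge P 0 := by
  exact COrd_aeval_mem hx φ

/-- the values of a polynomial at an element of negative order. -/
theorem ord_aeval_of_neg {P : Plk k F} {x : F} (hx : ord P x < 0) {φ : k[X]} (h : φ ≠ 0) :
    aeval x φ ≠ 0 ∧ ord P (aeval x φ) = φ.natDegree * ord P x := by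
  have hx0 : x ≠ 0 := by
    rintro rfl
    rw [ord_zero] at hx
    exact lt_irrefl _ hx
  have hord : ∀ (a : k) (i : ℕ), a ≠ 0 → a • x ^ i ≠ 0 ∧ ord P (a • x ^ i) = i * ord P x := by
    intro a i ha
    have h3 : algebraMap k F a ≠ 0 := by rwa [Ne, map_eq_zero]
    rw [Algebra.smul_def, ord_mul P h3 (pow_ne_zero i hx0), ord_const, zero_add, ord_pow]
    exact ⟨mul_ne_zero h3 (pow_ne_zero i hx0), rfl⟩
  have hlead : φ.coeff φ.natDegree ≠ 0 := Polynomial.leadingCoeff_ne_zero.2 h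
  obtain ⟨h1, h2⟩ := hord _ φ.natDegree hlead
  have h3 := ord_sum_of_lt (P := P) (s := Finset.range (φ.natDegree + 1))
    (f := fun i => φ.coeff i • x ^ i) (i := φ.natDegree)
    (Finset.mem_range.2 (Nat.lt_succ_self _)) h1 (by
      intro j hj hjn
      refine Submodule.smul_mem _ _ (Or.inr ?_)
      rw [h2, ord_pow]
      have h4 : j < φ.natDegree := by
        have := Finset.mem_range.1 hj
        omega
      have h5 : (j : ℤ) + 1 ≤ φ.natDegree := by exact_mod_cast h4
      nlinarith)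
  rw [Polynomial.aeval_eq_sum_range]
  exact ⟨h3.1, h3.2.trans h2⟩

/-- `Mge P n / Mge P (n + 1)` is at most one-dimensional. -/
theorem exists_sub_mem {P : Plk k F} {n : ℤ} {z w : F} (hz : z ≠ 0) (hz1 : ord P z = n)
    (hw : w ∈ Mge P n) : ∃ a : k, w - a • z ∈ Mge P (n + 1) := by
  have h1 : z⁻¹ ∈ Mge P (-n) := Or.inr (by rw [ord_inv, hz1])
  have h2 : w * z⁻¹ ∈ Mge P 0 := by
    have h := mul_mem_Mge hw h1
    rwa [add_neg_cancel] at h
  obtain ⟨c, hc⟩ := exists_cst P ((mem_iff_ord P _).2 h2)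
  refine ⟨c, ?_⟩
  have h3 : w - c • z = z * (w * z⁻¹ - algebraMap k F c) := by
    rw [Algebra.smul_def, mul_sub, mul_comm z (w * z⁻¹), mul_assoc, inv_mul_cancel₀ hz, mul_one,
      mul_comm z]
  rw [h3]
  refine mul_mem_Mge (Or.inr hz1.ge) ?_
  rcases hc with hc | hc
  · left; rw [hc, sub_self]
  · right; exact hc

/-- the leading coefficient is unique. -/
theorem smul_mem_Mge_iff {P : Plk k F} {z : F} (hz : z ≠ 0) (a : k) :
    a • z ∈ Mge P (ord P z + 1) ↔ a = 0 := by
  constructor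
  · intro h
    by_contra ha
    have h3 : algebraMap k F a ≠ 0 := by rwa [Ne, map_eq_zero]
    have h4 : a • z ≠ 0 := by rw [Algebra.smul_def]; exact mul_ne_zero h3 hz
    have h5 := h.resolve_left h4
    rw [Algebra.smul_def, ord_mul P h3 hz, ord_const] at h5
    omega
  · rintro rfl
    left; rw [zero_smul]

end

end Vale.Agent.P019P
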