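import Vale.Agent.P019Q.CZero

/-!
# Existence of zeros and poles
-/

namespace Vale.Agent.P019P

open IntermediateField

section

variable {k F : Type*} [Field k] [Field F] [Algebra k F] [CFF k F]

omit [CFF k F] in
/-- the ring `k[z]` is contained in a valuation ring in which `z` is not a unit. -/
theorem CPole_exists_val {z : F} (hz : Transcendental k z) :
    ∃ B : ValuationSubring F, (∀ a : k, algebraMap k F a ∈ B) ∧ z ∈ B ∧ z⁻¹ ∉ B := by
  have hz0 : z ≠ 0 := fun h => hz (h ▸ isAlgebraic_zero)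
  let A : Subring F := (Polynomial.aeval (R := k) z).range.toSubring
  have hmem : z ∈ A := ⟨Polynomial.X, Polynomial.aeval_X z⟩
  have hI : Ideal.span {(⟨z, hmem⟩ : A)} ≠ ⊤ := by
    intro h
    have h1 : (1 : A) ∈ Ideal.span {(⟨z, hmem⟩ : A)} := by rw [h]; exact Submodule.mem_top
    obtain ⟨w, hw⟩ := Ideal.mem_span_singleton'.1 h1
    obtain ⟨p, hp⟩ := w.2
    have h2 : (w : F) * z = 1 := congrArg Subtype.val hw
    have h3 : Polynomial.aeval z (p * Polynomial.X - 1) = 0 := by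
      rw [map_sub, map_mul, Polynomial.aeval_X, map_one, sub_eq_zero, ← h2]
      congr 1
    have h4 := (transcendental_iff.1 hz) _ h3
    have h5 := congrArg (fun q : Polynomial k => q.coeff 0) h4
    simp at h5
  obtain ⟨B, hB, hB2⟩ := Ideal.image_subset_nonunits_valuationSubring _ hI
  have h1 : z ∈ B.nonunits := hB2 ⟨_, Ideal.subset_span rfl, rfl⟩
  rw [ValuationSubring.mem_nonunits_iff] at h1
  refine ⟨B, fun a => hB ⟨Polynomial.C a, Polynomial.aeval_C z a⟩, hB hmem, fun h2 => ?_⟩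
  rw [← ValuationSubring.valuation_le_one_iff, map_inv₀] at h2
  have h3 : B.valuation z ≠ 0 := (Valuation.ne_zero_iff _).2 hz0
  exact absurd h1 (not_lt.2 ((inv_le_one₀ (zero_lt_iff.2 h3)).1 h2))

theorem exists_zero {z : F} (hz : ∀ a : k, z ≠ algebraMap k F a) : ∃ P : Plk k F, 0 < ord P z := by
  have hz0 : z ≠ 0 := fun h => hz 0 (by rw [h, map_zero])
  obtain ⟨B, h1, h2, h3⟩ := CPole_exists_val (finite_of_notMem hz).1
  let P : Plk k F := ⟨B, h1, fun h => h3 (h ▸ ValuationSubring.mem_top _)⟩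
  refine ⟨P, lt_of_not_ge fun h => h3 ?_⟩
  have h4 : 0 ≤ ord P z⁻¹ := by
    rw [ord_inv]
    omega
  exact ((ord_spec P).mem z⁻¹).2 (Or.inr h4)

theorem exists_pole {z : F} (hz : ∀ a : k, z ≠ algebraMap k F a) : ∃ P : Plk k F, ord P z < 0 := by
  obtain ⟨P, hP⟩ := exists_zero (nc_inv hz)
  rw [ord_inv] at hP
  exact ⟨P, by omega⟩

theorem dv_eq_zero_iff {z : F} (hz : z ≠ 0) : dv k z = 0 ↔ ∃ a : k, z = algebraMap k F a := by
  constructor
  · intro h
    by_contra hc
    push Not at hc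
    obtain ⟨P, hP⟩ := exists_zero hc
    rw [← dv_apply, h, Finsupp.coe_zero, Pi.zero_apply] at hP
    exact lt_irrefl _ hP
  · rintro ⟨a, rfl⟩
    exact dv_const a

variable (k F) in
theorem nonempty_Plk : Nonempty (Plk k F) := by
  obtain ⟨x, hx, _⟩ := CFF.ex (k := k) (F := F)
  obtain ⟨P, _⟩ := exists_zero (k := k) (z := x) fun a h => hx (h ▸ isAlgebraic_algebraMap a)
  exact ⟨P⟩

variable (k F) in
/-- principal divisors. -/
def prn : AddSubgroup (Plk k F →₀ ℤ) where
  carrier := {D | ∃ z : F, z ≠ 0 ∧ D = dv k z}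
  zero_mem' := ⟨1, one_ne_zero, ((dv_eq_zero_iff one_ne_zero).2 ⟨1, (map_one _).symm⟩).symm⟩
  add_mem' := by
    rintro _ _ ⟨z, hz, rfl⟩ ⟨w, hw, rfl⟩
    refine ⟨z * w, mul_ne_zero hz hw, ?_⟩
    ext P
    rw [Finsupp.add_apply, dv_apply, dv_apply, dv_apply, (ord_spec P).mul z w hz hw]
  neg_mem' := by
    rintro _ ⟨z, hz, rfl⟩
    refine ⟨z⁻¹, inv_ne_zero hz, ?_⟩
    ext P
    have h1 := (ord_spec P).mul z z⁻¹ hz (inv_ne_zero hz)
    have h2 := (ord_spec P).mul 1 1 one_ne_zero one_ne_zero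
    rw [mul_inv_cancel₀ hz] at h1
    rw [mul_one] at h2
    rw [Finsupp.neg_apply, dv_apply, dv_apply]
    omega

variable (k) in
/-- the Riemann-Roch space. -/
def LL (D : Plk k F →₀ ℤ) : Submodule k F where
  carrier := {z | z = 0 ∨ ∀ P, -D P ≤ ord P z}
  zero_mem' := Or.inl rfl
  add_mem' := by
    rintro z w hz hw
    by_cases h1 : z = 0
    · rw [h1, zero_add]; exact hw
    by_cases h2 : w = 0
    · rw [h2, add_zero]; exact hz
    by_cases h3 : z + w = 0
    · exact Or.inl h3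
    · right
      intro P
      have h4 := (hz.resolve_left h1) P
      have h5 := (hw.resolve_left h2) P
      exact (le_min h4 h5).trans ((ord_spec P).add z w h1 h2 h3)
  smul_mem' := by
    rintro a z hz
    by_cases h1 : z = 0
    · left; rw [h1, smul_zero]
    by_cases h2 : a = 0
    · left; rw [h2, zero_smul]
    right
    intro P
    have h3 : algebraMap k F a ≠ 0 := by rwa [Ne, map_eq_zero]
    have h4 : dv k (algebraMap k F a) = 0 := (dv_eq_zero_iff h3).2 ⟨a, rfl⟩
    have h5 : ord P (algebraMap k F a) = 0 := by rw [← dv_apply, h4]; rfl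
    rw [Algebra.smul_def, (ord_spec P).mul _ _ h3 h1, h5, zero_add]
    exact (hz.resolve_left h1) P

theorem mem_LL {D : Plk k F →₀ ℤ} {z : F} : z ∈ LL k D ↔ z = 0 ∨ ∀ P, -D P ≤ ord P z := Iff.rfl

theorem mem_LL_iff {D : Plk k F →₀ ℤ} {z : F} : z ∈ LL k D ↔ ∀ P, z ∈ Mge P (-D P) := by
  rw [mem_LL]
  exact forall_or_left.symm

end

end Vale.Agent.P019P
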