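import Vale.Agent.P019Q.CDisc

/-!
# The inequality of Riemann and Hurwitz
-/

namespace Vale.Agent.P019P

open Polynomial IntermediateField

section

variable {k F : Type*} [Field k] [Field F] [Algebra k F] [CFF k F]

/-- the fibres have at most `n` points. -/
theorem crh_card_le {x : F} (hx : ∀ a : k, x ≠ algebraMap k F a) (c : k) :
    (fib_finite hx c).toFinset.card ≤ Module.finrank k⟮x⟯ F := by
  have h1 := fib_sum hx c
  have h2 : ((fib_finite hx c).toFinset.card : ℤ) ≤
      ∑ P ∈ (fib_finite hx c).toFinset, ord P (x - algebraMap k F c) := by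
    rw [Finset.card_eq_sum_ones, Nat.cast_sum]
    refine Finset.sum_le_sum fun P hP => ?_
    rw [Set.Finite.mem_toFinset] at hP
    have h3 : 0 < ord P (x - algebraMap k F c) := hP
    push_cast
    omega
  rw [h1] at h2
  exact_mod_cast h2

/-- Riemann-Hurwitz. -/
theorem RH {x : F} (hx : ∀ a : k, x ≠ algebraMap k F a) [Algebra.IsSeparable k⟮x⟯ F]
    (s : Finset k) :
    ∑ c ∈ s, ((Module.finrank k⟮x⟯ F : ℤ) - (fib_finite hx c).toFinset.card) ≤
      2 * gen k F - 2 + 2 * Module.finrank k⟮x⟯ F := by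
  classical
  obtain ⟨Δ, hΔ, hdeg, hdvd⟩ := exists_disc hx
  refine le_trans ?_ hdeg
  obtain ⟨r, hr⟩ : ∃ r : k → ℕ, r = fun c =>
      Module.finrank k⟮x⟯ F - (fib_finite hx c).toFinset.card := ⟨_, rfl⟩
  have hcast : ∀ c ∈ s, ((Module.finrank k⟮x⟯ F : ℤ) - (fib_finite hx c).toFinset.card) =
      ((r c : ℕ) : ℤ) := by
    intro c _
    rw [hr]
    exact (Nat.cast_sub (crh_card_le hx c)).symm
  rw [Finset.sum_congr rfl hcast, ← Nat.cast_sum]
  have hco : (s : Set k).Pairwise (Function.onFun IsCoprime fun c => (X - C c) ^ r c) := by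
    intro a _ b _ hab
    exact (Polynomial.isCoprime_X_sub_C_of_isUnit_sub
      ((sub_ne_zero.mpr hab).isUnit)).pow
  have hprod : ∏ c ∈ s, (X - C c) ^ r c ∣ Δ :=
    Finset.prod_dvd_of_coprime hco fun c _ => by rw [hr]; exact hdvd c
  have h3 := Polynomial.natDegree_le_of_dvd hprod hΔ
  rw [Polynomial.natDegree_prod_of_monic _ _ fun c _ => (monic_X_sub_C c).pow _] at h3
  have h4 : ∀ c ∈ s, ((X - C c) ^ r c).natDegree = r c := fun c _ => by
    rw [Polynomial.natDegree_pow, Polynomial.natDegree_X_sub_C, mul_one]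
  rw [Finset.sum_congr rfl h4] at h3
  exact_mod_cast h3

end

end Vale.Agent.P019P
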