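import Vale.Agent.P019Q.CDef

/-!
# Linear independence over `k(x)` and polynomial relations
-/

namespace Vale.Agent.P019P

open Polynomial IntermediateField

section

variable {k F : Type*} [Field k] [Field F] [Algebra k F]

private theorem exists_frac {x c : F} (hc : c ∈ k⟮x⟯) :
    ∃ f g : k[X], aeval x g ≠ 0 ∧ c * aeval x g = aeval x f := by
  obtain ⟨f, g, h⟩ := (mem_adjoin_simple_iff k c).1 hc
  by_cases hg : aeval x g = 0
  · refine ⟨0, 1, by simp, ?_⟩
    rw [h, hg]
    simp
  · exact ⟨f, g, hg, by rw [h, div_mul_cancel₀ _ hg]⟩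

private theorem exists_rel' {x : F} {ι : Type*} [Fintype ι] {y : ι → F}
    (h : ¬ LinearIndependent k⟮x⟯ y) :
    ∃ φ : ι → k[X], (∃ i, φ i ≠ 0) ∧ ∑ i, aeval x (φ i) * y i = 0 := by
  classical
  obtain ⟨c, hc, i0, hi0⟩ := Fintype.not_linearIndependent_iff.1 h
  choose f g hg hfg using fun i => exists_frac (k := k) (x := x) (c i).2
  have key : ∀ i, aeval x (f i * ∏ j ∈ Finset.univ.erase i, g j)
      = (c i : F) * ∏ j, aeval x (g j) := by
    intro i
    rw [map_mul, ← hfg i, map_prod, mul_assoc,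
      Finset.mul_prod_erase Finset.univ (fun j => aeval x (g j)) (Finset.mem_univ i)]
  refine ⟨fun i => f i * ∏ j ∈ Finset.univ.erase i, g j, ⟨i0, fun h0 => ?_⟩, ?_⟩
  · have h1 := key i0
    simp only at h0
    rw [h0, map_zero] at h1
    rcases mul_eq_zero.1 h1.symm with h2 | h2
    · exact hi0 (Subtype.ext h2)
    · exact Finset.prod_ne_zero_iff.2 (fun j _ => hg j) h2
  · have h1 : ∀ i, aeval x (f i * ∏ j ∈ Finset.univ.erase i, g j) * y i
        = (∏ j, aeval x (g j)) * (c i • y i) := by
      intro i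
      rw [key i]
      change _ = _ * ((c i : F) * y i)
      ring
    simp only [h1]
    rw [← Finset.mul_sum, hc, mul_zero]

/-- a linear relation over `k(x)` can be normalised. -/
theorem exists_rel {x : F} (hx : Transcendental k x) {ι : Type*} [Fintype ι] {y : ι → F}
    (h : ¬ LinearIndependent k⟮x⟯ y) :
    ∃ φ : ι → k[X], (∃ i, (φ i).coeff 0 ≠ 0) ∧ ∑ i, aeval x (φ i) * y i = 0 := by
  classical
  have hx0 : x ≠ 0 := fun h0 => by
    rw [h0] at hx
    exact hx (isAlgebraic_zero)
  have hex : ∃ n, ∃ φ : ι → k[X], (∃ i, φ i ≠ 0) ∧ ∑ i, aeval x (φ i) * y i = 0 ∧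
      ∑ i, (φ i).natDegree = n := by
    obtain ⟨φ, h1, h2⟩ := exists_rel' h
    exact ⟨_, φ, h1, h2, rfl⟩
  obtain ⟨φ, ⟨i0, hi0⟩, h2, h3⟩ := Nat.find_spec hex
  refine ⟨φ, ?_, h2⟩
  by_contra hcon
  push Not at hcon
  have e : ∀ i, φ i = (φ i).divX * X := fun i => by
    conv_lhs => rw [← divX_mul_X_add (φ i), hcon i, C_0, add_zero]
  have hne : (φ i0).divX ≠ 0 := fun h0 => hi0 (by rw [e i0, h0, zero_mul])
  have hdeg : (φ i0).natDegree = (φ i0).divX.natDegree + 1 := by
    conv_lhs => rw [e i0]
    exact natDegree_mul_X hne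
  have hlt : ∑ i, (φ i).divX.natDegree < Nat.find hex := by
    rw [← h3]
    refine Finset.sum_lt_sum (fun i _ => natDegree_divX_le) ⟨i0, Finset.mem_univ _, ?_⟩
    omega
  refine Nat.find_min hex hlt ⟨fun i => (φ i).divX, ⟨i0, hne⟩, ?_, rfl⟩
  have h4 : x * ∑ i, aeval x ((φ i).divX) * y i = 0 := by
    rw [← h2, Finset.mul_sum]
    refine Finset.sum_congr rfl fun i _ => ?_
    conv_rhs => rw [e i, map_mul, aeval_X]
    ring
  exact (mul_eq_zero.1 h4).resolve_left hx0

/-- a family independent over `k(x)` gives a family independent over `k`. -/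
theorem indep_pow_mul {x : F} (hx : Transcendental k x) {ι : Type*} {y : ι → F}
    (h : LinearIndependent k⟮x⟯ y) :
    LinearIndependent k (fun p : ι × ℕ => x ^ p.2 * y p.1) := by
  have h1 : LinearIndependent k (fun j : ℕ => (AdjoinSimple.gen k x) ^ j) := by
    have h2 := (Polynomial.basisMonomials k).linearIndependent.map'
      (aeval (AdjoinSimple.gen k x)).toLinearMap (by
        rw [LinearMap.ker_eq_bot]
        intro p q hpq
        have h3 : aeval x p = aeval x q := by
          have h4 := congrArg (algebraMap k⟮x⟯ F) hpq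
          simpa only [AlgHom.toLinearMap_apply, ← aeval_algebraMap_apply,
            AdjoinSimple.algebraMap_gen] using h4
        exact transcendental_iff_injective.1 hx h3)
    have h5 : (fun j : ℕ => (AdjoinSimple.gen k x) ^ j)
        = ⇑(aeval (AdjoinSimple.gen k x)).toLinearMap ∘ ⇑(basisMonomials k) := by
      funext j
      simp [coe_basisMonomials]
    rw [h5]
    exact h2
  have h5 := linearIndependent_smul h1 h
  have h6 := h5.comp Prod.swap Prod.swap_injective
  exact h6

/-- polynomial relations between the members of a family independent over `k(x)`. -/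
theorem indep_poly {x : F} (hx : Transcendental k x) {ι : Type*} [Fintype ι] {y : ι → F}
    (h : LinearIndependent k⟮x⟯ y) {φ : ι → k[X]} (h0 : ∑ i, aeval x (φ i) * y i = 0) (i : ι) :
    φ i = 0 := by
  have h1 := Fintype.linearIndependent_iff.1 h (fun i => aeval (AdjoinSimple.gen k x) (φ i)) (by
    rw [← h0]
    refine Finset.sum_congr rfl fun i _ => ?_
    rw [Algebra.smul_def, ← aeval_algebraMap_apply, AdjoinSimple.algebraMap_gen]) i
  have h2 : aeval x (φ i) = 0 := by
    have h3 := congrArg (algebraMap k⟮x⟯ F) h1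
    rwa [← aeval_algebraMap_apply, AdjoinSimple.algebraMap_gen, map_zero] at h3
  exact transcendental_iff.1 hx _ h2

/-- conversely, polynomial independence gives independence over `k(x)`. -/
theorem indep_of_poly {x : F} (hx : Transcendental k x) {ι : Type*} [Fintype ι] {y : ι → F}
    (h : ∀ φ : ι → k[X], ∑ i, aeval x (φ i) * y i = 0 → ∀ i, φ i = 0) :
    LinearIndependent k⟮x⟯ y := by
  by_contra hn
  obtain ⟨φ, ⟨i, hi⟩, h0⟩ := exists_rel hx hn
  exact hi (by rw [h φ h0 i, coeff_zero])

end

end Vale.Agent.P019P
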