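import Vale.Agent.P019Q.CDeg

/-!
# Riemann's theorem
-/

namespace Vale.Agent.P019P

open IntermediateField

section

variable {k F : Type*} [Field k] [Field F] [Algebra k F] [CFF k F]

theorem CRiem_mono {D E : Plk k F →₀ ℤ} (h : D ≤ E) :
    dg D - Module.finrank k (LL k D) ≤ dg E - Module.finrank k (LL k E) := by
  have h1 := l_sub_le h
  omega

theorem CRiem_dv (D : Plk k F →₀ ℤ) {z : F} (hz : z ≠ 0) :
    dg (D + dv k z) - Module.finrank k (LL k (D + dv k z)) =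
      dg D - Module.finrank k (LL k D) := by
  rw [l_add_dv D hz, map_add, dg_dv, add_zero]

/-- the defect is bounded. -/
theorem CRiem_bdd {B : Plk k F →₀ ℤ} {n C : ℤ} (hn : 0 < n) (hB : dg B = n)
    (hC : ∀ r : ℕ, r * n - C ≤ Module.finrank k (LL k (r • B))) (A : Plk k F →₀ ℤ) :
    dg A - Module.finrank k (LL k A) ≤ C := by
  obtain ⟨A₁, hA, hA0⟩ : ∃ A₁ : Plk k F →₀ ℤ, A ≤ A₁ ∧ 0 ≤ A₁ :=
    ⟨A ⊔ 0, le_sup_left, le_sup_right⟩
  obtain ⟨r, hr⟩ : ∃ r : ℕ, C + dg A₁ < r := ⟨(C + dg A₁).toNat + 1, by omega⟩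
  have hdr : dg (r • B) = r * n := by rw [map_nsmul, hB, nsmul_eq_mul]
  have hrn : (r : ℤ) ≤ r * n := le_mul_of_one_le_right (Int.natCast_nonneg r) hn
  have h1 : (Module.finrank k (LL k (r • B)) : ℤ) - Module.finrank k (LL k (r • B - A₁)) ≤
      dg (r • B) - dg (r • B - A₁) := l_sub_le (sub_le_self _ hA0)
  rw [map_sub] at h1
  have h2 := hC r
  have h3 : 0 < Module.finrank k (LL k (r • B - A₁)) := by omega
  obtain ⟨z, hz, hz0⟩ := exists_ne_zero_of_l h3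
  have h4 : A₁ - dv k z ≤ r • B := by
    rw [← sub_nonneg]
    have e : r • B - (A₁ - dv k z) = r • B - A₁ + dv k z := by abel
    rw [e]
    exact hz0
  have h5 := CRiem_mono hA
  have h6 := CRiem_dv (A₁ - dv k z) hz
  rw [sub_add_cancel] at h6
  have h7 := CRiem_mono h4
  omega

end

/-- Riemann's theorem. -/
theorem exists_riem (k F : Type*) [Field k] [Field F] [Algebra k F] [CFF k F] :
    ∃ g : ℕ, (∀ D : Plk k F →₀ ℤ, dg D + 1 - g ≤ Module.finrank k (LL k D)) ∧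
      ∃ c : ℤ, ∀ D : Plk k F →₀ ℤ, c ≤ dg D →
        (Module.finrank k (LL k D) : ℤ) = dg D + 1 - g := by
  obtain ⟨x, hx, hfd⟩ := CFF.ex (k := k) (F := F)
  have hxc : ∀ a : k, x ≠ algebraMap k F a := by
    rintro a rfl
    exact hx (isAlgebraic_algebraMap a)
  have hn : 0 < (Module.finrank k⟮x⟯ F : ℤ) := by
    exact_mod_cast Module.finrank_pos
  obtain ⟨C, hC⟩ := exists_l_pol hxc
  have hbdd := CRiem_bdd hn (dg_pol hxc) hC
  obtain ⟨m, ⟨A₀, hA₀⟩, hm⟩ := Int.exists_greatest_of_bdd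
    (P := fun m : ℤ => ∃ A : Plk k F →₀ ℤ, dg A - Module.finrank k (LL k A) = m)
    ⟨C, by rintro _ ⟨A, rfl⟩; exact hbdd A⟩ ⟨_, 0, rfl⟩
  have h0 : -1 ≤ m := by
    have h1 := hm _ ⟨0, rfl⟩
    rw [map_zero, l_zero, Nat.cast_one] at h1
    omega
  obtain ⟨g, hg⟩ := Int.eq_ofNat_of_zero_le (show 0 ≤ m + 1 by omega)
  have hlow : ∀ D : Plk k F →₀ ℤ, dg D + 1 - g ≤ Module.finrank k (LL k D) := by
    intro D
    have h1 := hm _ ⟨D, rfl⟩
    omega
  refine ⟨g, hlow, dg A₀ + g, fun D hD => ?_⟩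
  have h1 := hlow (D - A₀)
  rw [map_sub] at h1
  have h2 : 0 < Module.finrank k (LL k (D - A₀)) := by omega
  obtain ⟨z, hz, hz0⟩ := exists_ne_zero_of_l h2
  have h3 : A₀ ≤ D + dv k z := by
    rw [← sub_nonneg]
    have e : D + dv k z - A₀ = D - A₀ + dv k z := by abel
    rw [e]
    exact hz0
  have h4 := CRiem_mono h3
  have h5 := CRiem_dv D hz
  have h6 := hlow D
  omega

end Vale.Agent.P019P
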