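import Vale.Agent.P019Q.CMod

/-!
# Models over which a given element is separating
-/

namespace Vale.Agent.P019P

open Vale.Agent.P019

set_option linter.style.haveILetI false
set_option linter.unusedSectionVars false

open Polynomial IntermediateField

variable {F : Type*} [Field F] [PerfectField F] {k : Subfield F}

theorem CSep_mem_adj0 {x z : F} : z ∈ Vale.Agent.P019.adj k x ↔ z ∈ k⟮x⟯ := by
  have h1 : Vale.Agent.P019.adj k x = (k⟮x⟯).toSubfield := by
    apply le_antisymm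
    · refine Vale.Agent.P019.adj_le ?_ (mem_adjoin_simple_self k x)
      intro a ha
      exact (k⟮x⟯).algebraMap_mem ⟨a, ha⟩
    · rw [adjoin_toSubfield, Subfield.closure_le]
      rintro a (⟨b, rfl⟩ | ha)
      · exact Vale.Agent.P019.le_adj k x b.2
      · rw [Set.mem_singleton_iff] at ha
        rw [ha]
        exact Vale.Agent.P019.mem_adj k x
  rw [h1]
  exact mem_toSubfield k⟮x⟯ z

theorem CSep_algebraic (h : Cv k) {x : F} (hx : x ∉ k) (z : F) : IsAlgebraic k⟮x⟯ z := by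
  obtain ⟨x0, -, hall⟩ := h.ex
  have hRAC : RAC k := RAC_of_isAlgClosed _ h.ac
  have hxa : ¬ IsAlgebraic k x := fun hcon => hx (hRAC x hcon)
  have h1 : IsAlgebraic (adj k x) x0 := exchange hxa (hall x)
  have h2 : adj k x0 ≤ rac (adj k x) :=
    adj_le ((le_adj k x).trans (le_rac _)) (mem_rac.2 h1)
  have h3 : IsAlgebraic (adj k x) z := isAlgebraic_rac (isAlgebraic_mono h2 (hall z))
  have h4 : IsAlgebraic (Vale.Agent.P019.adj k x) z := isAlgebraic_adj.1 h3
  obtain ⟨Q, hQ0, hQ⟩ := h4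
  let φ : Vale.Agent.P019.adj k x →+* k⟮x⟯ :=
    { toFun := fun a => ⟨a.1, CSep_mem_adj0.1 a.2⟩
      map_one' := rfl
      map_mul' := fun _ _ => rfl
      map_zero' := rfl
      map_add' := fun _ _ => rfl }
  refine ⟨Q.map φ, ?_, ?_⟩
  · rw [Ne, Polynomial.map_eq_zero_iff φ.injective]
    exact hQ0
  · rw [aeval_def, eval₂_map]
    exact hQ

/-- transport from `k(x)` inside `F` to `k(x)` inside the model. -/
theorem CSep_transport {x : F} (E' : IntermediateField k⟮x⟯ F) [Algebra.IsSeparable k⟮x⟯ E']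
    (hxE : x ∈ E'.restrictScalars k) :
    Algebra.IsSeparable k⟮(⟨x, hxE⟩ : E'.restrictScalars k)⟯ (E'.restrictScalars k) ∧
      Module.finrank k⟮x⟯ E' =
        Module.finrank k⟮(⟨x, hxE⟩ : E'.restrictScalars k)⟯ (E'.restrictScalars k) := by
  have hmem : ∀ a : E'.restrictScalars k,
      a ∈ k⟮(⟨x, hxE⟩ : E'.restrictScalars k)⟯ ↔ a.1 ∈ k⟮x⟯ := by
    intro a
    rw [← mem_lift, lift_adjoin_simple]
  let i : k⟮x⟯ ≃+* k⟮(⟨x, hxE⟩ : E'.restrictScalars k)⟯ :=
    { toFun := fun a => ⟨⟨a.1, E'.algebraMap_mem a⟩, (hmem _).2 a.2⟩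
      invFun := fun b => ⟨b.1.1, (hmem _).1 b.2⟩
      left_inv := fun _ => rfl
      right_inv := fun _ => rfl
      map_mul' := fun _ _ => rfl
      map_add' := fun _ _ => rfl }
  let j : E' ≃+* E'.restrictScalars k :=
    { toFun := fun a => ⟨a.1, a.2⟩
      invFun := fun a => ⟨a.1, a.2⟩
      left_inv := fun _ => rfl
      right_inv := fun _ => rfl
      map_mul' := fun _ _ => rfl
      map_add' := fun _ _ => rfl }
  constructor
  · exact Algebra.IsSeparable.of_equiv_equiv i j (RingHom.ext fun _ => rfl)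
  · exact Algebra.finrank_eq_of_equiv_equiv i j (RingHom.ext fun _ => rfl)

theorem CSep_deg (K0 K1 E L : Type*) [Field K0] [Field K1] [Field E] [Field L] [Algebra K0 K1]
    [Algebra K0 E] [Algebra K0 L] [Algebra K1 L] [Algebra E L] [IsScalarTower K0 K1 L]
    [IsScalarTower K0 E L] [Algebra.IsAlgebraic K1 L] [Algebra.IsAlgebraic E L]
    [IsPurelyInseparable K0 K1] [Algebra.IsSeparable K1 L] [Algebra.IsSeparable K0 E]
    [IsPurelyInseparable E L] : Module.finrank K1 L = Module.finrank K0 E := by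
  have h2 := Field.finSepDegree_mul_finSepDegree_of_isAlgebraic K0 K1 L
  rw [IsPurelyInseparable.finSepDegree_eq_one, one_mul,
    Field.finSepDegree_eq_finrank_of_isSeparable] at h2
  have h3 := Field.finSepDegree_mul_finSepDegree_of_isAlgebraic K0 E L
  rw [IsPurelyInseparable.finSepDegree_eq_one E L, mul_one,
    Field.finSepDegree_eq_finrank_of_isSeparable] at h3
  rw [h2, h3]

theorem CSep_pc (K0 L : Type*) [Field K0] [Field L] [Algebra K0 L] [PerfectField L]
    [Algebra.IsAlgebraic K0 L] (E : IntermediateField K0 L) [Algebra.IsSeparable K0 E]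
    [IsPurelyInseparable E L] :
    Module.finrank (perfectClosure K0 L) L = Module.finrank K0 E := by
  haveI : Algebra.IsAlgebraic (perfectClosure K0 L) L :=
    Algebra.IsAlgebraic.tower_top (K := K0) _
  haveI : Algebra.IsAlgebraic E L := Algebra.IsAlgebraic.tower_top (K := K0) _
  exact CSep_deg K0 (perfectClosure K0 L) E L

theorem CSep_congr {A : Subfield F} {K0 : Type*} [Field K0] [Algebra K0 F]
    (B : IntermediateField K0 F) (h : ∀ z, z ∈ A ↔ z ∈ B) :
    Module.finrank A F = Module.finrank B F := by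
  let i : A ≃+* B :=
    { toFun := fun a => ⟨a.1, (h _).1 a.2⟩
      invFun := fun a => ⟨a.1, (h _).2 a.2⟩
      left_inv := fun _ => rfl
      right_inv := fun _ => rfl
      map_mul' := fun _ _ => rfl
      map_add' := fun _ _ => rfl }
  exact Algebra.finrank_eq_of_equiv_equiv i (RingEquiv.refl F) (RingHom.ext fun _ => rfl)

theorem CSep_mem {x : F} (z : F) : z ∈ adj k x ↔ z ∈ perfectClosure k⟮x⟯ F := by
  haveI e0 : ExpChar k⟮x⟯ (ringExpChar F) :=
    (algebraMap k⟮x⟯ F).expChar (algebraMap k⟮x⟯ F).injective _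
  rw [mem_adj_iff, mem_perfectClosure_iff_pow_mem (ringExpChar F)]
  refine exists_congr fun n => ?_
  rw [CSep_mem_adj0]
  exact ⟨fun hz => ⟨⟨_, hz⟩, rfl⟩, fun ⟨a, ha⟩ => ha ▸ a.2⟩

theorem CSep_adj {x : F} :
    Module.finrank (adj k x) F = Module.finrank (perfectClosure k⟮x⟯ F) F :=
  CSep_congr (A := adj k x) _ CSep_mem

theorem CSep_finrank (h : Cv k) {x : F} (hx : x ∉ k) (E' : IntermediateField k⟮x⟯ F)
    [Algebra.IsSeparable k⟮x⟯ E'] (hpi : ∀ z : F, ∃ n : ℕ, z ^ ringExpChar F ^ n ∈ E') :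
    Module.finrank (adj k x) F = Module.finrank k⟮x⟯ E' := by
  haveI : Algebra.IsAlgebraic k⟮x⟯ F := ⟨CSep_algebraic h hx⟩
  haveI e1 : ExpChar E' (ringExpChar F) :=
    (algebraMap E' F).expChar (algebraMap E' F).injective _
  haveI : IsPurelyInseparable E' F := by
    rw [isPurelyInseparable_iff_pow_mem E' (ringExpChar F)]
    intro z
    obtain ⟨n, hn⟩ := hpi z
    exact ⟨n, ⟨_, hn⟩, rfl⟩
  rw [CSep_adj]
  exact CSep_pc k⟮x⟯ F E'

theorem CSep_aux (h : Cv k) {x : F} (hx : x ∉ k) :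
    ∃ (E : IntermediateField k F) (hxE : x ∈ E), Mod k E ∧
      Algebra.IsSeparable k⟮(⟨x, hxE⟩ : E)⟯ E ∧
      Module.finrank (adj k x) F = Module.finrank k⟮(⟨x, hxE⟩ : E)⟯ E ∧
      0 < Module.finrank (adj k x) F := by
  classical
  haveI : Algebra.IsAlgebraic k⟮x⟯ F := ⟨CSep_algebraic h hx⟩
  haveI e0 : ExpChar k⟮x⟯ (ringExpChar F) :=
    (algebraMap k⟮x⟯ F).expChar (algebraMap k⟮x⟯ F).injective _
  haveI e2 : ExpChar (separableClosure k⟮x⟯ F) (ringExpChar F) :=
    (algebraMap (separableClosure k⟮x⟯ F) F).expChar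
      (algebraMap (separableClosure k⟮x⟯ F) F).injective _
  obtain ⟨E0, hE0⟩ := h.exists_mod
  obtain ⟨S, hS⟩ := hE0.fg
  have hsep : ∀ s : F, ∃ n : ℕ, s ^ ringExpChar F ^ n ∈ separableClosure k⟮x⟯ F := by
    intro s
    obtain ⟨n, a, ha⟩ := IsPurelyInseparable.pow_mem (separableClosure k⟮x⟯ F) (ringExpChar F) s
    exact ⟨n, ha ▸ a.2⟩
  choose f hf using hsep
  set n := S.sup f with hn
  have hfn : ∀ s ∈ S, s ^ ringExpChar F ^ n ∈ separableClosure k⟮x⟯ F := by
    intro s hs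
    obtain ⟨m, hm⟩ := Nat.exists_eq_add_of_le (Finset.le_sup (f := f) hs)
    rw [← hn] at hm
    rw [hm, pow_add, pow_mul]
    exact pow_mem (hf s) _
  set T : Finset F := S.image fun s => s ^ ringExpChar F ^ n with hT
  set E' : IntermediateField k⟮x⟯ F := adjoin k⟮x⟯ (T : Set F) with hE'
  have hTsep : ∀ t ∈ (T : Set F), IsSeparable k⟮x⟯ t := by
    intro t ht
    obtain ⟨s, hs, rfl⟩ := Finset.mem_image.1 (Finset.mem_coe.1 ht)
    exact mem_separableClosure_iff.1 (hfn s hs)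
  haveI : Algebra.IsSeparable k⟮x⟯ E' := (isSeparable_adjoin_iff_isSeparable _ _).2 hTsep
  have hxE : x ∈ E'.restrictScalars k :=
    E'.algebraMap_mem ⟨x, mem_adjoin_simple_self k x⟩
  have hpi : ∀ z : F, ∃ m : ℕ, z ^ ringExpChar F ^ m ∈ E' := by
    intro z
    obtain ⟨m, hm⟩ := hE0.pf z
    refine ⟨m + n, ?_⟩
    rw [pow_add, pow_mul]
    have hG : E0.toSubfield ≤ (E'.toSubfield).comap (iterateFrobenius F (ringExpChar F) n) := by
      rw [← hS, adjoin_toSubfield, Subfield.closure_le]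
      rintro a (⟨b, rfl⟩ | ha)
      · change iterateFrobenius F (ringExpChar F) n (algebraMap k F b) ∈ E'
        rw [iterateFrobenius_def, ← map_pow]
        exact (E'.restrictScalars k).algebraMap_mem _
      · change iterateFrobenius F (ringExpChar F) n a ∈ E'
        rw [iterateFrobenius_def]
        exact subset_adjoin _ _ (Finset.mem_coe.2 (Finset.mem_image_of_mem _ ha))
    have h1 := hG (show z ^ ringExpChar F ^ m ∈ E0.toSubfield from hm)
    change iterateFrobenius F (ringExpChar F) n (z ^ ringExpChar F ^ m) ∈ E' at h1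
    rwa [iterateFrobenius_def] at h1
  have hfin : FiniteDimensional k⟮x⟯ E' :=
    finiteDimensional_adjoin fun t ht => (hTsep t ht).isIntegral
  obtain ⟨h1, h2⟩ := CSep_transport E' hxE
  have h3 := CSep_finrank h hx E' hpi
  refine ⟨E'.restrictScalars k, hxE, ⟨?_, hpi⟩, h1, h3.trans h2, ?_⟩
  · rw [hE', adjoin_adjoin_left]
    refine ⟨insert x T, ?_⟩
    rw [Finset.coe_insert, Set.insert_eq]
  · rw [h3]
    exact Module.finrank_pos

theorem Cv.exists_sepMod (h : Cv k) {x : F} (hx : x ∉ k) :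
    ∃ (E : IntermediateField k F) (hxE : x ∈ E), Mod k E ∧
      Algebra.IsSeparable k⟮(⟨x, hxE⟩ : E)⟯ E ∧
      Module.finrank (adj k x) F = Module.finrank k⟮(⟨x, hxE⟩ : E)⟯ E := by
  obtain ⟨E, hxE, h1, h2, h3, _⟩ := CSep_aux h hx
  exact ⟨E, hxE, h1, h2, h3⟩

/-- finiteness of `F` over `k(x)`. -/
theorem Cv.finite (h : Cv k) {x : F} (hx : x ∉ k) : Module.Finite (adj k x) F := by
  obtain ⟨_, _, _, _, _, h4⟩ := CSep_aux h hx
  exact Module.finite_of_finrank_pos h4

end Vale.Agent.P019P
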