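import Vale.Agent.P019Q.CGrB

/-!
# Traces
-/

namespace Vale.Agent.P019P

open Polynomial IntermediateField

section

variable {k F : Type*} [Field k] [Field F] [Algebra k F] [CFF k F]
variable {x : F} {n : ℕ} {e : Fin n → F} {a : Fin n → ℕ}

omit [CFF k F] in
theorem CTrc_map_psi (x : F) (p : k[X]) :
    algebraMap k⟮x⟯ F (aeval (AdjoinSimple.gen k x) p) = aeval x p := by
  rw [← aeval_algebraMap_apply, AdjoinSimple.algebraMap_gen]

omit [CFF k F] in
/-- multiplication matrices are unique. -/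
theorem CTrc_uniq (he : LinearIndependent k⟮x⟯ e) (hx : Transcendental k x)
    {φ ψ : Fin n → k[X]} (h : ∑ i, aeval x (φ i) * e i = ∑ i, aeval x (ψ i) * e i) : φ = ψ := by
  have h1 : ∑ i, (aeval (AdjoinSimple.gen k x) (φ i) : k⟮x⟯) • e i =
      ∑ i, (aeval (AdjoinSimple.gen k x) (ψ i) : k⟮x⟯) • e i := by
    simp only [Algebra.smul_def, CTrc_map_psi]
    exact h
  have h2 : ∑ i, ((aeval (AdjoinSimple.gen k x) (φ i) : k⟮x⟯) -
      aeval (AdjoinSimple.gen k x) (ψ i)) • e i = 0 := by
    simp only [sub_smul, Finset.sum_sub_distrib]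
    rw [h1, sub_self]
  have h3 := Fintype.linearIndependent_iff.1 he _ h2
  funext i
  have h4 := congrArg (algebraMap k⟮x⟯ F) (h3 i)
  rw [map_sub, CTrc_map_psi, CTrc_map_psi, map_zero, sub_eq_zero] at h4
  exact transcendental_iff_injective.1 hx h4

/-- the matrix of multiplication by `z` with respect to a graded basis. -/
theorem GrB.exists_mat (he : GrB x (Mr k x) e a) {r : ℤ} {z : F} (hz : z ∈ Mr k x r) :
    ∃ G : Matrix (Fin n) (Fin n) k[X], (∀ j, z * e j = ∑ i, aeval x (G i j) * e i) ∧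
      ∀ i j, G i j ≠ 0 → ((G i j).natDegree : ℤ) + a i ≤ r + a j := by
  have h1 : ∀ j, ∃ φ : Fin n → k[X], z * e j = ∑ i, aeval x (φ i) * e i ∧
      ∀ i, φ i ≠ 0 → ((φ i).natDegree : ℤ) + a i ≤ r + a j := fun j =>
    he.span (r + a j) (z * e j) (Mr_mul hz (he.mem j))
  choose φ h2 h3 using h1
  exact ⟨fun i j => φ j i, h2, fun i j h => h3 j i h⟩

theorem GrB.trace_eq (he : GrB x (Mr k x) e a) (hx : ∀ a : k, x ≠ algebraMap k F a)
    (hn : n = Module.finrank k⟮x⟯ F) {z : F}
    {G : Matrix (Fin n) (Fin n) k[X]} (hG : ∀ j, z * e j = ∑ i, aeval x (G i j) * e i) :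
    algebraMap k⟮x⟯ F (Algebra.trace k⟮x⟯ F z) = aeval x G.trace := by
  classical
  have : FiniteDimensional k⟮x⟯ F := (finite_of_notMem hx).2
  have : Nonempty (Fin n) := by
    have h0 : 0 < n := by
      rw [hn]
      exact Module.finrank_pos
    exact ⟨⟨0, h0⟩⟩
  let b := basisOfLinearIndependentOfCardEqFinrank he.ind (by rw [Fintype.card_fin]; exact hn)
  have hb : ∀ i, b i = e i := fun i => by
    simp only [b, coe_basisOfLinearIndependentOfCardEqFinrank]
  have h2 : ∀ i j, Algebra.leftMulMatrix b z i j = aeval (AdjoinSimple.gen k x) (G i j) := by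
    intro i j
    rw [Algebra.leftMulMatrix_eq_repr_mul]
    have h3 : z * b j = ∑ i, (aeval (AdjoinSimple.gen k x) (G i j) : k⟮x⟯) • b i := by
      simp only [Algebra.smul_def, CTrc_map_psi, hb]
      exact hG j
    rw [h3, b.repr_sum_self]
  rw [Algebra.trace_eq_matrix_trace b, Matrix.trace, Matrix.trace, map_sum, map_sum]
  refine Finset.sum_congr rfl fun i _ => ?_
  rw [Matrix.diag_apply, Matrix.diag_apply, h2, CTrc_map_psi]

/-- the trace of an element of the filtration is a polynomial of bounded degree. -/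
theorem GrB.exists_trace (he : GrB x (Mr k x) e a) (hx : ∀ a : k, x ≠ algebraMap k F a)
    (hn : n = Module.finrank k⟮x⟯ F) {r : ℕ} {z : F} (hz : z ∈ Mr k x r) :
    ∃ τ : k[X], τ.natDegree ≤ r ∧
      algebraMap k⟮x⟯ F (Algebra.trace k⟮x⟯ F z) = aeval x τ := by
  obtain ⟨G, hG, hd⟩ := he.exists_mat hz
  refine ⟨G.trace, ?_, he.trace_eq hx hn hG⟩
  rw [Matrix.trace]
  refine natDegree_sum_le_of_forall_le _ _ fun i _ => ?_
  rw [Matrix.diag_apply]
  by_cases h : G i i = 0
  · rw [h, natDegree_zero]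
    exact Nat.zero_le _
  · have := hd i i h
    omega

/-- a power of an element vanishing over `x = c` is divisible by `x - c`. -/
theorem CTrc_exists_pow (hx : ∀ a : k, x ≠ algebraMap k F a) {r : ℤ} {z : F}
    (hz : z ∈ Mr k x r) {c : k}
    (h0 : ∀ P : Plk k F, 0 < ord P (x - algebraMap k F c) → z ∈ Mge P 1) :
    ∃ (N s : ℕ) (w : F), w ∈ Mr k x s ∧ z ^ N = (x - algebraMap k F c) * w := by
  classical
  have hxc : x - algebraMap k F c ≠ 0 := sub_ne_zero.2 (hx c)
  have hfin := fib_finite hx c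
  obtain ⟨N, hN⟩ : ∃ N : ℕ, ∀ P ∈ hfin.toFinset, ord P (x - algebraMap k F c) ≤ N := by
    refine ⟨hfin.toFinset.sup fun P => (ord P (x - algebraMap k F c)).toNat, fun P hP => ?_⟩
    have h1 := Finset.le_sup (f := fun P => (ord P (x - algebraMap k F c)).toNat) hP
    have h2 : (ord P (x - algebraMap k F c)).toNat ≤
      hfin.toFinset.sup fun P => (ord P (x - algebraMap k F c)).toNat := h1
    omega
  have hzn : ∀ (P : Plk k F) (m : ℤ), z ∈ Mge P m → ∀ j : ℕ, z ^ j ∈ Mge P (j * m) := by
    intro P m hm j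
    induction j with
    | zero =>
      right
      rw [pow_zero, ord_one]
      simp
    | succ j ih =>
      have h1 := mul_mem_Mge ih hm
      rw [pow_succ]
      refine Mge_mono P (le_of_eq ?_) h1
      push_cast
      ring
  obtain ⟨s, hs⟩ := exists_mem_Mr (k := k) (x := x) (z := z ^ N / (x - algebraMap k F c)) (by
    intro P hP
    have h5 : (x - algebraMap k F c) * (z ^ N / (x - algebraMap k F c)) = z ^ N :=
      mul_div_cancel₀ _ hxc
    rcases lt_or_ge 0 (ord P (x - algebraMap k F c)) with h1 | h1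
    · have h2 := hN P (hfin.mem_toFinset.2 h1)
      have h3 := hzn P 1 (h0 P h1) N
      rw [← h5, mul_mem_Mge_iff hxc] at h3
      exact Mge_mono P (by omega) h3
    · have h2 : x - algebraMap k F c ∈ Mge P 0 := by
        refine Submodule.sub_mem _ (Or.inr hP) (Or.inr ?_)
        rw [ord_const]
      have h3 : 0 ≤ ord P (x - algebraMap k F c) := h2.resolve_left hxc
      have h4 : z ∈ Mge P 0 := by
        have h6 := (mem_Mr.1 hz) P
        rw [pol_apply, max_eq_left (by omega), mul_zero, neg_zero] at h6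
        exact h6
      have h7 := hzn P 0 h4 N
      rw [← h5, mul_mem_Mge_iff hxc] at h7
      exact Mge_mono P (by omega) h7)
  exact ⟨N, s, _, hs, (mul_div_cancel₀ _ hxc).symm⟩

omit [CFF k F] in
/-- the product of multiplication matrices. -/
theorem CTrc_mat_mul {z w : F} {A B : Matrix (Fin n) (Fin n) k[X]}
    (hA : ∀ j, z * e j = ∑ i, aeval x (A i j) * e i)
    (hB : ∀ j, w * e j = ∑ i, aeval x (B i j) * e i) (j : Fin n) :
    z * w * e j = ∑ i, aeval x ((A * B) i j) * e i := by
  rw [mul_assoc, hB, Finset.mul_sum]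
  have h1 : ∀ l, z * (aeval x (B l j) * e l) =
      ∑ i, aeval x (A i l) * aeval x (B l j) * e i := by
    intro l
    rw [mul_left_comm, hA, Finset.mul_sum]
    exact Finset.sum_congr rfl fun i _ => by ring
  simp only [h1, Matrix.mul_apply, map_sum, map_mul, Finset.sum_mul]
  exact Finset.sum_comm

/-- the trace of an element vanishing over `x = c` vanishes at `c`. -/
theorem GrB.trace_eval (he : GrB x (Mr k x) e a) (hx : ∀ a : k, x ≠ algebraMap k F a)
    (hn : n = Module.finrank k⟮x⟯ F) {r : ℤ} {z : F} (hz : z ∈ Mr k x r) {c : k}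
    (h0 : ∀ P : Plk k F, 0 < ord P (x - algebraMap k F c) → z ∈ Mge P 1) {τ : k[X]}
    (hτ : algebraMap k⟮x⟯ F (Algebra.trace k⟮x⟯ F z) = aeval x τ) : τ.eval c = 0 := by
  classical
  have htr := (finite_of_notMem hx).1
  obtain ⟨N, s, w, hw, hzw⟩ := CTrc_exists_pow hx hz h0
  obtain ⟨G, hG, -⟩ := he.exists_mat hz
  obtain ⟨H, hH, -⟩ := he.exists_mat hw
  have h1 : τ = G.trace := by
    have h2 := he.trace_eq hx hn hG
    rw [hτ] at h2
    exact transcendental_iff_injective.1 htr h2
  have hpow : ∀ m : ℕ, ∀ j, z ^ m * e j = ∑ i, aeval x ((G ^ m) i j) * e i := by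
    intro m
    induction m with
    | zero =>
      intro j
      rw [pow_zero, pow_zero, one_mul, Finset.sum_eq_single j]
      · rw [Matrix.one_apply_eq, map_one, one_mul]
      · intro i _ hi
        rw [Matrix.one_apply_ne hi, map_zero, zero_mul]
      · intro h
        exact absurd (Finset.mem_univ j) h
    | succ m ih =>
      intro j
      rw [pow_succ, pow_succ]
      exact CTrc_mat_mul ih hG j
  have hsm : ∀ j, z ^ N * e j = ∑ i, aeval x (((X - C c) • H) i j) * e i := by
    intro j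
    rw [hzw, mul_assoc, hH, Finset.mul_sum]
    refine Finset.sum_congr rfl fun i _ => ?_
    rw [Matrix.smul_apply, smul_eq_mul, map_mul, map_sub, aeval_X, aeval_C, mul_assoc]
  have hmat : G ^ N = (X - C c) • H := by
    ext1 i j
    have h3 := CTrc_uniq he.ind htr (φ := fun i => (G ^ N) i j)
      (ψ := fun i => ((X - C c) • H) i j) ((hpow N j).symm.trans (hsm j))
    exact congrFun h3 i
  have hev : ((evalRingHom c).mapMatrix G) ^ N = 0 := by
    rw [← map_pow, hmat]
    ext i j
    rw [RingHom.mapMatrix_apply, Matrix.map_apply, Matrix.smul_apply, smul_eq_mul, map_mul,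
      coe_evalRingHom, eval_sub, eval_X, eval_C, sub_self, zero_mul, Matrix.zero_apply]
  have hnil : IsNilpotent ((evalRingHom c).mapMatrix G).trace :=
    Matrix.isNilpotent_trace_of_isNilpotent ⟨N, hev⟩
  have h4 := hnil.eq_zero
  rw [h1, ← coe_evalRingHom, Matrix.trace, map_sum]
  rw [Matrix.trace] at h4
  exact h4

end

end Vale.Agent.P019P
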