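import Vale.Agent.P019Q.COm

/-!
# Multiplication of differentials by functions; the divisor of a differential
-/

namespace Vale.Agent.P019P

set_option linter.unusedSectionVars false

open IntermediateField

section

variable {k F : Type*} [Field k] [Field F] [Algebra k F] [CFF k F]

/-- multiplication of a differential by a function. -/
noncomputable def tw (z : F) : Module.Dual k (Plk k F →₀ F) →ₗ[k] Module.Dual k (Plk k F →₀ F) :=
  Module.Dual.transpose (Finsupp.mapRange.linearMap (LinearMap.mulLeft k z))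

theorem tw_apply (z : F) (ω : Module.Dual k (Plk k F →₀ F)) (β : Plk k F →₀ F) :
    tw z ω β = ω (β.mapRange (fun w => z * w) (mul_zero z)) := rfl

theorem tw_mul (z w : F) (ω : Module.Dual k (Plk k F →₀ F)) :
    tw (z * w) ω = tw z (tw w ω) := by
  refine LinearMap.ext fun β => ?_
  rw [tw_apply, tw_apply, tw_apply]
  congr 1
  ext P
  simp only [Finsupp.mapRange_apply]
  ring

theorem tw_add (z w : F) (ω : Module.Dual k (Plk k F →₀ F)) :
    tw (z + w) ω = tw z ω + tw w ω := by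
  refine LinearMap.ext fun β => ?_
  rw [LinearMap.add_apply, tw_apply, tw_apply, tw_apply, ← map_add]
  congr 1
  ext P
  simp only [Finsupp.mapRange_apply, Finsupp.add_apply]
  ring

theorem tw_smul (a : k) (z : F) (ω : Module.Dual k (Plk k F →₀ F)) :
    tw (a • z) ω = a • tw z ω := by
  refine LinearMap.ext fun β => ?_
  rw [LinearMap.smul_apply, tw_apply, tw_apply, ← map_smul]
  congr 1
  ext P
  simp only [Finsupp.mapRange_apply, Finsupp.smul_apply, Algebra.smul_def]
  ring

theorem tw_one (ω : Module.Dual k (Plk k F →₀ F)) : tw 1 ω = ω := by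
  refine LinearMap.ext fun β => ?_
  rw [tw_apply]
  congr 1
  ext P
  simp only [Finsupp.mapRange_apply, one_mul]

theorem CTw_mem {D : Plk k F →₀ ℤ} {z : F} (hz : z ≠ 0) {β : Plk k F →₀ F} :
    β.mapRange (fun w => z * w) (mul_zero z) ∈ KD D ↔ β ∈ KD (D + dv k z) := by
  have key : ∀ (w : F) (P : Plk k F), (z * β P - z * w ∈ Mge P (-D P) ↔
      β P - w ∈ Mge P (-(D + dv k z) P)) := by
    intro w P
    rw [← mul_sub, mul_mem_Mge_iff hz, Finsupp.add_apply, dv_apply]
    have h : -(D P + ord P z) = -D P - ord P z := by ring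
    rw [h]
  constructor
  · rintro ⟨w, hw⟩
    refine ⟨z⁻¹ * w, fun P => (key _ P).1 ?_⟩
    have h := hw P
    rw [Finsupp.mapRange_apply] at h
    rwa [mul_inv_cancel_left₀ hz]
  · rintro ⟨w, hw⟩
    exact ⟨z * w, fun P => (key _ P).2 (hw P)⟩

theorem tw_mem_Om {D : Plk k F →₀ ℤ} {z : F} (hz : z ≠ 0) {ω : Module.Dual k (Plk k F →₀ F)} :
    tw z ω ∈ Om D ↔ ω ∈ Om (D - dv k z) := by
  rw [mem_Om, mem_Om]
  constructor
  · intro h β hβ
    have h1 : β.mapRange (fun w => z⁻¹ * w) (mul_zero z⁻¹) ∈ KD D := by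
      rw [CTw_mem (inv_ne_zero hz), dv_inv, ← sub_eq_add_neg]
      exact hβ
    have h2 := h _ h1
    rw [tw_apply] at h2
    rw [← h2]
    congr 1
    ext P
    simp only [Finsupp.mapRange_apply]
    rw [mul_inv_cancel_left₀ hz]
  · intro h β hβ
    rw [tw_apply]
    apply h
    rw [CTw_mem hz, sub_add_cancel]
    exact hβ

theorem Om_sup {A B : Plk k F →₀ ℤ} {ω : Module.Dual k (Plk k F →₀ F)}
    (h : ω ∈ Om A) (h' : ω ∈ Om B) : ω ∈ Om (A ⊔ B) := by
  classical
  rw [mem_Om] at h h' ⊢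
  rintro β ⟨z, hz⟩
  let β2 : Plk k F →₀ F := Finsupp.onFinset (A.support ∪ B.support)
    (fun P => if A P < B P then β P - z else 0) (by
      intro P hP
      split_ifs at hP with h1
      · rw [Finset.mem_union, Finsupp.mem_support_iff, Finsupp.mem_support_iff]
        by_contra h2
        push Not at h2
        rw [h2.1, h2.2] at h1
        exact lt_irrefl _ h1
      · exact absurd rfl hP)
  have hβ2 : ∀ P, β2 P = if A P < B P then β P - z else 0 := fun P => rfl
  have h2 : β2 ∈ KD B := by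
    refine ⟨0, fun P => ?_⟩
    rw [sub_zero, hβ2]
    split_ifs with h1
    · have h3 := hz P
      rwa [Finsupp.sup_apply, max_eq_right h1.le] at h3
    · exact zero_mem _
  have h1 : β - β2 ∈ KD A := by
    refine ⟨z, fun P => ?_⟩
    rw [Finsupp.sub_apply, hβ2]
    split_ifs with h1
    · rw [sub_sub_cancel, sub_self]
      exact zero_mem _
    · have h3 := hz P
      rw [Finsupp.sup_apply, max_eq_left (not_lt.1 h1)] at h3
      rwa [sub_zero]
  have h3 := h _ h1
  rw [map_sub, h' _ h2, sub_zero] at h3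
  exact h3

/-- the divisor of a differential. -/
theorem exists_dvOm {A : Plk k F →₀ ℤ} {ω : Module.Dual k (Plk k F →₀ F)} (h0 : ω ≠ 0)
    (h : ω ∈ Om A) : ∃ W : Plk k F →₀ ℤ, ∀ D, ω ∈ Om D ↔ D ≤ W := by
  obtain ⟨g, -, c, hc⟩ := exists_riem k F
  have hb : ∀ D : Plk k F →₀ ℤ, ω ∈ Om D → dg D < c := by
    intro D hD
    by_contra hcon
    push Not at hcon
    apply h0
    refine LinearMap.ext fun β => ?_
    have h1 : β ∈ KD D := by rw [KD_eq_top hc hcon]; trivial
    exact mem_Om.1 hD β h1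
  obtain ⟨m, ⟨W, hW, hWm⟩, hmax⟩ := Int.exists_greatest_of_bdd
    (P := fun m => ∃ D : Plk k F →₀ ℤ, ω ∈ Om D ∧ dg D = m)
    ⟨c, by rintro m ⟨D, hD, rfl⟩; exact (hb D hD).le⟩ ⟨_, A, h, rfl⟩
  refine ⟨W, fun D => ⟨fun hD => ?_, fun hD => Om_anti hD hW⟩⟩
  have h1 := hmax _ ⟨W ⊔ D, Om_sup hW hD, rfl⟩
  rw [← hWm] at h1
  have h2 := eq_of_le_of_dg_le (le_sup_left : W ≤ W ⊔ D) h1
  rw [h2]
  exact le_sup_right

end

end Vale.Agent.P019P
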