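import Vale.Agent.P019Q.CFld
import Vale.Agent.P019Q.CRel

/-!
# The places of a function field are discrete, with residue field `k`
-/

namespace Vale.Agent.P019P

set_option linter.unusedSectionVars false

open Polynomial IntermediateField

namespace AuxCVal

section

variable {K : Type*} [Field K] {O : ValuationSubring K} {f : K → ℤ}

theorem ord_one (hf : IsOrd O f) : f 1 = 0 := by
  have h := hf.mul 1 1 one_ne_zero one_ne_zero
  rw [mul_one] at h
  omega

theorem ord_inv (hf : IsOrd O f) {x : K} (hx : x ≠ 0) : f x⁻¹ = - f x := by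
  have h := hf.mul x x⁻¹ hx (inv_ne_zero hx)
  rw [mul_inv_cancel₀ hx, ord_one hf] at h
  omega

theorem ord_pow (hf : IsOrd O f) {x : K} (hx : x ≠ 0) (n : ℕ) : f (x ^ n) = n * f x := by
  induction n with
  | zero => rw [pow_zero, ord_one hf]; simp
  | succ n ih =>
    rw [pow_succ, hf.mul _ _ (pow_ne_zero _ hx) hx, ih]
    push_cast
    ring

theorem ord_zpow (hf : IsOrd O f) {x : K} (hx : x ≠ 0) (n : ℤ) : f (x ^ n) = n * f x := by
  cases n with
  | ofNat n =>
    rw [Int.ofNat_eq_natCast, zpow_natCast]; exact ord_pow hf hx n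
  | negSucc n =>
    rw [zpow_negSucc, ord_inv hf (pow_ne_zero _ hx), ord_pow hf hx, Int.negSucc_eq]
    push_cast
    ring

end

section

variable {k F : Type*} [Field k] [Field F] [Algebra k F] [CFF k F]

theorem v_cst (P : Plk k F) {c : k} (hc : c ≠ 0) : P.1.valuation (algebraMap k F c) = 1 := by
  have h1 := (P.1.valuation_le_one_iff _).2 (P.2.1 c)
  have h2 := (P.1.valuation_le_one_iff _).2 (P.2.1 c⁻¹)
  have hc' : algebraMap k F c ≠ 0 := by rwa [Ne, map_eq_zero]
  have hpos : 0 < P.1.valuation (algebraMap k F c) := by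
    rw [zero_lt_iff]; exact (Valuation.ne_zero_iff _).2 hc'
  rw [map_inv₀, map_inv₀, inv_le_one₀ hpos] at h2
  exact le_antisymm h1 h2

theorem nc_of_lt (P : Plk k F) {x : F} (hx0 : x ≠ 0) (hx : P.1.valuation x < 1) (a : k) :
    x ≠ algebraMap k F a := by
  rintro rfl
  have ha : a ≠ 0 := by
    rintro rfl
    exact hx0 (map_zero _)
  rw [v_cst P ha] at hx
  exact lt_irrefl _ hx

theorem v_aeval_le (P : Plk k F) {x : F} (hx : P.1.valuation x ≤ 1) (φ : k[X]) :
    P.1.valuation (aeval x φ) ≤ 1 := by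
  have hxm : x ∈ P.1 := (P.1.valuation_le_one_iff _).1 hx
  rw [P.1.valuation_le_one_iff]
  induction φ using Polynomial.induction_on' with
  | add p q hp hq => rw [map_add]; exact add_mem hp hq
  | monomial n a =>
    rw [aeval_monomial]
    exact mul_mem (P.2.1 a) (pow_mem hxm n)

theorem aeval_eq (x : F) (φ : k[X]) :
    aeval x φ = aeval x φ.divX * x + algebraMap k F (φ.coeff 0) := by
  conv_lhs => rw [← divX_mul_X_add φ]
  rw [map_add, map_mul, aeval_X, aeval_C]

theorem v_aeval_zero (P : Plk k F) {x : F} (hx : P.1.valuation x ≤ 1) {φ : k[X]}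
    (h : φ.coeff 0 = 0) : P.1.valuation (aeval x φ) ≤ P.1.valuation x := by
  rw [aeval_eq, h, map_zero, add_zero, map_mul]
  exact mul_le_of_le_one_left' (v_aeval_le P hx _)

theorem v_aeval_one (P : Plk k F) {x : F} (hx : P.1.valuation x < 1) {φ : k[X]}
    (h : φ.coeff 0 ≠ 0) : P.1.valuation (aeval x φ) = 1 := by
  rw [aeval_eq]
  have h1 : P.1.valuation (aeval x φ.divX * x) < 1 := by
    rw [map_mul]
    exact (mul_le_of_le_one_left' (v_aeval_le P hx.le _)).trans_lt hx
  have h2 := v_cst P h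
  rw [Valuation.map_add_eq_of_lt_right _ (by rw [h2]; exact h1), h2]

/-- the valuation ring is not everything. -/
theorem exists_small (P : Plk k F) : ∃ x : F, x ≠ 0 ∧ P.1.valuation x < 1 := by
  have h1 : ∃ w : F, w ∉ P.1 := by
    by_contra hcon
    push Not at hcon
    exact P.2.2 (eq_top_iff.2 fun w _ => hcon w)
  obtain ⟨w, hw⟩ := h1
  have hw0 : w ≠ 0 := by
    rintro rfl
    exact hw (zero_mem _)
  refine ⟨w⁻¹, inv_ne_zero hw0, ?_⟩
  rw [← P.1.valuation_le_one_iff, not_le] at hw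
  rw [map_inv₀]
  exact inv_lt_one_of_one_lt₀ hw

end

end AuxCVal

open AuxCVal

theorem IsOrd.unique {F : Type*} [Field F] {O : ValuationSubring F} {f g : F → ℤ}
    (hf : IsOrd O f) (hg : IsOrd O g) : f = g := by
  have h0 : ∀ w : F, w ≠ 0 → (0 ≤ f w ↔ 0 ≤ g w) := by
    intro w hw
    have h1 := hf.mem w
    have h2 := hg.mem w
    constructor
    · intro h
      exact (h2.1 (h1.2 (Or.inr h))).resolve_left hw
    · intro h
      exact (h1.1 (h2.2 (Or.inr h))).resolve_left hw
  have h1 : ∀ w : F, w ≠ 0 → f w = 0 → g w = 0 := by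
    intro w hw h
    have h2 := (h0 w hw).1 h.ge
    have h3 := (h0 w⁻¹ (inv_ne_zero hw)).1 (by rw [ord_inv hf hw]; omega)
    rw [ord_inv hg hw] at h3
    omega
  obtain ⟨π, hπ⟩ := hf.one
  obtain ⟨π', hπ'⟩ := hg.one
  have hπ0 : π ≠ 0 := by rintro rfl; rw [hf.zero] at hπ; exact zero_ne_one hπ
  have hπ0' : π' ≠ 0 := by rintro rfl; rw [hg.zero] at hπ'; exact zero_ne_one hπ'
  have h2 : ∀ z : F, z ≠ 0 → g z = f z * g π := by
    intro z hz
    have hp : π ^ f z ≠ 0 := zpow_ne_zero _ hπ0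
    have h3 := h1 (z * (π ^ f z)⁻¹) (mul_ne_zero hz (inv_ne_zero hp)) (by
      rw [hf.mul _ _ hz (inv_ne_zero hp), ord_inv hf hp, ord_zpow hf hπ0, hπ]
      ring)
    rw [hg.mul _ _ hz (inv_ne_zero hp), ord_inv hg hp, ord_zpow hg hπ0] at h3
    linarith
  have h4 : 0 ≤ g π := (h0 π hπ0).1 (by rw [hπ]; exact zero_le_one)
  have h5 := h2 π' hπ0'
  rw [hπ'] at h5
  have h6 : g π = 1 := by
    rcases Int.eq_one_or_neg_one_of_mul_eq_one' h5.symm with h | h
    · exact h.2
    · omega
  funext z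
  by_cases hz : z = 0
  · rw [hz, hf.zero, hg.zero]
  · rw [h2 z hz, h6, mul_one]

section

variable {k F : Type*} [Field k] [Field F] [Algebra k F] [CFF k F]

/-- elements whose values are close to each other are independent over `k(x)`. -/
theorem indep_of_val (P : Plk k F) {x : F} (hx0 : x ≠ 0) (hx : P.1.valuation x < 1)
    {ι : Type*} [Fintype ι] {y : ι → F} (hy : ∀ i, y i ≠ 0)
    (hd : ∀ i j, i ≠ j → P.1.valuation (y i) ≠ P.1.valuation (y j))
    (hlt : ∀ i j, P.1.valuation x * P.1.valuation (y i) < P.1.valuation (y j)) :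
    LinearIndependent k⟮x⟯ y := by
  classical
  by_contra hdep
  obtain ⟨htr, -⟩ := finite_of_notMem (nc_of_lt P hx0 hx)
  obtain ⟨φ, ⟨i0, hi0⟩, hsum⟩ := exists_rel htr hdep
  obtain ⟨j, hj, hmax⟩ := Finset.exists_max_image
    (Finset.univ.filter fun i => (φ i).coeff 0 ≠ 0) (fun i => P.1.valuation (y i))
    ⟨i0, by simpa using hi0⟩
  have hj' : (φ j).coeff 0 ≠ 0 := by simpa using hj
  have hyj : P.1.valuation (y j) ≠ 0 := (Valuation.ne_zero_iff _).2 (hy j)
  have hvj : P.1.valuation (aeval x (φ j) * y j) = P.1.valuation (y j) := by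
    rw [map_mul, v_aeval_one P hx hj', one_mul]
  have hrest : P.1.valuation (∑ i ∈ Finset.univ.erase j, aeval x (φ i) * y i) <
      P.1.valuation (y j) := by
    apply Valuation.map_sum_lt _ hyj
    intro i hi
    have hij : i ≠ j := Finset.ne_of_mem_erase hi
    rw [map_mul]
    by_cases h : (φ i).coeff 0 = 0
    · exact (mul_le_mul_left (v_aeval_zero P hx.le h) _).trans_lt (hlt i j)
    · rw [v_aeval_one P hx h, one_mul]
      exact lt_of_le_of_ne (hmax i (by simpa using h)) (hd i j hij)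
  rw [← Finset.add_sum_erase _ _ (Finset.mem_univ j)] at hsum
  rw [eq_neg_of_add_eq_zero_left hsum, Valuation.map_neg] at hvj
  rw [hvj] at hrest
  exact lt_irrefl _ hrest

theorem AuxCVal.exists_cst_of_poly (P : Plk k F) {z : F} (hz : z ∈ P.1) (n : ℕ) :
    ∀ f : k[X], f.natDegree ≤ n → f ≠ 0 → P.1.valuation (aeval z f) < 1 →
      ∃ c : k, P.1.valuation (z - algebraMap k F c) < 1 := by
  have : IsAlgClosed k := CFF.ac F
  induction n with
  | zero =>
    intro f hd hf hv
    exfalso
    rw [eq_C_of_natDegree_le_zero hd, aeval_C] at hv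
    have h0 : f.coeff 0 ≠ 0 := by
      intro h
      apply hf
      rw [eq_C_of_natDegree_le_zero hd, h, C_0]
    rw [v_cst P h0] at hv
    exact lt_irrefl _ hv
  | succ n ih =>
    intro f hd hf hv
    by_cases h0 : f.natDegree = 0
    · exact ih f (by omega) hf hv
    obtain ⟨c, hc⟩ := IsAlgClosed.exists_root f (by
      intro h
      exact h0 (natDegree_eq_of_degree_eq_some h))
    obtain ⟨g, hg⟩ := dvd_iff_isRoot.2 hc
    have hg0 : g ≠ 0 := by
      rintro rfl
      exact hf (by rw [hg, mul_zero])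
    have hdg : f.natDegree = 1 + g.natDegree := by
      rw [hg, natDegree_mul (X_sub_C_ne_zero c) hg0, natDegree_X_sub_C]
    rw [hg, map_mul, map_sub, aeval_X, aeval_C, map_mul] at hv
    have h1 : P.1.valuation (z - algebraMap k F c) ≤ 1 :=
      (P.1.valuation_le_one_iff _).2 (sub_mem hz (P.2.1 c))
    rcases h1.lt_or_eq with h2 | h2
    · exact ⟨c, h2⟩
    · rw [h2, one_mul] at hv
      exact ih g (by omega) hg0 hv

theorem exists_cst' (P : Plk k F) {z : F} (hz : z ∈ P.1) :
    ∃ c : k, P.1.valuation (z - algebraMap k F c) < 1 := by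
  classical
  obtain ⟨x, hx0, hx⟩ := exists_small P
  obtain ⟨htr, hfd⟩ := finite_of_notMem (nc_of_lt P hx0 hx)
  have hdep : ¬ LinearIndependent k⟮x⟯
      (fun i : Fin (Module.finrank k⟮x⟯ F + 1) => z ^ (i : ℕ)) := by
    intro h
    have h1 := h.fintype_card_le_finrank
    rw [Fintype.card_fin] at h1
    omega
  obtain ⟨φ, ⟨i0, hi0⟩, hsum⟩ := exists_rel htr hdep
  have hz1 : P.1.valuation z ≤ 1 := (P.1.valuation_le_one_iff _).2 hz
  apply exists_cst_of_poly P hz _ (∑ i, C ((φ i).coeff 0) * X ^ (i : ℕ)) le_rfl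
  · intro h
    have h1 := congrArg (fun p : k[X] => p.coeff (i0 : ℕ)) h
    simp only [finsetSum_coeff, coeff_C_mul, coeff_X_pow, coeff_zero] at h1
    rw [Finset.sum_eq_single i0] at h1
    · rw [if_pos rfl, mul_one] at h1
      exact hi0 h1
    · intro j _ hj
      rw [if_neg (fun h' => hj (Fin.ext h'.symm)), mul_zero]
    · intro h'
      exact absurd (Finset.mem_univ _) h'
  · have h1 : aeval z (∑ i, C ((φ i).coeff 0) * X ^ (i : ℕ)) =
        -∑ i, aeval x (φ i).divX * x * z ^ (i : ℕ) := by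
      rw [eq_neg_iff_add_eq_zero, map_sum, ← Finset.sum_add_distrib, ← hsum]
      refine Finset.sum_congr rfl fun i _ => ?_
      rw [map_mul, map_pow, aeval_X, aeval_C, aeval_eq x (φ i)]
      ring
    rw [h1, Valuation.map_neg]
    apply Valuation.map_sum_lt _ one_ne_zero
    intro i _
    rw [map_mul, map_mul, map_pow]
    calc P.1.valuation (aeval x (φ i).divX) * P.1.valuation x * P.1.valuation z ^ (i : ℕ)
        ≤ 1 * P.1.valuation x * 1 :=
          mul_le_mul' (mul_le_mul' (v_aeval_le P hx.le _) le_rfl) (pow_le_one' hz1 _)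
      _ = P.1.valuation x := by rw [one_mul, mul_one]
      _ < 1 := hx

theorem AuxCVal.exists_unif (P : Plk k F) : ∃ t : F, t ≠ 0 ∧ P.1.valuation t < 1 ∧
    ∀ z, P.1.valuation z < 1 → P.1.valuation z ≤ P.1.valuation t := by
  obtain ⟨x, hx0, hx⟩ := exists_small P
  obtain ⟨htr, hfd⟩ := finite_of_notMem (nc_of_lt P hx0 hx)
  by_contra hcon
  push Not at hcon
  have hstep : ∀ t : {t : F // t ≠ 0 ∧ P.1.valuation t < 1},
      ∃ s : {t : F // t ≠ 0 ∧ P.1.valuation t < 1}, P.1.valuation t.1 < P.1.valuation s.1 := by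
    rintro ⟨t, ht0, ht⟩
    obtain ⟨z, hz, hz'⟩ := hcon t ht0 ht
    have hz0 : z ≠ 0 := by
      rintro rfl
      rw [map_zero] at hz'
      exact not_lt_zero hz'
    exact ⟨⟨z, hz0, hz⟩, hz'⟩
  choose nx hnx using hstep
  let y : ℕ → {t : F // t ≠ 0 ∧ P.1.valuation t < 1} := fun n => nx^[n] ⟨x, hx0, hx⟩
  have hy : StrictMono fun n => P.1.valuation (y n).1 := by
    apply strictMono_nat_of_lt_succ
    intro n
    have h1 : y (n + 1) = nx (y n) := Function.iterate_succ_apply' nx n _
    change P.1.valuation (y n).1 < P.1.valuation (y (n + 1)).1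
    rw [h1]
    exact hnx _
  have hvx : 0 < P.1.valuation x := by
    rw [zero_lt_iff]; exact (Valuation.ne_zero_iff _).2 hx0
  have h2 := (indep_of_val P hx0 hx (y := fun i : Fin (Module.finrank k⟮x⟯ F + 1) => (y i).1)
    (fun i => (y i).2.1) (fun i j hij h => hij (Fin.ext (hy.injective h)))
    (fun i j => by
      have h3 : P.1.valuation x ≤ P.1.valuation (y j).1 := hy.monotone (Nat.zero_le _)
      exact (mul_lt_of_lt_one_right hvx (y i).2.2).trans_le h3)).fintype_card_le_finrank
  rw [Fintype.card_fin] at h2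
  omega

theorem AuxCVal.exists_pow (P : Plk k F) {t : F} (ht0 : t ≠ 0) (ht : P.1.valuation t < 1)
    (hmax : ∀ z, P.1.valuation z < 1 → P.1.valuation z ≤ P.1.valuation t) {z : F} (hz0 : z ≠ 0)
    (hz : P.1.valuation z ≤ 1) : ∃ m : ℕ, P.1.valuation z = P.1.valuation t ^ m := by
  classical
  rcases hz.lt_or_eq with hz1 | hz1
  swap
  · exact ⟨0, by rw [hz1, pow_zero]⟩
  have hvt : 0 < P.1.valuation t := by
    rw [zero_lt_iff]; exact (Valuation.ne_zero_iff _).2 ht0
  have hvz : 0 < P.1.valuation z := by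
    rw [zero_lt_iff]; exact (Valuation.ne_zero_iff _).2 hz0
  obtain ⟨htr, hfd⟩ := finite_of_notMem (nc_of_lt P hz0 hz1)
  have hanti : StrictAnti fun n : ℕ => P.1.valuation t ^ n := pow_right_strictAnti₀ hvt ht
  have hex : ∃ M : ℕ, ¬ P.1.valuation z ≤ P.1.valuation t ^ M := by
    refine ⟨Module.finrank k⟮z⟯ F + 1, fun hcon => ?_⟩
    have h2 := (indep_of_val P hz0 hz1
      (y := fun i : Fin (Module.finrank k⟮z⟯ F + 1) => t ^ ((i : ℕ) + 1))
      (fun i => pow_ne_zero _ ht0)
      (fun i j hij h => hij (by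
        rw [map_pow, map_pow] at h
        have h3 := hanti.injective h
        exact Fin.ext (by omega)))
      (fun i j => by
        rw [map_pow, map_pow]
        have h3 : P.1.valuation t ^ ((i : ℕ) + 1) < 1 := by
          have := hanti (Nat.succ_pos (i : ℕ))
          simpa using this
        refine (mul_lt_of_lt_one_right hvz h3).trans_le (hcon.trans ?_)
        have h4 : (j : ℕ) + 1 ≤ Module.finrank k⟮z⟯ F + 1 := j.2
        exact hanti.antitone h4)).fintype_card_le_finrank
    rw [Fintype.card_fin] at h2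
    omega
  have hM := Nat.find_spec hex
  have hM0 : Nat.find hex ≠ 0 := by
    intro h
    rw [h, pow_zero] at hM
    exact hM hz
  obtain ⟨m, hm⟩ := Nat.exists_eq_succ_of_ne_zero hM0
  have hPm : P.1.valuation z ≤ P.1.valuation t ^ m := by
    have := Nat.find_min hex (m := m) (by omega)
    exact not_not.1 this
  rw [hm] at hM
  refine ⟨m, le_antisymm hPm (not_lt.1 fun hlt => hM ?_)⟩
  have h5 : P.1.valuation (z * (t ^ m)⁻¹) < 1 := by
    rw [map_mul, map_inv₀, map_pow, ← div_eq_mul_inv]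
    exact (div_lt_one₀ (pow_pos hvt m)).2 hlt
  have h6 := hmax _ h5
  rw [map_mul, map_inv₀, map_pow, ← div_eq_mul_inv, div_le_iff₀ (pow_pos hvt m)] at h6
  rw [Nat.succ_eq_add_one, pow_succ']
  exact h6

theorem exists_isOrd (P : Plk k F) : ∃ f : F → ℤ, IsOrd P.1 f := by
  classical
  obtain ⟨t, ht0, ht, hmax⟩ := exists_unif P
  have hvt : 0 < P.1.valuation t := by
    rw [zero_lt_iff]; exact (Valuation.ne_zero_iff _).2 ht0
  have hex : ∀ z : F, z ≠ 0 → ∃ n : ℤ, P.1.valuation z = P.1.valuation t ^ n := by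
    intro z hz0
    rcases le_total (P.1.valuation z) 1 with h | h
    · obtain ⟨m, hm⟩ := exists_pow P ht0 ht hmax hz0 h
      exact ⟨m, by rw [hm, zpow_natCast]⟩
    · obtain ⟨m, hm⟩ := exists_pow P ht0 ht hmax (inv_ne_zero hz0) (by
        rw [map_inv₀]
        exact inv_le_one_of_one_le₀ h)
      refine ⟨-m, ?_⟩
      rw [map_inv₀] at hm
      rw [zpow_neg, zpow_natCast, ← hm, inv_inv]
  have hanti : StrictAnti fun n : ℤ => P.1.valuation t ^ n := zpow_right_strictAnti₀ hvt ht
  choose g hg using hex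
  let f : F → ℤ := fun z => if h : z = 0 then 0 else g z h
  have hf0 : f 0 = 0 := dif_pos rfl
  have hf : ∀ z : F, z ≠ 0 → P.1.valuation z = P.1.valuation t ^ f z := by
    intro z hz
    have : f z = g z hz := dif_neg hz
    rw [this]
    exact hg z hz
  have huniq : ∀ z : F, z ≠ 0 → ∀ n : ℤ, P.1.valuation z = P.1.valuation t ^ n → f z = n := by
    intro z hz n hn
    rw [hf z hz] at hn
    exact hanti.injective hn
  refine ⟨f, ⟨hf0, ?_, ?_, ?_, ?_⟩⟩
  · intro x y hx hy
    apply huniq _ (mul_ne_zero hx hy)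
    rw [map_mul, hf x hx, hf y hy, zpow_add₀ hvt.ne']
  · intro x y hx hy hxy
    have h1 := P.1.valuation.map_add x y
    rw [hf x hx, hf y hy, hf _ hxy] at h1
    rcases le_max_iff.1 h1 with h | h
    · exact (min_le_left _ _).trans (hanti.le_iff_ge.1 h)
    · exact (min_le_right _ _).trans (hanti.le_iff_ge.1 h)
  · intro x
    by_cases hx : x = 0
    · rw [hx]
      exact ⟨fun _ => Or.inl rfl, fun _ => zero_mem _⟩
    · have h1 : P.1.valuation x ≤ 1 ↔ 0 ≤ f x := by
        rw [hf x hx, ← zpow_zero (P.1.valuation t)]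
        exact hanti.le_iff_ge
      rw [← P.1.valuation_le_one_iff, h1]
      exact ⟨fun h => Or.inr h, fun h => h.resolve_left hx⟩
  · exact ⟨t, huniq t ht0 1 (by rw [zpow_one])⟩

/-- the order at a place. -/
noncomputable def ord (P : Plk k F) : F → ℤ := (exists_isOrd P).choose

theorem ord_spec (P : Plk k F) : IsOrd P.1 (ord P) := (exists_isOrd P).choose_spec

/-- places are determined by their orders; the residue field is `k`. -/
theorem exists_cst (P : Plk k F) {z : F} (hz : z ∈ P.1) :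
    ∃ c : k, z = algebraMap k F c ∨ 0 < ord P (z - algebraMap k F c) := by
  obtain ⟨c, hc⟩ := exists_cst' P hz
  refine ⟨c, ?_⟩
  by_cases h : z = algebraMap k F c
  · exact Or.inl h
  right
  have hw : z - algebraMap k F c ≠ 0 := sub_ne_zero.2 h
  have hO := ord_spec P
  have h1 : 0 ≤ ord P (z - algebraMap k F c) :=
    ((hO.mem _).1 (sub_mem hz (P.2.1 c))).resolve_left hw
  by_contra hcon
  have h2 : ord P (z - algebraMap k F c) = 0 := by omega
  have h3 : (z - algebraMap k F c)⁻¹ ∈ P.1 :=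
    (hO.mem _).2 (Or.inr (by rw [ord_inv hO hw, h2, neg_zero]))
  rw [← P.1.valuation_le_one_iff, map_inv₀, inv_le_one₀ (by
    rw [zero_lt_iff]; exact (Valuation.ne_zero_iff _).2 hw)] at h3
  exact absurd hc (not_lt.2 h3)

end

end Vale.Agent.P019P
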