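import Vale.Agent.P019Q.CAppr

/-!
# The zeros of a function
-/

namespace Vale.Agent.P019P

open Polynomial IntermediateField

section

variable {k F : Type*} [Field k] [Field F] [Algebra k F] [CFF k F]

/-- the number of zeros is bounded by the degree. -/
theorem sum_ord_le {x : F} (hx : ∀ a : k, x ≠ algebraMap k F a) (S : Finset (Plk k F))
    (hS : ∀ P ∈ S, 0 < ord P x) : ∑ P ∈ S, ord P x ≤ Module.finrank k⟮x⟯ F := by
  classical
  obtain ⟨hT, hfd⟩ := finite_of_notMem hx
  choose w hw0 hw using fun i : (P : S) × Fin (ord P.1 x).toNat =>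
    exists_ord_eq S (fun Q => if Q = i.1.1 then ((i.2 : ℕ) : ℤ) else ord Q x)
  have hwP : ∀ i, ord i.1.1 (w i) = ((i.2 : ℕ) : ℤ) := fun i => by
    rw [hw i _ i.1.2, if_pos rfl]
  have hli : LinearIndependent k⟮x⟯ w := by
    by_contra hnot
    obtain ⟨φ, ⟨⟨P, a0⟩, h0⟩, hrel⟩ := exists_rel hT hnot
    obtain ⟨a, ha, hmin⟩ := Finset.exists_min_image
      (Finset.univ.filter fun a : Fin (ord P.1 x).toNat => (φ ⟨P, a⟩).coeff 0 ≠ 0)
      (fun a => (a : ℕ)) ⟨a0, by simp only [Finset.mem_filter, Finset.mem_univ, true_and]; exact h0⟩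
    rw [Finset.mem_filter] at ha
    have hPx : 0 < ord P.1 x := hS P.1 P.2
    have hax : ((a : ℕ) : ℤ) < ord P.1 x := by
      have h1 := a.2
      omega
    obtain ⟨h1, h2⟩ := ord_aeval_of_coeff_ne hPx ha.2
    have h3 : aeval x (φ ⟨P, a⟩) * w ⟨P, a⟩ ≠ 0 := mul_ne_zero h1 (hw0 _)
    have h4 : ord P.1 (aeval x (φ ⟨P, a⟩) * w ⟨P, a⟩) = ((a : ℕ) : ℤ) := by
      rw [ord_mul P.1 h1 (hw0 _), h2, zero_add]
      exact hwP ⟨P, a⟩
    refine (ord_sum_of_lt (P := P.1) (s := Finset.univ)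
      (f := fun i => aeval x (φ i) * w i) (i := ⟨P, a⟩) (Finset.mem_univ _) h3 ?_).1 hrel
    rintro ⟨Q, b⟩ - hne
    rw [h4]
    by_cases hQ : Q = P
    · subst hQ
      have hb : w ⟨Q, b⟩ ∈ Mge Q.1 ((b : ℕ) : ℤ) := Or.inr (hwP ⟨Q, b⟩).ge
      by_cases hc : (φ ⟨Q, b⟩).coeff 0 = 0
      · have h5 := mul_mem_Mge (aeval_mem_of_coeff_eq hPx hc) hb
        exact Mge_mono _ (by omega) h5
      · have h5 := mul_mem_Mge (aeval_mem_zero hPx.le (φ ⟨Q, b⟩)) hb
        have h6 := hmin b (by simp only [Finset.mem_filter, Finset.mem_univ, true_and]; exact hc)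
        have h7 : (b : ℕ) ≠ (a : ℕ) := fun h8 => hne (by rw [Fin.ext h8])
        exact Mge_mono _ (by omega) h5
    · have hb : w ⟨Q, b⟩ ∈ Mge P.1 (ord P.1 x) := by
        refine Or.inr (le_of_eq ?_)
        rw [hw ⟨Q, b⟩ P.1 P.2, if_neg]
        exact fun h5 => hQ (Subtype.ext h5.symm)
      have h5 := mul_mem_Mge (aeval_mem_zero hPx.le (φ ⟨Q, b⟩)) hb
      exact Mge_mono _ (by omega) h5
  have hcard := hli.fintype_card_le_finrank
  have h1 : Fintype.card ((P : S) × Fin (ord P.1 x).toNat) = ∑ P ∈ S, (ord P x).toNat := by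
    rw [Fintype.card_sigma, ← Finset.sum_coe_sort S]
    simp only [Fintype.card_fin]
  have h2 : ∑ P ∈ S, ord P x = ((∑ P ∈ S, (ord P x).toNat : ℕ) : ℤ) := by
    rw [Nat.cast_sum]
    exact Finset.sum_congr rfl fun P hP => (Int.toNat_of_nonneg (hS P hP).le).symm
  rw [h2, ← h1]
  exact_mod_cast hcard

theorem zeros_finite {x : F} (hx : ∀ a : k, x ≠ algebraMap k F a) :
    {P : Plk k F | 0 < ord P x}.Finite := by
  by_contra hinf
  obtain ⟨t, ht, hcard⟩ := Set.Infinite.exists_subset_card_eq hinf (Module.finrank k⟮x⟯ F + 1)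
  have h1 := sum_ord_le hx t (fun P hP => ht hP)
  have h2 : ∑ _P ∈ t, (1 : ℤ) ≤ ∑ P ∈ t, ord P x := Finset.sum_le_sum fun P hP => ht hP
  rw [Finset.sum_const, hcard, nsmul_eq_mul, mul_one] at h2
  push_cast at h2
  omega

theorem dv_finite {z : F} (hz : z ≠ 0) : {P : Plk k F | ord P z ≠ 0}.Finite := by
  by_cases hc : ∃ a : k, z = algebraMap k F a
  · obtain ⟨a, rfl⟩ := hc
    refine Set.finite_empty.subset fun P hP => ?_
    exact hP (ord_const P a)
  · push Not at hc
    refine ((zeros_finite hc).union (zeros_finite (nc_inv hc))).subset fun P hP => ?_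
    rcases lt_trichotomy (ord P z) 0 with h | h | h
    · right
      show 0 < ord P z⁻¹
      rw [ord_inv]
      omega
    · exact absurd h hP
    · left
      exact h

/-- the places over `x = c` are finite in number. -/
theorem fib_finite {x : F} (hx : ∀ a : k, x ≠ algebraMap k F a) (c : k) :
    {P : Plk k F | 0 < ord P (x - algebraMap k F c)}.Finite :=
  zeros_finite (nc_sub hx c)

variable (k) in
open Classical in
/-- the divisor of a function. -/
noncomputable def dv (z : F) : Plk k F →₀ ℤ :=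
  if hz : z ≠ 0 then Finsupp.ofSupportFinite (fun P => ord P z) (dv_finite hz) else 0

theorem dv_apply (z : F) (P : Plk k F) : dv k z P = ord P z := by
  unfold dv
  split_ifs with h
  · rfl
  · push Not at h
    rw [h, (ord_spec P).zero]
    rfl

theorem dv_mul {z w : F} (hz : z ≠ 0) (hw : w ≠ 0) : dv k (z * w) = dv k z + dv k w := by
  ext P
  rw [Finsupp.add_apply, dv_apply, dv_apply, dv_apply, ord_mul P hz hw]

theorem dv_inv (z : F) : dv k z⁻¹ = -dv k z := by
  ext P
  rw [Finsupp.neg_apply, dv_apply, dv_apply, ord_inv]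

theorem dv_const (a : k) : dv k (algebraMap k F a) = 0 := by
  ext P
  rw [dv_apply, ord_const, Finsupp.zero_apply]

end

end Vale.Agent.P019P
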