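import Vale.Agent.P019Q.H4Def

/-!
# Classes with divisor divisible by `ℓ` and the torsion of the class group
-/

namespace Vale.Agent.P019P

open Polynomial IntermediateField

variable {k F : Type*} [Field k] [Field F] [Algebra k F] [CFF k F]

private theorem h4Cnt_dv_pow (z : F) (n : ℕ) : dv k (z ^ n) = n • dv k z := by
  ext P
  rw [dv_apply, ord_pow, Finsupp.smul_apply, dv_apply, nsmul_eq_mul]

private theorem h4Cnt_mk {E E' : Plk k F →₀ ℤ} :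
    (QuotientAddGroup.mk E : (Plk k F →₀ ℤ) ⧸ prn k F) = QuotientAddGroup.mk E' ↔
      ∃ h : F, h ≠ 0 ∧ E' - E = dv k h := by
  rw [QuotientAddGroup.eq, ← sub_eq_neg_add]
  rfl

private theorem h4Cnt_div {ℓ : ℕ} {z : F} (hz : ∀ P : Plk k F, (ℓ : ℤ) ∣ ord P z) :
    ∃ E : Plk k F →₀ ℤ, ℓ • E = dv k z := by
  refine ⟨(dv k z).mapRange (fun a => a / (ℓ : ℤ)) (by simp), ?_⟩
  ext P
  rw [Finsupp.smul_apply, Finsupp.mapRange_apply, dv_apply, nsmul_eq_mul]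
  exact Int.mul_ediv_cancel' (hz P)

omit [CFF k F] in
private theorem h4Cnt_smul_inj {ℓ : ℕ} (hℓ : ℓ ≠ 0) {D D' : Plk k F →₀ ℤ}
    (h : ℓ • D = ℓ • D') : D = D' := by
  ext P
  have h1 := DFunLike.congr_fun h P
  rw [Finsupp.smul_apply, Finsupp.smul_apply, nsmul_eq_mul, nsmul_eq_mul] at h1
  exact mul_left_cancel₀ (Nat.cast_ne_zero.2 hℓ) h1

theorem h4_nc_iff {ℓ : ℕ} (hℓ : ℓ ≠ 0) {M : ℕ} :
    NC ℓ k F M ↔ ∃ φ : Fin M → {x : (Plk k F →₀ ℤ) ⧸ prn k F // ℓ • x = 0},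
      Function.Injective φ := by
  constructor
  · rintro ⟨z, hz, hne⟩
    choose E hE using fun i => h4Cnt_div (hz i).2
    refine ⟨fun i => ⟨QuotientAddGroup.mk (E i), ?_⟩, ?_⟩
    · rw [← QuotientAddGroup.mk_nsmul, hE, QuotientAddGroup.eq_zero_iff]
      exact ⟨z i, (hz i).1, rfl⟩
    · intro i j hij
      by_contra hc
      obtain ⟨h, h0, h1⟩ := h4Cnt_mk.1 (Subtype.ext_iff.1 hij)
      have h2 : dv k (z j) = dv k (h ^ ℓ * z i) := by
        rw [dv_mul (pow_ne_zero _ h0) (hz i).1, h4Cnt_dv_pow h, ← h1, ← hE, ← hE, smul_sub]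
        abel
      have h3 : h ^ ℓ * z i ≠ 0 := mul_ne_zero (pow_ne_zero _ h0) (hz i).1
      have h4 : dv k (z j * (h ^ ℓ * z i)⁻¹) = 0 := by
        rw [dv_mul (hz j).1 (inv_ne_zero h3), dv_inv, h2, add_neg_cancel]
      obtain ⟨a, ha⟩ := (dv_eq_zero_iff (mul_ne_zero (hz j).1 (inv_ne_zero h3))).1 h4
      have hac : IsAlgClosed k := CFF.ac F
      obtain ⟨b, hb⟩ := IsAlgClosed.exists_pow_nat_eq a (Nat.pos_of_ne_zero hℓ)
      refine hne j i (Ne.symm hc) ⟨algebraMap k F b * h, ?_⟩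
      rw [mul_pow, ← map_pow, hb, ← ha, mul_assoc, mul_assoc, inv_mul_cancel₀ h3, mul_one]
  · rintro ⟨φ, hφ⟩
    have h1 : ∀ i, ∃ (E : Plk k F →₀ ℤ) (z : F), QuotientAddGroup.mk E = (φ i).1 ∧ z ≠ 0 ∧
        ℓ • E = dv k z := by
      intro i
      obtain ⟨E, hE⟩ := QuotientAddGroup.mk_surjective (φ i).1
      have h2 : (QuotientAddGroup.mk (ℓ • E) : (Plk k F →₀ ℤ) ⧸ prn k F) = 0 := by
        rw [QuotientAddGroup.mk_nsmul, hE]
        exact (φ i).2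
      obtain ⟨z, hz0, hz⟩ := (QuotientAddGroup.eq_zero_iff _).1 h2
      exact ⟨E, z, hE, hz0, hz⟩
    choose E z hE hz0 hz using h1
    refine ⟨z, fun i => ⟨hz0 i, fun P => ?_⟩, fun i j hij => ?_⟩
    · rw [← dv_apply, ← hz, Finsupp.smul_apply, nsmul_eq_mul]
      exact dvd_mul_right _ _
    · rintro ⟨h, hh⟩
      have h0 : h ≠ 0 := by
        rintro rfl
        rw [zero_pow hℓ, zero_mul] at hh
        exact hz0 i hh
      have h2 : ℓ • (E i - E j) = ℓ • dv k h := by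
        rw [smul_sub, hz, hz, hh, dv_mul (pow_ne_zero _ h0) (hz0 j), h4Cnt_dv_pow h]
        abel
      have h3 := h4Cnt_smul_inj hℓ h2
      refine hij (hφ (Subtype.ext ?_))
      rw [← hE i, ← hE j]
      exact (h4Cnt_mk.2 ⟨h, h0, h3⟩).symm

theorem h4_nc_of_card {ℓ : ℕ} (hℓ : ℓ ≠ 0) {M : ℕ} (hM : 0 < M)
    (h : Nat.card {x : (Plk k F →₀ ℤ) ⧸ prn k F // ℓ • x = 0} = M) :
    NC ℓ k F M ∧ ¬ NC ℓ k F (M + 1) := by
  have hfin : Finite {x : (Plk k F →₀ ℤ) ⧸ prn k F // ℓ • x = 0} :=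
    Nat.finite_of_card_ne_zero (by omega)
  constructor
  · rw [h4_nc_iff hℓ, ← h]
    exact ⟨_, (Finite.equivFin _).symm.injective⟩
  · rw [h4_nc_iff hℓ]
    rintro ⟨φ, hφ⟩
    have h1 := Nat.card_le_card_of_injective φ hφ
    rw [Nat.card_fin, h] at h1
    omega

theorem h4_card_of_nc {ℓ : ℕ} (hℓ : ℓ ≠ 0) {M : ℕ} (h : NC ℓ k F M)
    (h' : ¬ NC ℓ k F (M + 1)) :
    Nat.card {x : (Plk k F →₀ ℤ) ⧸ prn k F // ℓ • x = 0} = M := by
  rw [h4_nc_iff hℓ] at h h'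
  have hfin : Finite {x : (Plk k F →₀ ℤ) ⧸ prn k F // ℓ • x = 0} := by
    by_contra hc
    rw [not_finite_iff_infinite] at hc
    exact h' ⟨fun i => Infinite.natEmbedding _ (i : ℕ),
      (Infinite.natEmbedding _).injective.comp Fin.val_injective⟩
  obtain ⟨φ, hφ⟩ := h
  have h1 := Nat.card_le_card_of_injective φ hφ
  rw [Nat.card_fin] at h1
  by_contra hc
  have h2 : M + 1 ≤ Nat.card {x : (Plk k F →₀ ℤ) ⧸ prn k F // ℓ • x = 0} := by omega
  exact h' ⟨fun i => (Finite.equivFin _).symm (Fin.castLE h2 i),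
    (Finite.equivFin _).symm.injective.comp (Fin.castLE_injective _)⟩

end Vale.Agent.P019P
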