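import Vale.Agent.P019Q.H4Ring

/-!
# The place at infinity of a ring with a degree basis
-/

namespace Vale.Agent.P019P

open Polynomial IntermediateField TensorProduct

section

variable {K R F : Type*} [Field K] [CommRing R] [Algebra K R] [Field F]
  [Algebra R F] [IsFractionRing R F] {S : Set ℕ} {g : ℕ}
  {b : Module.Basis S K R}

theorem h4FrB_dgr_one (h : IsDB b) (hS : Sgp g S) : dgr b (1 : R) = 0 := by
  have h1 := dgr_algebraMap h hS 1
  rwa [map_one] at h1

theorem h4FrB_wd (h : IsDB b) (hS : Sgp g S) {a c a' c' : R} (ha : a ≠ 0) (hc : c ≠ 0)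
    (ha' : a' ≠ 0) (hc' : c' ≠ 0)
    (e : algebraMap R F a / algebraMap R F c = algebraMap R F a' / algebraMap R F c') :
    (dgr b c : ℤ) - dgr b a = dgr b c' - dgr b a' := by
  have hinj := IsFractionRing.injective R F
  have hc1 : algebraMap R F c ≠ 0 := fun h0 => hc (hinj (by rw [h0, map_zero]))
  have hc1' : algebraMap R F c' ≠ 0 := fun h0 => hc' (hinj (by rw [h0, map_zero]))
  rw [div_eq_div_iff hc1 hc1', ← map_mul, ← map_mul] at e
  have e1 := hinj e
  have h1 := (dgr_mul h hS ha hc').2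
  have h2 := (dgr_mul h hS ha' hc).2
  rw [e1, h2] at h1
  omega

theorem h4FrB_frac (h : IsDB b) (hS : Sgp g S) (w : F) :
    ∃ a c : R, c ≠ 0 ∧ w = algebraMap R F a / algebraMap R F c := by
  have := h4_domain h hS
  obtain ⟨a, c, hc, hw⟩ := IsFractionRing.div_surjective (A := R) w
  exact ⟨a, c, nonZeroDivisors.ne_zero hc, hw.symm⟩

open Classical in
/-- the valuation at infinity. -/
noncomputable def h4FrB_v (h : IsDB b) (hS : Sgp g S) (w : F) : ℤ :=
  if w = 0 then 0 else (dgr b (h4FrB_frac h hS w).choose_spec.choose : ℤ) -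
    dgr b (h4FrB_frac h hS w).choose

theorem h4FrB_v_zero (h : IsDB b) (hS : Sgp g S) : h4FrB_v h hS (0 : F) = 0 := by
  unfold h4FrB_v
  rw [if_pos rfl]

theorem h4FrB_v_div (h : IsDB b) (hS : Sgp g S) {a c : R} (ha : a ≠ 0) (hc : c ≠ 0) :
    h4FrB_v h hS (algebraMap R F a / algebraMap R F c) = (dgr b c : ℤ) - dgr b a := by
  have hinj := IsFractionRing.injective R F
  have ha1 : algebraMap R F a ≠ 0 := fun h0 => ha (hinj (by rw [h0, map_zero]))
  have hc1 : algebraMap R F c ≠ 0 := fun h0 => hc (hinj (by rw [h0, map_zero]))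
  have hw0 : algebraMap R F a / algebraMap R F c ≠ 0 := div_ne_zero ha1 hc1
  unfold h4FrB_v
  rw [if_neg hw0]
  obtain ⟨hc', hw⟩ := (h4FrB_frac h hS
    (algebraMap R F a / algebraMap R F c)).choose_spec.choose_spec
  refine h4FrB_wd (F := F) h hS ?_ hc' ha hc hw.symm
  intro h0
  exact hw0 (hw.trans (div_eq_zero_iff.2 (Or.inl ((congrArg _ h0).trans (map_zero _)))))

theorem h4FrB_v_map (h : IsDB b) (hS : Sgp g S) {a : R} (ha : a ≠ 0) :
    h4FrB_v h hS (algebraMap R F a) = -(dgr b a : ℤ) := by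
  have hd := h4_domain h hS
  have h1 := h4FrB_v_div (F := F) h hS ha one_ne_zero
  rw [map_one, div_one, h4FrB_dgr_one h hS] at h1
  rw [h1]
  push_cast
  ring

theorem h4FrB_frac' (h : IsDB b) (hS : Sgp g S) {w : F} (hw : w ≠ 0) :
    ∃ a c : R, a ≠ 0 ∧ c ≠ 0 ∧ w = algebraMap R F a / algebraMap R F c := by
  obtain ⟨a, c, hc, e⟩ := h4FrB_frac h hS w
  refine ⟨a, c, ?_, hc, e⟩
  rintro rfl
  rw [map_zero, zero_div] at e
  exact hw e

theorem h4FrB_v_mul (h : IsDB b) (hS : Sgp g S) {w w' : F} (hw : w ≠ 0) (hw' : w' ≠ 0) :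
    h4FrB_v h hS (w * w') = h4FrB_v h hS w + h4FrB_v h hS w' := by
  obtain ⟨a, c, ha, hc, rfl⟩ := h4FrB_frac' h hS hw
  obtain ⟨a', c', ha', hc', rfl⟩ := h4FrB_frac' h hS hw'
  have h1 := dgr_mul h hS ha ha'
  have h2 := dgr_mul h hS hc hc'
  have e : algebraMap R F a / algebraMap R F c * (algebraMap R F a' / algebraMap R F c') =
      algebraMap R F (a * a') / algebraMap R F (c * c') := by
    rw [map_mul, map_mul, div_mul_div_comm]
  rw [e, h4FrB_v_div h hS h1.1 h2.1, h4FrB_v_div h hS ha hc, h4FrB_v_div h hS ha' hc', h1.2, h2.2]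
  push_cast
  ring

theorem h4FrB_v_add (h : IsDB b) (hS : Sgp g S) {w w' : F} (hw : w ≠ 0) (hw' : w' ≠ 0)
    (hs : w + w' ≠ 0) :
    min (h4FrB_v h hS w) (h4FrB_v h hS w') ≤ h4FrB_v h hS (w + w') := by
  obtain ⟨a, c, ha, hc, rfl⟩ := h4FrB_frac' h hS hw
  obtain ⟨a', c', ha', hc', rfl⟩ := h4FrB_frac' h hS hw'
  have hinj := IsFractionRing.injective R F
  have hc1 : algebraMap R F c ≠ 0 := fun h0 => hc (hinj (by rw [h0, map_zero]))
  have hc1' : algebraMap R F c' ≠ 0 := fun h0 => hc' (hinj (by rw [h0, map_zero]))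
  have e : algebraMap R F a / algebraMap R F c + algebraMap R F a' / algebraMap R F c' =
      algebraMap R F (a * c' + c * a') / algebraMap R F (c * c') := by
    rw [map_add, map_mul, map_mul, map_mul, div_add_div _ _ hc1 hc1']
  rw [e] at hs
  have hn : a * c' + c * a' ≠ 0 := by
    intro h0
    rw [h0, map_zero, zero_div] at hs
    exact hs rfl
  have h1 := dgr_mul h hS hc hc'
  have h2 := dgr_mul h hS ha hc'
  have h3 := dgr_mul h hS hc ha'
  have h4 := dgr_add_le b (a * c') (c * a')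
  rw [e, h4FrB_v_div h hS hn h1.1, h4FrB_v_div h hS ha hc, h4FrB_v_div h hS ha' hc', h1.2]
  rw [h2.2, h3.2] at h4
  omega

theorem h4FrB_v_one (h : IsDB b) (hS : Sgp g S) : h4FrB_v h hS (1 : F) = 0 := by
  have h1 := h4FrB_v_mul (F := F) h hS one_ne_zero one_ne_zero
  rw [mul_one] at h1
  omega

theorem h4FrB_v_inv (h : IsDB b) (hS : Sgp g S) {w : F} (hw : w ≠ 0) :
    h4FrB_v h hS w⁻¹ = - h4FrB_v h hS w := by
  have h1 := h4FrB_v_mul (F := F) h hS hw (inv_ne_zero hw)
  rw [mul_inv_cancel₀ hw, h4FrB_v_one h hS] at h1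
  omega

theorem h4FrB_v_neg (h : IsDB b) (hS : Sgp g S) {w : F} (hw : w ≠ 0) :
    h4FrB_v h hS (-w) = h4FrB_v h hS w := by
  have hn : (-1 : F) ≠ 0 := neg_ne_zero.2 one_ne_zero
  have h1 := h4FrB_v_mul (F := F) h hS hn hn
  rw [neg_mul_neg, mul_one, h4FrB_v_one h hS] at h1
  have h2 := h4FrB_v_mul (F := F) h hS hn hw
  rw [neg_one_mul] at h2
  omega

/-- the valuation ring at infinity. -/
noncomputable def h4FrB_O (h : IsDB b) (hS : Sgp g S) : ValuationSubring F where
  carrier := {w | w = 0 ∨ 0 ≤ h4FrB_v h hS w}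
  mul_mem' := by
    rintro w w' hw hw'
    by_cases h1 : w = 0
    · left; rw [h1, zero_mul]
    by_cases h2 : w' = 0
    · left; rw [h2, mul_zero]
    right
    rw [h4FrB_v_mul h hS h1 h2]
    have h3 := hw.resolve_left h1
    have h4 := hw'.resolve_left h2
    omega
  one_mem' := Or.inr (h4FrB_v_one h hS).ge
  add_mem' := by
    rintro w w' hw hw'
    by_cases h1 : w = 0
    · rw [h1, zero_add]; exact hw'
    by_cases h2 : w' = 0
    · rw [h2, add_zero]; exact hw
    by_cases h5 : w + w' = 0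
    · exact Or.inl h5
    right
    have h3 := hw.resolve_left h1
    have h4 := hw'.resolve_left h2
    exact (le_min h3 h4).trans (h4FrB_v_add h hS h1 h2 h5)
  zero_mem' := Or.inl rfl
  neg_mem' := by
    rintro w hw
    by_cases h1 : w = 0
    · left; rw [h1, neg_zero]
    right
    rw [h4FrB_v_neg h hS h1]
    exact hw.resolve_left h1
  mem_or_inv_mem' := by
    intro w
    by_cases h1 : w = 0
    · exact Or.inl (Or.inl h1)
    · rcases le_or_gt 0 (h4FrB_v h hS w) with h2 | h2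
      · exact Or.inl (Or.inr h2)
      · right
        right
        rw [h4FrB_v_inv h hS h1]
        omega

theorem h4FrB_mem (h : IsDB b) (hS : Sgp g S) (w : F) :
    w ∈ h4FrB_O h hS ↔ w = 0 ∨ 0 ≤ h4FrB_v h hS w := Iff.rfl

theorem h4FrB_isOrd (h : IsDB b) (hS : Sgp g S) :
    IsOrd (h4FrB_O (F := F) h hS) (h4FrB_v h hS) where
  zero := h4FrB_v_zero h hS
  mul := fun _ _ hx hy => h4FrB_v_mul h hS hx hy
  add := fun _ _ hx hy hxy => h4FrB_v_add h hS hx hy hxy
  mem := fun _ => Iff.rfl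
  one := by
    refine ⟨algebraMap R F (b ⟨2 * g, hS.large _ le_rfl⟩) /
      algebraMap R F (b ⟨2 * g + 1, hS.large _ (by omega)⟩), ?_⟩
    rw [h4FrB_v_div h hS (b.ne_zero _) (b.ne_zero _), dgr_basis, dgr_basis]
    push_cast
    ring

end

variable {K R F : Type*} [Field K] [IsAlgClosed K] [CommRing R] [Algebra K R] [Field F]
  [Algebra R F] [IsFractionRing R F] [Algebra K F] [IsScalarTower K R F] {S : Set ℕ} {g : ℕ}
  {b : Module.Basis S K R} [CFF K F]

/-- the place at infinity. -/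
theorem h4_place (h : IsDB b) (hS : Sgp g S) : ∃ P₀ : Plk K F,
    ∀ z : R, z ≠ 0 → ord P₀ (algebraMap R F z) = -(dgr b z : ℤ) := by
  have hcst : ∀ a : K, algebraMap K F a ∈ h4FrB_O (F := F) h hS := by
    intro a
    rw [h4FrB_mem, IsScalarTower.algebraMap_apply K R F]
    by_cases h0 : algebraMap K R a = 0
    · left; rw [h0, map_zero]
    · right
      rw [h4FrB_v_map h hS h0, dgr_algebraMap h hS]
      simp
  have htop : h4FrB_O (F := F) h hS ≠ ⊤ := by
    intro ht
    have h1 : algebraMap R F (b ⟨2 * g + 1, hS.large _ (by omega)⟩) ∈ h4FrB_O (F := F) h hS := by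
      rw [ht]
      trivial
    rw [h4FrB_mem, h4FrB_v_map h hS (b.ne_zero _), dgr_basis] at h1
    rcases h1 with h1 | h1
    · exact b.ne_zero _ (IsFractionRing.injective R F (by rw [h1, map_zero]))
    · push_cast at h1
      omega
  let P₀ : Plk K F := ⟨h4FrB_O h hS, hcst, htop⟩
  have hord : ord P₀ = h4FrB_v h hS := IsOrd.unique (ord_spec P₀) (h4FrB_isOrd h hS)
  exact ⟨P₀, fun z hz => by rw [hord, h4FrB_v_map h hS hz]⟩

end Vale.Agent.P019P
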