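import Vale.Agent.P019Q.H4Def

/-!
# Functions with poles at one place
-/

namespace Vale.Agent.P019P

open Polynomial IntermediateField

variable {k F : Type*} [Field k] [Field F] [Algebra k F] [CFF k F]

omit [CFF k F] in
theorem h4RRA_dg_single (P : Plk k F) (n : ℤ) : dg (Finsupp.single P n) = n := by
  simp [dg]

omit [CFF k F] in
theorem h4RRA_single_self (P : Plk k F) (n : ℤ) : (Finsupp.single P n : Plk k F →₀ ℤ) P = n :=
  Finsupp.single_eq_same

omit [CFF k F] in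
theorem h4RRA_single_ne {P Q : Plk k F} (h : Q ≠ P) (n : ℤ) :
    (Finsupp.single P n : Plk k F →₀ ℤ) Q = 0 := by
  classical
  rw [Finsupp.single_apply, if_neg (fun e => h e.symm)]

variable (k F) in
theorem h4_dg_can : dg (can k F) = 2 * (gen k F : ℤ) - 2 := by
  have h1 := RR (0 : Plk k F →₀ ℤ)
  have h2 := RR (can k F)
  rw [l_zero, sub_zero, map_zero] at h1
  rw [sub_self, l_zero] at h2
  push_cast at h1 h2
  linarith

theorem h4_l_ge (D : Plk k F →₀ ℤ) :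
    dg D + 1 - gen k F ≤ (Module.finrank k (LL k D) : ℤ) := by
  have h1 := RR D
  have h2 : (0 : ℤ) ≤ Module.finrank k (LL k (can k F - D)) := Int.natCast_nonneg _
  linarith

theorem h4_l_eq {D : Plk k F →₀ ℤ} (h : 2 * (gen k F : ℤ) - 1 ≤ dg D) :
    (Module.finrank k (LL k D) : ℤ) = dg D + 1 - gen k F :=
  RR_large (by rw [h4_dg_can]; linarith)

/-- functions with given order at a place. -/
theorem h4_exact {D : Plk k F →₀ ℤ} (P : Plk k F) (h : 2 * (gen k F : ℤ) ≤ dg D) :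
    ∃ z : F, z ≠ 0 ∧ (∀ Q, -D Q ≤ ord Q z) ∧ ord P z = -D P := by
  by_contra hcon
  push Not at hcon
  have hle : LL k D ≤ LL k (D - Finsupp.single P 1) := by
    intro z hz
    rcases mem_LL.1 hz with h0 | h1
    · exact mem_LL.2 (Or.inl h0)
    · by_cases hz0 : z = 0
      · exact mem_LL.2 (Or.inl hz0)
      refine mem_LL.2 (Or.inr fun Q => ?_)
      have h2 := hcon z hz0 h1
      by_cases hQ : Q = P
      · subst hQ
        rw [Finsupp.sub_apply, h4RRA_single_self]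
        have h3 := h1 Q
        omega
      · rw [Finsupp.sub_apply, h4RRA_single_ne hQ]
        have h3 := h1 Q
        omega
  have h1 := h4_l_eq (D := D) (by linarith)
  have hdg : dg (D - Finsupp.single P 1) = dg D - 1 := by
    rw [map_sub, h4RRA_dg_single]
  have h2 := h4_l_eq (D := D - Finsupp.single P 1) (by rw [hdg]; linarith)
  have h3 : Module.finrank k (LL k D) ≤ Module.finrank k (LL k (D - Finsupp.single P 1)) :=
    Submodule.finrank_mono hle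
  rw [hdg] at h2
  omega

theorem mem_LP {P₀ : Plk k F} {n : ℕ} {z : F} :
    z ∈ LP P₀ n ↔ z ∈ RO P₀ ∧ (z = 0 ∨ -(n : ℤ) ≤ ord P₀ z) := by
  constructor
  · intro h
    rcases mem_LL.1 h with h0 | h1
    · exact ⟨mem_RO.2 fun P _ => Or.inl h0, Or.inl h0⟩
    · refine ⟨mem_RO.2 fun P hP => Or.inr ?_, Or.inr ?_⟩
      · have h2 := h1 P
        rw [h4RRA_single_ne hP] at h2
        omega
      · have h2 := h1 P₀
        rwa [h4RRA_single_self] at h2
  · rintro ⟨h1, h2⟩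
    rcases h2 with h0 | h2
    · exact mem_LL.2 (Or.inl h0)
    by_cases hz : z = 0
    · exact mem_LL.2 (Or.inl hz)
    refine mem_LL.2 (Or.inr fun P => ?_)
    by_cases hP : P = P₀
    · subst hP
      rwa [h4RRA_single_self]
    · rw [h4RRA_single_ne hP, neg_zero]
      exact (mem_RO.1 h1 P hP).resolve_left hz

theorem LP_mono (P₀ : Plk k F) {m n : ℕ} (h : m ≤ n) : LP P₀ m ≤ LP P₀ n := by
  intro z hz
  obtain ⟨h1, h2⟩ := mem_LP.1 hz
  refine mem_LP.2 ⟨h1, h2.imp_right fun h3 => ?_⟩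
  omega

theorem LP_mul {P₀ : Plk k F} {m n : ℕ} {z w : F} (hz : z ∈ LP P₀ m) (hw : w ∈ LP P₀ n) :
    z * w ∈ LP P₀ (m + n) := by
  obtain ⟨h1, h2⟩ := mem_LP.1 hz
  obtain ⟨h3, h4⟩ := mem_LP.1 hw
  refine mem_LP.2 ⟨mul_mem h1 h3, ?_⟩
  rcases h2 with h2 | h2
  · left; rw [h2, zero_mul]
  rcases h4 with h4 | h4
  · left; rw [h4, mul_zero]
  by_cases hz0 : z = 0
  · left; rw [hz0, zero_mul]
  by_cases hw0 : w = 0
  · left; rw [hw0, mul_zero]
  right
  rw [ord_mul P₀ hz0 hw0]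
  push_cast
  linarith

theorem LP_pow {P₀ : Plk k F} {m : ℕ} {z : F} (hz : z ∈ LP P₀ m) (n : ℕ) :
    z ^ n ∈ LP P₀ (n * m) := by
  obtain ⟨h1, h2⟩ := mem_LP.1 hz
  refine mem_LP.2 ⟨pow_mem h1 n, ?_⟩
  rcases h2 with h2 | h2
  · rcases Nat.eq_zero_or_pos n with rfl | hn
    · right
      rw [pow_zero, ord_one]
      simp
    · left; rw [h2, zero_pow hn.ne']
  · right
    rw [ord_pow]
    push_cast
    have h3 : (0 : ℤ) ≤ n := Int.natCast_nonneg _
    have h4 := mul_le_mul_of_nonneg_left h2 h3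
    linarith

theorem LP_one (P₀ : Plk k F) (n : ℕ) : (1 : F) ∈ LP P₀ n := by
  refine mem_LP.2 ⟨one_mem _, Or.inr ?_⟩
  rw [ord_one]
  simp

theorem exists_mem_LP {P₀ : Plk k F} {z : F} (hz : z ∈ RO P₀) : ∃ n : ℕ, z ∈ LP P₀ n := by
  refine ⟨(-(ord P₀ z)).toNat, mem_LP.2 ⟨hz, Or.inr ?_⟩⟩
  have := Int.self_le_toNat (-(ord P₀ z))
  linarith

theorem h4_const {P₀ : Plk k F} {z : F} (hz : z ∈ RO P₀) (h : 0 ≤ ord P₀ z) :
    ∃ c : k, z = algebraMap k F c := by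
  apply LL_zero_le
  by_cases hz0 : z = 0
  · exact mem_LL.2 (Or.inl hz0)
  refine mem_LL.2 (Or.inr fun P => ?_)
  rw [Finsupp.zero_apply, neg_zero]
  by_cases hP : P = P₀
  · rw [hP]; exact h
  · exact (mem_RO.1 hz P hP).resolve_left hz0

theorem h4_ord_le (P₀ : Plk k F) {z : F} (hz : z ∈ RO P₀) (hz0 : z ≠ 0) : ord P₀ z ≤ 0 := by
  by_contra hcon
  push Not at hcon
  obtain ⟨c, hc⟩ := h4_const hz hcon.le
  rw [hc, ord_const] at hcon
  exact lt_irrefl _ hcon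

theorem h4RRA_RO_ord (P₀ : Plk k F) {n : ℕ} (h : 2 * gen k F ≤ n) :
    ∃ z : F, z ∈ RO P₀ ∧ z ≠ 0 ∧ ord P₀ z = -(n : ℤ) := by
  obtain ⟨z, hz0, h1, h2⟩ := h4_exact (D := Finsupp.single P₀ (n : ℤ)) P₀ (by
    rw [h4RRA_dg_single]; exact_mod_cast h)
  have h3 : z ∈ LP P₀ n := mem_LL.2 (Or.inr h1)
  rw [h4RRA_single_self] at h2
  exact ⟨z, (mem_LP.1 h3).1, hz0, h2⟩

theorem exists_ne_place (P₀ : Plk k F) : ∃ P : Plk k F, P ≠ P₀ := by
  obtain ⟨z, _, hz0, h2⟩ := h4RRA_RO_ord P₀ (n := 2 * gen k F + 1) (by omega)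
  have h3 : ord P₀ z < 0 := by
    rw [h2]; push_cast; omega
  obtain ⟨P, hP⟩ := exists_zero (k := k) (z := z) (by
    intro a ha
    rw [ha, ord_const] at h3
    exact lt_irrefl _ h3)
  refine ⟨P, fun h => ?_⟩
  rw [h] at hP
  exact lt_asymm hP h3

theorem exists_RO_ord (P₀ : Plk k F) {n : ℕ} (h : 2 * gen k F ≤ n) :
    ∃ z : F, z ∈ RO P₀ ∧ z ≠ 0 ∧ ord P₀ z = -(n : ℤ) :=
  h4RRA_RO_ord P₀ h

theorem l_LP (P₀ : Plk k F) {n : ℕ} (h : 2 * gen k F ≤ n + 1) :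
    (Module.finrank k (LP P₀ n) : ℤ) = n + 1 - gen k F := by
  have h1 := h4_l_eq (D := Finsupp.single P₀ (n : ℤ)) (by
    rw [h4RRA_dg_single]; omega)
  rwa [h4RRA_dg_single] at h1

/-- the dimension of the functions of bounded degree is at most `n + 1`. -/
theorem l_LP_le (P₀ : Plk k F) (n : ℕ) : Module.finrank k (LP P₀ n) ≤ n + 1 := by
  have h0 : (0 : Plk k F →₀ ℤ) ≤ Finsupp.single P₀ (n : ℤ) := by
    intro P
    by_cases hP : P = P₀
    · rw [hP, h4RRA_single_self, Finsupp.zero_apply]; exact Int.natCast_nonneg _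
    · rw [h4RRA_single_ne hP, Finsupp.zero_apply]
  have h1 := l_sub_le h0
  rw [l_zero, map_zero, h4RRA_dg_single] at h1
  push_cast at h1
  have h2 : (Module.finrank k (LL k (Finsupp.single P₀ (n : ℤ))) : ℤ) ≤ n + 1 := by linarith
  exact_mod_cast h2

end Vale.Agent.P019P
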