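import Vale.Agent.P019Q.H4Ring
import Vale.Agent.P019Q.H4RRA

/-!
# The functions of a ring with a degree basis have poles only at infinity
-/

namespace Vale.Agent.P019P

open Polynomial IntermediateField TensorProduct

section

variable {K R : Type*} [Field K] [CommRing R] [Algebra K R] {S : Set ℕ} {g : ℕ}
  {b : Module.Basis S K R}

theorem h4FrC_bound (v : S → ℤ) (N : ℕ) : ∃ M : ℤ, 0 ≤ M ∧ ∀ d : S, (d : ℕ) < N → v d ≤ M := by
  classical
  have h0 : ∀ n, 0 ≤ (if h : n ∈ S then |v ⟨n, h⟩| else 0) := by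
    intro n
    split_ifs
    · exact abs_nonneg _
    · exact le_rfl
  refine ⟨∑ n ∈ Finset.range N, if h : n ∈ S then |v ⟨n, h⟩| else 0,
    Finset.sum_nonneg fun n _ => h0 n, fun d hd => ?_⟩
  have h1 := Finset.single_le_sum (f := fun n => if h : n ∈ S then |v ⟨n, h⟩| else 0)
    (fun n _ => h0 n) (Finset.mem_range.2 hd)
  rw [dif_pos d.2] at h1
  exact (le_abs_self _).trans h1

theorem h4FrC_mem (N : Submodule K R) {z : R} (h : ∀ f : S, b.repr z f ≠ 0 → b f ∈ N) :
    z ∈ N := by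
  rw [← b.linearCombination_repr z, Finsupp.linearCombination_apply, Finsupp.sum]
  exact Submodule.sum_mem _ fun f hf => N.smul_mem _ (h f (Finsupp.mem_support_iff.1 hf))

theorem h4FrC_pow (h : IsDB b) (hS : Sgp g S) {z : R} (hz : z ≠ 0) (n : ℕ) :
    z ^ n ≠ 0 ∧ dgr b (z ^ n) = n * dgr b z := by
  have : IsDomain R := h4_domain h hS
  refine ⟨pow_ne_zero _ hz, ?_⟩
  induction n with
  | zero =>
    rw [pow_zero, zero_mul, ← map_one (algebraMap K R)]
    exact dgr_algebraMap h hS 1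
  | succ n ih =>
    rw [pow_succ, (dgr_mul h hS (pow_ne_zero _ hz) hz).2, ih]
    ring

end

section

variable {K R F : Type*} [Field K] [CommRing R] [Algebra K R] [Field F]
  [Algebra R F] [Algebra K F] [IsScalarTower K R F] {S : Set ℕ} {g : ℕ}
  {b : Module.Basis S K R} [CFF K F]

variable (K R F) in
/-- the functions in the ring. -/
noncomputable def h4FrC_lin : R →ₗ[K] F := (IsScalarTower.toAlgHom K R F).toLinearMap

theorem h4FrC_lin_apply (z : R) : h4FrC_lin K R F z = algebraMap R F z := rfl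

variable (R) in
/-- elements of the ring with bounded pole. -/
noncomputable def h4FrC_N (P : Plk K F) (n : ℤ) : Submodule K R :=
  (Mge P (-n)).comap (h4FrC_lin K R F)

theorem h4FrC_mem_N {P : Plk K F} {n : ℤ} {z : R} :
    z ∈ h4FrC_N R P n ↔ algebraMap R F z ∈ Mge P (-n) := Iff.rfl

theorem h4FrC_N_mono (P : Plk K F) {m n : ℤ} (h : m ≤ n) : h4FrC_N R P m ≤ h4FrC_N R P n :=
  fun _ hz => Mge_mono P (neg_le_neg h) hz

theorem h4FrC_N_mul {P : Plk K F} {m n : ℤ} {z w : R} (hz : z ∈ h4FrC_N R P m)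
    (hw : w ∈ h4FrC_N R P n) : z * w ∈ h4FrC_N R P (m + n) := by
  have h1 := mul_mem_Mge (h4FrC_mem_N.1 hz) (h4FrC_mem_N.1 hw)
  rw [h4FrC_mem_N, map_mul]
  rwa [show -(m + n) = -m + -n by ring]

/-- the growth of the poles of the basis. -/
theorem h4FrC_basis (h : IsDB b) (hS : Sgp g S) (P : Plk K F) {c M : ℤ} (hc : 0 ≤ c)
    (hx : b ⟨2 * g + 1, hS.large _ (by omega)⟩ ∈ h4FrC_N R P c)
    (hM0 : 0 ≤ M)
    (hM : ∀ d : S, (d : ℕ) < 2 * (2 * g + 1) →
      ((2 * g + 1 : ℕ) : ℤ) * -ord P (algebraMap R F (b d)) ≤ M) :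
    ∀ n : ℕ, ∀ e : S, (e : ℕ) = n →
      b e ∈ h4FrC_N R P ((c * e + M) / ((2 * g + 1 : ℕ) : ℤ)) := by
  have hm : (0 : ℤ) < ((2 * g + 1 : ℕ) : ℤ) := by positivity
  intro n
  induction n using Nat.strong_induction_on with
  | _ n ih =>
  intro e he
  by_cases hlt : (e : ℕ) < 2 * (2 * g + 1)
  · right
    have h1 := hM e hlt
    have h2 : -ord P (algebraMap R F (b e)) ≤ (c * e + M) / ((2 * g + 1 : ℕ) : ℤ) := by
      rw [Int.le_ediv_iff_mul_le hm, mul_comm]
      have : 0 ≤ c * (e : ℤ) := mul_nonneg hc (by positivity)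
      linarith
    rw [h4FrC_lin_apply]
    linarith
  · rw [not_lt] at hlt
    set N := h4FrC_N R P ((c * e + M) / ((2 * g + 1 : ℕ) : ℤ)) with hN
    have hf0 : (e : ℕ) - (2 * g + 1) ∈ S := hS.large _ (by omega)
    set f0 : S := ⟨(e : ℕ) - (2 * g + 1), hf0⟩ with hf0def
    have hf0v : (f0 : ℕ) = (e : ℕ) - (2 * g + 1) := rfl
    set x := b ⟨2 * g + 1, hS.large _ (by omega)⟩ with hxdef
    have hsum : (2 * g + 1) + (f0 : ℕ) = e := by omega
    have hy : x * b f0 ∈ N := by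
      have h1 := ih f0 (by omega) f0 rfl
      have h2 := h4FrC_N_mul hx h1
      refine h4FrC_N_mono P ?_ h2
      have h3 : c * (e : ℤ) + M = (c * (f0 : ℤ) + M) + c * ((2 * g + 1 : ℕ) : ℤ) := by
        rw [← hsum]
        push_cast
        ring
      rw [h3, Int.add_mul_ediv_right _ _ hm.ne']
      linarith
    have hyf : x * b f0 ∈ fil b e := by
      have h1 := fil_mul h (h4Ring_basis_mem b ⟨2 * g + 1, hS.large _ (by omega)⟩)
        (h4Ring_basis_mem b f0)
      rwa [show ((⟨2 * g + 1, hS.large _ (by omega)⟩ : S) : ℕ) + (f0 : ℕ) = e from hsum] at h1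
    have hw : x * b f0 - b.repr (x * b f0) e • b e ∈ N := by
      apply h4FrC_mem (b := b)
      intro f hf
      have hfe : (f : ℕ) < e := by
        by_contra hcon
        exact hf (h4Ring_repr_sub e hyf f (not_lt.1 hcon))
      refine h4FrC_N_mono P ?_ (ih f (by omega) f rfl)
      apply Int.ediv_le_ediv hm
      have h1 : c * (f : ℤ) ≤ c * (e : ℤ) :=
        mul_le_mul_of_nonneg_left (by exact_mod_cast hfe.le) hc
      linarith
    have hu : b.repr (x * b f0) e ≠ 0 :=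
      (h.top ⟨2 * g + 1, hS.large _ (by omega)⟩ f0 e hsum.symm).ne_zero
    have h1 : b.repr (x * b f0) e • b e ∈ N := by
      have h2 := N.sub_mem hy hw
      rwa [sub_sub_cancel] at h2
    have h2 := N.smul_mem (b.repr (x * b f0) e)⁻¹ h1
    rwa [smul_smul, inv_mul_cancel₀ hu, one_smul] at h2

/-- the growth of the poles. -/
theorem h4FrC_all (h : IsDB b) (hS : Sgp g S) (P : Plk K F) {c : ℤ} (hc : 0 ≤ c)
    (hx : b ⟨2 * g + 1, hS.large _ (by omega)⟩ ∈ h4FrC_N R P c) :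
    ∃ M : ℤ, ∀ z : R, z ∈ h4FrC_N R P ((c * dgr b z + M) / ((2 * g + 1 : ℕ) : ℤ)) := by
  have hm : (0 : ℤ) < ((2 * g + 1 : ℕ) : ℤ) := by positivity
  obtain ⟨M, hM0, hM⟩ := h4FrC_bound
    (fun d : S => ((2 * g + 1 : ℕ) : ℤ) * -ord P (algebraMap R F (b d))) (2 * (2 * g + 1))
  refine ⟨M, fun z => ?_⟩
  apply h4FrC_mem (b := b)
  intro f hf
  refine h4FrC_N_mono P ?_ (h4FrC_basis h hS P hc hx hM0 hM f f rfl)
  apply Int.ediv_le_ediv hm
  have h0 : (f : ℕ) ≤ dgr b z :=
    Finset.le_sup (f := fun f : S => (f : ℕ)) (Finsupp.mem_support_iff.2 hf)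
  have h1 : c * (f : ℤ) ≤ c * (dgr b z : ℤ) :=
    mul_le_mul_of_nonneg_left (by exact_mod_cast h0) hc
  linarith

/-- the power trick. -/
theorem h4FrC_star (hinj : Function.Injective (algebraMap R F)) (h : IsDB b) (hS : Sgp g S)
    (P : Plk K F) {c : ℤ} (hc : 0 ≤ c)
    (hx : b ⟨2 * g + 1, hS.large _ (by omega)⟩ ∈ h4FrC_N R P c) {z : R} (hz : z ≠ 0) :
    ((2 * g + 1 : ℕ) : ℤ) * -ord P (algebraMap R F z) ≤ c * dgr b z := by
  have hm : (0 : ℤ) < ((2 * g + 1 : ℕ) : ℤ) := by positivity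
  obtain ⟨M, hM⟩ := h4FrC_all h hS P hc hx
  by_contra hcon
  rw [not_le] at hcon
  set A := ((2 * g + 1 : ℕ) : ℤ) * -ord P (algebraMap R F z) with hA
  have key : ∀ n : ℕ, (n : ℤ) * (A - c * dgr b z) ≤ M := by
    intro n
    obtain ⟨h1, h2⟩ := h4FrC_pow h hS hz n
    have h3 := (h4FrC_mem_N.1 (hM (z ^ n))).resolve_left
      ((map_ne_zero_iff _ hinj).2 h1)
    rw [map_pow, ord_pow, h2] at h3
    have h4 : -((n : ℤ) * ord P (algebraMap R F z)) ≤
        (c * ((n * dgr b z : ℕ) : ℤ) + M) / ((2 * g + 1 : ℕ) : ℤ) := by linarith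
    rw [Int.le_ediv_iff_mul_le hm] at h4
    have h5 : (n : ℤ) * (A - c * dgr b z) =
        -((n : ℤ) * ord P (algebraMap R F z)) * ((2 * g + 1 : ℕ) : ℤ) -
          c * ((n * dgr b z : ℕ) : ℤ) := by
      rw [hA]
      push_cast
      ring
    rw [h5]
    linarith
  have h1 := key (M.toNat + 1)
  have h2 : (1 : ℤ) ≤ A - c * dgr b z := by linarith
  have h3 : ((M.toNat + 1 : ℕ) : ℤ) * 1 ≤ ((M.toNat + 1 : ℕ) : ℤ) * (A - c * dgr b z) :=
    mul_le_mul_of_nonneg_left h2 (by positivity)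
  have h4 : M ≤ (M.toNat : ℤ) := Int.self_le_toNat M
  push_cast at h1 h3
  linarith

/-- the exact orders. -/
theorem h4FrC_exact (hinj : Function.Injective (algebraMap R F)) (h : IsDB b) (hS : Sgp g S)
    (P : Plk K F) (hc : ord P (algebraMap R F (b ⟨2 * g + 1, hS.large _ (by omega)⟩)) < 0)
    {z : R} (hz : z ≠ 0) :
    ((2 * g + 1 : ℕ) : ℤ) * ord P (algebraMap R F z) =
      ord P (algebraMap R F (b ⟨2 * g + 1, hS.large _ (by omega)⟩)) * dgr b z := by
  have : IsDomain R := h4_domain h hS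
  have hm : (0 : ℤ) < ((2 * g + 1 : ℕ) : ℤ) := by positivity
  set x := b ⟨2 * g + 1, hS.large _ (by omega)⟩ with hxdef
  have hx0 : x ≠ 0 := b.ne_zero _
  have hxd : dgr b x = 2 * g + 1 := dgr_basis b _
  have hx : x ∈ h4FrC_N R P (-ord P (algebraMap R F x)) := by
    right
    rw [neg_neg, h4FrC_lin_apply]
  obtain ⟨h1, h2⟩ := h4FrC_pow h hS hz (2 * g + 1)
  obtain ⟨h3, h4⟩ := h4FrC_pow h hS hx0 (dgr b z)
  obtain ⟨l, hl0, hl⟩ := exists_dgr_sub (b := b) h1 h3 (by rw [h2, h4, hxd]; ring)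
  have hlx : algebraMap R F (l • x ^ dgr b z) ≠ 0 :=
    (map_ne_zero_iff _ hinj).2 (smul_ne_zero hl0 h3)
  have hord : ord P (algebraMap R F (l • x ^ dgr b z)) =
      dgr b z * ord P (algebraMap R F x) := by
    rw [← h4FrC_lin_apply (K := K), map_smul, h4FrC_lin_apply, Algebra.smul_def,
      ord_mul P (by rwa [Ne, map_eq_zero]) ((map_ne_zero_iff _ hinj).2 h3), ord_const, zero_add,
      map_pow, ord_pow]
  have hzm : ord P (algebraMap R F (z ^ (2 * g + 1))) = dgr b z * ord P (algebraMap R F x) := by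
    by_cases hy : z ^ (2 * g + 1) - l • x ^ dgr b z = 0
    · rw [sub_eq_zero.1 hy, hord]
    · have h5 := hl.resolve_left hy
      rw [h2] at h5
      have h6 := h4FrC_star hinj h hS P (c := -ord P (algebraMap R F x)) (by linarith) hx hy
      have h7 : algebraMap R F (z ^ (2 * g + 1) - l • x ^ dgr b z) ∈
          Mge P (ord P (algebraMap R F (l • x ^ dgr b z)) + 1) := by
        right
        rw [hord]
        have h8 : (dgr b (z ^ (2 * g + 1) - l • x ^ dgr b z) : ℤ) + 1 ≤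
            ((2 * g + 1 : ℕ) : ℤ) * dgr b z := by exact_mod_cast h5
        have h9 : (-ord P (algebraMap R F x)) *
            ((dgr b (z ^ (2 * g + 1) - l • x ^ dgr b z) : ℤ) + 1) ≤
            (-ord P (algebraMap R F x)) * (((2 * g + 1 : ℕ) : ℤ) * dgr b z) :=
          mul_le_mul_of_nonneg_left h8 (by linarith)
        by_contra hcon
        rw [not_le] at hcon
        have h10 : ord P (algebraMap R F (z ^ (2 * g + 1) - l • x ^ dgr b z)) ≤
            dgr b z * ord P (algebraMap R F x) := by omega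
        have h11 := mul_le_mul_of_nonneg_left h10 hm.le
        nlinarith
      have h8 := (ord_add_of_lt hlx h7).2
      rw [← map_add, add_sub_cancel] at h8
      rw [h8, hord]
  rw [map_pow, ord_pow] at hzm
  rw [hzm]
  ring

end

variable {K R F : Type*} [Field K] [IsAlgClosed K] [CommRing R] [Algebra K R] [Field F]
  [Algebra R F] [IsFractionRing R F] [Algebra K F] [IsScalarTower K R F] {S : Set ℕ} {g : ℕ}
  {b : Module.Basis S K R} [CFF K F] {P₀ : Plk K F}

/-- no other poles. -/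
theorem h4_RO (h : IsDB b) (hS : Sgp g S)
    (hP₀ : ∀ z : R, z ≠ 0 → ord P₀ (algebraMap R F z) = -(dgr b z : ℤ)) (z : R) :
    algebraMap R F z ∈ RO P₀ := by
  have : IsDomain R := h4_domain h hS
  have hinj : Function.Injective (algebraMap R F) := IsFractionRing.injective R F
  have hm : (0 : ℤ) < ((2 * g + 1 : ℕ) : ℤ) := by positivity
  intro P hP
  by_cases hz : z = 0
  · left
    rw [hz, map_zero]
  right
  by_cases hc : ord P (algebraMap R F (b ⟨2 * g + 1, hS.large _ (by omega)⟩)) < 0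
  · exfalso
    apply hP
    have key : ∀ z : R, z ≠ 0 → ((2 * g + 1 : ℕ) : ℤ) * ord P (algebraMap R F z) =
        -ord P (algebraMap R F (b ⟨2 * g + 1, hS.large _ (by omega)⟩)) *
          ord P₀ (algebraMap R F z) := by
      intro z hz
      rw [h4FrC_exact hinj h hS P hc hz, hP₀ z hz]
      ring
    have key2 : ∀ w : F, w ≠ 0 → ((2 * g + 1 : ℕ) : ℤ) * ord P w =
        -ord P (algebraMap R F (b ⟨2 * g + 1, hS.large _ (by omega)⟩)) * ord P₀ w := by
      intro w hw
      obtain ⟨u, v, hv, rfl⟩ := IsFractionRing.div_surjective (A := R) w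
      have hv0 : v ≠ 0 := nonZeroDivisors.ne_zero hv
      have hv1 : algebraMap R F v ≠ 0 := (map_ne_zero_iff _ hinj).2 hv0
      have hu1 : algebraMap R F u ≠ 0 := fun h1 => hw (by rw [h1, zero_div])
      have hu0 : u ≠ 0 := (map_ne_zero_iff _ hinj).1 hu1
      rw [div_eq_mul_inv, ord_mul P hu1 (inv_ne_zero hv1), ord_mul P₀ hu1 (inv_ne_zero hv1),
        ord_inv, ord_inv, mul_add, mul_add, mul_neg, mul_neg, key u hu0, key v hv0]
    apply Plk.eq_of_le
    intro w hw
    rw [mem_iff_ord] at hw ⊢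
    rcases hw with hw | hw
    · exact Or.inl hw
    by_cases hw0 : w = 0
    · exact Or.inl hw0
    right
    have h1 := key2 w hw0
    have h2 : 0 ≤ ((2 * g + 1 : ℕ) : ℤ) * ord P w := mul_nonneg hm.le hw
    rw [h1] at h2
    exact nonneg_of_mul_nonneg_right h2 (by linarith)
  · rw [not_lt] at hc
    have hx : b ⟨2 * g + 1, hS.large _ (by omega)⟩ ∈ h4FrC_N R P 0 := by
      right
      rw [neg_zero, h4FrC_lin_apply]
      exact hc
    have h1 := h4FrC_star hinj h hS P le_rfl hx hz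
    rw [zero_mul] at h1
    by_contra hcon
    rw [not_le] at hcon
    have h2 : 0 < ((2 * g + 1 : ℕ) : ℤ) * -ord P (algebraMap R F z) :=
      mul_pos hm (by linarith)
    linarith

end Vale.Agent.P019P
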