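import Vale.Agent.P019Q.H4FrA
import Vale.Agent.P019Q.H4FrB
import Vale.Agent.P019Q.H4FrC

/-!
# Models: rings with a degree basis which consist of all functions with poles only at infinity
-/

namespace Vale.Agent.P019P

open Polynomial IntermediateField TensorProduct

/-- models of function fields. -/
structure HM {K R F : Type*} [Field K] [CommRing R] [Algebra K R] [Field F] [Algebra R F]
    [Algebra K F] [CFF K F] {S : Set ℕ} (b : Module.Basis S K R) (g : ℕ) (P₀ : Plk K F) :
    Prop where
  db : IsDB b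
  sg : Sgp g S
  ord : ∀ z : R, z ≠ 0 → ord P₀ (algebraMap R F z) = -(dgr b z : ℤ)
  full : ∀ w : F, w ∈ RO P₀ → ∃ z : R, algebraMap R F z = w

variable {K R F : Type*} [Field K] [IsAlgClosed K] [CommRing R] [Algebra K R] [Field F]
  [Algebra R F] [IsFractionRing R F] [Algebra K F] [IsScalarTower K R F] {S : Set ℕ} {g : ℕ}
  {b : Module.Basis S K R} [CFF K F] {P₀ : Plk K F}

theorem HM.mem_RO (h : HM b g P₀) (z : R) : algebraMap R F z ∈ RO P₀ :=
  h4_RO h.db h.sg h.ord z

theorem HM.mem_LP_iff (h : HM b g P₀) {n : ℕ} (w : F) :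
    w ∈ LP P₀ n ↔ ∃ z ∈ fil b n, algebraMap R F z = w := by
  have hinj : Function.Injective (algebraMap R F) := IsFractionRing.injective R F
  rw [mem_LP]
  constructor
  · rintro ⟨h1, h2⟩
    obtain ⟨z, rfl⟩ := h.full w h1
    refine ⟨z, ?_, rfl⟩
    by_cases hz : z = 0
    · rw [hz]
      exact Submodule.zero_mem _
    · have hw : algebraMap R F z ≠ 0 := (map_ne_zero_iff _ hinj).2 hz
      have h3 := h2.resolve_left hw
      rw [h.ord z hz] at h3
      exact mem_fil_iff.2 (by omega)
  · rintro ⟨z, hz, rfl⟩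
    refine ⟨h.mem_RO z, ?_⟩
    by_cases hz0 : z = 0
    · left
      rw [hz0, map_zero]
    · right
      rw [h.ord z hz0]
      have h3 := mem_fil_iff.1 hz
      omega

theorem HM.mem_LP (h : HM b g P₀) {n : ℕ} {z : R} (hz : z ∈ fil b n) :
    algebraMap R F z ∈ LP P₀ n := (h.mem_LP_iff _).2 ⟨z, hz, rfl⟩

/-- the genus of a model. -/
theorem HM.gen_eq (h : HM b g P₀) : gen K F = g := by
  have hinj : Function.Injective (algebraMap R F) := IsFractionRing.injective R F
  have h1 := l_LP P₀ (n := 2 * g + 2 * gen K F) (by omega)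
  have h2 := finrank_fil b h.sg (n := 2 * g + 2 * gen K F) (by omega)
  let T : fil b (2 * g + 2 * gen K F) →ₗ[K] LP P₀ (2 * g + 2 * gen K F) :=
    ((IsScalarTower.toAlgHom K R F).toLinearMap).restrict fun z hz => h.mem_LP hz
  have hT : Function.Bijective T := by
    constructor
    · intro z w hzw
      exact Subtype.ext (hinj (congrArg Subtype.val hzw))
    · rintro ⟨w, hw⟩
      obtain ⟨z, hz, hzw⟩ := (h.mem_LP_iff w).1 hw
      exact ⟨⟨z, hz⟩, Subtype.ext hzw⟩
  have h3 := (LinearEquiv.ofBijective T hT).finrank_eq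
  rw [← h3] at h1
  omega

end Vale.Agent.P019P
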