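import Vale.Agent.P019Q.H4RRA

/-!
# Bounded Bezout identities
-/

namespace Vale.Agent.P019P

open Polynomial IntermediateField

variable {k F : Type*} [Field k] [Field F] [Algebra k F] [CFF k F]

/-- the quotient of two solutions has a bounded pole. -/
theorem h4RRC_mem (P₀ : Plk k F) {r r' s s' : F} {d d' g : ℕ} (h0 : r ≠ 0) (h0' : r' ≠ 0)
    (hd' : ord P₀ r' = -(d' : ℤ)) (h : ∀ P, P ≠ P₀ → ord P r = 0 ∨ ord P r' = 0)
    (hs : s ∈ LP P₀ (d' + g)) (hs' : s' ∈ LP P₀ (d + g)) (he : s * r + s' * r' = 0) :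
    s * r'⁻¹ ∈ LP P₀ g := by
  by_cases hs0 : s = 0
  · rw [hs0, zero_mul]; exact Submodule.zero_mem _
  have hi : r'⁻¹ ≠ 0 := inv_ne_zero h0'
  have hs1 := mem_LP.1 hs
  have hs1' := mem_LP.1 hs'
  have he' : s * r = (-s') * r' := by rw [neg_mul]; exact eq_neg_of_add_eq_zero_left he
  have hs0' : s' ≠ 0 := by
    intro h3
    rw [h3, neg_zero, zero_mul] at he'
    exact mul_ne_zero hs0 h0 he'
  refine mem_LP.2 ⟨mem_RO.2 fun P hP => Or.inr ?_, Or.inr ?_⟩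
  · rw [ord_mul P hs0 hi, ord_inv]
    have h4 : 0 ≤ ord P s := (mem_RO.1 hs1.1 P hP).resolve_left hs0
    have h5 : 0 ≤ ord P s' := (mem_RO.1 hs1'.1 P hP).resolve_left hs0'
    rcases h P hP with h6 | h6
    · have h7 := congrArg (ord P) he'
      rw [ord_mul P hs0 h0, ord_mul P (neg_ne_zero.2 hs0') h0', ord_neg, h6] at h7
      omega
    · rw [h6]; omega
  · rw [ord_mul P₀ hs0 hi, ord_inv, hd']
    have h8 := hs1.2.resolve_left hs0
    push_cast at h8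
    omega

theorem h4_bezout2 (P₀ : Plk k F) {r r' : F} {D D' : ℕ} (hr : r ∈ LP P₀ D)
    (hr' : r' ∈ LP P₀ D') (h0 : r ≠ 0) (h0' : r' ≠ 0)
    (h : ∀ P, P ≠ P₀ → ord P r = 0 ∨ ord P r' = 0) :
    ∃ s s' : F, s ∈ LP P₀ (D' + 2 * gen k F) ∧ s' ∈ LP P₀ (D + 2 * gen k F) ∧
      s * r + s' * r' = 1 := by
  have hR := (mem_LP.1 hr).1
  have hR' := (mem_LP.1 hr').1
  have h1 := h4_ord_le P₀ hR h0
  have h1' := h4_ord_le P₀ hR' h0'
  have h2 := (mem_LP.1 hr).2.resolve_left h0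
  have h2' := (mem_LP.1 hr').2.resolve_left h0'
  obtain ⟨d, hd⟩ : ∃ d : ℕ, ord P₀ r = -(d : ℤ) := ⟨(-ord P₀ r).toNat, by omega⟩
  obtain ⟨d', hd'⟩ : ∃ d : ℕ, ord P₀ r' = -(d : ℤ) := ⟨(-ord P₀ r').toNat, by omega⟩
  have hdD : d ≤ D := by omega
  have hdD' : d' ≤ D' := by omega
  have hrd : r ∈ LP P₀ d := mem_LP.2 ⟨hR, Or.inr hd.ge⟩
  have hrd' : r' ∈ LP P₀ d' := mem_LP.2 ⟨hR', Or.inr hd'.ge⟩
  obtain ⟨g, hg⟩ : ∃ g, g = gen k F := ⟨_, rfl⟩
  rw [← hg]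
  have hμ : ∀ x : LP P₀ (d' + 2 * g) × LP P₀ (d + 2 * g),
      (((LinearMap.mulRight k r) ∘ₗ (LP P₀ (d' + 2 * g)).subtype).coprod
        ((LinearMap.mulRight k r') ∘ₗ (LP P₀ (d + 2 * g)).subtype)) x ∈
        LP P₀ (d + d' + 2 * g) := by
    rintro ⟨⟨s, hs⟩, ⟨s', hs'⟩⟩
    have h3 := LP_mul hs hrd
    have h4 := LP_mul hs' hrd'
    rw [show d' + 2 * g + d = d + d' + 2 * g by ring] at h3
    rw [show d + 2 * g + d' = d + d' + 2 * g by ring] at h4
    exact Submodule.add_mem _ h3 h4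
  let μ : LP P₀ (d' + 2 * g) × LP P₀ (d + 2 * g) →ₗ[k] LP P₀ (d + d' + 2 * g) :=
    LinearMap.codRestrict _ _ hμ
  have hμv : ∀ x, ((μ x : LP P₀ (d + d' + 2 * g)) : F) = (x.1 : F) * r + (x.2 : F) * r' :=
    fun x => rfl
  have hker : ∀ x : LinearMap.ker μ, ((x.1.1 : F) * r + (x.1.2 : F) * r') = 0 := fun x => by
    rw [← hμv, LinearMap.mem_ker.1 x.2]; rfl
  have hκ : ∀ x : LinearMap.ker μ,
      ((LinearMap.mulRight k r'⁻¹) ∘ₗ (LP P₀ (d' + 2 * g)).subtype ∘ₗ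
        (LinearMap.fst k _ _) ∘ₗ (LinearMap.ker μ).subtype) x ∈ LP P₀ (2 * g) := by
    intro x
    exact h4RRC_mem P₀ h0 h0' hd' h x.1.1.2 x.1.2.2 (hker x)
  let κ : LinearMap.ker μ →ₗ[k] LP P₀ (2 * g) := LinearMap.codRestrict _ _ hκ
  have hκv : ∀ x, ((κ x : LP P₀ (2 * g)) : F) = (x.1.1 : F) * r'⁻¹ := fun x => rfl
  have hinj : Function.Injective κ := by
    intro x y hxy
    have h3 : (x.1.1 : F) = y.1.1 := by
      have h4 : (x.1.1 : F) * r'⁻¹ = (y.1.1 : F) * r'⁻¹ := by rw [← hκv, ← hκv, hxy]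
      exact mul_right_cancel₀ (inv_ne_zero h0') h4
    have h5 := hker x
    have h6 := hker y
    rw [h3] at h5
    have h7 : (x.1.2 : F) = y.1.2 :=
      mul_right_cancel₀ h0' (add_left_cancel (h5.trans h6.symm))
    exact Subtype.ext (Prod.ext (Subtype.ext h3) (Subtype.ext h7))
  have hk1 := LinearMap.finrank_le_finrank_of_injective hinj
  have hk2 := LinearMap.finrank_range_add_finrank_ker μ
  rw [Module.finrank_prod] at hk2
  have hl1 := l_LP P₀ (n := 2 * g) (by omega)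
  have hl2 := l_LP P₀ (n := d' + 2 * g) (by omega)
  have hl3 := l_LP P₀ (n := d + 2 * g) (by omega)
  have hl4 := l_LP P₀ (n := d + d' + 2 * g) (by omega)
  rw [← hg] at hl1 hl2 hl3 hl4
  push_cast at hl1 hl2 hl3 hl4
  have hle := Submodule.finrank_le (LinearMap.range μ)
  have htop : LinearMap.range μ = ⊤ := Submodule.eq_top_of_finrank_eq (by omega)
  obtain ⟨x, hx⟩ := LinearMap.range_eq_top.1 htop ⟨1, LP_one P₀ _⟩
  refine ⟨x.1, x.2, LP_mono P₀ (by omega) x.1.2, LP_mono P₀ (by omega) x.2.2, ?_⟩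
  rw [← hμv, hx]

theorem h4_bezout {ι : Type} [Fintype ι] (P₀ : Plk k F) {r : ι → F} {D : ℕ}
    (hr : ∀ i, r i ∈ LP P₀ D) (h : ∀ P, P ≠ P₀ → ∃ i, r i ≠ 0 ∧ ord P (r i) = 0) :
    ∃ s : ι → F, (∀ i, s i ∈ LP P₀ (D + 2 * gen k F)) ∧ ∑ i, s i * r i = 1 := by
  classical
  have : IsAlgClosed k := CFF.ac F
  have hinf : Infinite k := IsAlgClosed.instInfinite
  obtain ⟨P₁, hP₁⟩ := exists_ne_place P₀
  obtain ⟨i₀, hi₀, -⟩ := h P₁ hP₁
  have hT : {P : Plk k F | ord P (r i₀) ≠ 0}.Finite := dv_finite hi₀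
  let T : Type _ := {P : Plk k F // ord P (r i₀) ≠ 0 ∧ P ≠ P₀}
  have hTf : Finite T := Set.Finite.to_subtype
    (s := {P : Plk k F | ord P (r i₀) ≠ 0 ∧ P ≠ P₀}) (hT.subset fun P hP => hP.1)
  let L : (ι → k) →ₗ[k] F := Fintype.linearCombination k r
  have hL : ∀ c, L c = ∑ i, c i • r i := fun c => Fintype.linearCombination_apply k r c
  have hLs : ∀ i, L (Pi.single i 1) = r i := fun i => by
    rw [Fintype.linearCombination_apply_single, one_smul]
  let V : Option T → Submodule k (ι → k) := fun x =>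
    match x with
    | none => LinearMap.ker L
    | some P => (Mge P.1 1).comap L
  have hV : ∀ x, V x ≠ ⊤ := by
    rintro (_ | P) hx
    · have h1 : Pi.single i₀ (1 : k) ∈ V none := by rw [hx]; trivial
      rw [LinearMap.mem_ker, hLs] at h1
      exact hi₀ h1
    · obtain ⟨i, hi, hPi⟩ := h P.1 P.2.2
      have h1 : Pi.single i (1 : k) ∈ V (some P) := by rw [hx]; trivial
      rw [Submodule.mem_comap, hLs, mem_Mge] at h1
      rcases h1 with h1 | h1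
      · exact hi h1
      · omega
  obtain ⟨c, hc⟩ : ∃ c, ∀ x, c ∉ V x := by
    by_contra hcon
    push Not at hcon
    obtain ⟨x, hx⟩ := Subspace.exists_eq_top_of_iUnion_eq_univ (k := k) (p := V)
      (Set.eq_univ_of_forall fun c => Set.mem_iUnion.2 (hcon c))
    exact hV x hx
  have hc0 : L c ≠ 0 := fun h1 => hc none (LinearMap.mem_ker.2 h1)
  have hcD : L c ∈ LP P₀ D := by
    rw [hL]
    exact Submodule.sum_mem _ fun i _ => Submodule.smul_mem _ _ (hr i)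
  obtain ⟨s, s', hs, hs', he⟩ := h4_bezout2 P₀ (hr i₀) hcD hi₀ hc0 (by
    intro P hP
    by_cases h1 : ord P (r i₀) = 0
    · exact Or.inl h1
    right
    have h2 := hc (some ⟨P, h1, hP⟩)
    have h3 : 0 ≤ ord P (L c) := (mem_RO.1 (mem_LP.1 hcD).1 P hP).resolve_left hc0
    have h4 : ¬ 1 ≤ ord P (L c) := fun h5 => h2 (Or.inr h5)
    omega)
  refine ⟨fun i => c i • s' + if i = i₀ then s else 0, fun i => ?_, ?_⟩
  · refine Submodule.add_mem _ (Submodule.smul_mem _ _ hs') ?_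
    split_ifs
    · exact hs
    · exact Submodule.zero_mem _
  · rw [← he, hL, Finset.mul_sum, add_comm]
    simp_rw [add_mul]
    rw [Finset.sum_add_distrib]
    congr 1
    · exact Finset.sum_congr rfl fun i _ => by rw [smul_mul_assoc, mul_smul_comm]
    · simp_rw [ite_mul, zero_mul]
      rw [Finset.sum_ite_eq' Finset.univ i₀ fun i => s * r i, if_pos (Finset.mem_univ _)]

end Vale.Agent.P019P
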