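import Vale.Agent.P019Q.H4RRB
import Vale.Agent.P019Q.H4RRC

/-!
# Bounded data
-/

namespace Vale.Agent.P019P

open Polynomial IntermediateField

variable {k F : Type*} [Field k] [Field F] [Algebra k F] [CFF k F]

theorem h4RRD_ord_quot (P : Plk k F) {x a f : F} (hx : x ≠ 0) (ha : a ≠ 0) (hf : f ≠ 0) (ℓ : ℕ) :
    ord P (x * a ^ ℓ / f) = ord P x + ℓ * ord P a - ord P f := by
  rw [div_eq_mul_inv, ord_mul P (mul_ne_zero hx (pow_ne_zero ℓ ha)) (inv_ne_zero hf),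
    ord_mul P hx (pow_ne_zero ℓ ha), ord_pow, ord_inv]
  ring

theorem h4RRD_quot_mem {ℓ : ℕ} {P₀ : Plk k F} {x a f : F} {D n : ℕ} {E : Plk k F →₀ ℤ}
    (hx : x ∈ LP P₀ D) (ha0 : a ≠ 0) (ha : a ∈ LP P₀ n) (hf : f ≠ 0) (hfR : f ∈ RO P₀)
    (hE : ∀ P, P ≠ P₀ → E P ≤ ord P a)
    (h1 : ∀ P, P ≠ P₀ → x ≠ 0 → ord P f ≤ ord P x + ℓ * E P) :
    x * a ^ ℓ / f ∈ LP P₀ (D + ℓ * n) := by
  by_cases hx0 : x = 0
  · rw [hx0, zero_mul, zero_div]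
    exact Submodule.zero_mem _
  have hxR := ((mem_LP.1 hx).2).resolve_left hx0
  have haR := ((mem_LP.1 ha).2).resolve_left ha0
  have hf0 := h4_ord_le P₀ hfR hf
  refine mem_LP.2 ⟨?_, ?_⟩
  · refine mem_RO.2 fun P hP => Or.inr ?_
    rw [h4RRD_ord_quot P hx0 ha0 hf]
    have h2 := h1 P hP hx0
    have h3 := hE P hP
    have h4 : (ℓ : ℤ) * E P ≤ ℓ * ord P a := mul_le_mul_of_nonneg_left h3 (Int.natCast_nonneg ℓ)
    linarith
  · right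
    rw [h4RRD_ord_quot P₀ hx0 ha0 hf]
    have h4 : (ℓ : ℤ) * (-(n : ℤ)) ≤ ℓ * ord P₀ a :=
      mul_le_mul_of_nonneg_left haR (Int.natCast_nonneg ℓ)
    push_cast
    linarith

/-- existence of bounded data. -/
theorem h4_data {ℓ : ℕ} (hℓ : ℓ ≠ 0) (P₀ : Plk k F) {ι : Type} [Fintype ι] {p : ι → F} {D : ℕ}
    (hp : ∀ i, p i ∈ LP P₀ D) {f : F} (hf : f ≠ 0) (hfR : f ∈ RO P₀) {E : Plk k F →₀ ℤ}
    (hE : 0 ≤ E) (hE0 : E P₀ = 0) {e : ℕ} (he : dg E ≤ e)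
    (h1 : ∀ P, P ≠ P₀ → ∀ i, p i ≠ 0 → ord P f ≤ ord P (p i) + ℓ * E P)
    (h2 : ∀ P, P ≠ P₀ → ∃ i, p i ≠ 0 ∧ ord P f = ord P (p i) + ℓ * E P) :
    ∃ (a : Fin 2 → F) (r s : ι → Fin 2 → F), JT ℓ p f a r s ∧
      (∀ j, a j ∈ LP P₀ (e + 2 * gen k F)) ∧
      (∀ i j, r i j ∈ LP P₀ (D + ℓ * (e + 2 * gen k F))) ∧
      ∀ i j, s i j ∈ LP P₀ (D + ℓ * (e + 2 * gen k F) + 2 * gen k F) := by
  obtain ⟨a, ha1, ha2⟩ := h4_gens P₀ hE hE0 (n := e + 2 * gen k F) (by push_cast; linarith)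
  have hr : ∀ i j, p i * a j ^ ℓ / f ∈ LP P₀ (D + ℓ * (e + 2 * gen k F)) := fun i j =>
    h4RRD_quot_mem (hp i) (ha1 j).1 (ha1 j).2 hf hfR (fun P hP => (ha2 P hP).1 j)
      fun P hP => h1 P hP i
  obtain ⟨s, hs1, hs2⟩ := h4_bezout P₀ (r := fun q : ι × Fin 2 => p q.1 * a q.2 ^ ℓ / f)
    (D := D + ℓ * (e + 2 * gen k F)) (fun q => hr q.1 q.2) (by
      intro P hP
      obtain ⟨i, hi0, hi⟩ := h2 P hP
      obtain ⟨j, hj⟩ := (ha2 P hP).2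
      refine ⟨(i, j), ?_, ?_⟩
      · exact div_ne_zero (mul_ne_zero hi0 (pow_ne_zero ℓ (ha1 j).1)) hf
      · rw [h4RRD_ord_quot P hi0 (ha1 j).1 hf, hj, hi, sub_self])
  refine ⟨a, fun i j => p i * a j ^ ℓ / f, fun i j => s (i, j), ⟨?_, ?_⟩, fun j => (ha1 j).2, hr,
    fun i j => hs1 (i, j)⟩
  · intro i j
    rw [mul_div_cancel₀ _ hf]
  · rw [← hs2, Fintype.sum_prod_type]

/-- the minimum of the orders outside of `P₀`. -/
theorem h4RRD_inf (P₀ : Plk k F) {ι : Type} [Fintype ι] {p : ι → F} {D : ℕ}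
    (hp : ∀ i, p i ∈ LP P₀ D) (hp0 : ∃ i, p i ≠ 0) :
    ∃ J : Plk k F →₀ ℤ, J P₀ = 0 ∧ (∀ P, 0 ≤ J P) ∧ dg J ≤ D ∧
      (∀ P, P ≠ P₀ → ∀ i, p i ≠ 0 → J P ≤ ord P (p i)) ∧
      ∀ P, P ≠ P₀ → ∃ i, p i ≠ 0 ∧ J P = ord P (p i) := by
  classical
  obtain ⟨i₀, hi₀⟩ := hp0
  have hT : (Finset.univ.filter fun i => p i ≠ 0).Nonempty :=
    ⟨i₀, Finset.mem_filter.2 ⟨Finset.mem_univ _, hi₀⟩⟩
  have hord : ∀ P, P ≠ P₀ → ∀ i, p i ≠ 0 → 0 ≤ ord P (p i) := fun P hP i hi =>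
    ((mem_RO.1 (mem_LP.1 (hp i)).1) P hP).resolve_left hi
  let m : Plk k F → ℤ := fun P =>
    if P = P₀ then 0 else (Finset.univ.filter fun i => p i ≠ 0).inf' hT fun i => ord P (p i)
  have hm0 : m P₀ = 0 := if_pos rfl
  have hmle : ∀ P, P ≠ P₀ → ∀ i, p i ≠ 0 → m P ≤ ord P (p i) := by
    intro P hP i hi
    have h3 : m P = (Finset.univ.filter fun i => p i ≠ 0).inf' hT fun i => ord P (p i) :=
      if_neg hP
    rw [h3]
    exact Finset.inf'_le (fun i => ord P (p i)) (Finset.mem_filter.2 ⟨Finset.mem_univ i, hi⟩)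
  have hmex : ∀ P, P ≠ P₀ → ∃ i, p i ≠ 0 ∧ m P = ord P (p i) := by
    intro P hP
    have h3 : m P = (Finset.univ.filter fun i => p i ≠ 0).inf' hT fun i => ord P (p i) :=
      if_neg hP
    obtain ⟨i, hi, hi'⟩ := Finset.exists_mem_eq_inf' hT fun i => ord P (p i)
    exact ⟨i, (Finset.mem_filter.1 hi).2, h3.trans hi'⟩
  have hmnn : ∀ P, 0 ≤ m P := by
    intro P
    by_cases hP : P = P₀
    · rw [hP, hm0]
    · obtain ⟨i, hi, hi'⟩ := hmex P hP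
      rw [hi']
      exact hord P hP i hi
  have hfin : (Function.support m).Finite := by
    refine (dv_finite (k := k) hi₀).subset fun P hP => ?_
    have hP0 : P ≠ P₀ := by
      rintro rfl
      exact hP hm0
    have h3 := hmle P hP0 i₀ hi₀
    have h4 : 0 < m P := lt_of_le_of_ne (hmnn P) (Ne.symm hP)
    have h5 : ord P (p i₀) ≠ 0 := by omega
    exact h5
  have hJ : ∀ P, Finsupp.ofSupportFinite m hfin P = m P := fun P => rfl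
  refine ⟨Finsupp.ofSupportFinite m hfin, by rw [hJ, hm0], fun P => by rw [hJ]; exact hmnn P, ?_,
    fun P hP i hi => by rw [hJ]; exact hmle P hP i hi, fun P hP => by rw [hJ]; exact hmex P hP⟩
  have hle : Finsupp.ofSupportFinite m hfin ≤ dv k (p i₀) + Finsupp.single P₀ (D : ℤ) := by
    intro P
    rw [hJ, Finsupp.add_apply, dv_apply]
    by_cases hP : P = P₀
    · rw [hP, hm0, Finsupp.single_eq_same]
      have h3 := ((mem_LP.1 (hp i₀)).2).resolve_left hi₀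
      linarith
    · rw [Finsupp.single_eq_of_ne hP, add_zero]
      exact hmle P hP i₀ hi₀
  have h3 := dg_mono hle
  rwa [map_add, dg_dv, dg_sgl, zero_add] at h3

/-- the data of an ideal if the class group is `ℓ`-divisible. -/
theorem h4_div {ℓ : ℕ} (hℓ : ℓ ≠ 0) (hdiv : ∀ D : Plk k F →₀ ℤ, dg D = 0 →
      ∃ E : Plk k F →₀ ℤ, dg E = 0 ∧ D - ℓ • E ∈ prn k F) (P₀ : Plk k F) {ι : Type}
    [Fintype ι] {p : ι → F} {D : ℕ} (hp : ∀ i, p i ∈ LP P₀ D) (hp0 : ∃ i, p i ≠ 0) :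
    ∃ (f : F) (E : Plk k F →₀ ℤ), f ≠ 0 ∧ f ∈ LP P₀ (D + 2 * gen k F * ℓ) ∧ 0 ≤ E ∧
      E P₀ = 0 ∧ dg E = 2 * gen k F ∧
      (∀ P, P ≠ P₀ → ∀ i, p i ≠ 0 → ord P f ≤ ord P (p i) + ℓ * E P) ∧
      ∀ P, P ≠ P₀ → ∃ i, p i ≠ 0 ∧ ord P f = ord P (p i) + ℓ * E P := by
  obtain ⟨J, hJ0, hJn, hJd, hJ1, hJ2⟩ := h4RRD_inf P₀ hp hp0
  obtain ⟨E₁, hE₁, hz⟩ := hdiv (J - Finsupp.single P₀ (dg J)) (by
    rw [map_sub, dg_sgl, sub_self])
  obtain ⟨z, hz0, hz⟩ := hz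
  have hzP : ∀ P : Plk k F, ord P z = J P - Finsupp.single P₀ (dg J) P - ℓ * E₁ P := by
    intro P
    rw [← dv_apply (k := k), ← hz, Finsupp.sub_apply, Finsupp.sub_apply, Finsupp.smul_apply,
      nsmul_eq_mul]
  obtain ⟨h, hh0, hh1, hh2⟩ := h4_exact (D := Finsupp.single P₀ (2 * (gen k F : ℤ)) - E₁) P₀ (by
    rw [map_sub, dg_sgl, hE₁, sub_zero])
  have hfP : ∀ P : Plk k F, ord P (z * h ^ ℓ) = ord P z + ℓ * ord P h := by
    intro P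
    rw [ord_mul P hz0 (pow_ne_zero ℓ hh0), ord_pow]
  have hEP : ∀ P : Plk k F, (dv k h + (Finsupp.single P₀ (2 * (gen k F : ℤ)) - E₁)) P =
      ord P h + (Finsupp.single P₀ (2 * (gen k F : ℤ)) P - E₁ P) := by
    intro P
    rw [Finsupp.add_apply, Finsupp.sub_apply, dv_apply]
  have hne : ∀ P : Plk k F, P ≠ P₀ → ord P (z * h ^ ℓ) =
      J P + ℓ * (dv k h + (Finsupp.single P₀ (2 * (gen k F : ℤ)) - E₁)) P := by
    intro P hP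
    rw [hfP, hzP, hEP, Finsupp.single_eq_of_ne hP, Finsupp.single_eq_of_ne hP]
    ring
  have hEnn : ∀ P : Plk k F, 0 ≤ (dv k h + (Finsupp.single P₀ (2 * (gen k F : ℤ)) - E₁)) P := by
    intro P
    have h3 := hh1 P
    rw [Finsupp.sub_apply] at h3
    rw [hEP]
    linarith
  refine ⟨z * h ^ ℓ, dv k h + (Finsupp.single P₀ (2 * (gen k F : ℤ)) - E₁),
    mul_ne_zero hz0 (pow_ne_zero ℓ hh0), ?_, hEnn, ?_, ?_, ?_, ?_⟩
  · refine mem_LP.2 ⟨mem_RO.2 fun P hP => Or.inr ?_, Or.inr ?_⟩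
    · rw [hne P hP]
      exact add_nonneg (hJn P) (mul_nonneg (Int.natCast_nonneg ℓ) (hEnn P))
    · rw [hfP, hzP, hh2, Finsupp.sub_apply, Finsupp.single_eq_same, Finsupp.single_eq_same, hJ0]
      push_cast
      linarith
  · rw [hEP, hh2, Finsupp.sub_apply]
    ring
  · rw [map_add, map_sub, dg_dv, dg_sgl, hE₁]
    ring
  · intro P hP i hi
    rw [hne P hP]
    have h3 := hJ1 P hP i hi
    linarith
  · intro P hP
    obtain ⟨i, hi, hi'⟩ := hJ2 P hP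
    exact ⟨i, hi, by rw [hne P hP, hi']⟩

end Vale.Agent.P019P
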