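import Vale.Agent.P019Q.H4RRA

/-!
# Consequences of the data
-/

namespace Vale.Agent.P019P

open Polynomial IntermediateField

variable {k F : Type*} [Field k] [Field F] [Algebra k F] [CFF k F]

theorem h4RRE_nonneg {P₀ P : Plk k F} (hP : P ≠ P₀) {z : F} (hz : z ∈ RO P₀) : 0 ≤ ord P z := by
  rcases hz P hP with h | h
  · rw [h, ord_zero]
  · exact h

theorem h4RRE_le {ℓ : ℕ} {P₀ : Plk k F} {ι : Type} [Fintype ι] {p : ι → F} {f : F}
    (hf : f ≠ 0) {a : Fin 2 → F} {r s : ι → Fin 2 → F}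
    (hr : ∀ i j, r i j ∈ RO P₀) (h : JT ℓ p f a r s) {P : Plk k F}
    (hP : P ≠ P₀) (i : ι) (j : Fin 2) (hi : p i ≠ 0) (hj : a j ≠ 0) :
    ord P f ≤ ord P (p i) + ℓ * ord P (a j) := by
  have h1 := h.eq i j
  have h2 : p i * a j ^ ℓ ≠ 0 := mul_ne_zero hi (pow_ne_zero _ hj)
  have h3 : r i j ≠ 0 := by
    intro h0
    rw [h0, mul_zero] at h1
    exact h2 h1
  have h4 := congrArg (ord P) h1
  rw [ord_mul P hi (pow_ne_zero _ hj), ord_pow, ord_mul P hf h3] at h4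
  have h5 := h4RRE_nonneg hP (hr i j)
  omega

theorem h4_conv {ℓ : ℕ} {P₀ : Plk k F} {ι : Type} [Fintype ι] {p : ι → F} {f : F}
    (hf : f ≠ 0) {a : Fin 2 → F} {r s : ι → Fin 2 → F} (hℓ : ℓ ≠ 0)
    (hr : ∀ i j, r i j ∈ RO P₀) (hs : ∀ i j, s i j ∈ RO P₀) (h : JT ℓ p f a r s) {P : Plk k F}
    (hP : P ≠ P₀) :
    (∀ i j, p i ≠ 0 → a j ≠ 0 → ord P f ≤ ord P (p i) + ℓ * ord P (a j)) ∧
    ∃ i j, p i ≠ 0 ∧ a j ≠ 0 ∧ ord P f = ord P (p i) + ℓ * ord P (a j) ∧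
      ∀ i', p i' ≠ 0 → ord P (p i) ≤ ord P (p i') := by
  have hle := h4RRE_le hf hr h hP
  refine ⟨hle, ?_⟩
  have hex : ∃ i j, s i j * r i j ∉ Mge P 1 := by
    by_contra hcon
    push Not at hcon
    have h1 : (1 : F) ∈ Mge P 1 := by
      rw [← h.one]
      exact Submodule.sum_mem _ fun i _ => Submodule.sum_mem _ fun j _ => hcon i j
    rcases h1 with h1 | h1
    · exact one_ne_zero h1
    · rw [ord_one] at h1
      omega
  obtain ⟨i, j, hij⟩ := hex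
  rw [mem_Mge, not_or, not_le] at hij
  obtain ⟨h0, h1⟩ := hij
  have hs0 : s i j ≠ 0 := left_ne_zero_of_mul h0
  have hr0 : r i j ≠ 0 := right_ne_zero_of_mul h0
  rw [ord_mul P hs0 hr0] at h1
  have h2 := h4RRE_nonneg hP (hs i j)
  have h3 := h4RRE_nonneg hP (hr i j)
  have h4 : ord P (r i j) = 0 := by omega
  have h5 := h.eq i j
  have h6 : p i * a j ^ ℓ ≠ 0 := by
    rw [h5]
    exact mul_ne_zero hf hr0
  have hp0 : p i ≠ 0 := left_ne_zero_of_mul h6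
  have ha0 : a j ≠ 0 := fun h7 => right_ne_zero_of_mul h6 (by rw [h7, zero_pow hℓ])
  have h7 := congrArg (ord P) h5
  rw [ord_mul P hp0 (pow_ne_zero _ ha0), ord_pow, ord_mul P hf hr0, h4, add_zero] at h7
  refine ⟨i, j, hp0, ha0, h7.symm, fun i' hi' => ?_⟩
  have h8 := hle i' j hi' ha0
  omega

theorem h4RRE_conv {ℓ : ℕ} {P₀ : Plk k F} {f : F} (hf : f ≠ 0) {a : Fin 2 → F}
    {r s : Unit → Fin 2 → F} (hℓ : ℓ ≠ 0) (hr : ∀ i j, r i j ∈ RO P₀)
    (hs : ∀ i j, s i j ∈ RO P₀) (h : JT ℓ (fun _ : Unit => (1 : F)) f a r s) {P : Plk k F}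
    (hP : P ≠ P₀) : ∃ j, a j ≠ 0 ∧ ord P f = ℓ * ord P (a j) := by
  obtain ⟨-, -, j, -, h1, h2, -⟩ := h4_conv hf hℓ hr hs h hP
  rw [ord_one, zero_add] at h2
  exact ⟨j, h1, h2⟩

/-- all orders are divisible by `ℓ`. -/
theorem h4_dvd {ℓ : ℕ} {P₀ : Plk k F} {f : F} (hf : f ≠ 0) {a : Fin 2 → F}
    {r s : Unit → Fin 2 → F} (hℓ : ℓ ≠ 0) (hr : ∀ i j, r i j ∈ RO P₀)
    (hs : ∀ i j, s i j ∈ RO P₀) (h : JT ℓ (fun _ : Unit => (1 : F)) f a r s) (P : Plk k F) :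
    (ℓ : ℤ) ∣ ord P f := by
  classical
  have key : ∀ Q : Plk k F, Q ≠ P₀ → (ℓ : ℤ) ∣ ord Q f := by
    intro Q hQ
    obtain ⟨j, -, hj⟩ := h4RRE_conv hf hℓ hr hs h hQ
    rw [hj]
    exact dvd_mul_right _ _
  by_cases hP : P = P₀
  · subst hP
    have h1 : dg (dv k f) = ∑ Q ∈ insert P (dv k f).support, dv k f Q :=
      dg_eq_sum fun Q hQ => Finsupp.notMem_support_iff.1 fun h2 =>
        hQ (Finset.mem_insert_of_mem h2)
    rw [dg_dv, ← Finset.add_sum_erase _ _ (Finset.mem_insert_self P _), dv_apply] at h1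
    have h2 : (ℓ : ℤ) ∣ ∑ Q ∈ (insert P (dv k f).support).erase P, dv k f Q := by
      refine Finset.dvd_sum fun Q hQ => ?_
      rw [dv_apply]
      exact key Q (Finset.ne_of_mem_erase hQ)
    rw [← dvd_add_left h2, ← h1]
    exact dvd_zero _
  · exact key P hP

/-- the linear criterion for inequivalence: no solutions. -/
theorem h4_inj {ℓ : ℕ} (hℓ : 2 ≤ ℓ) {P₀ : Plk k F} {f f' : F} (hf : f ≠ 0) (hf' : f' ≠ 0)
    (h0 : ord P₀ f = ord P₀ f') {a a' : Fin 2 → F} {r s r' s' : Unit → Fin 2 → F}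
    (hr : ∀ i j, r i j ∈ RO P₀) (hs : ∀ i j, s i j ∈ RO P₀) (hr' : ∀ i j, r' i j ∈ RO P₀)
    (hs' : ∀ i j, s' i j ∈ RO P₀) (hd : JT ℓ (fun _ : Unit => (1 : F)) f a r s)
    (hd' : JT ℓ (fun _ : Unit => (1 : F)) f' a' r' s')
    (hne : ¬ ∃ h : F, f = h ^ ℓ * f') {v : F} (hv0 : ord P₀ f' ≤ ord P₀ v)
    {w : Fin 2 → Fin 2 → F} (hw : ∀ i j, w i j ∈ RO P₀)
    (heq : ∀ i j, v * a' j * a i ^ (ℓ - 1) = f * f' * w i j) : v = 0 := by
  by_contra hv
  apply hne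
  have hℓ0 : ℓ ≠ 0 := by omega
  obtain ⟨m, rfl⟩ : ∃ m, ℓ = m + 1 := ⟨ℓ - 1, by omega⟩
  rw [Nat.add_sub_cancel] at heq
  have hm : 0 < (m : ℤ) + 1 := by positivity
  have hu0 : (v / f') ^ (m + 1) * f' / f ≠ 0 :=
    div_ne_zero (mul_ne_zero (pow_ne_zero _ (div_ne_zero hv hf')) hf') hf
  have hord : ∀ P : Plk k F, ord P ((v / f') ^ (m + 1) * f' / f) =
      (m + 1) * (ord P v - ord P f') + ord P f' - ord P f := by
    intro P
    rw [div_eq_mul_inv, ord_mul P (mul_ne_zero (pow_ne_zero _ (div_ne_zero hv hf')) hf')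
      (inv_ne_zero hf), ord_mul P (pow_ne_zero _ (div_ne_zero hv hf')) hf', ord_pow,
      div_eq_mul_inv, ord_mul P hv (inv_ne_zero hf'), ord_inv, ord_inv]
    push_cast
    ring
  have hu : (v / f') ^ (m + 1) * f' / f ∈ LL k (0 : Plk k F →₀ ℤ) := by
    right
    intro P
    rw [Finsupp.zero_apply, neg_zero, hord P]
    by_cases hP : P = P₀
    · subst hP
      rw [h0]
      have : 0 ≤ ((m : ℤ) + 1) * (ord P v - ord P f') := mul_nonneg hm.le (by omega)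
      omega
    · obtain ⟨i, hi0, hi⟩ := h4RRE_conv hf hℓ0 hr hs hd hP
      obtain ⟨j, hj0, hj⟩ := h4RRE_conv hf' hℓ0 hr' hs' hd' hP
      have h1 := heq i j
      have h2 : v * a' j * a i ^ m ≠ 0 := mul_ne_zero (mul_ne_zero hv hj0) (pow_ne_zero _ hi0)
      have h3 : w i j ≠ 0 := by
        intro h4
        rw [h4, mul_zero] at h1
        exact h2 h1
      have h4 := congrArg (ord P) h1
      rw [ord_mul P (mul_ne_zero hv hj0) (pow_ne_zero _ hi0), ord_mul P hv hj0, ord_pow,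
        ord_mul P (mul_ne_zero hf hf') h3, ord_mul P hf hf'] at h4
      have h5 := h4RRE_nonneg hP (hw i j)
      push_cast at hi hj
      have h6 : 0 ≤ ((m : ℤ) + 1) * (ord P v + ord P (a' j) + m * ord P (a i) - ord P f -
        ord P f') := mul_nonneg hm.le (by omega)
      have h7 : ((m : ℤ) + 1) * (ord P v + ord P (a' j) + m * ord P (a i) - ord P f -
        ord P f') = (m + 1) * (ord P v - ord P f') + ord P f' - ord P f := by
        rw [hi, hj]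
        ring
      rw [← h7]
      exact h6
  obtain ⟨c, hc⟩ := LL_zero_le hu
  have hac : IsAlgClosed k := CFF.ac F
  obtain ⟨d, hd1⟩ := IsAlgClosed.exists_pow_nat_eq c (Nat.succ_pos m)
  have hc0 : algebraMap k F c ≠ 0 := by rw [← hc]; exact hu0
  rw [← hd1, map_pow] at hc hc0
  have hd0 : algebraMap k F d ≠ 0 := fun h1 => hc0 (by rw [h1, zero_pow (Nat.succ_ne_zero m)])
  refine ⟨v / f' / algebraMap k F d, ?_⟩
  rw [div_eq_iff hf] at hc
  rw [div_pow, div_mul_eq_mul_div, hc, Nat.succ_eq_add_one,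
    mul_div_cancel_left₀ _ (pow_ne_zero _ hd0)]

/-- the linear criterion for inequivalence: solutions for equivalent functions. -/
theorem h4_equiv {ℓ : ℕ} (hℓ : 2 ≤ ℓ) {P₀ : Plk k F} {f f' : F} (hf : f ≠ 0) (hf' : f' ≠ 0)
    (hfR : f ∈ RO P₀) (hfR' : f' ∈ RO P₀) {n : ℕ} (h0 : ord P₀ f = -(n : ℤ))
    (h0' : ord P₀ f' = -(n : ℤ)) {a a' : Fin 2 → F} {r s r' s' : Unit → Fin 2 → F}
    (hr : ∀ i j, r i j ∈ RO P₀) (hr' : ∀ i j, r' i j ∈ RO P₀)
    (hd : JT ℓ (fun _ : Unit => (1 : F)) f a r s)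
    (hd' : JT ℓ (fun _ : Unit => (1 : F)) f' a' r' s') {D : ℕ} (ha : ∀ j, a j ∈ LP P₀ D)
    (ha' : ∀ j, a' j ∈ LP P₀ D) {h : F} (hh : f = h ^ ℓ * f') :
    ∃ v : F, v ∈ LP P₀ n ∧ v ≠ 0 ∧ ∃ w : Fin 2 → Fin 2 → F,
      (∀ i j, w i j ∈ LP P₀ (n + ℓ * D)) ∧
      ∀ i j, v * a' j * a i ^ (ℓ - 1) = f * f' * w i j := by
  obtain ⟨m, rfl⟩ : ∃ m, ℓ = m + 1 := ⟨ℓ - 1, by omega⟩
  rw [Nat.add_sub_cancel]
  have hm0 : m ≠ 0 := by omega
  have hm : 0 < (m : ℤ) + 1 := by positivity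
  have hh0 : h ≠ 0 := by
    rintro rfl
    rw [zero_pow (Nat.succ_ne_zero m), zero_mul] at hh
    exact hf hh
  have hord : ∀ P : Plk k F, ord P f = (m + 1) * ord P h + ord P f' := by
    intro P
    have h1 := congrArg (ord P) hh
    rw [ord_mul P (pow_ne_zero _ hh0) hf', ord_pow] at h1
    push_cast at h1
    exact h1
  have hhP : ord P₀ h = 0 := by
    have h1 := hord P₀
    rw [h0, h0'] at h1
    have h2 : ((m : ℤ) + 1) * ord P₀ h = 0 := by omega
    rcases mul_eq_zero.1 h2 with h3 | h3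
    · omega
    · exact h3
  have hpos : ∀ x : ℤ, 0 ≤ ((m : ℤ) + 1) * x → 0 ≤ x := fun x hx =>
    nonneg_of_mul_nonneg_right hx hm
  refine ⟨h * f', ?_, mul_ne_zero hh0 hf', fun i j => h * a' j * a i ^ m / f, ?_, ?_⟩
  · rw [mem_LP]
    refine ⟨fun P hP => Or.inr ?_, Or.inr ?_⟩
    · have h1 := h4RRE_nonneg hP hfR
      have h2 := h4RRE_nonneg hP hfR'
      rw [ord_mul P hh0 hf']
      apply hpos
      have h3 : ((m : ℤ) + 1) * (ord P h + ord P f') = ord P f + m * ord P f' := by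
        rw [hord P]
        ring
      rw [h3]
      positivity
    · rw [ord_mul P₀ hh0 hf', hhP, h0', zero_add]
  · intro i j
    change h * a' j * a i ^ m / f ∈ LP P₀ (n + (m + 1) * D)
    by_cases hi : a i = 0
    · rw [hi, zero_pow hm0, mul_zero, zero_div]
      exact zero_mem _
    by_cases hj : a' j = 0
    · rw [hj, mul_zero, zero_mul, zero_div]
      exact zero_mem _
    have how : ∀ P : Plk k F, ord P (h * a' j * a i ^ m / f) =
        ord P h + ord P (a' j) + m * ord P (a i) - ord P f := by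
      intro P
      rw [div_eq_mul_inv, ord_mul P (mul_ne_zero (mul_ne_zero hh0 hj) (pow_ne_zero _ hi))
        (inv_ne_zero hf), ord_mul P (mul_ne_zero hh0 hj) (pow_ne_zero _ hi),
        ord_mul P hh0 hj, ord_pow, ord_inv]
      ring
    rw [mem_LP]
    refine ⟨fun P hP => Or.inr ?_, Or.inr ?_⟩
    · have h1 := h4RRE_le hf hr hd hP () i one_ne_zero hi
      have h2 := h4RRE_le hf' hr' hd' hP () j one_ne_zero hj
      rw [ord_one, zero_add] at h1 h2
      push_cast at h1 h2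
      rw [how P]
      apply hpos
      have h3 : ((m : ℤ) + 1) * (ord P h + ord P (a' j) + m * ord P (a i) - ord P f) =
          ((m + 1) * ord P (a' j) - ord P f') + m * ((m + 1) * ord P (a i) - ord P f) := by
        have h4 := hord P
        linear_combination (-1 : ℤ) * h4
      rw [h3]
      have h5 : 0 ≤ (m : ℤ) * ((m + 1) * ord P (a i) - ord P f) :=
        mul_nonneg (by positivity) (by omega)
      omega
    · have h1 := ((mem_LP.1 (ha i)).2).resolve_left hi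
      have h2 := ((mem_LP.1 (ha' j)).2).resolve_left hj
      rw [how P₀, hhP, h0]
      have h3 : (m : ℤ) * (-(D : ℤ)) ≤ m * ord P₀ (a i) :=
        mul_le_mul_of_nonneg_left h1 (by positivity)
      push_cast
      have h4 : ((m : ℤ) + 1) * D = m * D + D := by ring
      rw [h4]
      rw [mul_neg] at h3
      omega
  · intro i j
    field_simp

end Vale.Agent.P019P
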