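import Vale.Agent.P019Q.H4TDef
import Vale.Agent.P019Q.H4FrD
import Vale.Agent.P019Q.H4RRD
import Vale.Agent.P019Q.H4RRE

/-!
# Divisibility
-/

namespace Vale.Agent.P019P

open Polynomial IntermediateField TensorProduct

variable {K R F : Type*} [Field K] [IsAlgClosed K] [CommRing R] [Algebra K R] [Field F]
  [Algebra R F] [IsFractionRing R F] [Algebra K F] [IsScalarTower K R F] {S : Set ℕ} {g : ℕ}
  {b : Module.Basis S K R} [CFF K F] {P₀ : Plk K F}

/-- coordinates of functions of bounded degree. -/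
theorem h4DA_exists (h : HM b g P₀) {n D : ℕ} (hn : n ≤ D) {w : F} (hw : w ∈ LP P₀ n) :
    ∃ t : SD S D → K, algebraMap R F (el b t) = w := by
  obtain ⟨z, hz, hzw⟩ := (h.mem_LP_iff w).1 (LP_mono P₀ hn hw)
  obtain ⟨t, ht⟩ := exists_el hz
  exact ⟨t, by rw [← ht, hzw]⟩

/-- divisible class groups give solutions. -/
theorem QD_of (h : HM b g P₀) {ℓ : ℕ} (hℓ : ℓ ≠ 0)
    (hdiv : ∀ D : Plk K F →₀ ℤ, dg D = 0 → ∃ E : Plk K F →₀ ℤ, dg E = 0 ∧ D - ℓ • E ∈ prn K F)
    {M D : ℕ} {p : Fin 2 → R} (hp : ∀ i, p i ∈ fil b M) (hp0 : ∃ i, p i ≠ 0)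
    (hD : D = M + ℓ * (4 * g) + 2 * g) : ∃ t : ID S D → K, QD b ℓ p t := by
  classical
  have hg := h.gen_eq
  have hinj : Function.Injective (algebraMap R F) := IsFractionRing.injective R F
  have hp' : ∀ i, algebraMap R F (p i) ∈ LP P₀ M := fun i => h.mem_LP (hp i)
  have hp0' : ∃ i, algebraMap R F (p i) ≠ 0 := by
    obtain ⟨i, hi⟩ := hp0
    exact ⟨i, fun h0 => hi (hinj (by rw [h0, map_zero]))⟩
  obtain ⟨f, E, hf, hfL, hE, hE0, hEd, h1, h2⟩ := h4_div hℓ hdiv P₀ hp' hp0'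
  obtain ⟨a, r, s, hJ, ha, hr, hs⟩ := h4_data hℓ P₀ hp' hf (mem_LP.1 hfL).1 hE hE0
    (e := 2 * g) (by rw [hEd, hg]; push_cast; exact le_rfl) h1 h2
  have hl1 : 1 * (4 * g) ≤ ℓ * (4 * g) := Nat.mul_le_mul_right _ (Nat.one_le_iff_ne_zero.2 hℓ)
  have hn1 : M + 2 * gen K F * ℓ ≤ D := by
    rw [hg, hD]
    have : 2 * g * ℓ ≤ ℓ * (4 * g) := by
      rw [mul_comm]
      exact Nat.mul_le_mul_left _ (by omega)
    omega
  have hn2 : 2 * g + 2 * gen K F ≤ D := by rw [hg, hD]; omega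
  have hn3 : M + ℓ * (2 * g + 2 * gen K F) ≤ D := by
    rw [hg, hD, show 2 * g + 2 * g = 4 * g by ring]; omega
  have hn4 : M + ℓ * (2 * g + 2 * gen K F) + 2 * gen K F ≤ D := by
    rw [hg, hD, show 2 * g + 2 * g = 4 * g by ring]
  obtain ⟨tf, htf⟩ := h4DA_exists h hn1 hfL
  choose ta hta using fun j => h4DA_exists h hn2 (ha j)
  choose tr htr using fun i j => h4DA_exists h hn3 (hr i j)
  choose ts hts using fun i j => h4DA_exists h hn4 (hs i j)
  have hd0 : ∃ d, tf d ≠ 0 := by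
    by_contra hcon
    push Not at hcon
    apply hf
    rw [← htf]
    have : el b tf = 0 := by
      unfold el
      exact Finset.sum_eq_zero fun d _ => by rw [hcon d, zero_smul]
    rw [this, map_zero]
  obtain ⟨d₀, hd₀⟩ := hd0
  refine ⟨Sum.elim (fun x => if x.1 = 0 then tf x.2.2.2 else if x.1 = 1 then ta x.2.2.1 x.2.2.2
    else if x.1 = 2 then tr x.2.1 x.2.2.1 x.2.2.2 else ts x.2.1 x.2.2.1 x.2.2.2)
    (fun d => if d = d₀ then (tf d₀)⁻¹ else 0), ⟨⟨fun i j => hinj ?_, hinj ?_⟩, ?_⟩⟩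
  · rw [map_mul, map_mul, map_pow]
    change algebraMap R F (p i) * algebraMap R F (el b (ta j)) ^ ℓ =
      algebraMap R F (el b tf) * algebraMap R F (el b (tr i j))
    rw [hta, htf, htr]
    exact hJ.eq i j
  · rw [map_one, map_sum, ← hJ.one]
    refine Finset.sum_congr rfl fun i _ => ?_
    rw [map_sum]
    refine Finset.sum_congr rfl fun j _ => ?_
    rw [map_mul]
    change algebraMap R F (el b (ts i j)) * algebraMap R F (el b (tr i j)) = _
    rw [hts, htr]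
  · rw [Finset.sum_eq_single d₀]
    · change (if d₀ = d₀ then (tf d₀)⁻¹ else 0) * tf d₀ = 1
      rw [if_pos rfl, inv_mul_cancel₀ hd₀]
    · intro d _ hd
      change (if d = d₀ then (tf d₀)⁻¹ else 0) * tf d = 0
      rw [if_neg hd, zero_mul]
    · intro hd
      exact absurd (Finset.mem_univ _) hd

/-- solutions give functions. -/
theorem of_QD (h : HM b g P₀) {ℓ : ℕ} (hℓ : ℓ ≠ 0) {D : ℕ} {p : Fin 2 → R} {t : ID S D → K}
    (ht : QD b ℓ p t) : ∃ f : F, f ≠ 0 ∧ ∀ P : Plk K F, P ≠ P₀ → ∃ i, p i ≠ 0 ∧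
      (∀ i', p i' ≠ 0 → ord P (algebraMap R F (p i)) ≤ ord P (algebraMap R F (p i'))) ∧
      (ℓ : ℤ) ∣ ord P f - ord P (algebraMap R F (p i)) := by
  have hinj : Function.Injective (algebraMap R F) := IsFractionRing.injective R F
  have hmap : ∀ z : R, z ≠ 0 ↔ algebraMap R F z ≠ 0 := fun z =>
    not_congr (map_eq_zero_iff _ hinj).symm
  have hf : algebraMap R F (uD b t 0 0 0) ≠ 0 := by
    rw [← hmap]
    intro h0
    have h1 := ht.one
    rw [Finset.sum_eq_zero] at h1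
    · exact zero_ne_one h1
    · intro d _
      have h2 := repr_el b (fun d => t (Sum.inl (0, 0, 0, d))) d
      change b.repr (uD b t 0 0 0) d.ix = _ at h2
      rw [h0, map_zero] at h2
      rw [← h2]
      exact mul_zero _
  refine ⟨_, hf, fun P hP => ?_⟩
  have hJ : JT ℓ (fun i => algebraMap R F (p i)) (algebraMap R F (uD b t 0 0 0))
      (fun j => algebraMap R F (uD b t 1 0 j)) (fun i j => algebraMap R F (uD b t 2 i j))
      (fun i j => algebraMap R F (uD b t 3 i j)) := by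
    refine ⟨fun i j => ?_, ?_⟩
    · rw [← map_pow, ← map_mul, ← map_mul]
      exact congrArg _ (ht.jt.eq i j)
    · have h1 := congrArg (algebraMap R F) ht.jt.one
      rw [map_one, map_sum] at h1
      rw [← h1]
      refine Finset.sum_congr rfl fun i _ => ?_
      rw [map_sum]
      exact Finset.sum_congr rfl fun j _ => (map_mul _ _ _).symm
  obtain ⟨-, i, j, hi, hj, h1, h2⟩ := h4_conv hf hℓ (fun i j => h.mem_RO _)
    (fun i j => h.mem_RO _) hJ hP
  refine ⟨i, (hmap _).2 hi, fun i' hi' => h2 i' ((hmap _).1 hi'), ?_⟩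
  rw [h1, add_sub_cancel_left]
  exact Dvd.intro _ rfl

end Vale.Agent.P019P
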