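import Vale.Agent.P019Q.H4Def

/-!
# The systems of equations
-/

namespace Vale.Agent.P019P

open Polynomial IntermediateField TensorProduct

section

variable {A R : Type*} [CommRing A] [CommRing R] [Algebra A R] {S : Set ℕ}

/-! ### Inequivalent classes -/

/-- the unknowns of the linear criterion. -/
abbrev LU (S : Set ℕ) (n D : ℕ) : Type := SD S n ⊕ (Fin 2 × Fin 2 × SD S D)

/-- the equations of the linear criterion. -/
abbrev LV (S : Set ℕ) (D : ℕ) : Type := Fin 2 × Fin 2 × SD S D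

/-- the matrix of the linear criterion. -/
noncomputable def Lam (b : Module.Basis S A R) (ℓ n D E : ℕ) (f f' : R) (a a' : Fin 2 → R) :
    LU S n D → LV S E → A
  | Sum.inl d, e => b.repr (b d.ix * a' e.2.1 * a e.1 ^ (ℓ - 1)) e.2.2.ix
  | Sum.inr d, e => if d.1 = e.1 ∧ d.2.1 = e.2.1 then -b.repr (f * f' * b d.2.2.ix) e.2.2.ix
      else 0

theorem lam_inl (b : Module.Basis S A R) (ℓ n D E : ℕ) (f f' : R) (a a' : Fin 2 → R) (d : _)
    (e : LV S E) : Lam b ℓ n D E f f' a a' (Sum.inl d) e =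
      b.repr (b d.ix * a' e.2.1 * a e.1 ^ (ℓ - 1)) e.2.2.ix := by
  simp only [Lam]

theorem lam_inr (b : Module.Basis S A R) (ℓ n D E : ℕ) (f f' : R) (a a' : Fin 2 → R) (d : _)
    (e : LV S E) : Lam b ℓ n D E f f' a a' (Sum.inr d) e =
      if d.1 = e.1 ∧ d.2.1 = e.2.1 then -b.repr (f * f' * b d.2.2.ix) e.2.2.ix else 0 := by
  simp only [Lam]

/-- the index set for `N` inequivalent classes. -/
abbrev IT (S : Set ℕ) (N n D E E' : ℕ) : Type :=
  (Fin N × Fin 4 × Fin 2 × SD S D) ⊕ (Fin N × Fin N × LU S n E × LV S E')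

/-- an unknown function. -/
noncomputable def uT (b : Module.Basis S A R) {N n D E E' : ℕ} (t : IT S N n D E E' → A)
    (i : Fin N) (m : Fin 4) (j : Fin 2) : R :=
  el b fun d => t (Sum.inl (i, m, j, d))

/-- the equations for `N` inequivalent classes: the functions `uT t i 0 0` have degree `n`, they
have the data `uT t i m j`, `m = 1, 2, 3`, and the matrices of the linear criterion have left
inverses. -/
structure QT (b : Module.Basis S A R) (ℓ N n D E E' : ℕ) (t : IT S N n D E E' → A) : Prop where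
  deg : ∀ (i : Fin N) (d : SD S D), n ≤ (d.1 : ℕ) →
    t (Sum.inl (i, 0, 0, d)) = if (d.1 : ℕ) = n then 1 else 0
  jt : ∀ i : Fin N, JT ℓ (fun _ : Unit => (1 : R)) (uT b t i 0 0) (fun j => uT b t i 1 j)
    (fun _ j => uT b t i 2 j) fun _ j => uT b t i 3 j
  inv : ∀ i i' : Fin N, i ≠ i' → ∀ c c' : LU S n E,
    ∑ e : LV S E', t (Sum.inr (i, i', c, e)) * Lam b ℓ n E E' (uT b t i 0 0) (uT b t i' 0 0)
      (fun j => uT b t i 1 j) (fun j => uT b t i' 1 j) c' e = if c = c' then 1 else 0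

/-! ### Divisibility -/

/-- the index set for divisibility. -/
abbrev ID (S : Set ℕ) (D : ℕ) : Type := (Fin 4 × Fin 2 × Fin 2 × SD S D) ⊕ SD S D

/-- an unknown function. -/
noncomputable def uD (b : Module.Basis S A R) {D : ℕ} (t : ID S D → A) (m : Fin 4)
    (i j : Fin 2) : R :=
  el b fun d => t (Sum.inl (m, i, j, d))

/-- the equations for divisibility: the function `uD t 0 0 0` is nonzero and has the data
`uD t m i j`, `m = 1, 2, 3`. -/
structure QD (b : Module.Basis S A R) (ℓ : ℕ) {D : ℕ} (p : Fin 2 → R) (t : ID S D → A) :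
    Prop where
  jt : JT ℓ p (uD b t 0 0 0) (fun j => uD b t 1 0 j) (fun i j => uD b t 2 i j)
    fun i j => uD b t 3 i j
  one : ∑ d : SD S D, t (Sum.inr d) * t (Sum.inl (0, 0, 0, d)) = 1

/-! ### Missing functions -/

/-- the index set for missing functions. -/
abbrev IN (S : Set ℕ) (g D : ℕ) : Type := (Fin (g + 3) × SD S D) ⊕ SD S (2 * D)

/-- an unknown function. -/
noncomputable def uN (b : Module.Basis S A R) {g D : ℕ} (t : IN S g D → A)
    (m : Fin (g + 3)) : R :=
  el b fun d => t (Sum.inl (m, d))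

/-- the equations for missing functions: `a = uN t (g + 1)` and `q = uN t (g + 2)` satisfy a
homogeneous monic equation, and a functional kills the multiples of `q` but not `a`. -/
structure QN (b : Module.Basis S A R) {g D : ℕ} (t : IN S g D → A) : Prop where
  eq : uN b t ⟨g + 1, by omega⟩ ^ (g + 1) + ∑ m : Fin (g + 1), uN b t ⟨m, by omega⟩ *
    uN b t ⟨g + 1, by omega⟩ ^ (m : ℕ) * uN b t ⟨g + 2, by omega⟩ ^ (g + 1 - (m : ℕ)) = 0
  ann : ∀ e : SD S D, ∑ d : SD S (2 * D), t (Sum.inr d) *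
    b.repr (uN b t ⟨g + 2, by omega⟩ * b e.ix) d.ix = 0
  one : ∑ d : SD S (2 * D), t (Sum.inr d) * b.repr (uN b t ⟨g + 1, by omega⟩) d.ix = 1

end

end Vale.Agent.P019P
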