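import Vale.Agent.P019Q.H4SysR
import Vale.Agent.P019Q.H4TDef

/-!
# The equations for divisibility and for missing functions are systems
-/

universe u

namespace Vale.Agent.P019P

open Polynomial IntermediateField TensorProduct

variable {A₀ : Type u} [CommRing A₀] {R₀ : Type u} [CommRing R₀] [Algebra A₀ R₀] {S : Set ℕ}

theorem h4DSys_congr {ι : Type}
    {Q Q' : ∀ (A : Type u) [CommRing A] [Algebra A₀ A], (ι → A) → Prop} (h : IsSys Q)
    (hQ : ∀ (A : Type u) [CommRing A] [Algebra A₀ A] (t : ι → A), Q' A t ↔ Q A t) :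
    IsSys Q' := by
  obtain ⟨E, hE⟩ := h
  exact ⟨E, fun A _ _ t => (hQ A t).trans (hE A t)⟩

theorem h4DSys_uD {A A' : Type u} [CommRing A] [Algebra A₀ A] [CommRing A'] [Algebra A₀ A']
    (φ : A →ₐ[A₀] A') (b : Module.Basis S A₀ R₀) {D : ℕ} (t : ID S D → A) (m : Fin 4)
    (i j : Fin 2) :
    bc R₀ φ (uD (b.baseChange A) t m i j) = uD (b.baseChange A') (fun x => φ (t x)) m i j :=
  bc_el φ b fun d => t (Sum.inl (m, i, j, d))

theorem h4DSys_uN {A A' : Type u} [CommRing A] [Algebra A₀ A] [CommRing A'] [Algebra A₀ A']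
    (φ : A →ₐ[A₀] A') (b : Module.Basis S A₀ R₀) {g D : ℕ} (t : IN S g D → A)
    (m : Fin (g + 3)) :
    bc R₀ φ (uN (b.baseChange A) t m) = uN (b.baseChange A') (fun x => φ (t x)) m :=
  bc_el φ b fun d => t (Sum.inl (m, d))

theorem isSys_QD (b : Module.Basis S A₀ R₀) (ℓ D : ℕ) (p : Fin 2 → R₀) :
    IsSys fun (A : Type u) [CommRing A] [Algebra A₀ A] (t : ID S D → A) =>
      QD (b.baseChange A) ℓ (fun i => (1 : A) ⊗ₜ[A₀] p i) t := by
  have h1 : ∀ ij : Fin 2 × Fin 2,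
      IsSys fun (A : Type u) [CommRing A] [Algebra A₀ A] (t : ID S D → A) =>
        ((1 : A) ⊗ₜ[A₀] p ij.1) * uD (b.baseChange A) t 1 0 ij.2 ^ ℓ =
          uD (b.baseChange A) t 0 0 0 * uD (b.baseChange A) t 2 ij.1 ij.2 := fun ij =>
    isSys_ring b
      (fun A _ _ t => ((1 : A) ⊗ₜ[A₀] p ij.1) * uD (b.baseChange A) t 1 0 ij.2 ^ ℓ)
      (fun A _ _ t => uD (b.baseChange A) t 0 0 0 * uD (b.baseChange A) t 2 ij.1 ij.2)
      (fun A A' _ _ _ _ φ t => by
        rw [map_mul, map_pow, bc_tmul, map_one, h4DSys_uD])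
      (fun A A' _ _ _ _ φ t => by
        rw [map_mul, h4DSys_uD, h4DSys_uD])
  have h2 : IsSys fun (A : Type u) [CommRing A] [Algebra A₀ A] (t : ID S D → A) =>
      ∑ i : Fin 2, ∑ j : Fin 2, uD (b.baseChange A) t 3 i j * uD (b.baseChange A) t 2 i j = 1 :=
    isSys_ring b
      (fun A _ _ t =>
        ∑ i : Fin 2, ∑ j : Fin 2, uD (b.baseChange A) t 3 i j * uD (b.baseChange A) t 2 i j)
      (fun A _ _ t => 1)
      (fun A A' _ _ _ _ φ t => by
        simp only [map_sum, map_mul, h4DSys_uD])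
      (fun A A' _ _ _ _ φ t => by rw [map_one])
  have h3 : IsSys fun (A : Type u) [CommRing A] [Algebra A₀ A] (t : ID S D → A) =>
      ∑ d : SD S D, t (Sum.inr d) * t (Sum.inl (0, 0, 0, d)) = 1 :=
    isSys_eq
      (fun A _ _ t => ∑ d : SD S D, t (Sum.inr d) * t (Sum.inl (0, 0, 0, d)))
      (fun A _ _ t => 1)
      (fun A A' _ _ _ _ φ t => by simp only [map_sum, map_mul])
      (fun A A' _ _ _ _ φ t => by rw [map_one])
  refine h4DSys_congr ((IsSys.all h1).and (h2.and h3)) fun A _ _ t => ?_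
  constructor
  · rintro ⟨⟨ha, hb⟩, hc⟩
    exact ⟨fun ij => ha ij.1 ij.2, hb, hc⟩
  · rintro ⟨ha, hb, hc⟩
    exact ⟨⟨fun i j => ha (i, j), hb⟩, hc⟩

theorem h4DSys_QN1 (b : Module.Basis S A₀ R₀) (g D : ℕ) :
    IsSys fun (A : Type u) [CommRing A] [Algebra A₀ A] (t : IN S g D → A) =>
      uN (b.baseChange A) t ⟨g + 1, by omega⟩ ^ (g + 1) +
        ∑ m : Fin (g + 1), uN (b.baseChange A) t ⟨m, by omega⟩ *
          uN (b.baseChange A) t ⟨g + 1, by omega⟩ ^ (m : ℕ) *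
          uN (b.baseChange A) t ⟨g + 2, by omega⟩ ^ (g + 1 - (m : ℕ)) = 0 :=
  isSys_ring b
    (fun A _ _ t => uN (b.baseChange A) t ⟨g + 1, by omega⟩ ^ (g + 1) +
      ∑ m : Fin (g + 1), uN (b.baseChange A) t ⟨m, by omega⟩ *
        uN (b.baseChange A) t ⟨g + 1, by omega⟩ ^ (m : ℕ) *
        uN (b.baseChange A) t ⟨g + 2, by omega⟩ ^ (g + 1 - (m : ℕ)))
    (fun A _ _ t => 0)
    (fun A A' _ _ _ _ φ t => by
      rw [map_add, map_pow, map_sum, h4DSys_uN]
      congr 1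
      refine Finset.sum_congr rfl fun m _ => ?_
      rw [map_mul, map_mul, map_pow, map_pow, h4DSys_uN, h4DSys_uN, h4DSys_uN])
    (fun A A' _ _ _ _ φ t => by rw [map_zero])

/-- the equations `ann`. -/
noncomputable def h4DSys_G2 (b : Module.Basis S A₀ R₀) (g D : ℕ) (e : SD S D) (A : Type u)
    [CommRing A] [Algebra A₀ A] (t : IN S g D → A) : A :=
  ∑ d : SD S (2 * D), t (Sum.inr d) *
    (b.baseChange A).repr (uN (b.baseChange A) t ⟨g + 2, by omega⟩ *
      (b.baseChange A) e.ix) d.ix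

/-- the equation `one`. -/
noncomputable def h4DSys_G3 (b : Module.Basis S A₀ R₀) (g D : ℕ) (A : Type u)
    [CommRing A] [Algebra A₀ A] (t : IN S g D → A) : A :=
  ∑ d : SD S (2 * D), t (Sum.inr d) *
    (b.baseChange A).repr (uN (b.baseChange A) t ⟨g + 1, by omega⟩) d.ix

theorem h4DSys_G2_nat (b : Module.Basis S A₀ R₀) (g D : ℕ) (e : SD S D) (A A' : Type u)
    [CommRing A] [Algebra A₀ A] [CommRing A'] [Algebra A₀ A'] (φ : A →ₐ[A₀] A')
    (t : IN S g D → A) :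
    φ (h4DSys_G2 b g D e A t) = h4DSys_G2 b g D e A' fun i => φ (t i) := by
  unfold h4DSys_G2
  rw [map_sum]
  refine Finset.sum_congr rfl fun d _ => ?_
  rw [map_mul, ← bc_repr, map_mul, h4DSys_uN, bc_basis]

theorem h4DSys_G3_nat (b : Module.Basis S A₀ R₀) (g D : ℕ) (A A' : Type u)
    [CommRing A] [Algebra A₀ A] [CommRing A'] [Algebra A₀ A'] (φ : A →ₐ[A₀] A')
    (t : IN S g D → A) :
    φ (h4DSys_G3 b g D A t) = h4DSys_G3 b g D A' fun i => φ (t i) := by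
  unfold h4DSys_G3
  rw [map_sum]
  refine Finset.sum_congr rfl fun d _ => ?_
  rw [map_mul, ← bc_repr, h4DSys_uN]

theorem h4DSys_QN2 (b : Module.Basis S A₀ R₀) (g D : ℕ) (e : SD S D) :
    IsSys fun (A : Type u) [CommRing A] [Algebra A₀ A] (t : IN S g D → A) =>
      h4DSys_G2 b g D e A t = 0 :=
  isSys_scalar (h4DSys_G2 b g D e)
    (fun A A' _ _ _ _ φ t => h4DSys_G2_nat b g D e A A' φ t)

theorem h4DSys_QN3 (b : Module.Basis S A₀ R₀) (g D : ℕ) :
    IsSys fun (A : Type u) [CommRing A] [Algebra A₀ A] (t : IN S g D → A) =>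
      h4DSys_G3 b g D A t = 1 :=
  isSys_eq (h4DSys_G3 b g D) (fun A _ _ t => 1)
    (fun A A' _ _ _ _ φ t => h4DSys_G3_nat b g D A A' φ t)
    (fun A A' _ _ _ _ φ t => by rw [map_one])

theorem isSys_QN (b : Module.Basis S A₀ R₀) (g D : ℕ) :
    IsSys fun (A : Type u) [CommRing A] [Algebra A₀ A] (t : IN S g D → A) =>
      QN (b.baseChange A) t := by
  refine h4DSys_congr ((h4DSys_QN1 b g D).and
    ((IsSys.all (h4DSys_QN2 b g D)).and (h4DSys_QN3 b g D))) fun A _ _ t => ?_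
  constructor
  · rintro ⟨ha, hb, hc⟩
    exact ⟨ha, hb, hc⟩
  · rintro ⟨ha, hb, hc⟩
    exact ⟨ha, hb, hc⟩

end Vale.Agent.P019P
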