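import Mathlib

/-!
# Linear algebra: witnesses
-/

namespace Vale.Agent.P019P

variable {K : Type*} [Field K] {ι J : Type*} [Fintype ι] [DecidableEq ι] [Fintype J]
  {v : ι → J → K}

omit [Fintype ι] [DecidableEq ι] in
/-- a linear form on `J → K` in coordinates. -/
theorem h4Lin_form [DecidableEq J] (f : (J → K) →ₗ[K] K) (a : J → K) :
    f a = ∑ j, f (Pi.single j 1) * a j := by
  have h : a = ∑ j, a j • (Pi.single j (1 : K) : J → K) := by
    funext i
    rw [Finset.sum_apply, Finset.sum_eq_single i]
    · simp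
    · intro j _ hj
      simp [Pi.single_eq_of_ne hj.symm]
    · intro hi
      exact absurd (Finset.mem_univ i) hi
  conv_lhs => rw [h]
  rw [map_sum]
  refine Finset.sum_congr rfl fun j _ => ?_
  rw [map_smul, smul_eq_mul, mul_comm]

theorem h4_leftinv (h : LinearIndependent K v) :
    ∃ n : ι → J → K, ∀ c c', ∑ j, n c j * v c' j = if c = c' then 1 else 0 := by
  classical
  have hinj : LinearMap.ker (Fintype.linearCombination K v) = ⊥ := by
    rw [LinearMap.ker_eq_bot']
    intro x hx
    rw [Fintype.linearIndependent_iff] at h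
    funext i
    exact h x (by simpa [Fintype.linearCombination_apply] using hx) i
  obtain ⟨G, hG⟩ := LinearMap.exists_leftInverse_of_injective _ hinj
  refine ⟨fun c j => G (Pi.single j 1) c, fun c c' => ?_⟩
  have h1 : G (v c') c = ∑ j, G (Pi.single j 1) c * v c' j :=
    h4Lin_form ((LinearMap.proj c) ∘ₗ G) (v c')
  have h2 : G (v c') = Pi.single c' 1 := by
    have h3 := DFunLike.congr_fun hG (Pi.single c' (1 : K))
    rw [LinearMap.comp_apply, Fintype.linearCombination_apply_single, one_smul,
      LinearMap.id_apply] at h3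
    exact h3
  rw [← h1, h2, Pi.single_apply]

theorem h4_eq_zero {n : ι → J → K}
    (h : ∀ c c', ∑ j, n c j * v c' j = if c = c' then 1 else 0) {x : ι → K}
    (hx : ∀ j, ∑ c, x c * v c j = 0) (c : ι) : x c = 0 := by
  have h1 : x c = ∑ c', x c' * ∑ j, n c j * v c' j := by
    simp [h]
  rw [h1]
  simp only [Finset.mul_sum]
  rw [Finset.sum_comm]
  refine Finset.sum_eq_zero fun j _ => ?_
  have h2 := congrArg (fun z => n c j * z) (hx j)
  simp only [mul_zero, Finset.mul_sum] at h2
  rw [← h2]
  exact Finset.sum_congr rfl fun c' _ => by ring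

omit [DecidableEq ι] [Fintype ι] in
theorem h4_sep' {a : J → K} (h : a ∉ Submodule.span K (Set.range v)) :
    ∃ u : J → K, (∀ i, ∑ j, u j * v i j = 0) ∧ ∑ j, u j * a j = 1 := by
  classical
  obtain ⟨f, hfa, hf⟩ := Submodule.exists_le_ker_of_notMem h
  refine ⟨fun j => f (Pi.single j 1) / f a, fun i => ?_, ?_⟩
  · have h1 : f (v i) = 0 := hf (Submodule.subset_span ⟨i, rfl⟩)
    have h2 := h4Lin_form f (v i)
    rw [h1] at h2
    simp only [div_mul_eq_mul_div]
    rw [← Finset.sum_div, ← h2, zero_div]
  · have h2 := h4Lin_form f a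
    simp only [div_mul_eq_mul_div]
    rw [← Finset.sum_div, ← h2, div_self hfa]

omit [DecidableEq ι] in
theorem h4_sep {a : J → K} (h : a ∉ Submodule.span K (Set.range v)) :
    ∃ u : J → K, (∀ i, ∑ j, u j * v i j = 0) ∧ ∑ j, u j * a j = 1 :=
  h4_sep' h

end Vale.Agent.P019P
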