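import Vale.Agent.P019Q.H4TDef
import Vale.Agent.P019Q.H4FrD
import Vale.Agent.P019Q.H4FrE
import Vale.Agent.P019Q.H4Lin

/-!
# Missing functions
-/

namespace Vale.Agent.P019P

open Polynomial IntermediateField TensorProduct

section

variable {K R : Type*} [Field K] [CommRing R] [Algebra K R] {S : Set ℕ}

/-- elements of the bounded part with the same coordinates are equal. -/
theorem h4NA_ext {b : Module.Basis S K R} {D : ℕ} {z w : R} (hz : z ∈ fil b D)
    (hw : w ∈ fil b D) (h : ∀ d : SD S D, b.repr z d.ix = b.repr w d.ix) : z = w := by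
  apply b.ext_elem
  intro f
  by_cases hf : (f : ℕ) ≤ D
  · exact h ⟨⟨f, by omega⟩, f.2⟩
  · rw [hz f (by omega), hw f (by omega)]

theorem h4NA_repr_mul_el (b : Module.Basis S K R) {D : ℕ} (q : R) (x : SD S D → K) (f : S) :
    b.repr (q * el b x) f = ∑ e : SD S D, x e * b.repr (q * b e.ix) f := by
  rw [el, Finset.mul_sum, map_sum, Finsupp.finsetSum_apply]
  refine Finset.sum_congr rfl fun e _ => ?_
  rw [mul_smul_comm, map_smul, Finsupp.smul_apply, smul_eq_mul]

/-- the coordinates of the data. -/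
noncomputable def h4NA_t (b : Module.Basis S K R) {g D : ℕ} (a q : R) (ρ : Fin (g + 1) → R)
    (u : SD S (2 * D) → K) : IN S g D → K
  | Sum.inl x => b.repr (if h : (x.1 : ℕ) < g + 1 then ρ ⟨x.1, h⟩ else
      if (x.1 : ℕ) = g + 1 then a else q) x.2.ix
  | Sum.inr d => u d

theorem h4NA_uN (b : Module.Basis S K R) {g D : ℕ} (a q : R) (ρ : Fin (g + 1) → R)
    (u : SD S (2 * D) → K) (m : Fin (g + 3)) {z : R} (hz : z ∈ fil b D)
    (h : (if h : (m : ℕ) < g + 1 then ρ ⟨m, h⟩ else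
      if (m : ℕ) = g + 1 then a else q) = z) : uN b (h4NA_t b a q ρ u) m = z := by
  refine h4NA_ext (el_mem b _) hz fun d => ?_
  rw [uN, repr_el, h4NA_t]
  simp only
  rw [h]

end

variable {K R F : Type*} [Field K] [IsAlgClosed K] [CommRing R] [Algebra K R] [Field F]
  [Algebra R F] [IsFractionRing R F] [Algebra K F] [IsScalarTower K R F] {S : Set ℕ} {g : ℕ}
  {b : Module.Basis S K R} [CFF K F] {P₀ : Plk K F}

/-- if functions are missing there is a solution. -/
theorem QN_of_notFull (h : IsDB b) (hS : Sgp g S)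
    (hP₀ : ∀ z : R, z ≠ 0 → ord P₀ (algebraMap R F z) = -(dgr b z : ℤ)) {D : ℕ}
    (hD : D = 2 * g * (g + 1) + 4 * g)
    (hn : ¬ ∀ w : F, w ∈ RO P₀ → ∃ z : R, algebraMap R F z = w) :
    ∃ t : IN S g D → K, QN b t := by
  obtain ⟨a, q, ρ, ha, hq, hρ, heq, hne⟩ := h4_notFull h hS hP₀ hn
  have ha' : a ∈ fil b D := fil_mono b (by omega) ha
  have hq' : q ∈ fil b D := fil_mono b (by omega) hq
  have hρ' : ∀ t, ρ t ∈ fil b D := fun t => fil_mono b (by omega) (hρ t)
  have hnot : (fun d : SD S (2 * D) => b.repr a d.ix) ∉ Submodule.span K (Set.range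
      fun e : SD S D => fun d : SD S (2 * D) => b.repr (q * b e.ix) d.ix) := by
    intro hmem
    rw [Submodule.mem_span_range_iff_exists_fun] at hmem
    obtain ⟨x, hx⟩ := hmem
    refine hne (el b x) (h4NA_ext (D := 2 * D) (fil_mono b (by omega) ha') ?_ fun d => ?_)
    · rw [two_mul]
      exact fil_mul h hq' (el_mem b x)
    · rw [h4NA_repr_mul_el, ← congrFun hx d, Finset.sum_apply]
      rfl
  obtain ⟨u, hu, hu1⟩ := h4_sep hnot
  have e1 : uN b (h4NA_t b (D := D) a q ρ u) ⟨g + 1, by omega⟩ = a :=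
    h4NA_uN b a q ρ u _ ha' (by simp)
  have e2 : uN b (h4NA_t b (D := D) a q ρ u) ⟨g + 2, by omega⟩ = q :=
    h4NA_uN b a q ρ u _ hq' (by simp)
  have e3 : ∀ m : Fin (g + 1), uN b (h4NA_t b (D := D) a q ρ u) ⟨m, by omega⟩ = ρ m := fun m =>
    h4NA_uN b a q ρ u _ (hρ' m) (by simp [m.2])
  refine ⟨h4NA_t b a q ρ u, ?_, ?_, ?_⟩
  · rw [e1, e2, ← heq]
    congr 1
    exact Finset.sum_congr rfl fun m _ => by rw [e3]
  · intro e
    rw [e2]
    exact hu e
  · rw [e1]
    exact hu1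

/-- models have no solution. -/
theorem not_QN (h : HM b g P₀) {D : ℕ} (t : IN S g D → K) : ¬ QN b t := by
  intro hQ
  have hS := h.sg
  have hdom : IsDomain R := h4_domain h.db hS
  obtain ⟨w, hw⟩ := h4_full_of h.db hS h.ord h.full (a := uN b t ⟨g + 1, by omega⟩)
    (q := uN b t ⟨g + 2, by omega⟩) (ρ := fun m => uN b t ⟨m, by omega⟩) hQ.eq
  set a := uN b t ⟨g + 1, by omega⟩ with ha
  set q := uN b t ⟨g + 2, by omega⟩ with hq
  have ha0 : a ≠ 0 := by
    intro h0
    have h1 := hQ.one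
    rw [← ha, h0, map_zero] at h1
    simp at h1
  have hq0 : q ≠ 0 := by
    intro h0
    exact ha0 (by rw [hw, h0, zero_mul])
  have hw0 : w ≠ 0 := by
    intro h0
    exact ha0 (by rw [hw, h0, mul_zero])
  have haD : dgr b a ≤ D := mem_fil_iff.1 (el_mem b _)
  have hwD : w ∈ fil b D := by
    refine mem_fil_iff.2 ?_
    have h1 := (dgr_mul h.db hS hq0 hw0).2
    rw [← hw] at h1
    omega
  obtain ⟨x, hx⟩ := exists_el hwD
  have h1 := hQ.one
  rw [← ha] at h1
  have h2 : ∑ d : SD S (2 * D), t (Sum.inr d) * b.repr a d.ix = 0 := by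
    have h3 : ∀ d : SD S (2 * D), t (Sum.inr d) * b.repr a d.ix =
        ∑ e : SD S D, x e * (t (Sum.inr d) * b.repr (q * b e.ix) d.ix) := by
      intro d
      rw [hw, hx, h4NA_repr_mul_el, Finset.mul_sum]
      exact Finset.sum_congr rfl fun e _ => by ring
    rw [Finset.sum_congr rfl fun d _ => h3 d, Finset.sum_comm]
    refine Finset.sum_eq_zero fun e _ => ?_
    rw [← Finset.mul_sum, hQ.ann e, mul_zero]
  rw [h2] at h1
  exact zero_ne_one h1

end Vale.Agent.P019P
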