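import Mathlib

/-!
# Specialisation to closures of finite fields
-/

universe u

namespace Vale.Agent.P019P

theorem h4SysE_int : IsJacobsonRing ℤ := by
  rw [isJacobsonRing_iff_prime_eq]
  intro P hP
  by_cases h0 : P = ⊥
  · subst h0
    rw [eq_bot_iff]
    intro x hx
    rw [Ideal.mem_jacobson_bot] at hx
    have h1 := hx x
    rw [Int.isUnit_iff] at h1
    have h2 : 0 ≤ x * x := mul_self_nonneg x
    have h3 : x * x = 0 := by omega
    have h4 : x = 0 := by simpa using h3
    simp [h4]
  · have : P.IsMaximal := IsPrime.to_maximal_ideal h0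
    exact Ideal.jacobson_eq_self_of_isMaximal

theorem h4SysE_finite (L : Type u) [Field L] [Algebra.FiniteType ℤ L] : Finite L := by
  have := h4SysE_int
  have : Module.Finite ℤ L := finite_of_finite_type_of_isJacobsonRing ℤ L
  obtain ⟨p, hp⟩ := CharP.exists L
  have hp0 : p ≠ 0 := by
    rintro rfl
    have : CharZero L := CharP.charP_to_charZero L
    have hi : Function.Injective (algebraMap ℤ L) := (algebraMap ℤ L).injective_int
    have := isField_of_isIntegral_of_isField (R := ℤ) (S := L) hi (Field.toIsField L)
    exact Int.not_isField this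
  have : NeZero p := ⟨hp0⟩
  let _ : Algebra (ZMod p) L := ZMod.algebra L p
  have : IsScalarTower ℤ (ZMod p) L := by
    refine IsScalarTower.of_algebraMap_eq ?_
    intro x
    simp
  have : Module.Finite (ZMod p) L := Module.Finite.of_restrictScalars_finite ℤ (ZMod p) L
  exact Module.finite_of_finite (ZMod p)

theorem h4SysE_quot (B L : Type u) [CommRing B] [Field L] [Algebra.FiniteType ℤ B] (g : B →+* L)
    (hg : Function.Surjective g) : Finite L := by
  have hg' : Function.Surjective g.toIntAlgHom := hg
  have : Algebra.FiniteType ℤ L := Algebra.FiniteType.of_surjective _ hg'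
  exact h4SysE_finite L

theorem h4SysE_loc (A B L : Type u) [CommRing A] [Algebra.FiniteType ℤ A] [CommRing B]
    [Algebra A B] [Field L] (δ : A) [IsLocalization.Away δ B] (g : B →+* L)
    (hg : Function.Surjective g) : Finite L := by
  have : Algebra.FinitePresentation A B := IsLocalization.Away.finitePresentation δ
  have : Algebra.FiniteType ℤ B := Algebra.FiniteType.trans (S := A) inferInstance inferInstance
  exact h4SysE_quot B L g hg

theorem h4SysE_tors (L : Type u) [Field L] [Finite L] (a : AlgebraicClosure L) (ha : a ≠ 0) :
    ∃ n : ℕ, 0 < n ∧ a ^ n = 1 := by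
  have hint : IsIntegral L a := Algebra.IsIntegral.isIntegral a
  have : FiniteDimensional L (IntermediateField.adjoin L {a}) :=
    IntermediateField.adjoin.finiteDimensional hint
  have : Finite (IntermediateField.adjoin L {a}) := Module.finite_of_finite L
  have := Fintype.ofFinite (IntermediateField.adjoin L {a})
  let b : IntermediateField.adjoin L {a} := IntermediateField.AdjoinSimple.gen L a
  have hb : b ≠ 0 := by
    intro h
    apply ha
    have := congrArg (fun z : IntermediateField.adjoin L {a} => (z : AlgebraicClosure L)) h
    simpa [b] using this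
  refine ⟨Fintype.card (IntermediateField.adjoin L {a}) - 1, ?_, ?_⟩
  · have := Fintype.one_lt_card (α := IntermediateField.adjoin L {a})
    omega
  · have h := FiniteField.pow_card_sub_one_eq_one b hb
    have := congrArg (fun z : IntermediateField.adjoin L {a} => (z : AlgebraicClosure L)) h
    simpa [b] using this

/-- specialisation to the algebraic closure of a finite field. -/
theorem exists_spec {A : Type u} [CommRing A] [IsDomain A] [Algebra.FiniteType ℤ A] {δ : A}
    (hδ : δ ≠ 0) : ∃ (κ : Type u) (_ : Field κ) (_ : Algebra A κ), IsAlgClosed κ ∧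
      (∀ a : κ, a ≠ 0 → ∃ n : ℕ, 0 < n ∧ a ^ n = 1) ∧ algebraMap A κ δ ≠ 0 := by
  have hle : Submonoid.powers δ ≤ nonZeroDivisors A := powers_le_nonZeroDivisors_of_noZeroDivisors hδ
  have : IsDomain (Localization.Away δ) := IsLocalization.isDomain_localization hle
  obtain ⟨M, hM⟩ := Ideal.exists_maximal (Localization.Away δ)
  have := hM
  let _ : Field (Localization.Away δ ⧸ M) := Ideal.Quotient.field M
  have : Finite (Localization.Away δ ⧸ M) :=
    h4SysE_loc A (Localization.Away δ) _ δ (Ideal.Quotient.mk M) Ideal.Quotient.mk_surjective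
  let f : A →+* AlgebraicClosure (Localization.Away δ ⧸ M) :=
    (algebraMap (Localization.Away δ ⧸ M) _).comp
      ((Ideal.Quotient.mk M).comp (algebraMap A (Localization.Away δ)))
  refine ⟨AlgebraicClosure (Localization.Away δ ⧸ M), inferInstance, f.toAlgebra, inferInstance,
    fun a ha => h4SysE_tors _ a ha, ?_⟩
  have hu : IsUnit (algebraMap A (Localization.Away δ) δ) :=
    IsLocalization.Away.algebraMap_isUnit δ
  have hu2 : IsUnit (f δ) := by
    have := (hu.map (Ideal.Quotient.mk M)).map
      (algebraMap (Localization.Away δ ⧸ M) (AlgebraicClosure (Localization.Away δ ⧸ M)))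
    exact this
  exact hu2.ne_zero

end Vale.Agent.P019P
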