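import Vale.Agent.P019Q.H4SysG
import Vale.Agent.P019Q.H4SysE

/-!
# Transfer of the solvability of finite systems of polynomial equations
-/

universe u

namespace Vale.Agent.P019P

section

variable {A₀ : Type u} [CommRing A₀] {ι : Type} [Finite ι] [IsDomain A₀] {k : Type u} [Field k]
  [IsAlgClosed k] [Algebra A₀ k]
  {Q : ∀ (A : Type u) [CommRing A] [Algebra A₀ A], (ι → A) → Prop} [Algebra.FiniteType ℤ A₀]

/-- from closures of finite fields to `k`. -/
theorem IsSys.low (hQ : IsSys Q) (hinj : Function.Injective (algebraMap A₀ k)) {δ : A₀}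
    (hδ : δ ≠ 0) (h : ∀ (κ : Type u) [Field κ] [IsAlgClosed κ] [Algebra A₀ κ],
      (∀ a : κ, a ≠ 0 → ∃ n : ℕ, 0 < n ∧ a ^ n = 1) → algebraMap A₀ κ δ ≠ 0 → ∃ t, Q κ t) :
    ∃ t, Q k t := by
  by_contra hcon
  obtain ⟨δ', hδ', h'⟩ := hQ.gen hinj hcon
  obtain ⟨κ, _, _, _, h1, h2⟩ := exists_spec (A := A₀) (mul_ne_zero hδ hδ')
  rw [map_mul] at h2
  exact h' κ (right_ne_zero_of_mul h2) (h κ h1 (left_ne_zero_of_mul h2))

omit [IsDomain A₀] [IsAlgClosed k] in
/-- from `k` to the closure of a finite field. -/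
theorem IsSys.up (hQ : IsSys Q) (hinj : Function.Injective (algebraMap A₀ k)) {δ : A₀}
    (hδ : δ ≠ 0) (h : ∃ t, Q k t) : ∃ (κ : Type u) (_ : Field κ) (_ : Algebra A₀ κ),
      IsAlgClosed κ ∧ (∀ a : κ, a ≠ 0 → ∃ n : ℕ, 0 < n ∧ a ^ n = 1) ∧
        algebraMap A₀ κ δ ≠ 0 ∧ ∃ t, Q κ t := by
  obtain ⟨E, hE⟩ := hQ
  obtain ⟨t, ht⟩ := h
  let C : Subalgebra A₀ k := Algebra.adjoin A₀ (Set.range t)
  have : Algebra.FiniteType A₀ C :=
    (Subalgebra.fg_iff_finiteType _).mp ⟨(Set.finite_range t).toFinset, by simp [C]⟩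
  have : Algebra.FiniteType ℤ C := Algebra.FiniteType.trans (S := A₀) inferInstance inferInstance
  have hδ' : algebraMap A₀ C δ ≠ 0 := by
    intro h0
    apply hδ
    apply hinj
    rw [map_zero]
    have := congrArg (algebraMap C k) h0
    rwa [← IsScalarTower.algebraMap_apply, map_zero] at this
  obtain ⟨κ, _, _, h1, h2, h3⟩ := exists_spec (A := C) hδ'
  let _ : Algebra A₀ κ := ((algebraMap C κ).comp (algebraMap A₀ C)).toAlgebra
  have : IsScalarTower A₀ C κ := IsScalarTower.of_algebraMap_eq fun _ => rfl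
  refine ⟨κ, inferInstance, inferInstance, h1, h2, ?_, ?_⟩
  · rw [IsScalarTower.algebraMap_apply A₀ C κ]
    exact h3
  · let t' : ι → C := fun i => ⟨t i, Algebra.subset_adjoin ⟨i, rfl⟩⟩
    refine ⟨fun i => algebraMap C κ (t' i), (hE κ _).mpr fun e he => ?_⟩
    have h4 : MvPolynomial.aeval t' e = 0 := by
      have h6 : (algebraMap C k) (MvPolynomial.aeval t' e) = 0 := by
        rw [← MvPolynomial.aeval_algebraMap_apply]
        exact (hE k t).mp ht e he
      exact (FaithfulSMul.algebraMap_injective C k) (by rw [h6, map_zero])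
    have h5 := MvPolynomial.aeval_algebraMap_apply (A := C) (B := κ) t' e
    rw [h4, map_zero] at h5
    exact h5

end

end Vale.Agent.P019P
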