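import Vale.Agent.P019Q.H4TDef
import Vale.Agent.P019Q.H4FrD
import Vale.Agent.P019Q.H4RRD
import Vale.Agent.P019Q.H4RRE
import Vale.Agent.P019Q.H4Lin

/-!
# Solutions give inequivalent classes
-/

namespace Vale.Agent.P019P

open Polynomial IntermediateField TensorProduct

/-- transport of the data. -/
theorem h4TB_JT {R F : Type*} [CommRing R] [Field F] [Algebra R F] {ℓ : ℕ} {f : R}
    {a : Fin 2 → R} {r s : Unit → Fin 2 → R} (hd : JT ℓ (fun _ : Unit => (1 : R)) f a r s) :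
    JT ℓ (fun _ : Unit => (1 : F)) (algebraMap R F f) (fun j => algebraMap R F (a j))
      (fun i j => algebraMap R F (r i j)) fun i j => algebraMap R F (s i j) where
  eq i j := by
    have h1 := congrArg (algebraMap R F) (hd.eq i j)
    simpa only [map_mul, map_pow, map_one] using h1
  one := by
    have h1 := congrArg (algebraMap R F) hd.one
    simpa only [map_sum, map_mul, map_one] using h1

/-- the equations of the linear criterion. -/
theorem h4TB_lam {A R : Type*} [CommRing A] [CommRing R] [Algebra A R] {S : Set ℕ}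
    (b : Module.Basis S A R) (ℓ n E E' : ℕ) (f f' : R) (a a' : Fin 2 → R) (tv : SD S n → A)
    (tw : Fin 2 → Fin 2 → SD S E → A)
    (h : ∀ i j, el b tv * a' j * a i ^ (ℓ - 1) = f * f' * el b (tw i j)) (e : LV S E') :
    ∑ c : LU S n E, (Sum.elim tv fun q => tw q.1 q.2.1 q.2.2 : LU S n E → A) c *
      Lam b ℓ n E E' f f' a a' c e = 0 := by
  have h1 : ∑ d : SD S n, tv d * b.repr (b d.ix * a' e.2.1 * a e.1 ^ (ℓ - 1)) e.2.2.ix =
      b.repr (el b tv * a' e.2.1 * a e.1 ^ (ℓ - 1)) e.2.2.ix := by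
    simp only [el, Finset.sum_mul, map_sum, Finsupp.finsetSum_apply, smul_mul_assoc, map_smul,
      Finsupp.smul_apply, smul_eq_mul]
  have h2 : ∑ q : Fin 2 × Fin 2 × SD S E, tw q.1 q.2.1 q.2.2 *
      (if q.1 = e.1 ∧ q.2.1 = e.2.1 then -b.repr (f * f' * b q.2.2.ix) e.2.2.ix else 0) =
      -b.repr (f * f' * el b (tw e.1 e.2.1)) e.2.2.ix := by
    have h3 : ∀ q : Fin 2 × Fin 2 × SD S E, tw q.1 q.2.1 q.2.2 *
        (if q.1 = e.1 ∧ q.2.1 = e.2.1 then -b.repr (f * f' * b q.2.2.ix) e.2.2.ix else 0) =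
        if q.1 = e.1 then (if q.2.1 = e.2.1 then
          tw q.1 q.2.1 q.2.2 * -b.repr (f * f' * b q.2.2.ix) e.2.2.ix else 0) else 0 := by
      intro q
      by_cases h4 : q.1 = e.1
      · by_cases h5 : q.2.1 = e.2.1
        · rw [if_pos ⟨h4, h5⟩, if_pos h4, if_pos h5]
        · rw [if_neg fun h6 => h5 h6.2, if_pos h4, if_neg h5, mul_zero]
      · rw [if_neg fun h6 => h4 h6.1, if_neg h4, mul_zero]
    rw [Finset.sum_congr rfl fun q _ => h3 q, Fintype.sum_prod_type]
    simp only [Fintype.sum_prod_type]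
    rw [Finset.sum_eq_single e.1]
    · rw [Finset.sum_eq_single e.2.1]
      · simp only [if_true, el, Finset.mul_sum, map_sum, Finsupp.finsetSum_apply,
          mul_smul_comm, map_smul, Finsupp.smul_apply, smul_eq_mul, ← Finset.sum_neg_distrib,
          mul_neg]
      · intro j _ hj
        simp only [if_true, if_neg hj, Finset.sum_const_zero]
      · intro hj
        exact absurd (Finset.mem_univ _) hj
    · intro i _ hi
      simp only [if_neg hi, Finset.sum_const_zero]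
    · intro hi
      exact absurd (Finset.mem_univ _) hi
  rw [Fintype.sum_sum_type]
  simp only [Sum.elim_inl, Sum.elim_inr, Lam]
  rw [h1, h2, h e.1 e.2.1, add_neg_cancel]

variable {K R F : Type*} [Field K] [IsAlgClosed K] [CommRing R] [Algebra K R] [Field F]
  [Algebra R F] [IsFractionRing R F] [Algebra K F] [IsScalarTower K R F] {S : Set ℕ} {g : ℕ}
  {b : Module.Basis S K R} [CFF K F] {P₀ : Plk K F}

omit [IsAlgClosed K] in
/-- the degree. -/
theorem h4TB_dgr {n D : ℕ} (hnS : n ∈ S) (hnD : n ≤ D) {t : SD S D → K}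
    (ht : ∀ d : SD S D, n ≤ (d.1 : ℕ) → t d = if (d.1 : ℕ) = n then 1 else 0) :
    el b t ≠ 0 ∧ dgr b (el b t) = n := by
  have h1 : b.repr (el b t) ⟨n, hnS⟩ = 1 := by
    have h2 := repr_el b t ⟨⟨n, Nat.lt_succ_of_le hnD⟩, hnS⟩
    rw [ht _ le_rfl, if_pos rfl] at h2
    exact h2
  have h3 : el b t ≠ 0 := by
    intro h0
    rw [h0, map_zero, Finsupp.zero_apply] at h1
    exact zero_ne_one h1
  refine ⟨h3, le_antisymm ?_ ?_⟩
  · refine mem_fil_iff.1 fun f hf => ?_
    by_cases hfD : (f : ℕ) ≤ D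
    · have h2 := repr_el b t ⟨⟨(f : ℕ), Nat.lt_succ_of_le hfD⟩, f.2⟩
      rw [ht _ hf.le, if_neg (Nat.ne_of_gt hf)] at h2
      exact h2
    · exact el_mem b t f (not_le.1 hfD)
  · have h4 : (⟨n, hnS⟩ : S) ∈ (b.repr (el b t)).support := by
      rw [Finsupp.mem_support_iff, h1]
      exact one_ne_zero
    exact Finset.le_sup (f := fun f : S => (f : ℕ)) h4

theorem NC_of_QT (h : HM b g P₀) {ℓ : ℕ} (hℓ : 2 ≤ ℓ) {N n D E E' : ℕ} (hn : n = 2 * g * ℓ)
    (hD : D = 2 * n + 2 * g) (hE : E = n + ℓ * D) (hE' : E' = 2 * n + E)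
    {t : IT S N n D E E' → K} (ht : QT b ℓ N n D E E' t) : NC ℓ K F N := by
  have hdom : IsDomain R := h4_domain h.db h.sg
  have hinj : Function.Injective (algebraMap R F) := IsFractionRing.injective R F
  have hnS : n ∈ S := h.sg.large n (by
    rw [hn]
    exact Nat.le_mul_of_pos_right _ (by omega))
  have hnD : n ≤ D := by omega
  have hdeg : ∀ i, uT b t i 0 0 ≠ 0 ∧ dgr b (uT b t i 0 0) = n := fun i =>
    h4TB_dgr hnS hnD (ht.deg i)
  have hz : ∀ i, algebraMap R F (uT b t i 0 0) ≠ 0 := fun i h0 =>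
    (hdeg i).1 (hinj (by rw [h0, map_zero]))
  have hord : ∀ i, ord P₀ (algebraMap R F (uT b t i 0 0)) = -(n : ℤ) := fun i => by
    rw [h.ord _ (hdeg i).1, (hdeg i).2]
  have hLP : ∀ i m j, algebraMap R F (uT b t i m j) ∈ LP P₀ D := fun i m j =>
    h.mem_LP (el_mem b _)
  refine ⟨fun i => algebraMap R F (uT b t i 0 0), fun i => ⟨hz i, fun P => ?_⟩, ?_⟩
  · exact h4_dvd (P₀ := P₀) (hz i) (by omega) (fun i' j => h.mem_RO _) (fun i' j => h.mem_RO _)
      (h4TB_JT (ht.jt i)) P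
  · rintro i i' hii ⟨u, hu⟩
    obtain ⟨v, hv, hv0, w, hw, hvw⟩ := h4_equiv (P₀ := P₀) hℓ (hz i) (hz i') (h.mem_RO _)
      (h.mem_RO _) (hord i) (hord i') (fun i' j => h.mem_RO _) (fun i' j => h.mem_RO _)
      (h4TB_JT (ht.jt i)) (h4TB_JT (ht.jt i')) (D := D) (fun j => hLP i 1 j)
      (fun j => hLP i' 1 j) hu
    obtain ⟨zv, hzv, rfl⟩ := (h.mem_LP_iff _).1 hv
    obtain ⟨tv, rfl⟩ := exists_el hzv
    have hw' : ∀ i j, ∃ tw : SD S E → K, algebraMap R F (el b tw) = w i j := by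
      intro i j
      obtain ⟨zw, hzw, hzw'⟩ := (h.mem_LP_iff _).1 (hw i j)
      rw [← hE] at hzw
      obtain ⟨tw, rfl⟩ := exists_el hzw
      exact ⟨tw, hzw'⟩
    choose tw htw using hw'
    have key : ∀ i₁ j₁, el b tv * uT b t i' 1 j₁ * uT b t i 1 i₁ ^ (ℓ - 1) =
        uT b t i 0 0 * uT b t i' 0 0 * el b (tw i₁ j₁) := by
      intro i₁ j₁
      apply hinj
      rw [map_mul, map_mul, map_pow, map_mul, map_mul, htw]
      exact hvw i₁ j₁
    have h1 := h4_eq_zero (v := Lam b ℓ n E E' (uT b t i 0 0) (uT b t i' 0 0)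
      (fun j => uT b t i 1 j) fun j => uT b t i' 1 j) (ht.inv i i' hii)
      (h4TB_lam b ℓ n E E' (uT b t i 0 0) (uT b t i' 0 0) (fun j => uT b t i 1 j)
        (fun j => uT b t i' 1 j) tv tw key)
    have h2 : tv = fun _ => 0 := funext fun d => h1 (Sum.inl d)
    apply hv0
    rw [h2, el, Finset.sum_eq_zero fun d _ => zero_smul K (b d.ix), map_zero]

end Vale.Agent.P019P
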