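import Vale.Agent.P019Q.H4SysR
import Vale.Agent.P019Q.H4TDef

/-!
# The equations for inequivalent classes are a system
-/

universe u

namespace Vale.Agent.P019P

open Polynomial IntermediateField TensorProduct

variable {A₀ : Type u} [CommRing A₀] {R₀ : Type u} [CommRing R₀] [Algebra A₀ R₀] {S : Set ℕ}

theorem h4TSys_congr {ι : Type}
    {Q Q' : ∀ (A : Type u) [CommRing A] [Algebra A₀ A], (ι → A) → Prop} (h : IsSys Q)
    (hQ : ∀ (A : Type u) [CommRing A] [Algebra A₀ A] (t : ι → A), Q' A t ↔ Q A t) :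
    IsSys Q' := by
  obtain ⟨E, hE⟩ := h
  exact ⟨E, fun A _ _ t => (hQ A t).trans (hE A t)⟩

theorem h4TSys_uT {A A' : Type u} [CommRing A] [Algebra A₀ A] [CommRing A'] [Algebra A₀ A']
    (φ : A →ₐ[A₀] A') (b : Module.Basis S A₀ R₀) {N n D E E' : ℕ} (t : IT S N n D E E' → A)
    (i : Fin N) (m : Fin 4) (j : Fin 2) :
    bc R₀ φ (uT (b.baseChange A) t i m j) = uT (b.baseChange A') (fun x => φ (t x)) i m j :=
  bc_el φ b fun d => t (Sum.inl (i, m, j, d))

theorem h4TSys_Lam {A A' : Type u} [CommRing A] [Algebra A₀ A] [CommRing A'] [Algebra A₀ A']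
    (φ : A →ₐ[A₀] A') (b : Module.Basis S A₀ R₀) (ℓ n D E : ℕ) (f f' : A ⊗[A₀] R₀)
    (a a' : Fin 2 → A ⊗[A₀] R₀) (c : LU S n D) (e : LV S E) :
    φ (Lam (b.baseChange A) ℓ n D E f f' a a' c e) =
      Lam (b.baseChange A') ℓ n D E (bc R₀ φ f) (bc R₀ φ f') (fun j => bc R₀ φ (a j))
        (fun j => bc R₀ φ (a' j)) c e := by
  rcases c with d | d
  · simp only [Lam]
    rw [← bc_repr, RingHom.map_mul, RingHom.map_mul, RingHom.map_pow, bc_basis]
  · simp only [Lam]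
    split_ifs with h
    · rw [map_neg, ← bc_repr, RingHom.map_mul, RingHom.map_mul, bc_basis]
    · rw [map_zero]

/-- the left side of the equation `inv`. -/
noncomputable def h4TSys_G (b : Module.Basis S A₀ R₀) (ℓ N n D E E' : ℕ) (i i' : Fin N)
    (c c' : LU S n E) (A : Type u) [CommRing A] [Algebra A₀ A] (t : IT S N n D E E' → A) : A :=
  ∑ e : LV S E', t (Sum.inr (i, i', c, e)) * Lam (b.baseChange A) ℓ n E E'
    (uT (b.baseChange A) t i 0 0) (uT (b.baseChange A) t i' 0 0)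
      (fun j => uT (b.baseChange A) t i 1 j) (fun j => uT (b.baseChange A) t i' 1 j) c' e

theorem h4TSys_G_nat (b : Module.Basis S A₀ R₀) (ℓ N n D E E' : ℕ) (i i' : Fin N)
    (c c' : LU S n E) (A A' : Type u) [CommRing A] [Algebra A₀ A] [CommRing A'] [Algebra A₀ A']
    (φ : A →ₐ[A₀] A') (t : IT S N n D E E' → A) :
    φ (h4TSys_G b ℓ N n D E E' i i' c c' A t) =
      h4TSys_G b ℓ N n D E E' i i' c c' A' fun x => φ (t x) := by
  unfold h4TSys_G
  rw [map_sum]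
  refine Finset.sum_congr rfl fun e _ => ?_
  rw [map_mul, h4TSys_Lam]
  simp only [h4TSys_uT]

theorem h4TSys_deg (N n D E E' : ℕ) (i : Fin N) (d : SD S D) :
    IsSys fun (A : Type u) [CommRing A] [Algebra A₀ A] (t : IT S N n D E E' → A) =>
      t (Sum.inl (i, 0, 0, d)) = if (d.1 : ℕ) = n then 1 else 0 :=
  isSys_eq (fun A _ _ t => t (Sum.inl (i, 0, 0, d)))
    (fun A _ _ _ => if (d.1 : ℕ) = n then 1 else 0)
    (fun A A' _ _ _ _ φ t => rfl)
    (fun A A' _ _ _ _ φ t => by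
      split_ifs
      · rw [map_one]
      · rw [map_zero])

theorem h4TSys_eq (b : Module.Basis S A₀ R₀) (ℓ N n D E E' : ℕ) (i : Fin N) (j : Fin 2) :
    IsSys fun (A : Type u) [CommRing A] [Algebra A₀ A] (t : IT S N n D E E' → A) =>
      (1 : A ⊗[A₀] R₀) * uT (b.baseChange A) t i 1 j ^ ℓ =
        uT (b.baseChange A) t i 0 0 * uT (b.baseChange A) t i 2 j :=
  isSys_ring b
    (fun A _ _ t => (1 : A ⊗[A₀] R₀) * uT (b.baseChange A) t i 1 j ^ ℓ)
    (fun A _ _ t => uT (b.baseChange A) t i 0 0 * uT (b.baseChange A) t i 2 j)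
    (fun A A' _ _ _ _ φ t => by rw [map_mul, map_pow, map_one, h4TSys_uT])
    (fun A A' _ _ _ _ φ t => by rw [map_mul, h4TSys_uT, h4TSys_uT])

theorem h4TSys_one (b : Module.Basis S A₀ R₀) (N n D E E' : ℕ) (i : Fin N) :
    IsSys fun (A : Type u) [CommRing A] [Algebra A₀ A] (t : IT S N n D E E' → A) =>
      ∑ _ : Unit, ∑ j : Fin 2,
        uT (b.baseChange A) t i 3 j * uT (b.baseChange A) t i 2 j = 1 :=
  isSys_ring b
    (fun A _ _ t => ∑ _ : Unit, ∑ j : Fin 2,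
      uT (b.baseChange A) t i 3 j * uT (b.baseChange A) t i 2 j)
    (fun A _ _ t => 1)
    (fun A A' _ _ _ _ φ t => by simp only [map_sum, map_mul, h4TSys_uT])
    (fun A A' _ _ _ _ φ t => by rw [map_one])

theorem h4TSys_inv (b : Module.Basis S A₀ R₀) (ℓ N n D E E' : ℕ) (i i' : Fin N)
    (c c' : LU S n E) :
    IsSys fun (A : Type u) [CommRing A] [Algebra A₀ A] (t : IT S N n D E E' → A) =>
      h4TSys_G b ℓ N n D E E' i i' c c' A t = if c = c' then 1 else 0 :=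
  isSys_eq (h4TSys_G b ℓ N n D E E' i i' c c') (fun A _ _ _ => if c = c' then 1 else 0)
    (fun A A' _ _ _ _ φ t => h4TSys_G_nat b ℓ N n D E E' i i' c c' A A' φ t)
    (fun A A' _ _ _ _ φ t => by
      split_ifs
      · rw [map_one]
      · rw [map_zero])

theorem isSys_QT (b : Module.Basis S A₀ R₀) (ℓ N n D E E' : ℕ) :
    IsSys fun (A : Type u) [CommRing A] [Algebra A₀ A] (t : IT S N n D E E' → A) =>
      QT (b.baseChange A) ℓ N n D E E' t := by
  have h1 : IsSys fun (A : Type u) [CommRing A] [Algebra A₀ A] (t : IT S N n D E E' → A) =>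
      ∀ x : {x : Fin N × SD S D // n ≤ (x.2.1 : ℕ)},
        t (Sum.inl (x.1.1, 0, 0, x.1.2)) = if (x.1.2.1 : ℕ) = n then 1 else 0 :=
    IsSys.all fun x => h4TSys_deg N n D E E' x.1.1 x.1.2
  have h2 : IsSys fun (A : Type u) [CommRing A] [Algebra A₀ A] (t : IT S N n D E E' → A) =>
      ∀ x : Fin N × Fin 2, (1 : A ⊗[A₀] R₀) * uT (b.baseChange A) t x.1 1 x.2 ^ ℓ =
        uT (b.baseChange A) t x.1 0 0 * uT (b.baseChange A) t x.1 2 x.2 :=
    IsSys.all fun x => h4TSys_eq b ℓ N n D E E' x.1 x.2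
  have h3 : IsSys fun (A : Type u) [CommRing A] [Algebra A₀ A] (t : IT S N n D E E' → A) =>
      ∀ i : Fin N, ∑ _ : Unit, ∑ j : Fin 2,
        uT (b.baseChange A) t i 3 j * uT (b.baseChange A) t i 2 j = 1 :=
    IsSys.all fun i => h4TSys_one b N n D E E' i
  have h4 : IsSys fun (A : Type u) [CommRing A] [Algebra A₀ A] (t : IT S N n D E E' → A) =>
      ∀ x : {x : Fin N × Fin N × LU S n E × LU S n E // x.1 ≠ x.2.1},
        h4TSys_G b ℓ N n D E E' x.1.1 x.1.2.1 x.1.2.2.1 x.1.2.2.2 A t =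
          if x.1.2.2.1 = x.1.2.2.2 then 1 else 0 :=
    IsSys.all fun x => h4TSys_inv b ℓ N n D E E' x.1.1 x.1.2.1 x.1.2.2.1 x.1.2.2.2
  refine h4TSys_congr (h1.and (h2.and (h3.and h4))) fun A _ _ t => ?_
  constructor
  · rintro ⟨ha, hb, hc⟩
    refine ⟨fun x => ha x.1.1 x.1.2 x.2, fun x => (hb x.1).eq () x.2, fun i => (hb i).one,
      fun x => hc x.1.1 x.1.2.1 x.2 x.1.2.2.1 x.1.2.2.2⟩
  · rintro ⟨ha, hb, hc, hd⟩
    exact ⟨fun i d hd => ha ⟨(i, d), hd⟩, fun i => ⟨fun _ j => hb (i, j), hc i⟩,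
      fun i i' hi c c' => hd ⟨(i, i', c, c'), hi⟩⟩

end Vale.Agent.P019P
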