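import Mathlib

/-!
# Divisors and their degree
-/

namespace Vale.Agent.P019P

/-- the degree of a divisor. -/
noncomputable def dg {P : Type*} : (P →₀ ℤ) →+ ℤ :=
  Finsupp.liftAddHom fun _ => AddMonoidHom.id ℤ

end Vale.Agent.P019P
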