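import Vale.Agent.P019Q.K0
import Vale.Agent.P019Q.UFree

/-!
# Transcendence bases
-/

namespace Vale.Agent.P019P

open Vale.Agent.P019

set_option linter.style.haveILetI false
set_option linter.unusedSectionVars false

open Polynomial Filter

section e0

variable {K : Type*} [Field K]

/-- the perfect closure of `k(B)`. -/
noncomputable def gsp (k : Subfield K) (B : Finset K) : Subfield K :=
  pf (k ⊔ Subfield.closure (B : Set K))

theorem le_gsp (k : Subfield K) (B : Finset K) : k ≤ gsp k B := le_sup_left.trans (le_pf _)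

theorem mem_gsp {k : Subfield K} {B : Finset K} {x : K} (hx : x ∈ B) : x ∈ gsp k B :=
  (le_sup_right.trans (le_pf _) : Subfield.closure (B : Set K) ≤ gsp k B)
    (Subfield.subset_closure hx)

theorem gsp_perfect [PerfectField K] (k : Subfield K) (B : Finset K) :
    PerfectField (gsp k B) := perfect_of_pf_le (by unfold gsp; rw [pf_pf])

theorem gsp_le {k F : Subfield K} [PerfectField F] {B : Finset K} (h : k ≤ F)
    (hB : ∀ x ∈ B, x ∈ F) : gsp k B ≤ F :=
  pf_le (sup_le h (Subfield.closure_le.2 fun x hx => hB x hx))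

theorem gsp_mono [PerfectField K] (k : Subfield K) {B B' : Finset K} (h : B ⊆ B') :
    gsp k B ≤ gsp k B' := by
  haveI := gsp_perfect k B'
  exact gsp_le (le_gsp k B') fun x hx => mem_gsp (h hx)

theorem gsp_empty (k : Subfield K) [PerfectField k] : gsp k ∅ = k := by
  unfold gsp
  rw [Finset.coe_empty, Subfield.closure_empty, sup_bot_eq, pf_eq]

theorem gsp_insert [PerfectField K] [DecidableEq K] (k : Subfield K) (B : Finset K) (v : K) :
    gsp k (insert v B) = adj (gsp k B) v := by
  haveI := gsp_perfect k (insert v B)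
  haveI : PerfectField (adj (gsp k B) v) := perfect_of_pf_le (by unfold adj; rw [pf_pf])
  apply le_antisymm
  · refine gsp_le ((le_gsp k B).trans (le_adj _ _)) fun x hx => ?_
    rcases Finset.mem_insert.1 hx with rfl | hx
    · exact mem_adj _ _
    · exact le_adj _ _ (mem_gsp hx)
  · exact adj_le (gsp_mono k (Finset.subset_insert v B)) (mem_gsp (Finset.mem_insert_self v B))

theorem gsp_fg [PerfectField K] (k : Subfield K) (B : Finset K) : FG k (gsp k B) := ⟨B, rfl⟩

/-- the elements of `B` are algebraically independent over `k`. -/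
def Indp (k : Subfield K) (B : Finset K) : Prop :=
  ∀ S ⊆ B, ∀ v ∈ B, v ∉ S → ¬ IsAlgebraic (gsp k S) v

theorem Indp.mono {k : Subfield K} {B B' : Finset K} (h : Indp k B) (hB : B' ⊆ B) :
    Indp k B' := fun S hS v hv hvS => h S (hS.trans hB) v (hB hv) hvS

/-- transcendence degree. -/
def Td (k : Subfield K) (n : ℕ) : Prop :=
  ∃ B : Finset K, B.card = n ∧ Indp k B ∧ ∀ z : K, IsAlgebraic (gsp k B) z

variable [PerfectField K]

/-- elements algebraic over `k(B)` are algebraic over any field over which `B` is algebraic. -/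
theorem e0_alg_trans {k E : Subfield K} {B : Finset K} (hk : k ≤ E)
    (hB : ∀ z ∈ B, IsAlgebraic E z) {x : K} (hx : IsAlgebraic (gsp k B) x) : IsAlgebraic E x := by
  refine isAlgebraic_trans (le_rac E) (fun z hz => mem_rac.1 hz) (isAlgebraic_mono ?_ hx)
  exact gsp_le (hk.trans (le_rac E)) fun z hz => mem_rac.2 (hB z hz)

theorem Indp.insert [DecidableEq K] {k : Subfield K} {B : Finset K} (h : Indp k B) {v : K}
    (hv : ¬ IsAlgebraic (gsp k B) v) : Indp k (insert v B) := by
  intro S hS w hw hwS hal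
  by_cases hvS : v ∈ S
  · have hwv : w ≠ v := fun h1 => hwS (h1 ▸ hvS)
    have hwB : w ∈ B := (Finset.mem_insert.1 hw).resolve_left hwv
    have hS' : S.erase v ⊆ B := fun x hx => by
      rw [Finset.mem_erase] at hx
      exact (Finset.mem_insert.1 (hS hx.2)).resolve_left hx.1
    have hw' : ¬ IsAlgebraic (gsp k (S.erase v)) w :=
      h _ hS' w hwB fun h1 => hwS (Finset.mem_of_mem_erase h1)
    have h1 : S = Insert.insert v (S.erase v) := (Finset.insert_erase hvS).symm
    rw [h1, gsp_insert] at hal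
    have h2 := exchange hw' hal
    rw [← gsp_insert] at h2
    exact hv (isAlgebraic_mono (gsp_mono k (Finset.insert_subset hwB hS')) h2)
  · have hSB : S ⊆ B := fun x hx =>
      (Finset.mem_insert.1 (hS hx)).resolve_left fun h1 => hvS (h1 ▸ hx)
    rcases Finset.mem_insert.1 hw with rfl | hw
    · exact hv (isAlgebraic_mono (gsp_mono k hSB) hal)
    · exact h S hSB w hw hwS hal

theorem Indp.ratF {k : Subfield K} [PerfectField k] {B : Finset K} (h : Indp k B) :
    RatF k (gsp k B) := by
  classical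
  induction B using Finset.induction_on with
  | empty =>
    rw [gsp_empty]
    exact RatF.base
  | insert v B hvB ih =>
    rw [gsp_insert]
    exact RatF.step (ih (h.mono (Finset.subset_insert v B)))
      (h B (Finset.subset_insert v B) v (Finset.mem_insert_self v B) hvB)

theorem e0_extend {k : Subfield K} {B : Finset K} (h : Indp k B) (S : Finset K) :
    ∃ B', B ⊆ B' ∧ Indp k B' ∧ ∀ z ∈ S, IsAlgebraic (gsp k B') z := by
  classical
  induction S using Finset.induction_on with
  | empty => exact ⟨B, subset_rfl, h, by simp⟩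
  | insert v S hvS ih =>
    obtain ⟨B', h1, h2, h3⟩ := ih
    by_cases hv : IsAlgebraic (gsp k B') v
    · refine ⟨B', h1, h2, fun z hz => ?_⟩
      rcases Finset.mem_insert.1 hz with rfl | hz
      · exact hv
      · exact h3 z hz
    · refine ⟨Insert.insert v B', h1.trans (Finset.subset_insert _ _), h2.insert hv,
        fun z hz => ?_⟩
      rcases Finset.mem_insert.1 hz with rfl | hz
      · exact isAlgebraic_of_mem (mem_gsp (Finset.mem_insert_self _ _))
      · exact isAlgebraic_mono (gsp_mono k (Finset.subset_insert _ _)) (h3 z hz)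

/-- extension of independent sets to transcendence bases. -/
theorem Indp.extend {k : Subfield K} (hfg : FG k (⊤ : Subfield K)) {B : Finset K}
    (h : Indp k B) : ∃ B', B ⊆ B' ∧ Indp k B' ∧ ∀ z : K, IsAlgebraic (gsp k B') z := by
  obtain ⟨S, hS⟩ := hfg
  obtain ⟨B', h1, h2, h3⟩ := e0_extend h S
  refine ⟨B', h1, h2, fun z => e0_alg_trans (le_gsp k B') h3 (isAlgebraic_of_mem ?_)⟩
  change z ∈ pf (k ⊔ Subfield.closure (S : Set K))
  rw [← hS]
  exact Subfield.mem_top z

theorem e0_first [DecidableEq K] {k : Subfield K} {C : Finset K} {v : K}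
    (hC : ¬ IsAlgebraic (gsp k C) v) (T : Finset K) (hT : IsAlgebraic (gsp k (C ∪ T)) v) :
    ∃ w ∈ T, ∃ D, C ⊆ D ∧ D ⊆ C ∪ T ∧ w ∉ D ∧ ¬ IsAlgebraic (gsp k D) v ∧
      IsAlgebraic (gsp k (Insert.insert w D)) v := by
  induction T using Finset.induction_on with
  | empty =>
    rw [Finset.union_empty] at hT
    exact absurd hT hC
  | insert w T hwT ih =>
    by_cases h1 : IsAlgebraic (gsp k (C ∪ T)) v
    · obtain ⟨w', hw', D, h2, h3, h4⟩ := ih h1
      exact ⟨w', Finset.mem_insert_of_mem hw', D, h2,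
        h3.trans (Finset.union_subset_union_right (Finset.subset_insert w T)), h4⟩
    · refine ⟨w, Finset.mem_insert_self w T, C ∪ T, Finset.subset_union_left,
        Finset.union_subset_union_right (Finset.subset_insert w T), ?_, h1, ?_⟩
      · intro h2
        apply h1
        rwa [Finset.union_insert, Finset.insert_eq_of_mem h2] at hT
      · rwa [Finset.union_insert] at hT

/-- one exchange step. -/
theorem e0_step [DecidableEq K] {k : Subfield K} {B B' : Finset K} (h : Indp k B)
    (h' : ∀ z ∈ B, IsAlgebraic (gsp k B') z) {v : K} (hv : v ∈ B) (hv' : v ∉ B') :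
    ∃ w ∈ B', w ∉ B ∧
      ∀ z ∈ B, IsAlgebraic (gsp k (Insert.insert v (B'.erase w))) z := by
  have h0 : B ∩ B' ∪ B' = B' := Finset.union_eq_right.2 Finset.inter_subset_right
  obtain ⟨w, hw, D, h1, h2, h3, h4, h5⟩ := e0_first
    (h (B ∩ B') Finset.inter_subset_left v hv fun h1 => hv' (Finset.mem_inter.1 h1).2) B'
    (by rw [h0]; exact h' v hv)
  rw [h0] at h2
  have hwB : w ∉ B := fun h6 => h3 (h1 (Finset.mem_inter.2 ⟨h6, hw⟩))
  refine ⟨w, hw, hwB, fun z hz => ?_⟩
  rw [gsp_insert] at h5
  have h6 := exchange h4 h5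
  rw [← gsp_insert] at h6
  have h7 : D ⊆ B'.erase w := fun x hx => Finset.mem_erase.2 ⟨fun h8 => h3 (h8 ▸ hx), h2 hx⟩
  have h8 : IsAlgebraic (gsp k (Insert.insert v (B'.erase w))) w :=
    isAlgebraic_mono (gsp_mono k (Finset.insert_subset_insert v h7)) h6
  refine e0_alg_trans (le_gsp k _) (fun x hx => ?_) (h' z hz)
  by_cases hxw : x = w
  · rw [hxw]
    exact h8
  · exact isAlgebraic_of_mem (mem_gsp (Finset.mem_insert_of_mem (Finset.mem_erase.2 ⟨hxw, hx⟩)))

theorem e0_card_le [DecidableEq K] {k : Subfield K} {B : Finset K} (h : Indp k B) (n : ℕ) :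
    ∀ B' : Finset K, (B \ B').card = n → (∀ z ∈ B, IsAlgebraic (gsp k B') z) →
      B.card ≤ B'.card := by
  induction n with
  | zero =>
    intro B' hn _
    exact Finset.card_le_card (Finset.sdiff_eq_empty_iff_subset.1 (Finset.card_eq_zero.1 hn))
  | succ n ih =>
    intro B' hn h'
    obtain ⟨v, hv⟩ : (B \ B').Nonempty := Finset.card_pos.1 (by omega)
    rw [Finset.mem_sdiff] at hv
    obtain ⟨w, hw, hwB, h1⟩ := e0_step h h' hv.1 hv.2
    have h2 : B \ Insert.insert v (B'.erase w) = (B \ B').erase v := by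
      ext x
      simp only [Finset.mem_sdiff, Finset.mem_insert, Finset.mem_erase]
      constructor
      · rintro ⟨h3, h4⟩
        have h5 : x ≠ w := fun h6 => hwB (h6 ▸ h3)
        exact ⟨fun h6 => h4 (Or.inl h6), h3, fun h6 => h4 (Or.inr ⟨h5, h6⟩)⟩
      · rintro ⟨h3, h4, h5⟩
        exact ⟨h4, fun h6 => h6.elim h3 fun h7 => h5 h7.2⟩
    have h3 : (B \ Insert.insert v (B'.erase w)).card = n := by
      rw [h2, Finset.card_erase_of_mem (Finset.mem_sdiff.2 hv), hn, Nat.add_sub_cancel]
    refine (ih _ h3 h1).trans ?_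
    rw [Finset.card_insert_of_notMem fun h4 => hv.2 (Finset.mem_of_mem_erase h4),
      Finset.card_erase_add_one hw]

/-- exchange: an independent set is not larger than a transcendence basis. -/
theorem Indp.card_le {k : Subfield K} {B B' : Finset K} (h : Indp k B)
    (h' : ∀ z ∈ B, IsAlgebraic (gsp k B') z) : B.card ≤ B'.card := by
  classical
  exact e0_card_le h _ B' rfl h'

theorem Td.le {k : Subfield K} {n : ℕ} (h : Td k n) {B : Finset K} (hB : Indp k B) :
    B.card ≤ n := by
  obtain ⟨B', h1, -, h2⟩ := h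
  rw [← h1]
  exact hB.card_le fun z _ => h2 z

theorem Td.unique {k : Subfield K} {n m : ℕ} (h : Td k n) (h' : Td k m) : n = m := by
  obtain ⟨B, h1, h2, -⟩ := id h
  obtain ⟨B', h1', h2', -⟩ := id h'
  exact le_antisymm (h1 ▸ h'.le h2) (h1' ▸ h.le h2')

/-- a transcendence basis containing a given good element. -/
theorem Td.exists_basis {k : Subfield K} (hk : IsAlgClosed k) (hfg : FG k (⊤ : Subfield K))
    {n : ℕ} (h : Td k (n + 1)) {t : K} (ht : t ∉ k) :
    ∃ B : Finset K, B.card = n ∧ Indp k B ∧ ¬ IsAlgebraic (gsp k B) t ∧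
      (∀ z : K, IsAlgebraic (adj (gsp k B) t) z) ∧ t ∉ B := by
  classical
  have hr : RAC k := RAC_of_isAlgClosed k hk
  haveI : PerfectField k := perfect_of_RAC hr
  have h0 : Indp k (∅ : Finset K) := fun S _ v hv _ => absurd hv (Finset.notMem_empty v)
  have h1 : ¬ IsAlgebraic (gsp k (∅ : Finset K)) t := by
    rw [gsp_empty]
    exact fun h2 => ht (hr t h2)
  obtain ⟨B', h2, h3, h4⟩ := (h0.insert h1).extend hfg
  have htB : t ∈ B' := h2 (Finset.mem_insert_self t ∅)
  have hc : B'.card = n + 1 := Td.unique (K := K) (k := k) ⟨B', rfl, h3, h4⟩ h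
  refine ⟨B'.erase t, ?_, h3.mono (Finset.erase_subset t B'),
    h3 _ (Finset.erase_subset t B') t htB (Finset.notMem_erase t B'), fun z => ?_,
    Finset.notMem_erase t B'⟩
  · rw [Finset.card_erase_of_mem htB, hc, Nat.add_sub_cancel]
  · rw [← gsp_insert, Finset.insert_erase htB]
    exact h4 z

end e0

end Vale.Agent.P019P
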