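import Vale.Agent.P019Q.E1a
import Vale.Agent.P019Q.ApE

/-!
# Transcendence degrees of residue fields
-/

namespace Vale.Agent.P019P

open Vale.Agent.P019

set_option linter.style.haveILetI false
set_option linter.unusedSectionVars false
set_option linter.unusedVariables false

open Polynomial Filter

universe u v

theorem e1_root {K : Type*} [Field K] {k : Subfield K} (hk : IsAlgClosed k) {ℓ : ℕ} (hℓ : 0 < ℓ)
    {c : K} (hc : c ∈ k) : ∃ d : K, d ^ ℓ = c := by
  haveI := hk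
  obtain ⟨d, hd⟩ := IsAlgClosed.exists_pow_nat_eq (⟨c, hc⟩ : k) hℓ
  exact ⟨d, by
    have h := congrArg Subtype.val hd
    exact h⟩

theorem e1_neg_one {K : Type*} [Field K] {k : Subfield K} (hk : IsAlgClosed k) {ℓ : ℕ}
    (hℓ : 0 < ℓ) : ∃ i : K, i ^ ℓ = -1 := e1_root hk hℓ (k.neg_mem k.one_mem)

theorem e1_notMem {K : Type*} [Field K] {k : Subfield K} {B : Finset K} (hB : Indp k B) {v : K}
    (hv : v ∈ B) : v ∉ k := fun h =>
  hB ∅ (Finset.empty_subset B) v hv (Finset.notMem_empty v)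
    (isAlgebraic_of_mem (le_gsp k ∅ h))

theorem e1_indp_single {K : Type*} [Field K] {k : Subfield K} (hk : IsAlgClosed k) {y : K}
    (hy : y ∉ k) : Indp k {y} := by
  intro S hS v hv hvS
  rw [Finset.mem_singleton] at hv
  subst hv
  have h1 : S = ∅ := by
    rcases Finset.subset_singleton_iff.1 hS with h | h
    · exact h
    · rw [h] at hvS
      exact absurd (Finset.mem_singleton_self _) hvS
  rw [h1, gsp_empty]
  exact fun h => hy (RAC_of_isAlgClosed k hk v h)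

/-- there is an element which is not a constant. -/
theorem e1_exists {K : Type*} {M : Type*} [Field K] [Field M] [PerfectField K] {ℓ : ℕ}
    [Fact ℓ.Prime] [NeZero (ℓ : K)] {k : Subfield K} (hk : IsAlgClosed k)
    (hfg : FG k (⊤ : Subfield K)) {l : Subfield M} (hl : IsAlgClosed l)
    (Θ : V ℓ K ≃ₗ[ZMod ℓ] V ℓ M) {t : K} (ht : t ∉ k) : ∃ y : M, y ∉ l := by
  by_contra hcon
  push Not at hcon
  have h1 := VS_infinite (ℓ := ℓ) (E := ⊤) hk hfg le_top fun h => ht (h (Subfield.mem_top t))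
  have h2 : ∀ v : V ℓ K, v = 0 := by
    intro v
    obtain ⟨z, hz0, hz⟩ := cl_surj ℓ (Θ v)
    obtain ⟨d, hd⟩ := e1_root hl (Fact.out : ℓ.Prime).pos (hcon z)
    have hd0 : d ≠ 0 := by
      rintro rfl
      rw [zero_pow (Fact.out : ℓ.Prime).ne_zero] at hd
      exact hz0 hd.symm
    rw [(cl_eq_zero_iff ℓ hz0).2 ⟨d, hd0, hd⟩] at hz
    exact Θ.injective (by rw [← hz, map_zero])
  refine h1 (Set.Finite.subset (Set.finite_singleton (0 : V ℓ K)) fun v _ => h2 v)

/-- the residue field of a nice valuation has no centre. -/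
theorem e1_noCtr {K : Type*} [Field K] [PerfectField K] {ℓ : ℕ} [Fact ℓ.Prime] [NeZero (ℓ : K)]
    {k : Subfield K} (hk : IsAlgClosed k) {B : Finset K} (hB : Indp k B) (hBne : B.Nonempty)
    {W : ValuationSubring K} {π θ : K} (hW : Nice W (gsp k B) π θ) (hWk : TrivOn W k) :
    NoCtr ℓ (IsLocalRing.ResidueField W) := by
  haveI := hk
  haveI := rs_perfect hWk
  haveI := rs_neZero (ℓ := ℓ) hWk
  obtain ⟨y, hy⟩ := hBne
  refine noCtr (bar_isAlgClosed hWk hk) (Nice.td hB hW hWk).2 (x := rs W y) fun h => ?_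
  obtain ⟨e, he, hey⟩ := (mem_bar hWk).1 h
  have h1 : e = y := rs_injOn hW.triv (le_gsp k B he) (mem_gsp hy) hey
  exact e1_notMem hB hy (h1 ▸ he)

/-- the isomorphism of the residue fields. -/
theorem e1_res {K : Type*} {L : Type*} [Field K] [Field L] [PerfectField K] [PerfectField L]
    {ℓ : ℕ} [Fact ℓ.Prime] [NeZero (ℓ : K)] [NeZero (ℓ : L)] {Θ : V ℓ K ≃ₗ[ZMod ℓ] V ℓ L}
    {k : Subfield K} (hk : IsAlgClosed k) {l : Subfield L}
    (hl : IsAlgClosed l) (hΘ : Compatible Θ)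
    {B : Finset K} (hB : Indp k B) (hBne : B.Nonempty)
    {W : ValuationSubring K} {π θ : K} (hW : Nice W (gsp k B) π θ)
    {O : ValuationSubring L} (hT : Tr Θ W π O) :
    ∃ Θ' : V ℓ (IsLocalRing.ResidueField W) ≃ₗ[ZMod ℓ] V ℓ (IsLocalRing.ResidueField O),
      Compatible Θ' := by
  obtain ⟨Θ', h, -⟩ := Tr.res hΘ (e1_neg_one hk (Fact.out : ℓ.Prime).pos)
    (e1_neg_one hl (Fact.out : ℓ.Prime).pos) hW.unif hT
    (e1_noCtr hk hB hBne hW (hW.triv.mono (le_gsp k B)))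
  exact ⟨Θ', h⟩

/-- the transcendence degree does not drop under compatible isomorphisms. -/
theorem dim_ge {ℓ : ℕ} [Fact ℓ.Prime] (n : ℕ) : ∀ {K : Type u} {M : Type v} [Field K] [Field M]
    [PerfectField K] [PerfectField M] [NeZero (ℓ : K)] [NeZero (ℓ : M)] {k : Subfield K}
    (_ : IsAlgClosed k) (_ : FG k (⊤ : Subfield K)) {l : Subfield M} (_ : IsAlgClosed l)
    (_ : Fin' l) {Θ : V ℓ K ≃ₗ[ZMod ℓ] V ℓ M} (_ : Compatible Θ) (_ : Td k n),
    ∃ B : Finset M, B.card = n ∧ Indp l B := by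
  induction n with
  | zero =>
    intro K M _ _ _ _ _ _ k hk hfg l hl hfl Θ hΘ hTd
    exact ⟨∅, Finset.card_empty, fun S _ v hv => absurd hv (Finset.notMem_empty v)⟩
  | succ n ih =>
    intro K M _ _ _ _ _ _ k hk hfg l hl hfl Θ hΘ hTd
    classical
    haveI := hk
    haveI := hl
    obtain ⟨t, ht⟩ : ∃ t : K, t ∉ k := by
      obtain ⟨B, hBc, hB, -⟩ := id hTd
      obtain ⟨t, ht⟩ : B.Nonempty := by
        rw [← Finset.card_pos, hBc]
        exact Nat.succ_pos n
      exact ⟨t, e1_notMem hB ht⟩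
    rcases Nat.eq_zero_or_pos n with hn | hn
    · obtain ⟨y, hy⟩ := e1_exists hk hfg hl Θ ht
      exact ⟨{y}, by rw [Finset.card_singleton, hn], e1_indp_single hl hy⟩
    · obtain ⟨B, hBc, hB, htB, halg, -⟩ := hTd.exists_basis hk hfg ht
      have hBne : B.Nonempty := by
        rw [← Finset.card_pos, hBc]
        exact hn
      obtain ⟨θ, hθ⟩ := exists_over_nice hk hfg hB htB halg
      haveI := ae_neBot_of_isAlgClosed hk
      obtain ⟨b, ⟨W, hWo⟩, hNb⟩ := hθ.exists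
      have hN := hNb W hWo
      have hWk : TrivOn W k := hN.triv.mono (le_gsp k B)
      obtain ⟨y, hy⟩ := id hBne
      haveI := gsp_perfect k B
      obtain ⟨O, hT⟩ := exists_tr0 hk hfg hl hΘ (le_gsp k B) (gsp_fg k B) hN
        (e1_notMem hB hy) (hN.triv.mono (adj_le (le_gsp k B) (mem_gsp hy)))
      have hO : TrivOn O l := hfl.triv O
      obtain ⟨Θ', hΘ'⟩ := e1_res hk hl hΘ hB hBne hN hT
      haveI := rs_perfect hWk
      haveI := rs_perfect hO
      haveI := rs_neZero (ℓ := ℓ) hWk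
      haveI := rs_neZero (ℓ := ℓ) hO
      have htd := Nice.td hB hN hWk
      rw [hBc] at htd
      obtain ⟨B1, hB1c, hB1⟩ := ih (bar_isAlgClosed hWk hk) htd.2 (bar_isAlgClosed hO hl)
        (dbd_fin hfl hO) hΘ' htd.1
      obtain ⟨B', hB'c, hB', h, -⟩ := indp_lift hO hB1
      obtain ⟨X, hX0, hX⟩ := rsb_exists_small (dbd_ne_top hT hN.unif)
      have hXa : ¬ IsAlgebraic (gsp l B') X := fun ha => by
        rw [h.eq_one_of_isAlgebraic ha hX0] at hX
        exact lt_irrefl _ hX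
      have hXB : X ∉ B' := fun hm => hXa (isAlgebraic_of_mem (mem_gsp hm))
      exact ⟨insert X B', by rw [Finset.card_insert_of_notMem hXB, hB'c, hB1c], hB'.insert hXa⟩

/-- the residue fields of transferred valuations. -/
theorem res_td {K : Type u} {L : Type v} [Field K] [Field L] [PerfectField K] [PerfectField L]
    {ℓ : ℕ} [Fact ℓ.Prime] [NeZero (ℓ : K)] [NeZero (ℓ : L)] {Θ : V ℓ K ≃ₗ[ZMod ℓ] V ℓ L}
    {k : Subfield K} (hk : IsAlgClosed k) (hfgk : FG k (⊤ : Subfield K)) {l : Subfield L}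
    (hl : IsAlgClosed l) (hfgl : FG l (⊤ : Subfield L)) (hfl : Fin' l) (hΘ : Compatible Θ)
    {B : Finset K} (hB : Indp k B) (hBne : B.Nonempty) (hL : Td l (B.card + 1))
    {W : ValuationSubring K} {π θ : K} (hW : Nice W (gsp k B) π θ)
    {O : ValuationSubring L} (hT : Tr Θ W π O) (hO : TrivOn O l) :
    (∃ ϖ, IsUnif O ϖ) ∧ Td (bar hO) B.card ∧
      FG (bar hO) (⊤ : Subfield (IsLocalRing.ResidueField O)) := by
  classical
  haveI := hk
  haveI := hl
  have hWk : TrivOn W k := hW.triv.mono (le_gsp k B)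
  obtain ⟨Θ', hΘ'⟩ := e1_res hk hl hΘ hB hBne hW hT
  haveI := rs_perfect hWk
  haveI := rs_perfect hO
  haveI := rs_neZero (ℓ := ℓ) hWk
  haveI := rs_neZero (ℓ := ℓ) hO
  have htd := Nice.td hB hW hWk
  obtain ⟨B1, hB1c, hB1⟩ := dim_ge B.card (bar_isAlgClosed hWk hk) htd.2 (bar_isAlgClosed hO hl)
    (dbd_fin hfl hO) hΘ' htd.1
  obtain ⟨B', hB'c, hB', h, hbar⟩ := indp_lift hO hB1
  obtain ⟨B2, hsub, hB2, halg⟩ := hB'.extend hfgl
  have hc : B2.card = B'.card + 1 := by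
    have h1 : Td l B2.card := ⟨B2, rfl, hB2, halg⟩
    rw [h1.unique hL, hB'c, hB1c]
  obtain ⟨y, hyB, rfl⟩ : ∃ y, y ∉ B' ∧ B2 = insert y B' := by
    have h1 : (B2 \ B').card = 1 := by
      rw [Finset.card_sdiff_of_subset hsub]
      omega
    obtain ⟨y, hy⟩ := Finset.card_eq_one.1 h1
    have h2 : y ∈ B2 \ B' := by
      rw [hy]
      exact Finset.mem_singleton_self y
    refine ⟨y, (Finset.mem_sdiff.1 h2).2, ?_⟩
    rw [← Finset.sdiff_union_of_subset hsub, hy]
    rfl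
  haveI := gsp_perfect l B'
  have hya : ¬ IsAlgebraic (gsp l B') y :=
    hB2 B' hsub y (Finset.mem_insert_self y B') hyB
  rw [gsp_insert] at halg
  obtain ⟨h1, h2, h3⟩ := val_struct (hfgl.mono (le_gsp l B') le_top) hya halg h
    (dbd_ne_top hT hW.unif)
  rw [hbar] at h3
  refine ⟨h1, ⟨B1, hB1c, hB1, fun z => ?_⟩, (gsp_fg (bar hO) B1).trans h3⟩
  rw [← hbar]
  exact h2 z

end Vale.Agent.P019P
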