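import Vale.Agent.P019Q.E0
import Vale.Agent.P019Q.Res

/-!
# Independent elements and residue fields
-/

namespace Vale.Agent.P019P

open Vale.Agent.P019

set_option linter.style.haveILetI false
set_option linter.unusedSectionVars false

open Polynomial Filter

section lift

variable {K : Type*} [Field K] [PerfectField K]

theorem e1a_bar_congr {O : ValuationSubring K} {E E' : Subfield K} (h : TrivOn O E)
    (h' : TrivOn O E') (hE : E = E') : bar h = bar h' := by
  subst hE
  rfl

theorem e1a_empty (k : Subfield K) : Indp k ∅ := fun _ _ v hv =>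
  absurd hv (Finset.notMem_empty v)


/-- lifts of independent elements of the residue field. -/
theorem indp_lift {k : Subfield K} [PerfectField k] {O : ValuationSubring K} (hO : TrivOn O k)
    {B : Finset (IsLocalRing.ResidueField O)} (hB : Indp (bar hO) B) :
    ∃ B' : Finset K, B'.card = B.card ∧ Indp k B' ∧ ∃ h : TrivOn O (gsp k B'),
      bar h = gsp (bar hO) B := by
  classical
  haveI : PerfectField (IsLocalRing.ResidueField O) := rs_perfect hO
  haveI : PerfectField (bar hO) := bar_perfect hO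
  induction B using Finset.induction_on with
  | empty =>
    refine ⟨∅, rfl, e1a_empty k, ?_⟩
    rw [gsp_empty k, gsp_empty (bar hO)]
    exact ⟨hO, rfl⟩
  | insert c B hc ih =>
    obtain ⟨B', hcard, hind, h, hbar⟩ := ih (hB.mono (Finset.subset_insert c B))
    have hcalg : ¬ IsAlgebraic (gsp (bar hO) B) c :=
      hB B (Finset.subset_insert c B) c (Finset.mem_insert_self c B) hc
    rw [← hbar] at hcalg
    obtain ⟨y, hy, rfl⟩ := rs_surj c
    haveI := gsp_perfect k B'
    have hT : TrivOn O (adj (gsp k B') y) := rsb_triv h hy hcalg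
    have hyalg : ¬ IsAlgebraic (gsp k B') y := fun h' => hcalg (isAlgebraic_bar h hy h')
    have hyB : y ∉ B' := fun h' => hyalg (isAlgebraic_of_mem (mem_gsp h'))
    refine ⟨insert y B', ?_, hind.insert hyalg, ?_⟩
    · rw [Finset.card_insert_of_notMem hyB, Finset.card_insert_of_notMem hc, hcard]
    · rw [gsp_insert, gsp_insert]
      exact ⟨hT, by rw [bar_adj h hT, hbar]⟩

/-- reduction of independent elements. -/
theorem indp_red {k : Subfield K} [PerfectField k] {B : Finset K} (hB : Indp k B)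
    {O : ValuationSubring K} (hO : TrivOn O k) (h : TrivOn O (gsp k B)) :
    ∃ B' : Finset (IsLocalRing.ResidueField O), B'.card = B.card ∧ Indp (bar hO) B' ∧
      gsp (bar hO) B' = bar h := by
  classical
  haveI : PerfectField (IsLocalRing.ResidueField O) := rs_perfect hO
  haveI : PerfectField (bar hO) := bar_perfect hO
  induction B using Finset.induction_on with
  | empty =>
    refine ⟨∅, rfl, e1a_empty _, ?_⟩
    rw [gsp_empty (bar hO)]
    exact e1a_bar_congr _ _ (gsp_empty k).symm
  | insert v B hv ih =>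
    have h1 : TrivOn O (gsp k B) := h.mono (gsp_mono k (Finset.subset_insert v B))
    obtain ⟨B', hcard, hind, hg⟩ := ih (hB.mono (Finset.subset_insert v B)) h1
    have hv' : ¬ IsAlgebraic (gsp k B) v :=
      hB B (Finset.subset_insert v B) v (Finset.mem_insert_self v B) hv
    have hE := gsp_insert k B v
    have h2 : TrivOn O (adj (gsp k B) v) := by
      rw [← hE]
      exact h
    have hr : ¬ IsAlgebraic (gsp (bar hO) B') (rs O v) := by
      rw [hg]
      exact fun h' => hv' (isAlgebraic_of_bar h1 h2 h')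
    have hrB : rs O v ∉ B' := fun h' => hr (isAlgebraic_of_mem (mem_gsp h'))
    refine ⟨insert (rs O v) B', ?_, hind.insert hr, ?_⟩
    · rw [Finset.card_insert_of_notMem hrB, Finset.card_insert_of_notMem hv, hcard]
    · rw [gsp_insert, hg, ← bar_adj h1 h2]
      exact e1a_bar_congr _ _ hE.symm

/-- the residue fields of nice valuations. -/
theorem Nice.td {k : Subfield K} [PerfectField k] {B : Finset K} (hB : Indp k B)
    {W : ValuationSubring K} {π θ : K} (hW : Nice W (gsp k B) π θ) (hWk : TrivOn W k) :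
    Td (bar hWk) B.card ∧ FG (bar hWk) (⊤ : Subfield (IsLocalRing.ResidueField W)) := by
  obtain ⟨B', h1, h2, h3⟩ := indp_red hB hWk hW.triv
  refine ⟨⟨B', h1, h2, fun z => ?_⟩, hW.fg (le_gsp k B) (gsp_fg k B) hWk⟩
  rw [h3]
  exact hW.alg_bar z

/-- for almost all `a`, every valuation subring over `t = a` is nice. -/
theorem e1a_nice {k F : Subfield K} [PerfectField F] (hkF : k ≤ F)
    (hfg : FG k (⊤ : Subfield K)) {t : K} (ht : ¬ IsAlgebraic F t)
    (hta : ∀ z : K, IsAlgebraic (adj F t) z) :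
    ∃ θ : K, ∀ᶠ a in ae F, ∀ W : ValuationSubring K, Over W F t a →
      Nice W F (t - a) θ := by
  classical
  haveI : PerfectField (adj F t) := perfect_adj _ _
  obtain ⟨θ, hθ⟩ := exists_prim (hkF.trans (le_adj _ t)) hfg hta
  refine ⟨θ, ?_⟩
  have hθalg : IsAlgebraic (adj F t) θ := hta θ
  set Ψ := minpoly (adj F t) θ with hΨ
  have hΨm : Ψ.Monic := minpoly.monic hθalg.isIntegral
  have hΨs : Ψ.Separable := PerfectField.separable_of_irreducible
    (minpoly.irreducible hθalg.isIntegral)
  obtain ⟨m, y, hy, hcoef⟩ := exists_common_root (E := F) (t := t)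
    (Ψ.support.image (fun i => ((Ψ.coeff i : adj F t) : K))) (by
      intro z hz
      obtain ⟨i, -, rfl⟩ := Finset.mem_image.1 hz
      exact (Ψ.coeff i).2)
  have hcoef' : ∀ i, ((Ψ.coeff i : adj F t) : K) ∈ Vale.Agent.P019.adj F y := by
    intro i
    by_cases hi : i ∈ Ψ.support
    · exact hcoef _ (Finset.mem_image_of_mem _ hi)
    · rw [notMem_support_iff.1 hi]
      exact Subfield.zero_mem _
  have hyF : ¬ IsAlgebraic F y := by
    intro h'
    apply ht
    rw [← hy]
    exact h'.pow _
  -- descend the minimal polynomial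
  set F' := IntermediateField.adjoin F {y} with hF'
  have hle : Vale.Agent.P019.adj F y ≤ adj F t := by
    rw [← hy, adj_pow]
    exact adj0_le_adj F y
  have hF'le : ∀ z : F', (z : K) ∈ adj F t := fun z => hle (mem_adjoin_simple.1 z.2)
  let j : F' →+* adj F t :=
    { toFun := fun z => ⟨z, hF'le z⟩
      map_one' := rfl
      map_mul' := fun _ _ => rfl
      map_zero' := rfl
      map_add' := fun _ _ => rfl }
  have hl : Ψ ∈ Polynomial.lifts j := by
    rw [Polynomial.lifts_iff_coeff_lifts]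
    intro n
    exact ⟨⟨Ψ.coeff n, mem_adjoin_simple.2 (hcoef' n)⟩, rfl⟩
  obtain ⟨Φ, hΦ⟩ := hl
  have hΦ' : Φ.map j = Ψ := hΦ
  have hΦm : Φ.Monic := by
    rw [← hΦ'] at hΨm
    exact Polynomial.monic_of_injective j.injective hΨm
  have hΦs : Φ.Separable := by
    rw [← hΦ'] at hΨs
    exact (Polynomial.separable_map j).1 hΨs
  have hΦr : aeval θ Φ = 0 := by
    have h1 : aeval θ Ψ = 0 := minpoly.aeval _ _
    rw [← hΦ', aeval_def, eval₂_map] at h1
    rw [aeval_def]
    exact h1
  have hcore := frp_core_ae hyF F' hF' Φ hΦm hΦr hΦs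
  -- every element has a power in the plain field
  set N0 : Subfield K := Vale.Agent.P019.adj (Vale.Agent.P019.adj F y) θ with hN0
  have hall : ∀ z : K, ∃ n : ℕ, z ^ (ringExpChar K) ^ n ∈ N0 := by
    intro z
    rw [← mem_pf]
    have h1 : Vale.Agent.P019.adj (adj F t) θ ≤ pf N0 := by
      refine Vale.Agent.P019.adj_le ?_ (le_pf _ (Vale.Agent.P019.mem_adj _ _))
      refine pf_mono ?_
      refine Vale.Agent.P019.adj_le ((Vale.Agent.P019.le_adj F y).trans
        (Vale.Agent.P019.le_adj _ θ)) ?_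
      rw [← hy]
      exact Subfield.pow_mem _ (Vale.Agent.P019.le_adj _ θ (Vale.Agent.P019.mem_adj F y)) _
    exact h1 (hθ z)
  rw [ae_iff] at hcore ⊢
  refine (hcore.image (fun c => c ^ (ringExpChar K) ^ m)).subset ?_
  rintro a ⟨haF, ha⟩
  obtain ⟨c, hcF, hca⟩ := exists_root_q F haF m
  refine ⟨c, ⟨hcF, ?_⟩, hca⟩
  intro hc
  apply ha
  intro W hW
  obtain ⟨c', hc'F, hc'a, hWc⟩ := Over.root haF hy hW
  have hcc : c' = c := pow_q_inj (hc'a.trans hca.symm)
  rw [hcc] at hWc
  obtain ⟨h1, h2, h3, h4⟩ := hc W hWc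
  have hπ : (y - c) ^ (ringExpChar K) ^ m = t - a := by
    rw [sub_pow_q, hy, hca]
  have hne : t - a ≠ 0 := by
    intro h0
    apply ht
    rw [sub_eq_zero.1 h0]
    exact isAlgebraic_of_mem haF
  refine ⟨inferInstance, ⟨hne, hW.lt, ?_⟩, hW.triv, h1, ?_, h4⟩
  · intro z hz0
    obtain ⟨n, hn⟩ := hall z
    obtain ⟨i, hi⟩ := h2 _ hn (pow_ne_zero _ hz0)
    refine ⟨n + m, i, ?_⟩
    have e2 : ((y - c) ^ (ringExpChar K) ^ m) ^ i = ((y - c) ^ i) ^ (ringExpChar K) ^ m := by
      rw [← zpow_natCast, ← zpow_natCast, ← zpow_mul, ← zpow_mul, mul_comm]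
    have e : z ^ (ringExpChar K) ^ (n + m) * (t - a) ^ i =
        (z ^ (ringExpChar K) ^ n * (y - c) ^ i) ^ (ringExpChar K) ^ m := by
      rw [← hπ, e2, pow_add, pow_mul, mul_pow]
    rw [e, map_pow, hi, one_pow]
  · intro z hz
    obtain ⟨n, hn⟩ := hall z
    refine frp_res hW.triv h1 h4 hz (n := n) (h3 _ hn ?_)
    rw [map_pow]
    exact pow_le_one₀ zero_le hz

/-- there is a nice valuation over `t = b` for almost all `b`. -/
theorem exists_over_nice {k : Subfield K} (hk : IsAlgClosed k) (hfg : FG k (⊤ : Subfield K))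
    {B : Finset K} (hB : Indp k B) {t : K} (ht : ¬ IsAlgebraic (gsp k B) t)
    (halg : ∀ z : K, IsAlgebraic (adj (gsp k B) t) z) :
    ∃ θ : K, ∀ᶠ b in ae k, (∃ W : ValuationSubring K, Over W (gsp k B) t b) ∧
      ∀ W : ValuationSubring K, Over W (gsp k B) t b → Nice W (gsp k B) (t - b) θ := by
  haveI := gsp_perfect k B
  obtain ⟨θ, hθ⟩ := e1a_nice (le_gsp k B) hfg ht halg
  refine ⟨θ, ?_⟩
  rw [ae_iff] at hθ ⊢
  refine hθ.subset ?_
  rintro b ⟨hb, hb'⟩
  refine ⟨le_gsp k B hb, fun h => hb' ⟨exists_over ht (le_gsp k B hb), h⟩⟩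

end lift

end Vale.Agent.P019P
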