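import Vale.Agent.P019Q.E0
import Vale.Agent.P019Q.ResB

/-!
# The degree of the residue fields
-/

namespace Vale.Agent.P019P

open Vale.Agent.P019

set_option linter.style.haveILetI false
set_option linter.unusedSectionVars false

open Polynomial Filter

variable {K : Type*} [Field K]

/-- a monic relation from linearly dependent powers. -/
theorem e2r_poly {A R : Type*} [Field A] [Field R] [Algebra A R] (c : R) (d : ℕ)
    (h : ¬ LinearIndependent A (fun i : Fin (d + 1) => c ^ (i : ℕ))) :
    ∃ p : A[X], p.Monic ∧ p.natDegree ≤ d ∧ aeval c p = 0 := by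
  classical
  rw [Fintype.not_linearIndependent_iff] at h
  obtain ⟨g, hg, i0, hi0⟩ := h
  set p0 : A[X] := ∑ i : Fin (d + 1), C (g i) * X ^ (i : ℕ) with hp
  have hcoef : p0.coeff i0 = g i0 := by
    rw [hp, finsetSum_coeff, Finset.sum_eq_single i0]
    · simp
    · intro j _ hj
      rw [coeff_C_mul, coeff_X_pow, if_neg, mul_zero]
      exact fun h => hj (Fin.ext h.symm)
    · intro h; exact absurd (Finset.mem_univ _) h
  have hp0 : p0 ≠ 0 := by
    intro h0
    rw [h0, coeff_zero] at hcoef
    exact hi0 hcoef.symm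
  have hdeg : p0.natDegree ≤ d :=
    natDegree_sum_le_of_forall_le _ _ fun i _ =>
      (natDegree_C_mul_X_pow_le _ _).trans (Nat.lt_succ_iff.1 i.2)
  have hroot : aeval c p0 = 0 := by
    rw [hp, map_sum, ← hg]
    refine Finset.sum_congr rfl fun i _ => ?_
    rw [map_mul, aeval_C, map_pow, aeval_X, Algebra.smul_def]
  refine ⟨p0 * C p0.leadingCoeff⁻¹, monic_mul_leadingCoeff_inv hp0, ?_, ?_⟩
  · rw [natDegree_mul_leadingCoeff_inv _ hp0]
    exact hdeg
  · rw [map_mul, hroot, zero_mul]

/-- the degree of the residue field is bounded. -/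
theorem res_deg [PerfectField K] {F : Subfield K} [PerfectField F]
    (hfg : FG F (⊤ : Subfield K)) {t : K} (ht : ¬ IsAlgebraic F t)
    (halg : ∀ z : K, IsAlgebraic (adj F t) z) :
    ∃ d : ℕ, ∀ (W : ValuationSubring K) (hW : TrivOn W F) (b : K), b ∈ F →
      W.valuation (t - b) < 1 → ∀ c : IsLocalRing.ResidueField W,
      ∃ p : (bar hW)[X], p.Monic ∧ p.natDegree ≤ d ∧ aeval c p = 0 := by
  obtain ⟨S, hS⟩ := hfg
  have halg' : ∀ z : K, IsAlgebraic (IntermediateField.adjoin F {t}) z := fun z =>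
    isAlgebraic_adjoin_simple'.2 (halg z)
  set L := IntermediateField.adjoin (IntermediateField.adjoin F {t}) (S : Set K) with hLdef
  haveI : FiniteDimensional (IntermediateField.adjoin F {t}) L :=
    IntermediateField.finiteDimensional_adjoin fun x _ => (halg' x).isIntegral
  have hAL : ∀ z ∈ IntermediateField.adjoin F {t}, z ∈ L := fun z hz =>
    L.algebraMap_mem (⟨z, hz⟩ : IntermediateField.adjoin F {t})
  have hL : F ≤ L.toSubfield := fun z hz =>
    hAL z ((IntermediateField.adjoin F {t}).algebraMap_mem (⟨z, hz⟩ : F))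
  have hSL : F ⊔ Subfield.closure (S : Set K) ≤ L.toSubfield :=
    sup_le hL (Subfield.closure_le.2 fun z hz => IntermediateField.subset_adjoin _ _ hz)
  have hpow : ∀ z : K, ∃ m : ℕ, z ^ ringExpChar K ^ m ∈ L := by
    intro z
    have h1 : z ∈ pf (F ⊔ Subfield.closure (S : Set K)) := hS ▸ Subfield.mem_top z
    obtain ⟨m, hm⟩ := mem_pf.1 h1
    exact ⟨m, hSL hm⟩
  refine ⟨Module.finrank (IntermediateField.adjoin F {t}) L, fun W hW b hb hlt c => ?_⟩
  refine e2r_poly c _ fun hli => ?_
  haveI : PerfectField (bar hW) := bar_perfect hW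
  have hX0 : t - b ≠ 0 := by
    intro h
    rw [sub_eq_zero] at h
    apply ht
    rw [h]
    exact isAlgebraic_algebraMap (⟨b, hb⟩ : F)
  obtain ⟨z, hz, rfl⟩ := rs_surj c
  obtain ⟨m, hm⟩ := hpow z
  have h1 := linearIndependent_pow hli m
  rw [rs_ringExpChar hW] at h1
  have h2 : LinearIndependent (bar hW)
      (fun i : Fin (Module.finrank (IntermediateField.adjoin F {t}) L + 1) =>
        rs W ((z ^ ringExpChar K ^ m) ^ (i : ℕ))) := by
    convert h1 using 2 with i
    rw [rs_pow (pow_mem hz _), rs_pow hz, ← pow_mul, ← pow_mul, mul_comm]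
  have h3 := rsb_indep hW hX0 hlt (fun i => pow_mem (pow_mem hz _) _) h2
  rw [adjoin_sub F t ⟨b, hb⟩] at h3
  have h4 : LinearIndependent (IntermediateField.adjoin F {t})
      (fun i : Fin (Module.finrank (IntermediateField.adjoin F {t}) L + 1) =>
        (⟨(z ^ ringExpChar K ^ m) ^ (i : ℕ), pow_mem hm _⟩ : L)) :=
    LinearIndependent.of_comp L.val.toLinearMap h3
  have h5 := h4.fintype_card_le_finrank
  rw [Fintype.card_fin] at h5
  omega

end Vale.Agent.P019P
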