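import Vale.Agent.P019Q.UKill

/-!
# Killed classes, finite extensions
-/

namespace Vale.Agent.P019P

open Vale.Agent.P019

set_option linter.style.haveILetI false
set_option linter.unusedSectionVars false

open Polynomial

variable {Ω : Type*} [Field Ω] [PerfectField Ω]

/-- infinitely many classes of `L` die in a function field `κ` over `Bs`. -/
theorem ft_sub [IsAlgClosed Ω] (ℓ : ℕ) [Fact ℓ.Prime] [NeZero (ℓ : Ω)] {l L Bs κ : Subfield Ω}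
    (hl : IsAlgClosed l) (hfg : FG l L) (hlB : l ≤ Bs) (hBs : IsAlgClosed Bs) {y1 y2 : Ω}
    (hy1 : y1 ∈ L) (hy2 : y2 ∈ L) (hL : ∀ a ∈ L, IsAlgebraic (adj (adj l y1) y2) a)
    (h1 : ¬ IsAlgebraic Bs y1) (h2 : ¬ IsAlgebraic (adj l y1) y2)
    (h3 : IsAlgebraic (adj Bs y1) y2) (hκ : FG Bs κ) (hLκ : L ≤ κ)
    (X : Set Ω) (hX : ∀ x ∈ X, x ∈ L ∧ x ≠ 0)
    (hinf : ∀ n : ℕ, ∃ x : Fin n → Ω, (∀ i, x i ∈ X) ∧
      ∀ i j, i ≠ j → ¬ ∃ w ∈ L, x i = x j * w ^ ℓ)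
    (hpow : ∀ x ∈ X, ∃ r ∈ κ, r ^ ℓ = x) : ∃ h ∈ L, h ∈ Bs ∧ h ∉ l := by
  classical
  have hℓ : 0 < ℓ := (Fact.out : ℓ.Prime).pos
  obtain ⟨ζ, hζl, hζ⟩ := finK_prim hl ℓ
  have hfgE : FG (L ⊔ Bs : Subfield Ω) κ := hκ.mono le_sup_right (sup_le hLκ hκ.le)
  obtain ⟨N, hN⟩ := fk ℓ hfgE ((le_sup_right : Bs ≤ L ⊔ Bs) (hlB hζl)) hζ
  let X₀ : Set Ω := {u | (∃ x ∈ X, ∃ x' ∈ X, u = x / x') ∧ ∃ r ∈ L ⊔ Bs, r ^ ℓ = u}
  refine kill ℓ hl hfg hlB hBs hy1 hy2 hL h1 h2 h3 X₀ ?_ ?_ ?_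
  · rintro _ ⟨⟨x, hx, x', hx', rfl⟩, -⟩
    exact ⟨L.div_mem (hX x hx).1 (hX x' hx').1, div_ne_zero (hX x hx).2 (hX x' hx').2⟩
  · by_contra hcon
    push Not at hcon
    obtain ⟨n, hn⟩ := hcon
    have hn0 : n ≠ 0 := by
      rintro rfl
      obtain ⟨i, -⟩ := hn (fun i => i.elim0) (fun i => i.elim0)
      exact i.elim0
    obtain ⟨m, rfl⟩ := Nat.exists_eq_succ_of_ne_zero hn0
    refine pigeon (fun x => x ∈ X) (fun x y => ∃ w ∈ L ⊔ Bs, x = y * w ^ ℓ)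
      (fun x y => ∃ w ∈ L, x = y * w ^ ℓ) ?_ ?_ ?_ N m ?_ ?_ hinf
    · rintro x y hx hy ⟨w, hw, h⟩
      have hw0 : w ≠ 0 := by
        rintro rfl
        rw [zero_pow hℓ.ne', mul_zero] at h
        exact (hX x hx).2 h
      refine ⟨w⁻¹, Subfield.inv_mem _ hw, ?_⟩
      rw [h, inv_pow, mul_inv_cancel_right₀ (pow_ne_zero _ hw0)]
    · rintro x y z - - - ⟨w, hw, h⟩ ⟨w', hw', h'⟩
      refine ⟨w' * w, Subfield.mul_mem _ hw' hw, ?_⟩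
      rw [h, h', mul_pow, mul_assoc]
    · intro x _
      exact ⟨1, Subfield.one_mem _, by rw [one_pow, mul_one]⟩
    · intro x hx
      obtain ⟨i, j, hij, y, hy, -, hxy⟩ := hN x (fun i =>
        ⟨(le_sup_left : L ≤ L ⊔ Bs) (hX _ (hx i)).1, (hX _ (hx i)).2, by
          obtain ⟨r, hr, hrx⟩ := hpow _ (hx i)
          exact ⟨r, hr, hrx⟩⟩)
      exact ⟨i, j, hij, y, hy, hxy⟩
    · intro x hx hR
      have hx0 : ∀ i, x i ≠ 0 := fun i => (hX _ (hx i)).2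
      obtain ⟨i, j, hij, w, hw, hxw⟩ := hn (fun i => x i / x 0) (fun i => by
        refine ⟨⟨x i, hx i, x 0, hx 0, rfl⟩, ?_⟩
        obtain ⟨w, hw, h⟩ := hR i 0
        refine ⟨w, hw, ?_⟩
        rw [h]
        field_simp [hx0 0])
      refine ⟨i, j, hij, w, hw, ?_⟩
      have h0 := hx0 0
      have h5 : x i / x 0 = x j / x 0 * w ^ ℓ := hxw
      field_simp at h5
      exact h5
  · rintro _ ⟨-, h⟩
    exact h

end Vale.Agent.P019P
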