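import Vale.Agent.P019Q.UAlg
import Vale.Agent.P019Q.UPl
import Vale.Agent.P019Q.UKill2
import Vale.Agent.P019Q.ApD

/-!
# Step A: field theory
-/

namespace Vale.Agent.P019P

open Vale.Agent.P019

set_option linter.style.haveILetI false
set_option linter.unusedSectionVars false

open Polynomial Filter

section

variable {Ω : Type*} [Field Ω]

/-- algebraic extensions of bounded degree are generated by one element. -/
theorem bd_prim {M κ : Subfield Ω} [PerfectField M] (hM : M ≤ κ)
    (halg : ∀ r ∈ κ, IsAlgebraic M r) {d : ℕ} (hd : ∀ r ∈ κ, (minpoly M r).natDegree ≤ d) :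
    ∃ γ ∈ κ, κ ≤ Vale.Agent.P019.adj M γ := by
  classical
  obtain ⟨m, ⟨γ, hγ, hγm⟩, hmax⟩ : ∃ m : ℕ, (∃ γ ∈ κ, (minpoly M γ).natDegree = m) ∧
      ∀ m' : ℕ, (∃ γ ∈ κ, (minpoly M γ).natDegree = m') → m' ≤ m := by
    have h1 : ∃ m : ℕ, ∃ γ ∈ κ, (minpoly M γ).natDegree = m := ⟨_, 0, κ.zero_mem, rfl⟩
    have h2 : ∀ m : ℕ, (∃ γ ∈ κ, (minpoly M γ).natDegree = m) → m ≤ d := by
      rintro m ⟨γ, hγ, rfl⟩
      exact hd γ hγ
    exact ⟨Nat.findGreatest (fun m => ∃ γ ∈ κ, (minpoly M γ).natDegree = m) d,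
      Nat.findGreatest_spec (P := fun m => ∃ γ ∈ κ, (minpoly M γ).natDegree = m)
        (h2 _ h1.choose_spec) h1.choose_spec,
      fun m' hm' => Nat.le_findGreatest (h2 m' hm') hm'⟩
  refine ⟨γ, hγ, fun r hr => ?_⟩
  obtain ⟨b, hb, hbC⟩ := ul1_primitive (E := M) {γ, r} (Set.toFinite _) (by
    rintro x hx
    rcases hx with rfl | rfl
    · exact halg _ hγ
    · exact halg _ hr)
  have hsub : ∀ x ∈ IntermediateField.adjoin M {γ, r}, x ∈ κ := by
    intro x hx
    induction hx using IntermediateField.adjoin_induction with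
    | mem x hx =>
      rcases hx with rfl | rfl
      · exact hγ
      · exact hr
    | algebraMap x => exact hM x.2
    | add x y _ _ hx hy => exact κ.add_mem hx hy
    | mul x y _ _ hx hy => exact κ.mul_mem hx hy
    | inv x _ hx => exact κ.inv_mem hx
  have hbκ : b ∈ κ := hsub b (by rw [hbC]; exact IntermediateField.mem_adjoin_simple_self M b)
  have hγb : IntermediateField.adjoin M {γ} ≤ IntermediateField.adjoin M {b} := by
    rw [← hbC]
    exact IntermediateField.adjoin.mono M _ _ (by simp)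
  haveI : FiniteDimensional M (IntermediateField.adjoin M {b}) :=
    IntermediateField.adjoin.finiteDimensional hb.isIntegral
  have heq : IntermediateField.adjoin M {γ} = IntermediateField.adjoin M {b} := by
    refine IntermediateField.eq_of_le_of_finrank_le hγb ?_
    rw [IntermediateField.adjoin.finrank hb.isIntegral,
      IntermediateField.adjoin.finrank (halg γ hγ).isIntegral, hγm]
    exact hmax _ ⟨b, hbκ, rfl⟩
  have hr1 : r ∈ IntermediateField.adjoin M {γ} := by
    rw [heq, ← hbC]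
    exact IntermediateField.subset_adjoin M _ (by simp)
  exact mem_adjoin_simple.1 hr1

/-- finitely generated fields and embeddings. -/
theorem fg_map {L : Type*} [Field L] [PerfectField L] [PerfectField Ω] (j : L →+* Ω) {l : Subfield L}
    (h : FG l (⊤ : Subfield L)) : FG (l.map j) ((⊤ : Subfield L).map j) := by
  classical
  obtain ⟨S, hS⟩ := h
  refine ⟨S.image j, le_antisymm ?_ ?_⟩
  · rw [hS]
    refine (map_pf_le j _).trans (pf_mono ?_)
    rw [Subfield.map_le_iff_le_comap]
    refine sup_le ?_ ?_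
    · rw [← Subfield.map_le_iff_le_comap]
      exact le_sup_left
    · rw [Subfield.closure_le]
      intro x hx
      exact (le_sup_right : Subfield.closure ((S.image j : Finset Ω) : Set Ω) ≤ _)
        (Subfield.subset_closure (by simpa using ⟨x, hx, rfl⟩))
  · haveI : PerfectField ((⊤ : Subfield L).map j) := perfect_map j _
    refine pf_le (sup_le (sub_map_mono j le_top) ?_)
    rw [Subfield.closure_le]
    intro x hx
    obtain ⟨y, -, rfl⟩ := by simpa using hx
    exact ⟨y, Subfield.mem_top y, rfl⟩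

/-- algebraic dependence from a bounded relation. -/
theorem brel_alg {B : Subfield Ω} (hB : RAC B) {X Y : Ω} (hX : X ∉ B) {d : ℕ} {c : ℕ → ℕ → Ω}
    (hc : ∀ i j, c i j ∈ B)
    (h0 : ∃ i ∈ Finset.range (d + 1), ∃ j ∈ Finset.range (d + 1), c i j ≠ 0)
    (h : ∑ i ∈ Finset.range (d + 1), ∑ j ∈ Finset.range (d + 1), c i j * X ^ i * Y ^ j = 0) :
    IsAlgebraic (adj B X) Y := by
  have hmem : ∀ j, (∑ i ∈ Finset.range (d + 1), c i j * X ^ i) ∈ adj B X := fun j =>
    sum_mem fun i _ => mul_mem (le_adj B X (hc i j)) (pow_mem (mem_adj B X) i)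
  refine (apd_minpoly (E := adj B X)
    (a := fun j => ⟨∑ i ∈ Finset.range (d + 1), c i j * X ^ i, hmem j⟩) (n := d) ?_ ?_).1
  · obtain ⟨i, hi, j, hj, hij⟩ := h0
    refine ⟨j, hj, fun h1 => ?_⟩
    exact apd_ne_zero hB hX (a := fun i => c i j) (fun i => hc i j) ⟨i, hi, hij⟩
      (congrArg Subtype.val h1)
  · rw [← h, Finset.sum_comm]
    refine Finset.sum_congr rfl fun j _ => ?_
    change (∑ i ∈ Finset.range (d + 1), c i j * X ^ i) * Y ^ j = _
    rw [Finset.sum_mul]

end

end Vale.Agent.P019P
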