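import Vale.Agent.P019P.Gal
import Vale.Agent.P019P.FinK

/-!
# Bounded relations between elements of bounded degree
-/

namespace Vale.Agent.P019P

open Vale.Agent.P019

set_option linter.style.haveILetI false
set_option linter.unusedSectionVars false

open Polynomial

/-- a nontrivial polynomial relation of bidegree at most `(d, d)` with coefficients in `l`. -/
def BRel {κ : Type*} [Field κ] (l : Subfield κ) (d : ℕ) (X Y : κ) : Prop :=
  ∃ c : ℕ → ℕ → κ, (∀ i j, c i j ∈ l) ∧
    (∃ i ∈ Finset.range (d + 1), ∃ j ∈ Finset.range (d + 1), c i j ≠ 0) ∧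
    ∑ i ∈ Finset.range (d + 1), ∑ j ∈ Finset.range (d + 1), c i j * X ^ i * Y ^ j = 0

section urel

variable {κ : Type*} [Field κ] {l : Subfield κ}

/-- coefficients of the swapped polynomial. -/
theorem urel_coeff_swap {R : Type*} [CommRing R] (Φ : R[X][X]) (i j : ℕ) :
    ((Bivariate.swap Φ).coeff i).coeff j = (Φ.coeff j).coeff i := by
  induction Φ using Polynomial.induction_on' with
  | add p q hp hq => simp only [map_add, coeff_add, hp, hq]
  | monomial n a =>
    induction a using Polynomial.induction_on' with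
    | add p q hp hq => simp only [map_add, coeff_add, hp, hq]
    | monomial m b =>
      rw [Bivariate.swap_monomial_monomial, coeff_monomial, coeff_monomial]
      split_ifs with h1 h2 h2
      · rw [coeff_monomial, coeff_monomial, if_pos h1, if_pos h2]
      · rw [coeff_monomial, if_neg h2, coeff_zero]
      · rw [coeff_monomial, if_neg h1, coeff_zero]
      · rw [coeff_zero, coeff_zero]

/-- the evaluation in two variables. -/
theorem urel_eval (x y : κ) (Φ : l[X][X]) :
    aevalAeval x y Φ = eval₂ ((aeval x : l[X] →ₐ[l] κ) : l[X] →+* κ) y Φ := by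
  induction Φ using Polynomial.induction_on' with
  | add p q hp hq => rw [map_add, hp, hq, eval₂_add]
  | monomial n a =>
    rw [eval₂_monomial, ← C_mul_X_pow_eq_monomial, map_mul, map_pow, aevalAeval_C, aevalAeval_Y]
    rfl

/-- polynomials in `Z` are in `l(Z)`. -/
theorem urel_mem (Z : κ) (A : l[X]) : aeval Z A ∈ Vale.Agent.P019.adj l Z := by
  rw [aeval_eq_sum_range]
  refine sum_mem fun i _ => ?_
  rw [Algebra.smul_def]
  exact mul_mem (Vale.Agent.P019.le_adj l Z (A.coeff i).2)
    (pow_mem (Vale.Agent.P019.mem_adj l Z) i)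

/-- the evaluation with values in `l(Z)`. -/
noncomputable def urelEv (l : Subfield κ) (Z : κ) : l[X] →+* Vale.Agent.P019.adj l Z :=
  ((aeval Z : l[X] →ₐ[l] κ) : l[X] →+* κ).codRestrict _ (fun p => urel_mem Z p)

theorem urelEv_inj {Z : κ} (hZ : ¬ IsAlgebraic l Z) : Function.Injective (urelEv l Z) := by
  rw [injective_iff_map_eq_zero]
  intro p hp
  by_contra hne
  exact hZ ⟨p, hne, congrArg Subtype.val hp⟩

theorem urel_frac {Z : κ} (hZ : ¬ IsAlgebraic l Z) :
    @IsFractionRing l[X] _ (Vale.Agent.P019.adj l Z) _ (urelEv l Z).toAlgebra := by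
  letI : Algebra l[X] (Vale.Agent.P019.adj l Z) := (urelEv l Z).toAlgebra
  haveI : FaithfulSMul l[X] (Vale.Agent.P019.adj l Z) :=
    (faithfulSMul_iff_algebraMap_injective _ _).2 (urelEv_inj hZ)
  refine IsFractionRing.of_field l[X] (Vale.Agent.P019.adj l Z) ?_
  rintro ⟨z, hz⟩
  obtain ⟨p, q, h⟩ := finK_mem_adj.1 hz
  exact ⟨p, q, Subtype.ext h⟩

/-- an irreducible relation. -/
theorem urel_exists {Z W : κ} (hZ : ¬ IsAlgebraic l Z)
    (hW : IsAlgebraic (Vale.Agent.P019.adj l Z) W) :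
    ∃ Φ : l[X][X], Irreducible Φ ∧ aevalAeval Z W Φ = 0 := by
  letI : Algebra l[X] (Vale.Agent.P019.adj l Z) := (urelEv l Z).toAlgebra
  haveI := urel_frac hZ
  letI : Algebra l[X] κ := ((aeval Z : l[X] →ₐ[l] κ) : l[X] →+* κ).toAlgebra
  haveI : IsScalarTower l[X] (Vale.Agent.P019.adj l Z) κ :=
    IsScalarTower.of_algebraMap_eq (fun _ => rfl)
  obtain ⟨p, hp0, hp⟩ := (IsFractionRing.isAlgebraic_iff l[X] (Vale.Agent.P019.adj l Z) κ).2 hW
  let ψ : l[X][X] →+* κ := ((aevalAeval Z W : l[X][X] →ₐ[l] κ) : l[X][X] →+* κ)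
  have h1 : (RingHom.ker ψ).IsPrime := RingHom.ker_isPrime ψ
  have h2 : RingHom.ker ψ ≠ ⊥ := by
    intro h
    apply hp0
    have h3 : p ∈ RingHom.ker ψ := by
      rw [RingHom.mem_ker]
      change aevalAeval Z W p = 0
      rw [urel_eval]
      exact hp
    rw [h] at h3
    exact h3
  obtain ⟨Φ, hΦ, hΦp⟩ := h1.exists_mem_prime_of_ne_bot h2
  exact ⟨Φ, hΦp.irreducible, hΦ⟩

/-- Gauss's lemma. -/
theorem urel_gauss {Z W : κ} (hZ : ¬ IsAlgebraic l Z) {Φ : l[X][X]} (hΦ : Irreducible Φ)
    (h0 : aevalAeval Z W Φ = 0) :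
    Irreducible (Φ.map (urelEv l Z)) ∧ aeval W (Φ.map (urelEv l Z)) = 0 := by
  constructor
  · letI : Algebra l[X] (Vale.Agent.P019.adj l Z) := (urelEv l Z).toAlgebra
    haveI := urel_frac hZ
    have h1 : Φ.natDegree ≠ 0 := by
      intro h
      obtain ⟨a, ha⟩ := natDegree_eq_zero.1 h
      rw [← ha, aevalAeval_C] at h0
      have ha0 : a ≠ 0 := by
        rintro rfl
        rw [C_0] at ha
        exact hΦ.ne_zero ha.symm
      exact hZ ⟨a, ha0, h0⟩
    exact ((hΦ.isPrimitive h1).irreducible_iff_irreducible_map_fraction_map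
      (K := Vale.Agent.P019.adj l Z)).1 hΦ
  · rw [aeval_def, eval₂_map, ← h0, urel_eval]
    rfl

/-- the degree of the minimal polynomial. -/
theorem urel_natDegree {Z W : κ} (hZ : ¬ IsAlgebraic l Z) {Φ : l[X][X]} (hΦ : Irreducible Φ)
    (h0 : aevalAeval Z W Φ = 0) :
    (minpoly (Vale.Agent.P019.adj l Z) W).natDegree = Φ.natDegree := by
  obtain ⟨h1, h2⟩ := urel_gauss hZ hΦ h0
  rw [← minpoly.eq_of_irreducible h1 h2, natDegree_mul_C
    (inv_ne_zero (leadingCoeff_ne_zero.2 h1.ne_zero)),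
    natDegree_map_eq_of_injective (urelEv_inj hZ)]

/-- separability. -/
theorem urel_sep {Z W : κ} (hZ : ¬ IsAlgebraic l Z) {Φ : l[X][X]} (hΦ : Irreducible Φ)
    (h0 : aevalAeval Z W Φ = 0) (hd : derivative Φ ≠ 0) :
    IsSeparable (Vale.Agent.P019.adj l Z) W := by
  obtain ⟨h1, h2⟩ := urel_gauss hZ hΦ h0
  have h3 : (Φ.map (urelEv l Z)).Separable := by
    rw [separable_iff_derivative_ne_zero h1, derivative_map]
    rwa [Ne, Polynomial.map_eq_zero_iff (urelEv_inj hZ)]
  exact h3.of_dvd (minpoly.dvd _ _ h2)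

/-- the two derivatives of an irreducible polynomial are not both zero. -/
theorem urel_deriv {F : Type*} [Field F] [PerfectField F] {Φ : F[X][X]} (hΦ : Irreducible Φ)
    (h1 : derivative Φ = 0) (h2 : derivative (Bivariate.swap Φ) = 0) : False := by
  obtain ⟨p, hp⟩ := ExpChar.exists F
  haveI : PerfectRing F p := PerfectField.toPerfectRing p
  haveI : ExpChar F[X] p := inferInstance
  have hco : ∀ j, derivative (Φ.coeff j) = 0 := by
    intro j
    ext i
    rw [coeff_derivative, coeff_zero]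
    have h3 := congrArg (fun q => (q.coeff i).coeff j) h2
    simp only [coeff_derivative, coeff_zero] at h3
    have h4 : ((Bivariate.swap Φ).coeff (i + 1) * ((i : F[X]) + 1)).coeff j =
        ((Bivariate.swap Φ).coeff (i + 1)).coeff j * ((i : F) + 1) := by
      have h5 : ((i : F[X]) + 1) = C ((i : F) + 1) := by
        rw [C_add, C_1, ← C_eq_natCast]
      rw [h5, coeff_mul_C]
    rw [h4, urel_coeff_swap] at h3
    exact h3
  have hlift : ∀ j, Φ.coeff j ∈ Set.range (frobenius F[X] p) := by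
    intro j
    have h3 := expand_contract' (p := p) (hco j)
    refine ⟨(contract p (Φ.coeff j)).map ((frobeniusEquiv F p).symm : F →+* F), ?_⟩
    have h5 : (frobenius F p).comp ((frobeniusEquiv F p).symm : F →+* F) = RingHom.id F := by
      ext x
      rw [RingHom.comp_apply, RingHom.id_apply]
      exact frobenius_apply_frobeniusEquiv_symm F p x
    rw [frobenius_def, ← map_frobenius_expand, map_expand, map_map, h5, Polynomial.map_id, h3]
  have h3 := expand_contract' (p := p) h1
  have h4 : contract p Φ ∈ lifts (frobenius F[X] p) := by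
    rw [lifts_iff_coeff_lifts]
    intro n
    rw [coeff_contract (expChar_pos F p).ne']
    exact hlift _
  obtain ⟨G, hG⟩ := (mem_lifts _).1 h4
  rw [← hG, ← map_expand, map_frobenius_expand] at h3
  obtain _ | ⟨hprime⟩ := hp
  · have h5 : Φ.natDegree = 0 := derivative_eq_zero.1 h1
    have h6 : (Φ.coeff 0).natDegree = 0 := derivative_eq_zero.1 (hco 0)
    rw [eq_C_of_natDegree_eq_zero h5, eq_C_of_natDegree_eq_zero h6] at hΦ
    by_cases hb : (Φ.coeff 0).coeff 0 = 0
    · rw [hb, C_0, C_0] at hΦ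
      exact hΦ.ne_zero rfl
    · exact hΦ.not_isUnit (isUnit_C.2 (isUnit_C.2 (isUnit_iff_ne_zero.2 hb)))
  · rw [← h3] at hΦ
    exact not_irreducible_pow hprime.ne_one hΦ

/-- the degree of a separable element. -/
theorem urel_deg {Z W : κ} {d : ℕ} (hs : IsSeparable (Vale.Agent.P019.adj l Z) W)
    (hf : Module.Finite (adj l Z) κ) (hd : Module.finrank (adj l Z) κ ≤ d) :
    (minpoly (Vale.Agent.P019.adj l Z) W).natDegree ≤ d := by
  have h1 := minpoly.map_eq_of_isSeparable_of_isPurelyInseparable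
    (F := Vale.Agent.P019.adj l Z) (perfectClosure (Vale.Agent.P019.adj l Z) κ) W hs
  haveI : Module.Finite (perfectClosure (Vale.Agent.P019.adj l Z) κ) κ := hf
  have h2 : Module.finrank (perfectClosure (Vale.Agent.P019.adj l Z) κ) κ ≤ d := hd
  have h3 := minpoly.natDegree_le (A := perfectClosure (Vale.Agent.P019.adj l Z) κ) W
  rw [← h1, natDegree_map] at h3
  exact h3.trans h2

/-- the relation. -/
theorem urel_brel {Z W : κ} {d : ℕ} (hZ : ¬ IsAlgebraic l Z) (hW : ¬ IsAlgebraic l W)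
    (hs : IsSeparable (Vale.Agent.P019.adj l Z) W) (hs' : IsSeparable (Vale.Agent.P019.adj l W) Z)
    (hf : Module.Finite (adj l Z) κ) (hd : Module.finrank (adj l Z) κ ≤ d)
    (hf' : Module.Finite (adj l W) κ) (hd' : Module.finrank (adj l W) κ ≤ d) : BRel l d Z W := by
  obtain ⟨Φ, hΦ, h0⟩ := urel_exists hZ hs.isIntegral.isAlgebraic
  have hΦ' : Irreducible (Bivariate.swap Φ) := (MulEquiv.irreducible_iff _).2 hΦ
  have h0' : aevalAeval W Z (Bivariate.swap Φ) = 0 := by
    rw [Bivariate.aevalAeval_swap]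
    exact h0
  have h1 : Φ.natDegree ≤ d := by
    rw [← urel_natDegree hZ hΦ h0]
    exact urel_deg hs hf hd
  have h2 : (Bivariate.swap Φ).natDegree ≤ d := by
    rw [← urel_natDegree hW hΦ' h0']
    exact urel_deg hs' hf' hd'
  have h3 : ∀ j, (Φ.coeff j).natDegree ≤ d := by
    intro j
    rw [natDegree_le_iff_coeff_eq_zero]
    intro i hi
    rw [← urel_coeff_swap, coeff_eq_zero_of_natDegree_lt (lt_of_le_of_lt h2 hi), coeff_zero]
  refine ⟨fun i j => (((Φ.coeff j).coeff i : l) : κ), fun i j => ((Φ.coeff j).coeff i).2, ?_, ?_⟩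
  · by_contra hcon
    push Not at hcon
    apply hΦ.ne_zero
    ext j i
    rw [coeff_zero, coeff_zero]
    by_cases hj : j ∈ Finset.range (d + 1)
    · by_cases hi : i ∈ Finset.range (d + 1)
      · exact hcon i hi j hj
      · have h4 : d < i := by
          rw [Finset.mem_range] at hi
          omega
        rw [coeff_eq_zero_of_natDegree_lt (lt_of_le_of_lt (h3 j) h4)]
    · have h4 : d < j := by
        rw [Finset.mem_range] at hj
        omega
      rw [coeff_eq_zero_of_natDegree_lt (lt_of_le_of_lt h1 h4), coeff_zero]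
  · rw [urel_eval, eval₂_eq_sum_range' _ (Nat.lt_succ_of_le h1)] at h0
    rw [Finset.sum_comm, ← h0]
    refine Finset.sum_congr rfl fun j _ => ?_
    rw [RingHom.coe_coe, aeval_eq_sum_range' (Nat.lt_succ_of_le (h3 j)), Finset.sum_mul]
    rfl

/-- one of the two elements is separable over the field of the other one. -/
theorem urel_or (hl : IsAlgClosed l) {Z W : κ} (hZ : ¬ IsAlgebraic l Z) (hW : ¬ IsAlgebraic l W)
    (h : IsAlgebraic (Vale.Agent.P019.adj l Z) W) :
    IsSeparable (Vale.Agent.P019.adj l Z) W ∨ IsSeparable (Vale.Agent.P019.adj l W) Z := by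
  obtain ⟨Φ, hΦ, h0⟩ := urel_exists hZ h
  have hΦ' : Irreducible (Bivariate.swap Φ) := (MulEquiv.irreducible_iff _).2 hΦ
  have h0' : aevalAeval W Z (Bivariate.swap Φ) = 0 := by
    rw [Bivariate.aevalAeval_swap]
    exact h0
  by_cases h1 : derivative Φ = 0
  · by_cases h2 : derivative (Bivariate.swap Φ) = 0
    · exact (urel_deriv hΦ h1 h2).elim
    · exact Or.inr (urel_sep hW hΦ' h0' h2)
  · exact Or.inl (urel_sep hZ hΦ h0 h1)

theorem urel_sep_mem {E : Subfield κ} {z : κ} (hz : z ∈ E) : IsSeparable E z :=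
  isSeparable_algebraMap (⟨z, hz⟩ : E)

theorem urel_sep_add {E : Subfield κ} {z w : κ} (hz : z ∈ E) (hw : IsSeparable E w) :
    IsSeparable E (z + w) :=
  Field.isSeparable_add (urel_sep_mem hz) hw

theorem urel_sep_sub {E : Subfield κ} {z w : κ} (hz : z ∈ E) (hw : IsSeparable E (z + w)) :
    IsSeparable E w := by
  have h1 := Field.isSeparable_add (urel_sep_mem (E.neg_mem hz)) hw
  rwa [neg_add_cancel_left] at h1

end urel

/-- bounded relations in a perfect field of transcendence degree one. -/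
theorem exists_brel {κ : Type*} [Field κ] [PerfectField κ] {l : Subfield κ} (hl : IsAlgClosed l)
    {X Y : κ} {d : ℕ}
    (hX : X ∉ l ∧ Module.Finite (adj l X) κ ∧ Module.finrank (adj l X) κ ≤ d)
    (hY : Y ∉ l ∧ Module.Finite (adj l Y) κ ∧ Module.finrank (adj l Y) κ ≤ d)
    (hXY : X + Y ∉ l ∧ Module.Finite (adj l (X + Y)) κ ∧
      Module.finrank (adj l (X + Y)) κ ≤ d) :
    BRel l d X Y ∨ BRel l d X (X + Y) ∨ BRel l d Y (X + Y) := by
  obtain ⟨hX0, hXf, hXd⟩ := hX
  obtain ⟨hY0, hYf, hYd⟩ := hY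
  obtain ⟨hZ0, hZf, hZd⟩ := hXY
  have htr : ∀ z : κ, z ∉ l → ¬ IsAlgebraic l z := fun z hz h =>
    hz (RAC_of_isAlgClosed l hl z h)
  have halg : ∀ z w : κ, Module.Finite (adj l z) κ →
      IsAlgebraic (Vale.Agent.P019.adj l z) w := by
    intro z w h
    rw [← isAlgebraic_adj]
    exact Algebra.IsAlgebraic.isAlgebraic w
  have tX := htr X hX0
  have tY := htr Y hY0
  have tZ := htr (X + Y) hZ0
  have mX := Vale.Agent.P019.mem_adj l X
  have mY := Vale.Agent.P019.mem_adj l Y
  have mZ := Vale.Agent.P019.mem_adj l (X + Y)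
  -- goodness does not depend on the other element
  have gX : IsSeparable (Vale.Agent.P019.adj l X) Y ↔
      IsSeparable (Vale.Agent.P019.adj l X) (X + Y) :=
    ⟨urel_sep_add mX, urel_sep_sub mX⟩
  have gY : IsSeparable (Vale.Agent.P019.adj l Y) X ↔
      IsSeparable (Vale.Agent.P019.adj l Y) (X + Y) := by
    rw [add_comm X Y]
    exact ⟨urel_sep_add mY, urel_sep_sub mY⟩
  have gZ : ∀ a b : κ, a + b = X + Y → IsSeparable (Vale.Agent.P019.adj l (X + Y)) a →
      IsSeparable (Vale.Agent.P019.adj l (X + Y)) b := by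
    intro a b hab h
    have h1 : b = (a + b) + (-a) := by ring
    rw [h1, hab]
    exact urel_sep_add mZ (Field.isSeparable_neg h)
  have gZ' : IsSeparable (Vale.Agent.P019.adj l (X + Y)) X ↔
      IsSeparable (Vale.Agent.P019.adj l (X + Y)) Y :=
    ⟨gZ X Y rfl, gZ Y X (add_comm Y X)⟩
  have a1 := urel_or hl tX tY (halg X Y hXf)
  have a2 := urel_or hl tX tZ (halg X (X + Y) hXf)
  have a3 := urel_or hl tY tZ (halg Y (X + Y) hYf)
  rw [← gX] at a2
  rw [← gY, ← gZ'] at a3
  by_cases h1 : IsSeparable (Vale.Agent.P019.adj l X) Y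
  · by_cases h2 : IsSeparable (Vale.Agent.P019.adj l Y) X
    · exact Or.inl (urel_brel tX tY h1 h2 hXf hXd hYf hYd)
    · have h3 := a3.resolve_left h2
      exact Or.inr (Or.inl (urel_brel tX tZ (gX.1 h1) h3 hXf hXd hZf hZd))
  · have h2 := a1.resolve_left h1
    have h3 := a2.resolve_left h1
    exact Or.inr (Or.inr (urel_brel tY tZ (gY.1 h2) (gZ'.1 h3) hYf hYd hZf hZd))

end Vale.Agent.P019P
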