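import Vale.Agent.P019Q.E0
import Vale.Agent.P019Q.UGer
import Vale.Agent.P019Q.URel
import Vale.Agent.P019Q.E2r
import Vale.Agent.P019Q.SA2

/-!
# Limits of residue fields
-/

namespace Vale.Agent.P019P

open Vale.Agent.P019

set_option linter.style.haveILetI false
set_option linter.unusedSectionVars false

open Polynomial Filter

section e2

variable {K : Type*} [Field K]

/-- the residue field embeds into an algebraically closed field. -/
theorem exists_emb {W : ValuationSubring K} {F : Subfield K} (hW : TrivOn W F)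
    (halg : ∀ c : IsLocalRing.ResidueField W, IsAlgebraic (bar hW) c)
    {Ω : Type*} [Field Ω] [IsAlgClosed Ω] [Algebra K Ω] :
    ∃ ι : IsLocalRing.ResidueField W →+* Ω, ∀ z ∈ F, ι (rs W z) = algebraMap K Ω z := by
  letI : Algebra (bar hW) Ω :=
    (((algebraMap K Ω).comp F.subtype).comp (barEquiv hW).symm.toRingHom).toAlgebra
  haveI : Algebra.IsAlgebraic (bar hW) (IsLocalRing.ResidueField W) := ⟨halg⟩
  let ι : IsLocalRing.ResidueField W →ₐ[bar hW] Ω := IsAlgClosed.lift
  refine ⟨ι, fun z hz => ?_⟩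
  have h1 := ι.commutes (barEquiv hW ⟨z, hz⟩)
  have h2 : algebraMap (bar hW) (IsLocalRing.ResidueField W) (barEquiv hW ⟨z, hz⟩) = rs W z := rfl
  rw [h2] at h1
  rw [RingHom.coe_coe, h1]
  change (algebraMap K Ω) ((barEquiv hW).symm (barEquiv hW ⟨z, hz⟩) : F) = _
  rw [RingEquiv.symm_apply_apply]

/-- limits of homomorphisms of residue fields. -/
theorem exists_lim {I : Type*} (U : Ultrafilter I) {L Ω : Type*} [Field L] [Field Ω]
    (O : I → ValuationSubring L) (ρ : ∀ i, IsLocalRing.ResidueField (O i) →+* Ω)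
    (h : ∀ z : L, z ≠ 0 → ∀ᶠ i in U, (O i).valuation z = 1) :
    ∃ A : L →+* Gm U Ω, ∀ z, A z = gm U (fun i => ρ i (rs (O i) z)) := by
  have hmem : ∀ z : L, ∀ᶠ i in U, z ∈ O i := by
    intro z
    by_cases hz : z = 0
    · exact Eventually.of_forall fun i => hz ▸ (O i).zero_mem
    · exact (h z hz).mono fun i hi => mem_of_val hi
  refine ⟨{ toFun := fun z => gm U (fun i => ρ i (rs (O i) z))
            map_one' := ?_, map_mul' := ?_, map_zero' := ?_, map_add' := ?_ }, fun z => rfl⟩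
  · simp only [rs_one, map_one]
    exact map_one (gm U)
  · intro x y
    rw [← gm_mul, gm_eq]
    filter_upwards [hmem x, hmem y] with i h1 h2
    rw [rs_mul h1 h2, map_mul]
  · simp only [rs_zero, map_zero]
    exact map_zero (gm U)
  · intro x y
    rw [← gm_add, gm_eq]
    filter_upwards [hmem x, hmem y] with i h1 h2
    rw [rs_add h1 h2, map_add]

/-- limits of bounded relations. -/
theorem brel_lim {I : Type*} {U : Ultrafilter I} {Ω : Type*} [Field Ω] {E : Subfield Ω} {D : ℕ}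
    {x y : I → Ω} (h : ∀ᶠ i in U, BRel E D (x i) (y i)) :
    BRel (uSub U (fun _ => E)) D (gm U x) (gm U y) := by
  classical
  have h1 : ∀ i, ∃ c : ℕ → ℕ → Ω, (∀ a b, c a b ∈ E) ∧
      (BRel E D (x i) (y i) →
      (∃ a ∈ Finset.range (D + 1), ∃ b ∈ Finset.range (D + 1), c a b ≠ 0) ∧
      ∑ a ∈ Finset.range (D + 1), ∑ b ∈ Finset.range (D + 1),
        c a b * x i ^ a * y i ^ b = 0) := by
    intro i
    by_cases hi : BRel E D (x i) (y i)
    · obtain ⟨c, hc, hc0, hcs⟩ := hi
      exact ⟨c, hc, fun _ => ⟨hc0, hcs⟩⟩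
    · exact ⟨fun _ _ => 0, fun _ _ => E.zero_mem, fun h' => absurd h' hi⟩
  choose c hc hcr using h1
  refine ⟨fun a b => gm U (fun i => c i a b), fun a b => ⟨_, rfl, fun i => hc i a b⟩, ?_, ?_⟩
  · by_contra hcon
    push Not at hcon
    have h4 : ∀ᶠ i in U, ∀ a ∈ Finset.range (D + 1), ∀ b ∈ Finset.range (D + 1),
        c i a b = 0 := by
      rw [Filter.eventually_all_finset]
      intro a ha
      rw [Filter.eventually_all_finset]
      intro b hb
      exact gm_eq_zero.1 (hcon a ha b hb)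
    obtain ⟨i, hi, hi2⟩ := (h4.and h).exists
    obtain ⟨⟨a, ha, b, hb, hab⟩, -⟩ := hcr i hi2
    exact hab (hi a ha b hb)
  · have h2 : ∑ a ∈ Finset.range (D + 1), ∑ b ∈ Finset.range (D + 1),
        gm U (fun i => c i a b) * gm U x ^ a * gm U y ^ b =
        gm U (fun i => ∑ a ∈ Finset.range (D + 1), ∑ b ∈ Finset.range (D + 1),
          c i a b * x i ^ a * y i ^ b) := by
      rw [gm_sum]
      refine Finset.sum_congr rfl fun a _ => ?_
      rw [gm_sum]
      refine Finset.sum_congr rfl fun b _ => ?_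
      rw [gm_mul, gm_mul, gm_pow, gm_pow]
    rw [h2, gm_eq_zero]
    exact h.mono fun i hi => (hcr i hi).2

theorem brel_alg' {Ω : Type*} [Field Ω] {E : Subfield Ω} (hE : IsAlgClosed E) {D : ℕ} {x y : Ω}
    (h : BRel E D x y) (hx : x ∉ E) : IsAlgebraic (adj E x) y := by
  obtain ⟨c, hc, hc0, hcs⟩ := h
  exact brel_alg (RAC_of_isAlgClosed E hE) hx hc hc0 hcs

/-- transport of relations. -/
theorem BRel.map {F Ω : Type*} [Field F] [Field Ω] (f : F →+* Ω) {E : Subfield F}
    {E' : Subfield Ω} (hE : ∀ c ∈ E, f c ∈ E') {D : ℕ} {x y : F} (h : BRel E D x y) :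
    BRel E' D (f x) (f y) := by
  obtain ⟨c, hc, ⟨a, ha, b, hb, hab⟩, hcs⟩ := h
  refine ⟨fun a b => f (c a b), fun a b => hE _ (hc a b), ⟨a, ha, b, hb, ?_⟩, ?_⟩
  · exact fun h0 => hab ((map_eq_zero f).1 h0)
  · have h1 := congrArg f hcs
    simpa only [map_sum, map_mul, map_pow, map_zero] using h1

theorem BRel.mono {Ω : Type*} [Field Ω] {E E' : Subfield Ω} (hE : E ≤ E') {D D' : ℕ}
    (hD : D ≤ D') {x y : Ω} (h : BRel E D x y) : BRel E' D' x y := by
  classical
  obtain ⟨c, hc, ⟨a, ha, b, hb, hab⟩, hcs⟩ := h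
  have hsub : Finset.range (D + 1) ⊆ Finset.range (D' + 1) := by
    intro i hi
    rw [Finset.mem_range] at hi ⊢
    omega
  let c' : ℕ → ℕ → Ω := fun a b =>
    if a ∈ Finset.range (D + 1) ∧ b ∈ Finset.range (D + 1) then c a b else 0
  have hin : ∀ a ∈ Finset.range (D + 1), ∀ b ∈ Finset.range (D + 1), c' a b = c a b :=
    fun a ha b hb => if_pos ⟨ha, hb⟩
  have hout1 : ∀ a, a ∉ Finset.range (D + 1) → ∀ b, c' a b = 0 :=
    fun a ha b => if_neg fun h => ha h.1
  have hout2 : ∀ a, ∀ b, b ∉ Finset.range (D + 1) → c' a b = 0 :=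
    fun a b hb => if_neg fun h => hb h.2
  refine ⟨c', fun a b => ?_, ⟨a, hsub ha, b, hsub hb, ?_⟩, ?_⟩
  · by_cases h : a ∈ Finset.range (D + 1) ∧ b ∈ Finset.range (D + 1)
    · rw [hin a h.1 b h.2]
      exact hE (hc a b)
    · have h' : c' a b = 0 := if_neg h
      rw [h']
      exact E'.zero_mem
  · rw [hin a ha b hb]
    exact hab
  · refine Eq.trans ?_ hcs
    rw [← Finset.sum_subset hsub]
    · refine Finset.sum_congr rfl fun a ha => ?_
      rw [← Finset.sum_subset hsub]
      · refine Finset.sum_congr rfl fun b hb => ?_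
        rw [hin a ha b hb]
      · intro b _ hb
        rw [hout2 a b hb, zero_mul, zero_mul]
    · intro a _ ha
      refine Finset.sum_eq_zero fun b _ => ?_
      rw [hout1 a ha b, zero_mul, zero_mul]

end e2

end Vale.Agent.P019P
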