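import Vale.Agent.P019Q.Curve
import Vale.Agent.P019Q.ApE
import Vale.Agent.P019Q.URel

/-!
# The degree bound
-/

namespace Vale.Agent.P019P

open Vale.Agent.P019

set_option linter.style.haveILetI false
set_option linter.unusedSectionVars false

open Polynomial Filter

/-- algebraic dependence from a bounded relation. -/
theorem e3d_alg {κ : Type*} [Field κ] [PerfectField κ] {B : Subfield κ} (hB : RAC B) {X Y : κ}
    (hX : X ∉ B) {d : ℕ} (hb : BRel B d X Y) : IsAlgebraic (adj B X) Y := by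
  obtain ⟨c, hc, h0, h⟩ := hb
  have hmem : ∀ j, (∑ i ∈ Finset.range (d + 1), c i j * X ^ i) ∈ adj B X := fun j =>
    sum_mem fun i _ => mul_mem (le_adj B X (hc i j)) (pow_mem (mem_adj B X) i)
  refine (apd_minpoly (E := adj B X)
    (a := fun j => ⟨∑ i ∈ Finset.range (d + 1), c i j * X ^ i, hmem j⟩) (n := d) ?_ ?_).1
  · obtain ⟨i, hi, j, hj, hij⟩ := h0
    refine ⟨j, hj, fun h1 => ?_⟩
    exact apd_ne_zero hB hX (a := fun i => c i j) (fun i => hc i j) ⟨i, hi, hij⟩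
      (congrArg Subtype.val h1)
  · rw [← h, Finset.sum_comm]
    refine Finset.sum_congr rfl fun j _ => ?_
    change (∑ i ∈ Finset.range (d + 1), c i j * X ^ i) * Y ^ j = _
    rw [Finset.sum_mul]

/-- the curve. -/
theorem e3d_cv {κ : Type*} [Field κ] [PerfectField κ] {E : Subfield κ} (hE : IsAlgClosed E)
    {s θ : κ} (hs : s ∉ E) (htop : adj (adj E s) θ = ⊤) {m : ℕ} (hθ : BRel E m s θ) : Cv E where
  ac := hE
  fg := by
    classical
    refine ⟨{s, θ}, (top_le_iff.1 ?_).symm⟩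
    rw [← htop]
    have hs' : s ∈ pf (E ⊔ Subfield.closure ((({s, θ} : Finset κ)) : Set κ)) :=
      le_pf _ ((le_sup_right : Subfield.closure ((({s, θ} : Finset κ)) : Set κ) ≤ _)
        (Subfield.subset_closure (by simp)))
    have hθ' : θ ∈ pf (E ⊔ Subfield.closure ((({s, θ} : Finset κ)) : Set κ)) :=
      le_pf _ ((le_sup_right : Subfield.closure ((({s, θ} : Finset κ)) : Set κ) ≤ _)
        (Subfield.subset_closure (by simp)))
    exact adj_le (adj_le (le_sup_left.trans (le_pf _)) hs') hθ'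
  ex := by
    refine ⟨s, hs, fun z => ?_⟩
    have h1 : IsAlgebraic (adj E s) θ := e3d_alg (RAC_of_isAlgClosed _ hE) hs hθ
    haveI : PerfectField (rac (adj E s)) := perfect_of_RAC (RAC_rac _)
    have h2 : adj (adj E s) θ ≤ rac (adj E s) := adj_le (le_rac _) (mem_rac.2 h1)
    rw [htop] at h2
    exact mem_rac.1 (h2 (Subfield.mem_top z))

/-- the degree bound from the Riemann-Hurwitz inequality. -/
theorem deg5 {κ : Type*} [Field κ] [PerfectField κ] (ℓ : ℕ) [Fact ℓ.Prime] [NeZero (ℓ : κ)]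
    {E : Subfield κ} (hE : IsAlgClosed E) {s θ : κ} (hs : s ∉ E) (htop : adj (adj E s) θ = ⊤)
    {m : ℕ} (hθ : BRel E m s θ) {Z : κ} (hZ : Z ∉ E) {S : Finset κ} (hS : S.card = 5)
    (hP : ∀ c ∈ S, c ∈ E ∧ ∃ y : κ, y ≠ 0 ∧ BRel E m s y ∧ ∃ (e : ℕ) (h : κ),
      Z - c = y ^ e * h ^ ℓ) :
    Module.Finite (adj E Z) κ ∧ Module.finrank (adj E Z) κ ≤ 14 * m ^ 2 := by
  have hcv : Cv E := e3d_cv hE hs htop hθ
  refine ⟨hcv.finite hZ, ?_⟩
  obtain ⟨g, hg⟩ := exists_curveRH (ℓ := ℓ) hcv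
  obtain ⟨a, ha, ha0, har⟩ := hθ
  have hgb : g ≤ m * m := hg.gb s θ hs htop m m a ha ha0 har
  have hrh := hg.rh Z hZ (2 * (m * m)) S (fun c hc => (hP c hc).1) hS fun c hc => by
    obtain ⟨hcE, y, hy0, ⟨b, hb, hb0, hbr⟩, e, h, hyh⟩ := hP c hc
    refine le_trans (Set.encard_le_encard ?_) (dbd_nonunit (ℓ := ℓ) hcv hy0 (M := m * m)
      fun hy => apd_deg (RAC_of_isAlgClosed _ hE) hs hy htop hb ha hb0 ha0 hbr har)
    rintro P ⟨hPP, -, hP2⟩
    refine ⟨hPP, fun hyU => hP2 ?_⟩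
    have hne : Z - c ≠ 0 := fun h1 => hZ (by rw [sub_eq_zero.1 h1]; exact hcE)
    rw [hyh] at hne
    rw [hyh, cl_mul ℓ (left_ne_zero_of_mul hne) (right_ne_zero_of_mul hne), cl_pow_self, add_zero,
      cl_pow]
    exact Submodule.smul_of_tower_mem _ _ hyU
  nlinarith

end Vale.Agent.P019P
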