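import Vale.Agent.P019Q.E3t
import Vale.Agent.P019Q.E3d

/-!
# Bounds on curves over algebraically closed fields
-/

namespace Vale.Agent.P019P

open Vale.Agent.P019

set_option linter.style.haveILetI false
set_option linter.unusedSectionVars false

open Polynomial Filter

/-- the condition at five points. -/
def Five' (ℓ : ℕ) {Ω : Type*} [Field Ω] (E R : Subfield Ω) (m : ℕ) (s Z : Ω) : Prop :=
  ∃ S : Finset Ω, S.card = 5 ∧ ∀ c ∈ S, c ∈ E ∧ c ∈ R ∧ ∃ y ∈ R, y ≠ 0 ∧ BRel E m s y ∧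
    ∃ (e : ℕ), ∃ h ∈ R, Z - c = y ^ e * h ^ ℓ

section e3gen

variable {Ω : Type*} [Field Ω]

theorem e3_up {C E : Subfield Ω} {d : ℕ} {x y : C}
    (h : BRel (E.comap C.subtype) d x y) : BRel E d (x : Ω) (y : Ω) := by
  obtain ⟨c, hc, ⟨a, ha, b, hb, hab⟩, hcs⟩ := h
  refine ⟨fun a b => (c a b : Ω), fun a b => hc a b, ⟨a, ha, b, hb, ?_⟩, ?_⟩
  · exact fun h0 => hab (Subtype.ext h0)
  · have h1 := congrArg C.subtype hcs
    simpa only [map_sum, map_mul, map_pow, map_zero, Subfield.subtype_apply] using h1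

theorem e3_down {C E : Subfield Ω} (hEC : E ≤ C) {d : ℕ} {x y : C}
    (h : BRel E d (x : Ω) (y : Ω)) : BRel (E.comap C.subtype) d x y := by
  obtain ⟨c, hc, ⟨a, ha, b, hb, hab⟩, hcs⟩ := h
  refine ⟨fun a b => ⟨c a b, hEC (hc a b)⟩, fun a b => hc a b, ⟨a, ha, b, hb, ?_⟩, ?_⟩
  · exact fun h0 => hab (congrArg Subtype.val h0)
  · apply C.subtype.injective
    rw [map_zero, ← hcs]
    simp only [map_sum, map_mul, map_pow, Subfield.subtype_apply]

theorem e3_closed {C E : Subfield Ω} (hEC : E ≤ C) (hE : IsAlgClosed E) :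
    IsAlgClosed (E.comap C.subtype) := by
  let f : E →+* (E.comap C.subtype) :=
    ((Subfield.inclusion hEC).codRestrict (E.comap C.subtype) (fun x => x.2))
  have hf : Function.Bijective f := by
    refine ⟨f.injective, fun y => ⟨⟨(y : C), y.2⟩, ?_⟩⟩
    exact Subtype.ext (Subtype.ext rfl)
  exact IsAlgClosed.of_ringEquiv E _ (RingEquiv.ofBijective f hf)

theorem e3_top [PerfectField Ω] {C E : Subfield Ω} [PerfectField C] (hEC : E ≤ C) (s θ : C)
    (hC : C ≤ adj (adj E (s : Ω)) (θ : Ω)) :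
    adj (adj (E.comap C.subtype) s) θ = ⊤ := by
  have hmap : E ≤ (E.comap C.subtype).map C.subtype := fun z hz => ⟨⟨z, hEC hz⟩, hz, rfl⟩
  have key : ∀ (F : Subfield C) (y : C),
      adj (F.map C.subtype) (y : Ω) ≤ (adj F y).map C.subtype := by
    intro F y
    have h1 : Vale.Agent.P019.adj (F.map C.subtype) (y : Ω) ≤ (adj F y).map C.subtype := by
      refine Vale.Agent.P019.adj_le ?_ ⟨y, mem_adj F y, rfl⟩
      rintro _ ⟨x, hx, rfl⟩
      exact ⟨x, le_adj F y hx, rfl⟩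
    haveI : PerfectField ((adj F y).map C.subtype : Subfield Ω) := by
      refine perfect_of_root ?_
      rintro _ ⟨x, hx, rfl⟩
      obtain ⟨z, hz, hzx⟩ := exists_root_q (adj F y) hx 1
      refine ⟨C.subtype z, ⟨z, hz, rfl⟩, ?_⟩
      have h2 : ringExpChar Ω = ringExpChar C := by
        haveI : ExpChar C (ringExpChar Ω) := expChar_sub C
        exact (ringExpChar.eq C (ringExpChar Ω)).symm
      rw [← map_pow, h2, ← hzx, pow_one]
    exact pf_le h1
  have h4 : adj E (s : Ω) ≤ (adj (E.comap C.subtype) s).map C.subtype :=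
    (adj_mono hmap _).trans (key _ s)
  have h3 : C ≤ (adj (adj (E.comap C.subtype) s) θ).map C.subtype :=
    hC.trans ((adj_mono h4 _).trans (key _ θ))
  rw [eq_top_iff]
  intro z _
  obtain ⟨y, hy, hyz⟩ := h3 z.2
  have h7 : y = z := Subtype.ext hyz
  exact h7 ▸ hy

theorem e3_mono {E : Subfield Ω} {d D : ℕ} (hD : d ≤ D) {x y : Ω} (h : BRel E d x y) :
    BRel E D x y := by
  classical
  obtain ⟨c, hc, ⟨a, ha, b, hb, hab⟩, hcs⟩ := h
  have hsub : Finset.range (d + 1) ⊆ Finset.range (D + 1) := by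
    intro i hi
    rw [Finset.mem_range] at hi ⊢
    omega
  refine ⟨fun a b => if a ∈ Finset.range (d + 1) ∧ b ∈ Finset.range (d + 1) then c a b else 0,
    fun a b => ?_, ⟨a, hsub ha, b, hsub hb, ?_⟩, ?_⟩
  · dsimp only
    split_ifs
    exacts [hc a b, E.zero_mem]
  · dsimp only
    rwa [if_pos ⟨ha, hb⟩]
  · refine Eq.trans ?_ hcs
    rw [← Finset.sum_subset hsub]
    · refine Finset.sum_congr rfl fun a ha => ?_
      rw [← Finset.sum_subset hsub]
      · refine Finset.sum_congr rfl fun b hb => ?_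
        dsimp only
        rw [if_pos ⟨ha, hb⟩]
      · intro b _ hb
        dsimp only
        rw [if_neg (fun h => hb h.2), zero_mul, zero_mul]
    · intro a _ ha
      refine Finset.sum_eq_zero fun b _ => ?_
      dsimp only
      rw [if_neg (fun h => ha h.1), zero_mul, zero_mul]

/-- a relation of bidegree `(1, 1)` for an element of `E`. -/
theorem e3_const {E : Subfield Ω} {y : Ω} (x : Ω) (hy : y ∈ E) : BRel E 1 x y := by
  refine ⟨fun i j => if i = 0 then (if j = 0 then -y else 1) else 0, fun i j => ?_,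
    ⟨0, by simp, 1, by simp, by simp⟩, ?_⟩
  · dsimp only
    split_ifs
    exacts [E.neg_mem hy, E.one_mem, E.zero_mem]
  · simp [Finset.sum_range_succ]

theorem e3_const_add {E : Subfield Ω} {x y : Ω} (hy : x + y ∈ E) : BRel E 1 x y := by
  refine ⟨fun i j => if i = 0 then (if j = 0 then -(x + y) else 1) else (if j = 0 then 1 else 0),
    fun i j => ?_, ⟨0, by simp, 1, by simp, by simp⟩, ?_⟩
  · dsimp only
    split_ifs
    exacts [E.neg_mem hy, E.one_mem, E.one_mem, E.zero_mem]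
  · simp [Finset.sum_range_succ]

/-- relations from polynomials. -/
theorem e3_ofPoly {E : Subfield Ω} {x y : Ω} {D : ℕ} {Φ : E[X][X]} (hΦ : Φ ≠ 0)
    (h1 : Φ.natDegree ≤ D) (h3 : ∀ j, (Φ.coeff j).natDegree ≤ D)
    (h0 : aevalAeval x y Φ = 0) : BRel E D x y := by
  refine ⟨fun i j => (((Φ.coeff j).coeff i : E) : Ω), fun i j => ((Φ.coeff j).coeff i).2, ?_, ?_⟩
  · by_contra hcon
    push Not at hcon
    apply hΦ
    ext j i
    rw [coeff_zero, coeff_zero]
    by_cases hj : j ∈ Finset.range (D + 1)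
    · by_cases hi : i ∈ Finset.range (D + 1)
      · exact hcon i hi j hj
      · have h4 : D < i := by
          rw [Finset.mem_range] at hi
          omega
        rw [coeff_eq_zero_of_natDegree_lt (lt_of_le_of_lt (h3 j) h4)]
    · have h4 : D < j := by
        rw [Finset.mem_range] at hj
        omega
      rw [coeff_eq_zero_of_natDegree_lt (lt_of_le_of_lt h1 h4), coeff_zero]
  · rw [urel_eval, eval₂_eq_sum_range' _ (Nat.lt_succ_of_le h1)] at h0
    rw [Finset.sum_comm, ← h0]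
    refine Finset.sum_congr rfl fun j _ => ?_
    rw [RingHom.coe_coe, aeval_eq_sum_range' (Nat.lt_succ_of_le (h3 j)), Finset.sum_mul]
    rfl

/-- polynomials from relations. -/
theorem e3_toPoly {E : Subfield Ω} {x y : Ω} {d : ℕ} (h : BRel E d x y) :
    ∃ Φ : E[X][X], Φ ≠ 0 ∧ Φ.natDegree ≤ d ∧ (∀ j, (Φ.coeff j).natDegree ≤ d) ∧
      aevalAeval x y Φ = 0 := by
  classical
  obtain ⟨c, hc, ⟨a, ha, b, hb, hab⟩, hcs⟩ := h
  let A : ℕ → E[X] := fun j => ∑ i ∈ Finset.range (d + 1), C (⟨c i j, hc i j⟩ : E) * X ^ i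
  have hA : ∀ j i, (A j).coeff i = if i ∈ Finset.range (d + 1) then (⟨c i j, hc i j⟩ : E)
      else 0 := by
    intro j i
    simp only [A, finsetSum_coeff, coeff_C_mul, coeff_X_pow, mul_ite, mul_one, mul_zero]
    rw [Finset.sum_ite_eq]
  let Φ : E[X][X] := ∑ j ∈ Finset.range (d + 1), C (A j) * X ^ j
  have hΦ : ∀ j, Φ.coeff j = if j ∈ Finset.range (d + 1) then A j else 0 := by
    intro j
    simp only [Φ, finsetSum_coeff, coeff_C_mul, coeff_X_pow, mul_ite, mul_one, mul_zero]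
    rw [Finset.sum_ite_eq]
  refine ⟨Φ, ?_, ?_, ?_, ?_⟩
  · intro h0
    apply hab
    have h1 : (Φ.coeff b).coeff a = 0 := by rw [h0, coeff_zero, coeff_zero]
    rw [hΦ, if_pos hb, hA, if_pos ha] at h1
    exact congrArg Subtype.val h1
  · rw [natDegree_le_iff_coeff_eq_zero]
    intro j hj
    rw [hΦ, if_neg]
    rw [Finset.mem_range]
    omega
  · intro j
    rw [natDegree_le_iff_coeff_eq_zero]
    intro i hi
    rw [hΦ]
    split_ifs
    · rw [hA, if_neg]
      rw [Finset.mem_range]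
      omega
    · exact coeff_zero _
  · simp only [Φ, map_sum, map_mul, map_pow, aevalAeval_C, aevalAeval_Y]
    rw [← hcs, Finset.sum_comm]
    refine Finset.sum_congr rfl fun j _ => ?_
    simp only [A, map_sum, map_mul, map_pow, aeval_C, aeval_X]
    rw [Finset.sum_mul]
    rfl

/-- the substitution `y := x + y`. -/
theorem e3_shift {E : Subfield Ω} {x y : Ω} {d : ℕ} (h : BRel E d x (x + y)) :
    BRel E (2 * d) x y := by
  obtain ⟨Φ, h0, h1, h2, h3⟩ := e3_toPoly h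
  refine e3_ofPoly (Φ := taylor X Φ) ?_ ?_ ?_ ?_
  · rwa [Ne, map_eq_zero_iff _ (taylor_injective _)]
  · rw [natDegree_taylor]
    omega
  · intro j
    rw [taylor_coeff, eval_eq_sum_range]
    refine natDegree_sum_le_of_forall_le _ _ fun i hi => ?_
    rw [Finset.mem_range] at hi
    refine (natDegree_mul_le).trans ?_
    have h4 : ((hasseDeriv j Φ).coeff i).natDegree ≤ d := by
      rw [hasseDeriv_coeff]
      refine (natDegree_mul_le).trans ?_
      rw [natDegree_natCast, zero_add]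
      exact h2 _
    have h5 : (X ^ i : E[X]).natDegree ≤ i := by
      rw [natDegree_X_pow]
    have h6 : (hasseDeriv j Φ).natDegree ≤ d :=
      (natDegree_hasseDeriv_le Φ j).trans (by omega)
    omega
  · have h4 : aevalAeval x y (taylor X Φ) = aevalAeval x (x + y) Φ := by
      rw [urel_eval, urel_eval, taylor_apply, eval₂_comp, eval₂_add, eval₂_X, eval₂_C,
        RingHom.coe_coe, aeval_X, add_comm]
    rw [h4, h3]

theorem e3_swap {E : Subfield Ω} {x y : Ω} {d : ℕ} (h : BRel E d x y) : BRel E d y x := by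
  obtain ⟨c, hc, ⟨a, ha, b, hb, hab⟩, hcs⟩ := h
  refine ⟨fun i j => c j i, fun i j => hc j i, ⟨b, hb, a, ha, hab⟩, ?_⟩
  rw [← hcs, Finset.sum_comm]
  refine Finset.sum_congr rfl fun i _ => Finset.sum_congr rfl fun j _ => ?_
  ring

end e3gen

section e3main

variable {Ω : Type*} [Field Ω] {ℓ : ℕ} [Fact ℓ.Prime] [NeZero (ℓ : Ω)]
  {E R : Subfield Ω} {m : ℕ}

/-- the degree bound inside the curve. -/
theorem e3_deg {C : Subfield Ω} [PerfectField C] (hEC : E ≤ C) (hRC : R ≤ C)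
    (hE : IsAlgClosed E) {s θ Z : C} (hsE : (s : Ω) ∉ E)
    (htop : adj (adj (E.comap C.subtype) s) θ = ⊤) (hθ : BRel E m (s : Ω) (θ : Ω))
    (hZE : (Z : Ω) ∉ E) (hZ5 : Five' ℓ E R m (s : Ω) (Z : Ω)) :
    Z ∉ E.comap C.subtype ∧ Module.Finite (adj (E.comap C.subtype) Z) C ∧
      Module.finrank (adj (E.comap C.subtype) Z) C ≤ 14 * m ^ 2 := by
  classical
  refine ⟨hZE, ?_⟩
  obtain ⟨S, hS, hP⟩ := hZ5
  haveI : NeZero (ℓ : C) := ⟨fun h => NeZero.ne (ℓ : Ω) (by
    have h1 := congrArg C.subtype h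
    simpa using h1)⟩
  have hS' : (S.subtype (· ∈ C)).card = 5 := by
    rw [Finset.card_subtype, Finset.filter_true_of_mem, hS]
    exact fun c hc => hEC (hP c hc).1
  refine deg5 ℓ (S := (S.subtype (· ∈ C))) (e3_closed hEC hE) hsE htop (e3_down hEC hθ) hZE hS' ?_
  intro c hc
  obtain ⟨h1, -, y, hy, hy0, hyr, e, h, hh, heq⟩ := hP c (Finset.mem_subtype.1 hc)
  refine ⟨h1, ⟨y, hRC hy⟩, fun h0 => hy0 (congrArg Subtype.val h0), e3_down hEC hyr, e,
    ⟨h, hRC hh⟩, Subtype.ext ?_⟩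
  exact heq

end e3main

/-- two elements with the condition at five points are related. -/
theorem dirb {Ω : Type*} [Field Ω] [PerfectField Ω] (ℓ : ℕ) [Fact ℓ.Prime] [NeZero (ℓ : Ω)]
    {E R : Subfield Ω} (hE : IsAlgClosed E) [PerfectField R] {s θ : Ω} (hs : s ∈ R)
    (hθR : θ ∈ R) (hsE : s ∉ E) (hRθ : R ≤ adj (adj E s) θ) {m : ℕ} (hθ : BRel E m s θ)
    {X Y : Ω} (hX : X ∈ R) (hY : Y ∈ R) (hX5 : Five' ℓ E R m s X) (hY5 : Five' ℓ E R m s Y)
    (hXY5 : Five' ℓ E R m s (X + Y)) : X ∈ E ∨ BRel E (28 * m ^ 2 + 1) X Y := by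
  by_cases hXE : X ∈ E
  · exact Or.inl hXE
  right
  by_cases hYE : Y ∈ E
  · exact e3_mono (by omega) (e3_const X hYE)
  by_cases hZE : X + Y ∈ E
  · exact e3_mono (by omega) (e3_const_add hZE)
  have hEC : E ≤ adj (adj E s) θ := (le_adj E s).trans (le_adj _ θ)
  obtain ⟨C, hC⟩ : ∃ C : Subfield Ω, C = adj (adj E s) θ := ⟨_, rfl⟩
  haveI : PerfectField C := by
    rw [hC]
    exact perfect_adj _ _
  have hC' : C ≤ adj (adj E s) θ := hC.le
  rw [← hC] at hRθ hEC
  obtain ⟨s', rfl⟩ : ∃ s' : C, (s' : Ω) = s := ⟨⟨s, hRθ hs⟩, rfl⟩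
  obtain ⟨θ', rfl⟩ : ∃ θ' : C, (θ' : Ω) = θ := ⟨⟨θ, hRθ hθR⟩, rfl⟩
  obtain ⟨X', rfl⟩ : ∃ X' : C, (X' : Ω) = X := ⟨⟨X, hRθ hX⟩, rfl⟩
  obtain ⟨Y', rfl⟩ : ∃ Y' : C, (Y' : Ω) = Y := ⟨⟨Y, hRθ hY⟩, rfl⟩
  have htop := e3_top hEC s' θ' hC'
  have h1 := e3_deg (ℓ := ℓ) hEC hRθ hE hsE htop hθ hXE hX5
  have h2 := e3_deg (ℓ := ℓ) hEC hRθ hE hsE htop hθ hYE hY5
  rw [← Subfield.coe_add] at hZE hXY5
  have h3 := e3_deg (ℓ := ℓ) hEC hRθ hE hsE htop hθ hZE hXY5
  rcases exists_brel (e3_closed hEC hE) h1 h2 h3 with h | h | h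
  · exact e3_mono (by omega) (e3_up h)
  · have h4 := e3_up h
    rw [Subfield.coe_add] at h4
    exact e3_mono (by omega) (e3_shift h4)
  · have h4 := e3_up h
    rw [Subfield.coe_add, add_comm] at h4
    exact e3_mono (by omega) (e3_swap (e3_shift h4))

/-- an element with the condition at five points is related to a twist of `s`. -/
theorem dirb_tw {Ω : Type*} [Field Ω] [PerfectField Ω] (ℓ : ℕ) [Fact ℓ.Prime] [NeZero (ℓ : Ω)]
    {E R : Subfield Ω} (hE : IsAlgClosed E) [PerfectField R] {s θ : Ω} (hs : s ∈ R)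
    (hθR : θ ∈ R) (hsE : s ∉ E) (hRθ : R ≤ adj (adj E s) θ) {m : ℕ} (hθ : BRel E m s θ)
    {X : Ω} (hX : X ∈ R) (hXE : X ∉ E) (hX5 : Five' ℓ E R m s X) :
    ∃ (i j : ℕ) (σ : Ω), σ ^ (ringExpChar Ω) ^ i = s ^ (ringExpChar Ω) ^ j ∧
      BRel E (28 * m ^ 2 + 1) X σ := by
  have hEC : E ≤ adj (adj E s) θ := (le_adj E s).trans (le_adj _ θ)
  obtain ⟨C, hC⟩ : ∃ C : Subfield Ω, C = adj (adj E s) θ := ⟨_, rfl⟩
  haveI : PerfectField C := by
    rw [hC]
    exact perfect_adj _ _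
  have hC' : C ≤ adj (adj E s) θ := hC.le
  rw [← hC] at hRθ hEC
  obtain ⟨s', rfl⟩ : ∃ s' : C, (s' : Ω) = s := ⟨⟨s, hRθ hs⟩, rfl⟩
  obtain ⟨θ', rfl⟩ : ∃ θ' : C, (θ' : Ω) = θ := ⟨⟨θ, hRθ hθR⟩, rfl⟩
  obtain ⟨X', rfl⟩ : ∃ X' : C, (X' : Ω) = X := ⟨⟨X, hRθ hX⟩, rfl⟩
  have htop := e3_top hEC s' θ' hC'
  have h1 := e3_deg (ℓ := ℓ) hEC hRθ hE hsE htop hθ hXE hX5
  have hac := e3_closed hEC hE
  have hθ' := e3_down hEC hθ
  have hcv := e3d_cv hac hsE htop hθ'
  have hs0 : s' ∉ E.comap C.subtype := hsE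
  have hm : 1 ≤ m := by
    rcases Nat.eq_zero_or_pos m with rfl | h
    · exfalso
      obtain ⟨c, -, ⟨a, ha, b, hb, hab⟩, hcs⟩ := hθ
      simp only [zero_add, Finset.range_one, Finset.mem_singleton] at ha hb
      simp only [zero_add, Finset.range_one, Finset.sum_singleton, pow_zero, mul_one] at hcs
      subst ha hb
      exact hab hcs
    · exact h
  have h2 : Module.finrank (adj (E.comap C.subtype) s') C ≤ 1 * m := by
    obtain ⟨d, hd, hd0, hdr⟩ := hθ'
    refine apd_deg (RAC_of_isAlgClosed _ hac) hs0 hs0 htop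
      (c := fun i j => if i = 0 then (if j = 1 then -1 else 0) else (if j = 0 then 1 else 0))
      (fun i j => ?_) hd ⟨0, by simp, 1, by simp, by simp⟩ hd0 ?_ hdr
    · split_ifs
      exacts [neg_mem (one_mem _), zero_mem _, one_mem _, zero_mem _]
    · simp [Finset.sum_range_succ]
  have h5 : 1 * m ≤ 14 * m ^ 2 := by nlinarith
  obtain ⟨i, j, σ, hσ, hr⟩ := exists_twb hac h1 ⟨hs0, hcv.finite hs0, h2.trans h5⟩
  have hq : ringExpChar C = ringExpChar Ω := by
    haveI : ExpChar C (ringExpChar Ω) := expChar_sub C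
    exact ringExpChar.eq C (ringExpChar Ω)
  rw [hq] at hσ
  refine ⟨i, j, (σ : Ω), ?_, e3_mono (by omega) (e3_up hr)⟩
  have h4 := congrArg Subtype.val hσ
  simpa using h4

end Vale.Agent.P019P
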