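import Vale.Agent.P019Q.URel

/-!
# Bounded relations with a Frobenius twist
-/

namespace Vale.Agent.P019P

open Vale.Agent.P019

set_option linter.style.haveILetI false
set_option linter.unusedSectionVars false

open Polynomial Filter

section e3t

variable {κ : Type*} [Field κ] {l : Subfield κ}

/-- the degree of the swapped polynomial. -/
theorem e3t_swap_le {R : Type*} [CommRing R] {Φ : R[X][X]} {b : ℕ} :
    (Bivariate.swap Φ).natDegree ≤ b ↔ ∀ j, (Φ.coeff j).natDegree ≤ b := by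
  constructor
  · intro h j
    rw [natDegree_le_iff_coeff_eq_zero]
    intro i hi
    rw [← urel_coeff_swap, coeff_eq_zero_of_natDegree_lt (lt_of_le_of_lt h hi), coeff_zero]
  · intro h
    rw [natDegree_le_iff_coeff_eq_zero]
    intro i hi
    ext j
    rw [urel_coeff_swap, coeff_eq_zero_of_natDegree_lt (lt_of_le_of_lt (h j) hi), coeff_zero]

/-- contraction of an irreducible polynomial with vanishing derivative. -/
theorem e3t_contract {R : Type*} [CommRing R] [IsDomain R] (p : ℕ) [ExpChar R p]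
    {Φ : R[X][X]} (hΦ : Irreducible Φ) (h0 : Φ.natDegree ≠ 0) (hd : derivative Φ = 0) :
    ∃ Ψ : R[X][X], Irreducible Ψ ∧ expand R[X] p Ψ = Φ ∧ Ψ.natDegree < Φ.natDegree ∧
      (Bivariate.swap Ψ).natDegree ≤ (Bivariate.swap Φ).natDegree := by
  haveI : ExpChar R[X] p := inferInstance
  have h1 := expand_contract' (p := p) hd
  have hp0 : p ≠ 0 := (expChar_pos R p).ne'
  refine ⟨contract p Φ, ?_, h1, ?_, ?_⟩
  · rw [← h1] at hΦ
    exact of_irreducible_expand hp0 hΦ
  · have h2 : Φ.natDegree = (contract p Φ).natDegree * p := by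
      conv_lhs => rw [← h1]
      exact natDegree_expand p _
    have h3 : (contract p Φ).natDegree ≠ 0 := by
      intro h
      rw [h, zero_mul] at h2
      exact h0 h2
    have h4 : 2 ≤ p := by
      rcases (inferInstance : ExpChar R p) with _ | ⟨hprime⟩
      · exact (h0 (derivative_eq_zero.1 hd)).elim
      · exact hprime.two_le
    have h5 := Nat.mul_le_mul_left (contract p Φ).natDegree h4
    omega
  · rw [e3t_swap_le]
    intro j
    rw [coeff_contract hp0]
    exact e3t_swap_le.1 le_rfl _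

theorem e3t_eval_expand (p : ℕ) (x y : κ) (Ψ : l[X][X]) :
    aevalAeval x y (expand l[X] p Ψ) = aevalAeval x (y ^ p) Ψ := by
  rw [urel_eval, urel_eval, expand_eq_comp_X_pow, eval₂_comp, eval₂_X_pow]

/-- the Frobenius twist of the evaluation -/
theorem e3t_eval_frob (p : ℕ) [ExpChar κ p] [ExpChar l p] (x y : κ) (Ψ : l[X][X]) :
    aevalAeval (x ^ p) (y ^ p) (Ψ.map (mapRingHom (frobenius l p))) =
      (aevalAeval x y Ψ) ^ p := by
  induction Ψ using Polynomial.induction_on' with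
  | add f g hf hg => rw [Polynomial.map_add, map_add, hf, hg, map_add, add_pow_expChar]
  | monomial n a =>
    rw [map_monomial, urel_eval, urel_eval, eval₂_monomial, eval₂_monomial, mul_pow]
    congr 1
    · induction a using Polynomial.induction_on' with
      | add f g hf hg =>
        rw [map_add, map_add, hf, hg, map_add, add_pow_expChar]
      | monomial m b =>
        rw [coe_mapRingHom, map_monomial, RingHom.coe_coe, RingHom.coe_coe, aeval_monomial,
          aeval_monomial, mul_pow]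
        congr 1
        ring
    · ring

/-- the p-th root of the coefficients -/
theorem e3t_root (p : ℕ) [ExpChar κ p] [ExpChar l p] [PerfectRing l p] {x y : κ}
    {Ψ : l[X][X]} (hΨ : Irreducible Ψ) (h0 : aevalAeval (x ^ p) (y ^ p) Ψ = 0) :
    ∃ Ψ' : l[X][X], Irreducible Ψ' ∧ aevalAeval x y Ψ' = 0 ∧ Ψ'.natDegree = Ψ.natDegree ∧
      (Bivariate.swap Ψ').natDegree ≤ (Bivariate.swap Ψ).natDegree := by
  let e : l[X] ≃+* l[X] := Polynomial.mapEquiv (frobeniusEquiv l p).symm
  have he : (mapRingHom (frobenius l p)).comp (e : l[X] →+* l[X]) = RingHom.id _ := by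
    ext a
    · simp [e]
    · simp [e]
  refine ⟨Ψ.map (e : l[X] →+* l[X]), ?_, ?_, ?_, ?_⟩
  · exact (MulEquiv.irreducible_iff (Polynomial.mapEquiv e)).2 hΨ
  · have h1 := e3t_eval_frob p x y (Ψ.map (e : l[X] →+* l[X]))
    rw [Polynomial.map_map, he, Polynomial.map_id, h0] at h1
    exact pow_eq_zero_iff (expChar_pos l p).ne' |>.1 h1.symm
  · exact natDegree_map_eq_of_injective e.injective _
  · rw [e3t_swap_le]
    intro j
    rw [coeff_map]
    have h2 : ((e : l[X] →+* l[X]) (Ψ.coeff j)).natDegree ≤ (Ψ.coeff j).natDegree :=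
      natDegree_map_le
    exact h2.trans (e3t_swap_le.1 le_rfl j)

theorem e3t_natDegree {X Y : κ} (hX : ¬ IsAlgebraic l X) {Φ : l[X][X]} (hΦ : Irreducible Φ)
    (h0 : aevalAeval X Y Φ = 0) : Φ.natDegree ≠ 0 := by
  intro h
  obtain ⟨a, ha⟩ := natDegree_eq_zero.1 h
  rw [← ha, aevalAeval_C] at h0
  have ha0 : a ≠ 0 := by
    rintro rfl
    rw [C_0] at ha
    exact hΦ.ne_zero ha.symm
  exact hX ⟨a, ha0, h0⟩

theorem e3t_adj_pow [PerfectField κ] (E : Subfield κ) (t : κ) (n : ℕ) :
    adj E (t ^ (ringExpChar κ) ^ n) = adj E t := by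
  apply le_antisymm
  · exact adj_le (le_adj E t) ((adj E t).pow_mem (mem_adj E t) _)
  · exact adj_le (le_adj E _) (mem_of_pow_q (n := n) (mem_adj E _))

/-- the main induction -/
theorem e3t_main [PerfectField κ] (hl : IsAlgClosed l) (N : ℕ) :
    ∀ (X Y : κ) (Φ : l[X][X]), ¬ IsAlgebraic l X → ¬ IsAlgebraic l Y → Irreducible Φ →
      aevalAeval X Y Φ = 0 → Φ.natDegree + (Bivariate.swap Φ).natDegree ≤ N →
      ∃ (i j : ℕ) (σ : κ), σ ^ (ringExpChar κ) ^ i = Y ^ (ringExpChar κ) ^ j ∧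
        IsSeparable (Vale.Agent.P019.adj l X) σ ∧ IsSeparable (Vale.Agent.P019.adj l σ) X := by
  induction N with
  | zero =>
    intro X Y Φ hX hY hΦ h0 hN
    exact (e3t_natDegree hX hΦ h0 (by omega)).elim
  | succ N ih =>
    intro X Y Φ hX hY hΦ h0 hN
    haveI : PerfectRing l (ringExpChar κ) := PerfectField.toPerfectRing _
    have hΦ' : Irreducible (Bivariate.swap Φ) := (MulEquiv.irreducible_iff _).2 hΦ
    have h0' : aevalAeval Y X (Bivariate.swap Φ) = 0 := by
      rw [Bivariate.aevalAeval_swap]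
      exact h0
    by_cases h1 : derivative Φ = 0
    · obtain ⟨Ψ, p1, p2, p3, p4⟩ := e3t_contract (ringExpChar κ) hΦ (e3t_natDegree hX hΦ h0) h1
      have h2 : aevalAeval X (Y ^ ringExpChar κ) Ψ = 0 := by
        rw [← e3t_eval_expand, p2, h0]
      have h3 : ¬ IsAlgebraic l (Y ^ ringExpChar κ) := fun h => hY (h.of_pow (expChar_pos κ _))
      obtain ⟨i, j, σ, e1, e2, e3⟩ := ih X _ Ψ hX h3 p1 h2 (by omega)
      refine ⟨i, j + 1, σ, ?_, e2, e3⟩
      rw [e1, ← pow_mul, ← pow_succ']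
    · by_cases h2 : derivative (Bivariate.swap Φ) = 0
      · obtain ⟨Ψ, p1, p2, p3, p4⟩ := e3t_contract (ringExpChar κ) hΦ'
          (e3t_natDegree hY hΦ' h0') h2
        rw [Bivariate.swap_swap_apply] at p4
        have h3 : aevalAeval Y (X ^ ringExpChar κ) Ψ = 0 := by
          rw [← e3t_eval_expand, p2, h0']
        haveI : PerfectRing κ (ringExpChar κ) := PerfectField.toPerfectRing _
        obtain ⟨Z, hZ⟩ : ∃ Z : κ, Z ^ ringExpChar κ = Y :=
          ⟨(frobeniusEquiv κ (ringExpChar κ)).symm Y,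
            frobenius_apply_frobeniusEquiv_symm κ (ringExpChar κ) Y⟩
        rw [← hZ] at h3
        obtain ⟨Ψ', q1, q2, q3, q4⟩ := e3t_root (ringExpChar κ) p1 h3
        have hZa : ¬ IsAlgebraic l Z := fun h => hY (hZ ▸ h.pow _)
        have q5 : aevalAeval X Z (Bivariate.swap Ψ') = 0 := by
          rw [Bivariate.aevalAeval_swap]
          exact q2
        obtain ⟨i, j, σ, e1, e2, e3⟩ := ih X Z (Bivariate.swap Ψ') hX hZa
          ((MulEquiv.irreducible_iff _).2 q1) q5 (by
            rw [Bivariate.swap_swap_apply]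
            omega)
        refine ⟨i + 1, j, σ, ?_, e2, e3⟩
        rw [pow_succ, pow_mul, e1, ← pow_mul, ← pow_succ, pow_succ', pow_mul, hZ]
      · exact ⟨0, 0, Y, rfl, urel_sep hX hΦ h0 h1, urel_sep hY hΦ' h0' h2⟩

end e3t

/-- bounded relations in a perfect field of transcendence degree one, with a Frobenius twist. -/
theorem exists_twb {κ : Type*} [Field κ] [PerfectField κ] {l : Subfield κ} (hl : IsAlgClosed l)
    {X Y : κ} {d : ℕ}
    (hX : X ∉ l ∧ Module.Finite (adj l X) κ ∧ Module.finrank (adj l X) κ ≤ d)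
    (hY : Y ∉ l ∧ Module.Finite (adj l Y) κ ∧ Module.finrank (adj l Y) κ ≤ d) :
    ∃ (i j : ℕ) (σ : κ), σ ^ (ringExpChar κ) ^ i = Y ^ (ringExpChar κ) ^ j ∧ BRel l d X σ := by
  obtain ⟨hX0, hXf, hXd⟩ := hX
  obtain ⟨hY0, hYf, hYd⟩ := hY
  have htr : ∀ z : κ, z ∉ l → ¬ IsAlgebraic l z := fun z hz h =>
    hz (RAC_of_isAlgClosed l hl z h)
  have tX := htr X hX0
  have tY := htr Y hY0
  have h : IsAlgebraic (Vale.Agent.P019.adj l X) Y := by
    rw [← isAlgebraic_adj]
    exact Algebra.IsAlgebraic.isAlgebraic Y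
  obtain ⟨Φ, hΦ, h0⟩ := urel_exists tX h
  obtain ⟨i, j, σ, e1, e2, e3⟩ := e3t_main hl _ X Y Φ tX tY hΦ h0 le_rfl
  refine ⟨i, j, σ, e1, ?_⟩
  have hadj : adj l σ = adj l Y := by
    rw [← e3t_adj_pow l σ i, e1, e3t_adj_pow]
  have tσ : ¬ IsAlgebraic l σ := fun h2 => tY (by
    have h3 : IsAlgebraic l (Y ^ (ringExpChar κ) ^ j) := e1 ▸ h2.pow _
    exact h3.of_pow (Nat.pos_of_ne_zero (pow_ne_zero _ (expChar_pos κ _).ne')))
  have hσf : Module.Finite (adj l σ) κ := by rw [hadj]; exact hYf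
  have hσd : Module.finrank (adj l σ) κ ≤ d := by rw [hadj]; exact hYd
  exact urel_brel tX tσ e2 e3 hXf hXd hσf hσd

end Vale.Agent.P019P
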