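import Vale.Agent.P019Q.UKill2

/-!
# Killed classes, arbitrary transcendence degree
-/

namespace Vale.Agent.P019P

open Vale.Agent.P019

set_option linter.style.haveILetI false
set_option linter.unusedSectionVars false

open Polynomial

section kill

variable {Ω : Type*} [Field Ω]

theorem Fre.mono_right {l A B B' : Subfield Ω} (h : Fre l A B) (hB : B' ≤ B) : Fre l A B' :=
  fun N hN hlN hNB a ha halg => h N hN hlN (hNB.trans hB) a (hB ha) halg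

/-- algebraic closures in joins and simple extensions. -/
theorem adj_sup_le_rac {F N : Subfield Ω} {y : Ω} : adj F y ⊔ N ≤ rac (adj (F ⊔ N) y) :=
  sup_le ((adj_mono le_sup_left y).trans (le_rac _))
    ((le_sup_right : N ≤ F ⊔ N).trans ((le_adj _ _).trans (le_rac _)))

/-- freeness of `l(Y, y)` from freeness of `l(Y)`. -/
theorem Fre.step {l F A C : Subfield Ω} {y : Ω} (hF : Fre l F C)
    (hA : ∀ a ∈ A, IsAlgebraic (adj F y) a) (hy : ¬ IsAlgebraic (F ⊔ C : Subfield Ω) y) :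
    Fre l A C := by
  intro N hN hlN hNC a ha halg
  refine hF N hN hlN hNC a ha ?_
  by_contra hcon
  have h1 : IsAlgebraic (adj (F ⊔ N) y) a :=
    isAlgebraic_sup_of_adj (fun a ha => isAlgebraic_mono (adj_mono le_sup_left y) (hA a ha))
      ((le_sup_right : N ≤ F ⊔ N).trans (le_adj _ _)) halg
  have h2 := exchange hcon h1
  apply hy
  have h3 : adj (F ⊔ N) a ≤ rac (F ⊔ C) := by
    have h4 : Vale.Agent.P019.adj (F ⊔ N) a ≤ F ⊔ C :=
      Vale.Agent.P019.adj_le (sup_le_sup_left hNC F) ((le_sup_right : C ≤ F ⊔ C) ha)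
    have h5 : rac (adj (F ⊔ N) a) ≤ rac (F ⊔ C) := by
      rw [rac_adj]
      exact rac_mono h4
    exact (le_rac _).trans h5
  exact mem_rac.1 (RAC_rac _ y (isAlgebraic_mono h3 h2))

/-- change of the base. -/
theorem Fre.base {l F A B C : Subfield Ω} (hF : Fre l F C) (hlB : l ≤ B) (_hBC : B ≤ C)
    (hA : ∀ a ∈ A, IsAlgebraic (F ⊔ B : Subfield Ω) a) : Fre B A C := by
  intro N hN hBN hNC a ha halg
  refine hF N hN (hlB.trans hBN) hNC a ha ?_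
  exact isAlgebraic_sup_of_adj
    (fun a ha => isAlgebraic_mono (sup_le_sup_left hBN F) (hA a ha)) le_sup_right halg

variable [PerfectField Ω]

theorem kill' [IsAlgClosed Ω] (ℓ : ℕ) [Fact ℓ.Prime] [NeZero (ℓ : Ω)] {l L Bs F : Subfield Ω}
    (hl : IsAlgClosed l) (hfg : FG l L) (hlB : l ≤ Bs) (hBs : IsAlgClosed Bs) {y : Ω}
    (hlF : l ≤ F) (hFL : F ≤ L) (hy : y ∈ L) (hL : ∀ a ∈ L, IsAlgebraic (adj F y) a)
    (h1 : Fre l F Bs) (h2 : ¬ IsAlgebraic F y)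
    (h3 : IsAlgebraic (F ⊔ Bs : Subfield Ω) y) (X : Set Ω) (hX : ∀ x ∈ X, x ∈ L ∧ x ≠ 0)
    (hinf : ∀ n : ℕ, ∃ x : Fin n → Ω, (∀ i, x i ∈ X) ∧
      ∀ i j, i ≠ j → ¬ ∃ w ∈ L, x i = x j * w ^ ℓ)
    (hpow : ∀ x ∈ X, ∃ r ∈ L ⊔ Bs, r ^ ℓ = x) : ∃ h ∈ L, h ∈ Bs ∧ h ∉ l := by
  classical
  have hℓ : 0 < ℓ := (Fact.out : ℓ.Prime).pos
  have hlR : RAC l := RAC_of_isAlgClosed l hl
  have hBR : RAC Bs := RAC_of_isAlgClosed Bs hBs
  have hlL : l ≤ L := hfg.le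
  haveI : PerfectField L := hfg.perfect
  haveI : PerfectField Bs := perfect_of_RAC hBR
  haveI : PerfectField l := perfect_of_RAC hlR
  -- finitely many parameters
  obtain ⟨T, hT, hTy⟩ : ∃ T : Finset Ω, (∀ c ∈ T, c ∈ Bs) ∧
      IsAlgebraic (F ⊔ rcl l T : Subfield Ω) y := by
    have h4 : IsAlgebraic (Bs ⊔ Subfield.closure (F : Set Ω) : Subfield Ω) y := by
      rw [Subfield.closure_eq, sup_comm]
      exact h3
    obtain ⟨C, hC, hCN⟩ := isAlgebraic_sup_finite h4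
    refine ⟨C, fun c hc => hC hc, ?_⟩
    have h5 := hCN (rcl l C) (fun c hc => mem_rcl hc)
    rw [Subfield.closure_eq, sup_comm] at h5
    exact h5
  -- the critical step
  obtain ⟨T₀, hT₀, b, hb, hbC, hbalg, hCalg⟩ : ∃ T₀ : Finset Ω, (∀ c ∈ T₀, c ∈ Bs) ∧ ∃ b ∈ Bs,
      b ∉ rcl l T₀ ∧ IsAlgebraic (F ⊔ rac (adj (rcl l T₀) b) : Subfield Ω) y ∧
      ¬ IsAlgebraic (F ⊔ rcl l T₀ : Subfield Ω) y := by
    by_contra hcon
    push Not at hcon
    have h4 := chain_down (B := Bs) hlR (fun N => IsAlgebraic (F ⊔ N : Subfield Ω) y)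
      (fun T' hT' b hb hbN h => hcon T' hT' b hb hbN h) T hT hTy
    rw [sup_eq_left.2 hlF] at h4
    exact h2 h4
  set C := rcl l T₀ with hCdef
  have hCR : RAC C := rcl_RAC l T₀
  have hlC : l ≤ C := le_rcl l T₀
  have hCB : C ≤ Bs := rcl_le hBR hlB hT₀
  have hCac : IsAlgClosed C := isAlgClosed_of_RAC hBs hCR hCB
  haveI : PerfectField C := perfect_of_RAC hCR
  set B := rac (adj C b) with hBdef
  have hBBs : B ≤ Bs := RAC_adj_le hBR hCB hb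
  have hCB' : C ≤ B := (le_adj _ _).trans (le_rac _)
  have hBac : IsAlgClosed B := isAlgClosed_of_RAC hBs (RAC_rac _) hBBs
  haveI : PerfectField B := perfect_of_RAC (RAC_rac _)
  -- `b` is algebraic over `L C`
  have hbLC : IsAlgebraic (L ⊔ C : Subfield Ω) b := by
    have h4 : IsAlgebraic (adj (F ⊔ C) b) y := by
      have h5 : F ⊔ B ≤ rac (adj (F ⊔ C) b) := by
        refine sup_le ((le_sup_left : F ≤ F ⊔ C).trans ((le_adj _ _).trans (le_rac _))) ?_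
        exact rac_mono (adj_mono le_sup_right b)
      exact mem_rac.1 (RAC_rac _ _ (isAlgebraic_mono h5 hbalg))
    have h5 := exchange hCalg h4
    have h6 : adj (F ⊔ C) y ≤ L ⊔ C :=
      adj_le (sup_le_sup_right hFL C) ((le_sup_left : L ≤ L ⊔ C) hy)
    exact isAlgebraic_mono h6 h5
  have hfreeLC : Fre l L C := (h1.mono_right hCB).step hL hCalg
  have hLalgB : ∀ a ∈ L, IsAlgebraic (F ⊔ B : Subfield Ω) a := by
    intro a ha
    have h5 : adj F y ≤ rac (F ⊔ B) := by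
      have h6 : Vale.Agent.P019.adj F y ≤ rac (F ⊔ B) :=
        Vale.Agent.P019.adj_le ((le_sup_left : F ≤ F ⊔ B).trans (le_rac _)) (mem_rac.2 hbalg)
      have h7 : rac (adj F y) ≤ rac (F ⊔ B) := by
        rw [rac_adj F]
        exact (RAC_rac _).le h6
      exact (le_rac _).trans h7
    exact mem_rac.1 (RAC_rac _ _ (isAlgebraic_mono h5 (hL a ha)))
  have hfreeB : Fre B (L ⊔ B) Bs := by
    refine h1.base (hlC.trans hCB') hBBs ?_
    intro a ha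
    have h5 : L ⊔ B ≤ rac (F ⊔ B) :=
      sup_le (fun c hc => mem_rac.2 (hLalgB c hc)) (le_sup_right.trans (le_rac _))
    exact mem_rac.1 (h5 ha)
  obtain ⟨-, hE⟩ := gal ℓ hCac (FG.sup_right hfg hlC) hbLC hbC X
    (fun x hx => ⟨(le_sup_left : L ≤ L ⊔ C) (hX x hx).1, (hX x hx).2⟩) (by
      intro n
      obtain ⟨x, hxX, hx⟩ := hinf n
      refine ⟨x, hxX, fun i j hij hcon => hx i j hij ?_⟩
      obtain ⟨w, hw, hwe⟩ := hcon
      refine ⟨w, ?_, hwe⟩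
      refine mem_of_pow_mem hlR hlL hlC hCac hfreeLC hℓ hw ?_
      have h5 : w ^ ℓ = x i / x j := by
        rw [hwe]
        field_simp [(hX _ (hxX j)).2]
      rw [h5]
      exact L.div_mem (hX _ (hxX i)).1 (hX _ (hxX j)).1) (by
      intro x hx
      obtain ⟨r, hr, hrx⟩ := hpow x hx
      refine ⟨r, ?_, hrx⟩
      have h5 : r ∈ (L ⊔ B) ⊔ Bs := (sup_le_sup_right le_sup_left Bs : L ⊔ Bs ≤ _) hr
      have h6 : r ∈ L ⊔ B := by
        refine mem_of_pow_mem (RAC_rac _) le_sup_right hBBs hBs hfreeB hℓ h5 ?_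
        rw [hrx]
        exact (le_sup_left : L ≤ L ⊔ B) (hX x hx).1
      exact (sup_le_sup_right le_sup_left B : L ⊔ B ≤ (L ⊔ C) ⊔ B) h6)
  -- specialization
  obtain ⟨E, hlE, hEL, htd, hXE⟩ : ∃ E : Subfield Ω, l ≤ E ∧ E ≤ L ⊔ l ∧ Td1 l E ∧
      ∀ x ∈ X, ∃ e ∈ E, ∃ w ∈ L ⊔ l, x = e * w ^ ℓ := by
    refine chain_down (B := C) hlR (fun N => ∃ E : Subfield Ω, N ≤ E ∧ E ≤ L ⊔ N ∧ Td1 N E ∧
      ∀ x ∈ X, ∃ e ∈ E, ∃ w ∈ L ⊔ N, x = e * w ^ ℓ) ?_ T₀ (fun c hc => mem_rcl hc) ?_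
    · rintro T' hT' c hc hcN ⟨E, hE1, hE2, hE3, hE4⟩
      have hNC : rcl l T' ≤ C := rcl_le hCR hlC hT'
      exact spec_step (A := L) (N := rcl l T') (isAlgClosed_of_RAC hBs (rcl_RAC _ _)
        (hNC.trans hCB)) (fun h => hcN (hfreeLC _ (rcl_RAC _ _) (le_rcl _ _) hNC c hc h)) hX
        hE1 hE2 hE3 hE4
    · refine ⟨B ⊓ (L ⊔ C), le_inf hCB' le_sup_right, inf_le_right, ?_, hE⟩
      intro u hu v hv
      by_cases huC : u ∈ C
      · exact Or.inl huC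
      · right
        exact line_swap hCR (mem_rac.1 (Subfield.mem_inf.1 hu).1) huC
          (mem_rac.1 (Subfield.mem_inf.1 hv).1)
  rw [sup_eq_left.2 hlL] at hEL hXE
  by_contra hcon
  push Not at hcon
  -- a nonconstant element of `E`
  obtain ⟨y0, hy0, hy0l⟩ : ∃ y0 ∈ E, y0 ∉ l := by
    by_contra hno
    push Not at hno
    obtain ⟨x, hxX, hx⟩ := hinf 2
    obtain ⟨e, he, w, hw, hew⟩ := hXE _ (hxX 0)
    obtain ⟨e', he', w', hw', hew'⟩ := hXE _ (hxX 1)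
    have he0 : e ≠ 0 := by
      rintro rfl
      rw [zero_mul] at hew
      exact (hX _ (hxX 0)).2 hew
    have he'0 : e' ≠ 0 := by
      rintro rfl
      rw [zero_mul] at hew'
      exact (hX _ (hxX 1)).2 hew'
    have hw'0 : w' ≠ 0 := by
      rintro rfl
      rw [zero_pow hℓ.ne', mul_zero] at hew'
      exact (hX _ (hxX 1)).2 hew'
    obtain ⟨d, hd, hd'⟩ := asm_pow_eq hl hℓ (l.div_mem (hno e he) (hno e' he'))
    refine hx 0 1 (by decide) ⟨d * w / w', L.div_mem (L.mul_mem (hlL hd) hw) hw', ?_⟩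
    rw [hew, hew', div_pow, mul_pow, hd']
    field_simp
  have hy0B : ¬ IsAlgebraic Bs y0 := fun h => hy0l (hcon y0 (hEL hy0) (hBR y0 h))
  have hEalg : ∀ a ∈ E, IsAlgebraic (adj l y0) a := fun a ha =>
    (htd y0 hy0 a ha).resolve_left hy0l
  have hfreeE : Fre l E Bs := Fre.of_one hEalg hy0B
  obtain ⟨ζ, hζl, hζ⟩ := finK_prim hl ℓ
  have hfgB : FG Bs (L ⊔ Bs : Subfield Ω) := FG.sup_right hfg hlB
  have hfgE : FG (E ⊔ Bs : Subfield Ω) (L ⊔ Bs : Subfield Ω) :=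
    hfgB.mono le_sup_right (sup_le_sup_right hEL Bs)
  obtain ⟨N, hN⟩ := fk ℓ hfgE ((le_sup_left : E ≤ E ⊔ Bs) (hlE hζl)) hζ
  obtain ⟨x, hxX, hx⟩ := hinf (N + 1)
  choose e he w hw hew using fun i => hXE _ (hxX i)
  choose r hr hrx using fun i => hpow _ (hxX i)
  have hx0 : ∀ i, x i ≠ 0 := fun i => (hX _ (hxX i)).2
  have he0 : ∀ i, e i ≠ 0 := by
    intro i h0
    have := hew i
    rw [h0, zero_mul] at this
    exact hx0 i this
  have hw0 : ∀ i, w i ≠ 0 := by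
    intro i h0
    have := hew i
    rw [h0, zero_pow hℓ.ne', mul_zero] at this
    exact hx0 i this
  obtain ⟨i, j, hij, y, hy, hy0', hyij⟩ := hN e (fun i => ⟨(le_sup_left : E ≤ E ⊔ Bs) (he i),
    he0 i, r i / w i, Subfield.div_mem _ (hr i) ((le_sup_left : L ≤ L ⊔ Bs) (hw i)), by
      rw [div_pow, hrx, hew]
      field_simp [hw0 i]⟩)
  have hyE : y ∈ E := by
    refine mem_of_pow_mem hlR hlE hlB hBs hfreeE hℓ hy ?_
    have h5 : y ^ ℓ = e i / e j := by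
      rw [hyij]
      field_simp [he0 j]
    rw [h5]
    exact E.div_mem (he i) (he j)
  refine hx i j hij ⟨y * w i / w j, L.div_mem (L.mul_mem (hEL hyE) (hw i)) (hw j), ?_⟩
  rw [hew i, hew j, hyij, div_pow, mul_pow]
  have h6 := pow_ne_zero ℓ (hw0 j)
  field_simp

/-- infinitely many classes of `L` die in a function field `κ` over `Bs`. -/
theorem ft_sub' [IsAlgClosed Ω] (ℓ : ℕ) [Fact ℓ.Prime] [NeZero (ℓ : Ω)]
    {l L Bs κ F : Subfield Ω}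
    (hl : IsAlgClosed l) (hfg : FG l L) (hlB : l ≤ Bs) (hBs : IsAlgClosed Bs) {y : Ω}
    (hlF : l ≤ F) (hFL : F ≤ L) (hy : y ∈ L) (hL : ∀ a ∈ L, IsAlgebraic (adj F y) a)
    (h1 : Fre l F Bs) (h2 : ¬ IsAlgebraic F y)
    (h3 : IsAlgebraic (F ⊔ Bs : Subfield Ω) y) (hκ : FG Bs κ) (hLκ : L ≤ κ)
    (X : Set Ω) (hX : ∀ x ∈ X, x ∈ L ∧ x ≠ 0)
    (hinf : ∀ n : ℕ, ∃ x : Fin n → Ω, (∀ i, x i ∈ X) ∧
      ∀ i j, i ≠ j → ¬ ∃ w ∈ L, x i = x j * w ^ ℓ)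
    (hpow : ∀ x ∈ X, ∃ r ∈ κ, r ^ ℓ = x) : ∃ h ∈ L, h ∈ Bs ∧ h ∉ l := by
  classical
  have hℓ : 0 < ℓ := (Fact.out : ℓ.Prime).pos
  obtain ⟨ζ, hζl, hζ⟩ := finK_prim hl ℓ
  have hfgE : FG (L ⊔ Bs : Subfield Ω) κ := hκ.mono le_sup_right (sup_le hLκ hκ.le)
  obtain ⟨N, hN⟩ := fk ℓ hfgE ((le_sup_right : Bs ≤ L ⊔ Bs) (hlB hζl)) hζ
  let X₀ : Set Ω := {u | (∃ x ∈ X, ∃ x' ∈ X, u = x / x') ∧ ∃ r ∈ L ⊔ Bs, r ^ ℓ = u}
  refine kill' ℓ hl hfg hlB hBs hlF hFL hy hL h1 h2 h3 X₀ ?_ ?_ ?_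
  · rintro _ ⟨⟨x, hx, x', hx', rfl⟩, -⟩
    exact ⟨L.div_mem (hX x hx).1 (hX x' hx').1, div_ne_zero (hX x hx).2 (hX x' hx').2⟩
  · by_contra hcon
    push Not at hcon
    obtain ⟨n, hn⟩ := hcon
    have hn0 : n ≠ 0 := by
      rintro rfl
      obtain ⟨i, -⟩ := hn (fun i => i.elim0) (fun i => i.elim0)
      exact i.elim0
    obtain ⟨m, rfl⟩ := Nat.exists_eq_succ_of_ne_zero hn0
    refine pigeon (fun x => x ∈ X) (fun x y => ∃ w ∈ L ⊔ Bs, x = y * w ^ ℓ)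
      (fun x y => ∃ w ∈ L, x = y * w ^ ℓ) ?_ ?_ ?_ N m ?_ ?_ hinf
    · rintro x y hx hy ⟨w, hw, h⟩
      have hw0 : w ≠ 0 := by
        rintro rfl
        rw [zero_pow hℓ.ne', mul_zero] at h
        exact (hX x hx).2 h
      refine ⟨w⁻¹, Subfield.inv_mem _ hw, ?_⟩
      rw [h, inv_pow, mul_inv_cancel_right₀ (pow_ne_zero _ hw0)]
    · rintro x y z - - - ⟨w, hw, h⟩ ⟨w', hw', h'⟩
      refine ⟨w' * w, Subfield.mul_mem _ hw' hw, ?_⟩
      rw [h, h', mul_pow, mul_assoc]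
    · intro x _
      exact ⟨1, Subfield.one_mem _, by rw [one_pow, mul_one]⟩
    · intro x hx
      obtain ⟨i, j, hij, y, hy, -, hxy⟩ := hN x (fun i =>
        ⟨(le_sup_left : L ≤ L ⊔ Bs) (hX _ (hx i)).1, (hX _ (hx i)).2, by
          obtain ⟨r, hr, hrx⟩ := hpow _ (hx i)
          exact ⟨r, hr, hrx⟩⟩)
      exact ⟨i, j, hij, y, hy, hxy⟩
    · intro x hx hR
      have hx0 : ∀ i, x i ≠ 0 := fun i => (hX _ (hx i)).2
      obtain ⟨i, j, hij, w, hw, hxw⟩ := hn (fun i => x i / x 0) (fun i => by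
        refine ⟨⟨x i, hx i, x 0, hx 0, rfl⟩, ?_⟩
        obtain ⟨w, hw, h⟩ := hR i 0
        refine ⟨w, hw, ?_⟩
        rw [h]
        field_simp [hx0 0])
      refine ⟨i, j, hij, w, hw, ?_⟩
      have h0 := hx0 0
      have h5 : x i / x 0 = x j / x 0 * w ^ ℓ := hxw
      field_simp at h5
      exact h5
  · rintro _ ⟨-, h⟩
    exact h

end kill

end Vale.Agent.P019P
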