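import Vale.Agent.P019Q.E0
import Vale.Agent.P019Q.UKill3
import Vale.Agent.P019Q.UPl

/-!
# The field theoretic lemma in any transcendence degree
-/

namespace Vale.Agent.P019P

open Vale.Agent.P019

set_option linter.style.haveILetI false
set_option linter.unusedSectionVars false

open Polynomial Filter

section e4b

universe u

variable {K Ω : Type u} [Field K] [Field Ω] (j : K →+* Ω)

theorem e4b_closed_map {l : Subfield K} (hl : IsAlgClosed l) : IsAlgClosed (l.map j) := by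
  let e0 : l →+* l.map j := (j.comp l.subtype).codRestrict (l.map j) fun x => ⟨x, x.2, rfl⟩
  let e : l ≃+* l.map j := RingEquiv.ofBijective e0 ⟨e0.injective, by
    rintro ⟨_, ⟨x, hx, rfl⟩⟩
    exact ⟨⟨x, hx⟩, rfl⟩⟩
  exact IsAlgClosed.of_ringEquiv _ _ e

theorem e4b_fg_map [PerfectField K] [PerfectField Ω] {l L : Subfield K}
    (h : FG l L) : FG (l.map j) (L.map j) := by
  classical
  haveI : PerfectField L := h.perfect
  have hlL := h.le
  obtain ⟨S, hS⟩ := h
  have hSL : ∀ x ∈ S, x ∈ L := by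
    intro x hx
    rw [hS]
    exact (le_sup_right.trans (le_pf _) : Subfield.closure (S : Set K) ≤ _)
      (Subfield.subset_closure hx)
  refine ⟨S.image j, le_antisymm ?_ ?_⟩
  · conv_lhs => rw [hS]
    refine (map_pf_le j _).trans (pf_mono ?_)
    rw [Subfield.map_le_iff_le_comap]
    refine sup_le ?_ ?_
    · rw [← Subfield.map_le_iff_le_comap]
      exact le_sup_left
    · rw [Subfield.closure_le]
      intro x hx
      exact (le_sup_right : Subfield.closure ((S.image j : Finset Ω) : Set Ω) ≤ _)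
        (Subfield.subset_closure (by simpa using ⟨x, hx, rfl⟩))
  · haveI : PerfectField (L.map j) := perfect_map j _
    refine pf_le (sup_le (sub_map_mono j hlL) ?_)
    rw [Subfield.closure_le]
    intro x hx
    obtain ⟨y, hy, rfl⟩ := by simpa using hx
    exact ⟨y, hSL y hy, rfl⟩

/-- freeness and embeddings. -/
theorem e4b_fre_map {l A B : Subfield K} (h : Fre l A B) :
    Fre (l.map j) (A.map j) (B.map j) := by
  intro N hN hlN hNB a ha halg
  obtain ⟨a0, ha0, rfl⟩ := ha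
  have hNe : N = (N.comap j).map j := by
    apply le_antisymm
    · intro z hz
      obtain ⟨z0, -, rfl⟩ := hNB hz
      exact ⟨z0, hz, rfl⟩
    · rintro _ ⟨z, hz, rfl⟩
      exact hz
  refine h (N.comap j) ?_ ?_ ?_ a0 ha0 ?_
  · intro z hz
    refine hN (j z) ?_
    rw [hNe]
    exact isAlgebraic_map j hz
  · intro z hz
    exact hlN ⟨z, hz, rfl⟩
  · intro z hz
    obtain ⟨z0, hz0, hzz⟩ := hNB hz
    rwa [← j.injective hzz]
  · apply isAlgebraic_of_map j
    rw [Subfield.map_sup, ← hNe]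
    exact halg

end e4b

section e4b2

variable {K : Type*} [Field K] [PerfectField K]

/-- independent elements generate a free subfield. -/
theorem e4b_fre_gsp {l Λ : Subfield K} [PerfectField l] [PerfectField Λ] (hlΛ : l ≤ Λ)
    {B : Finset K} (hB : Indp Λ B) (S : Finset K) (hS : S ⊆ B) : Fre l (gsp l S) Λ := by
  classical
  induction S using Finset.induction_on with
  | empty =>
    intro N hN hlN _ a _ halg
    rw [gsp_empty, sup_eq_right.2 hlN] at halg
    exact hN a halg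
  | insert v S hvS ih =>
    have hSB : S ⊆ B := (Finset.subset_insert v S).trans hS
    refine (ih hSB).step (y := v) ?_ ?_
    · intro a ha
      rw [gsp_insert] at ha
      exact isAlgebraic_of_mem ha
    · intro halg
      refine hB S hSB v (hS (Finset.mem_insert_self v S)) hvS (isAlgebraic_mono ?_ halg)
      haveI := gsp_perfect Λ S
      exact sup_le (gsp_le (hlΛ.trans (le_gsp Λ S)) fun x hx => mem_gsp hx) (le_gsp Λ S)

/-- a maximal part of `B` independent over `Λ`. -/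
theorem e4b_max (Λ : Subfield K) (B : Finset K) :
    ∃ B1 ⊆ B, Indp Λ B1 ∧ ∀ b ∈ B, IsAlgebraic (gsp Λ B1) b := by
  classical
  have hne : (B.powerset.filter fun S => Indp Λ S).Nonempty :=
    ⟨∅, Finset.mem_filter.2 ⟨Finset.empty_mem_powerset B, fun S _ v hv =>
      absurd hv (Finset.notMem_empty v)⟩⟩
  obtain ⟨B1, hB1, hmax⟩ := Finset.exists_max_image _ Finset.card hne
  obtain ⟨h1, h2⟩ := Finset.mem_filter.1 hB1
  refine ⟨B1, Finset.mem_powerset.1 h1, h2, fun b hb => ?_⟩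
  by_contra hcon
  have hbB : b ∉ B1 := fun h => hcon (isAlgebraic_of_mem (mem_gsp h))
  have h3 := hmax (insert b B1) (Finset.mem_filter.2 ⟨Finset.mem_powerset.2
    (Finset.insert_subset hb (Finset.mem_powerset.1 h1)), h2.insert hcon⟩)
  rw [Finset.card_insert_of_notMem hbB] at h3
  omega

end e4b2

/-- the general form of `ft`: `L` of transcendence degree `m + 1` over `l`, `κ` algebraic over
`Λ L` and of transcendence degree `m` over `Λ`. -/
theorem ftn {κ : Type*} [Field κ] [PerfectField κ] (ℓ : ℕ) [Fact ℓ.Prime] [NeZero (ℓ : κ)]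
    {Λ : Subfield κ} (hΛ : IsAlgClosed Λ) (hfgκ : FG Λ (⊤ : Subfield κ)) {l L : Subfield κ}
    (hl : IsAlgClosed l) (hlΛ : l ≤ Λ) (hfg : FG l L) {m : ℕ} (htd : Td Λ m) {B : Finset κ}
    (hB : Indp l B) (hBc : B.card = m + 1) (hBL : ∀ x ∈ B, x ∈ L)
    (hLB : ∀ z ∈ L, IsAlgebraic (gsp l B) z)
    (halg : ∀ z : κ, IsAlgebraic (Λ ⊔ L : Subfield κ) z)
    (hinf : ∀ N : ℕ, ∃ x : Fin N → κ, (∀ i, x i ∈ L ∧ x i ≠ 0 ∧ ∃ h : κ, h ^ ℓ = x i) ∧
      ∀ i j, i ≠ j → ¬ ∃ w ∈ L, x i = x j * w ^ ℓ) : ∃ e ∈ L, e ∈ Λ ∧ e ∉ l := by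
  classical
  haveI : PerfectField Λ := perfect_of_RAC (RAC_of_isAlgClosed Λ hΛ)
  haveI : PerfectField l := perfect_of_RAC (RAC_of_isAlgClosed l hl)
  haveI : PerfectField L := hfg.perfect
  obtain ⟨B1, hB1B, hB1, hmax⟩ := e4b_max Λ B
  have hB1t : ∀ z : κ, IsAlgebraic (gsp Λ B1) z := by
    intro z
    have h1 : gsp l B ≤ rac (gsp Λ B1) :=
      gsp_le (hlΛ.trans ((le_gsp Λ B1).trans (le_rac _))) fun x hx => mem_rac.2 (hmax x hx)
    have h2 : Λ ⊔ L ≤ rac (gsp Λ B1) := sup_le ((le_gsp Λ B1).trans (le_rac _)) fun x hx =>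
      mem_rac.2 (isAlgebraic_rac (isAlgebraic_mono h1 (hLB x hx)))
    exact isAlgebraic_rac (isAlgebraic_mono h2 (halg z))
  have hcard : B1.card = m := Td.unique ⟨B1, rfl, hB1, hB1t⟩ htd
  obtain ⟨y, hyB, hyB1⟩ : ∃ y ∈ B, y ∉ B1 :=
    Finset.exists_mem_notMem_of_card_lt_card (by omega)
  have hins : insert y B1 = B := by
    refine Finset.eq_of_subset_of_card_le (Finset.insert_subset hyB hB1B) ?_
    rw [Finset.card_insert_of_notMem hyB1]
    omega
  haveI := gsp_perfect l B1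
  have hyF : ¬ IsAlgebraic (gsp l B1) y := hB B1 hB1B y hyB hyB1
  have hFL : gsp l B1 ≤ L := gsp_le hfg.le fun x hx => hBL x (hB1B hx)
  have hyΛ : IsAlgebraic (gsp l B1 ⊔ Λ : Subfield κ) y := by
    refine isAlgebraic_mono ?_ (hB1t y)
    exact gsp_le le_sup_right fun x hx =>
      (le_sup_left : gsp l B1 ≤ gsp l B1 ⊔ Λ) (mem_gsp hx)
  let j : κ →+* AlgebraicClosure κ := algebraMap κ (AlgebraicClosure κ)
  haveI : NeZero (ℓ : AlgebraicClosure κ) := ⟨by
    rw [← map_natCast j, Ne, map_eq_zero]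
    exact NeZero.ne (ℓ : κ)⟩
  obtain ⟨_, ⟨e, heL, rfl⟩, heΛ, hel⟩ := ft_sub' ℓ (l := l.map j) (L := L.map j)
    (Bs := Λ.map j) (κ := (⊤ : Subfield κ).map j) (F := (gsp l B1).map j) (y := j y)
    (e4b_closed_map j hl) (e4b_fg_map j hfg) (sub_map_mono j hlΛ) (e4b_closed_map j hΛ)
    (sub_map_mono j (le_gsp l B1)) (sub_map_mono j hFL) ⟨y, hBL y hyB, rfl⟩ (by
      rintro _ ⟨z, hz, rfl⟩
      have h1 := hLB z hz
      rw [← hins, gsp_insert] at h1
      exact isAlgebraic_mono (map_adj_le j _ _) (isAlgebraic_map j h1))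
    (e4b_fre_map j (e4b_fre_gsp hlΛ hB1 B1 (Finset.Subset.refl _)))
    (fun h => hyF (isAlgebraic_of_map j h)) (by
      rw [← Subfield.map_sup]
      exact isAlgebraic_map j hyΛ)
    (e4b_fg_map j hfgκ) (sub_map_mono j le_top)
    (j '' {x | x ∈ L ∧ x ≠ 0 ∧ ∃ h : κ, h ^ ℓ = x}) (by
      rintro _ ⟨x, ⟨hx, hx0, -⟩, rfl⟩
      exact ⟨⟨x, hx, rfl⟩, by rw [Ne, map_eq_zero]; exact hx0⟩) (by
      intro n
      obtain ⟨x, hxX, hx⟩ := hinf n
      refine ⟨fun i => j (x i), fun i => ⟨x i, hxX i, rfl⟩, ?_⟩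
      rintro a b hab ⟨_, ⟨w, hw, rfl⟩, hweq⟩
      refine hx a b hab ⟨w, hw, ?_⟩
      rw [← map_pow, ← map_mul] at hweq
      exact j.injective hweq) (by
      rintro _ ⟨x, ⟨-, -, h, hh⟩, rfl⟩
      exact ⟨j h, ⟨h, Subfield.mem_top h, rfl⟩, by rw [← map_pow, hh]⟩)
  refine ⟨e, heL, ?_, fun h => hel ⟨e, h, rfl⟩⟩
  obtain ⟨e', he', hee⟩ := heΛ
  rwa [← j.injective hee]

end Vale.Agent.P019P
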