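import Vale.Agent.P019Q.E0
import Vale.Agent.P019P.LemX

/-!
# A ramification argument
-/

namespace Vale.Agent.P019P

open Vale.Agent.P019

set_option linter.style.haveILetI false
set_option linter.unusedSectionVars false

open Polynomial Filter

/-- an element `σ` such that infinitely many `σ - c` have the classes of elements of `N` is
algebraic over `N`. -/
theorem ram_alg {κ : Type*} [Field κ] [PerfectField κ] (ℓ : ℕ) [Fact ℓ.Prime] [NeZero (ℓ : κ)]
    {Λ N : Subfield κ} (hΛ : IsAlgClosed Λ) (hfg : FG Λ (⊤ : Subfield κ)) (hΛN : Λ ≤ N) {σ : κ}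
    (hinf : {c : κ | c ∈ Λ ∧ ∃ z ∈ N, ∃ h : κ, h ≠ 0 ∧ σ - c = z * h ^ ℓ}.Infinite) :
    IsAlgebraic N σ := by
  classical
  by_contra hσ
  have hN' : N ≤ pf N := le_pf N
  have hσ' : ¬ IsAlgebraic (pf N) σ := fun h => hσ (isAlgebraic_pf.1 h)
  have hfg' : FG (pf N) (⊤ : Subfield κ) := hfg.mono (hΛN.trans hN') le_top
  have hind : Indp (pf N) {σ} := by
    intro S hS v hv hvS
    rw [Finset.mem_singleton] at hv
    subst hv
    have hS0 : S = ∅ := by
      rcases Finset.subset_singleton_iff.1 hS with h | h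
      · exact h
      · exact absurd (by rw [h]; exact Finset.mem_singleton_self _) hvS
    subst hS0
    rw [gsp_empty]
    exact hσ'
  obtain ⟨B, hσB, hB, hBalg⟩ := hind.extend hfg'
  have hσB' : σ ∈ B := hσB (Finset.mem_singleton_self σ)
  set G := gsp (pf N) (B.erase σ) with hG
  haveI : PerfectField G := gsp_perfect _ _
  have hNG : N ≤ G := hN'.trans (le_gsp _ _)
  have hσG : ¬ IsAlgebraic G σ :=
    hB _ (Finset.erase_subset σ B) σ hσB' (Finset.notMem_erase σ B)
  have halg : ∀ z : κ, IsAlgebraic (adj G σ) z := by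
    intro z
    have h1 := hBalg z
    rw [← Finset.insert_erase hσB', gsp_insert] at h1
    exact h1
  obtain ⟨θ, hθ, hθ'⟩ := lemX_gen (hΛN.trans hNG) hfg halg
  have hae := lemX_unif_ae hσG hθ hθ'
  rw [eventually_cofinite] at hae
  have hbad := hae.image (Subtype.val : G → κ)
  obtain ⟨c, ⟨hcΛ, z, hz, h, hh, hc⟩, hcbad⟩ := (hinf.sdiff hbad).nonempty
  have hcG : c ∈ G := hNG (hΛN hcΛ)
  obtain ⟨W, hW⟩ := exists_over hσG hcG
  have hU : IsUnif W (σ - c) := by
    by_contra hcon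
    exact hcbad ⟨⟨c, hcG⟩, fun h1 => hcon (h1 W hW), rfl⟩
  have hz0 : z ≠ 0 := by
    rintro rfl
    exact hU.ne (by rw [hc, zero_mul])
  have h1 : cl ℓ (σ - c) = cl ℓ z := by
    rw [hc, cl_mul ℓ hz0 (pow_ne_zero _ hh), cl_pow_self, add_zero]
  have h2 : hU.fn ℓ (cl ℓ (σ - c)) = 0 := by
    rw [h1]
    exact hU.fn_unit ℓ z (hW.triv.eq_one (hNG hz) hz0)
  rw [hU.fn_self ℓ] at h2
  exact one_ne_zero h2

end Vale.Agent.P019P
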