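import Vale.Agent.P019Q.E0
import Vale.Agent.P019Q.UGer
import Vale.Agent.P019Q.URat
import Vale.Agent.P019Q.UVar
import Vale.Agent.P019Q.URac
import Vale.Agent.P019Q.SA2

/-!
# Elements of bounded degree in the ultrapower
-/

namespace Vale.Agent.P019P

open Vale.Agent.P019

set_option linter.style.haveILetI false
set_option linter.unusedSectionVars false

open Polynomial Filter

variable {Ω : Type*} [Field Ω] {I : Type*} {U : Ultrafilter I}

section e4r

variable [PerfectField Ω] {k : Subfield Ω}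

/-- perfectness of ultraproducts. -/
theorem e4r_perfect {R : I → Subfield Ω} (hR : ∀ i, PerfectField (R i)) :
    PerfectField (uSub U R) := by
  refine perfect_of_root ?_
  rintro _ ⟨f, rfl, hf⟩
  have h : ∀ i, ∃ y ∈ R i, y ^ ringExpChar Ω = f i := by
    intro i
    haveI := hR i
    obtain ⟨y, hy, hyz⟩ := exists_root_q (R i) (hf i) 1
    exact ⟨y, hy, by rwa [pow_one] at hyz⟩
  choose y hy hyf using h
  refine ⟨gm U y, ⟨y, rfl, hy⟩, ?_⟩
  rw [ringExpChar_gm, ← gm_pow]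
  exact congrArg _ (funext hyf)

/-- the twist of a member. -/
theorem e4r_mem {B' : Finset Ω} {v w : Ω} (hv : v ∈ gsp k B') {a b : ℕ}
    (h : w ^ (ringExpChar Ω) ^ a = v ^ (ringExpChar Ω) ^ b) : w ∈ gsp k B' := by
  haveI := gsp_perfect k B'
  refine mem_of_pow_q (n := a) ?_
  rw [h]
  exact pow_mem hv _

theorem e4r_uSub {B' : Finset Ω} {v : Ω} (hv : v ∈ B') {y : Gm U Ω}
    (hy : ∃ f : I → Ω, gm U f = y ∧
      ∀ i, ∃ a b : ℕ, (f i) ^ (ringExpChar Ω) ^ a = v ^ (ringExpChar Ω) ^ b) :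
    y ∈ uSub U (fun _ => gsp k B') := by
  obtain ⟨f, hf, h⟩ := hy
  refine ⟨f, hf, fun i => ?_⟩
  obtain ⟨a, b, hab⟩ := h i
  exact e4r_mem (mem_gsp hv) hab

theorem e4r_gsp_le {B' : Finset Ω} {σ : Ω → Gm U Ω}
    (hσ : ∀ v ∈ B', ∃ f : I → Ω, gm U f = σ v ∧
      ∀ i, ∃ a b : ℕ, (f i) ^ (ringExpChar Ω) ^ a = v ^ (ringExpChar Ω) ^ b)
    {T : Finset (Gm U Ω)} (hT : ∀ y ∈ T, ∃ v ∈ B', y = σ v) :
    gsp (uSub U (fun _ => k)) T ≤ uSub U (fun _ => gsp k B') := by
  haveI := gsp_perfect k B'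
  refine gsp_le (uSub_mono (le_gsp k B')) fun y hy => ?_
  obtain ⟨v, hv, rfl⟩ := hT y hy
  exact e4r_uSub hv (hσ v hv)

theorem e4r_transc {B B' : Finset Ω} (hB : Indp k B) (hB' : B' ⊆ B) {v : Ω} (hv : v ∈ B)
    (hvB' : v ∉ B') {y : Gm U Ω} (hy : ∃ f : I → Ω, gm U f = y ∧
      ∀ i, ∃ a b : ℕ, (f i) ^ (ringExpChar Ω) ^ a = v ^ (ringExpChar Ω) ^ b) :
    ¬ IsAlgebraic (uSub U (fun _ => gsp k B')) y := by
  obtain ⟨f, rfl, h⟩ := hy
  refine gm_transc (E := fun _ => gsp k B') (Eventually.of_forall fun i hi => ?_)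
  obtain ⟨a, b, hab⟩ := h i
  have h1 : IsAlgebraic (gsp k B') (v ^ (ringExpChar Ω) ^ b) := by
    rw [← hab]
    exact isAlgebraic_pow_iff.2 hi
  exact hB B' hB' v hv hvB' (isAlgebraic_pow_iff.1 h1)

theorem e4r_adj (G : Subfield Ω) {v w : Ω} {a b : ℕ}
    (h : w ^ (ringExpChar Ω) ^ a = v ^ (ringExpChar Ω) ^ b) : adj G v ≤ adj G w := by
  refine adj_le (le_adj G w) ?_
  refine mem_of_pow_q (n := b) ?_
  rw [← h]
  exact pow_mem (mem_adj G w) _

end e4r

/-- the twisted elements are independent. -/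
theorem gm_indp [PerfectField Ω] {k : Subfield Ω} [PerfectField k] {B : Finset Ω}
    (hB : Indp k B) {σ : Ω → Gm U Ω}
    (hσ : ∀ v ∈ B, ∃ f : I → Ω, gm U f = σ v ∧
      ∀ i, ∃ a b : ℕ, (f i) ^ (ringExpChar Ω) ^ a = v ^ (ringExpChar Ω) ^ b) :
    ∃ S : Finset (Gm U Ω), (∀ y, y ∈ S ↔ ∃ v ∈ B, y = σ v) ∧ S.card = B.card ∧
      Indp (uSub U (fun _ => k)) S := by
  classical
  refine ⟨B.image σ, fun y => ?_, ?_, ?_⟩
  · rw [Finset.mem_image]
    exact ⟨fun ⟨v, hv, h⟩ => ⟨v, hv, h.symm⟩, fun ⟨v, hv, h⟩ => ⟨v, hv, h.symm⟩⟩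
  · refine Finset.card_image_of_injOn ?_
    intro v hv w hw hvw
    by_contra hne
    refine e4r_transc hB (B' := {w}) (Finset.singleton_subset_iff.2 hw) hv
      (fun h => hne (Finset.mem_singleton.1 h)) (hσ v hv) ?_
    refine isAlgebraic_of_mem ?_
    rw [show σ v = σ w from hvw]
    exact e4r_uSub (Finset.mem_singleton_self w) (hσ w hw)
  · intro T hT y hy hyT halg
    obtain ⟨v, hv, rfl⟩ := Finset.mem_image.1 hy
    have hsub : B.filter (fun w => σ w ∈ T) ⊆ B := Finset.filter_subset _ _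
    refine e4r_transc hB hsub hv (fun h => hyT (Finset.mem_filter.1 h).2) (hσ v hv) ?_
    refine isAlgebraic_mono (e4r_gsp_le (fun w hw => hσ w (hsub hw)) fun z hz => ?_) halg
    obtain ⟨w, hw, rfl⟩ := Finset.mem_image.1 (hT hz)
    exact ⟨w, Finset.mem_filter.2 ⟨hw, hz⟩, rfl⟩

/-- the elements of the ultraproduct of `k(B)` which are algebraic over `Λ(σ)`. -/
theorem gsp_rac_gm [PerfectField Ω] {k : Subfield Ω} [PerfectField k]
    {B : Finset Ω} (hB : Indp k B) {σ : Ω → Gm U Ω}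
    (hσ : ∀ v ∈ B, ∃ f : I → Ω, gm U f = σ v ∧
      ∀ i, ∃ a b : ℕ, (f i) ^ (ringExpChar Ω) ^ a = v ^ (ringExpChar Ω) ^ b)
    {S : Finset (Gm U Ω)} (hS : ∀ y, y ∈ S ↔ ∃ v ∈ B, y = σ v) {x : Gm U Ω}
    (hx : x ∈ uSub U (fun _ => gsp k B))
    (halg : IsAlgebraic (gsp (uSub U (fun _ => k)) S) x) :
    x ∈ gsp (uSub U (fun _ => k)) S := by
  classical
  have key : ∀ B' : Finset Ω, B' ⊆ B → ∀ z ∈ uSub U (fun _ => gsp k B'),
      IsAlgebraic (gsp (uSub U (fun _ => k)) (B'.image σ)) z →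
      z ∈ gsp (uSub U (fun _ => k)) (B'.image σ) := by
    intro B'
    induction B' using Finset.induction_on with
    | empty =>
      intro _ z hz _
      rw [gsp_empty] at hz
      exact le_gsp _ _ hz
    | insert v B' hvB' ih =>
      intro hsub z hz hzalg
      have hsub' : B' ⊆ B := (Finset.subset_insert v B').trans hsub
      have hv : v ∈ B := hsub (Finset.mem_insert_self v B')
      have ih' := ih hsub'
      obtain ⟨f, hf, hfv⟩ := hσ v hv
      haveI i1 : PerfectField (gsp k B') := gsp_perfect k B'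
      haveI i2 : PerfectField (gsp (uSub U (fun _ => k)) (B'.image σ)) := gsp_perfect _ _
      have hAB : gsp (uSub U (fun _ => k)) (B'.image σ) ≤ uSub U (fun _ => gsp k B') := by
        refine e4r_gsp_le (fun w hw => hσ w (hsub' hw)) fun y hy => ?_
        obtain ⟨w, hw, rfl⟩ := Finset.mem_image.1 hy
        exact ⟨w, hw, rfl⟩
      have htr : ∀ᶠ i : I in U, ¬ IsAlgebraic (gsp k B') (f i) := by
        refine Eventually.of_forall fun i hi => ?_
        obtain ⟨a, b, hab⟩ := hfv i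
        have h1 : IsAlgebraic (gsp k B') (v ^ (ringExpChar Ω) ^ b) := by
          rw [← hab]
          exact isAlgebraic_pow_iff.2 hi
        exact hB B' hsub' v hv hvB' (isAlgebraic_pow_iff.1 h1)
      have hz1 : z ∈ uSub U (fun i => adj (gsp k B') (f i)) := by
        obtain ⟨g, hg, hgm⟩ := hz
        refine ⟨g, hg, fun i => ?_⟩
        obtain ⟨a, b, hab⟩ := hfv i
        have h2 := hgm i
        rw [gsp_insert] at h2
        exact e4r_adj (gsp k B') hab h2
      rw [Finset.image_insert, gsp_insert, ← hf] at hzalg ⊢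
      have hz2 : z ∈ adj (uSub U (fun _ => gsp k B')) (gm U f) :=
        rat_gm (E := fun _ => gsp k B') (g := f) htr hz1 (isAlgebraic_mono (adj_mono hAB _) hzalg)
      exact var_rac hAB ih' (gm_transc (E := fun _ => gsp k B') (g := f) htr) hz2 hzalg
  have hSB : S = B.image σ := by
    ext y
    rw [hS, Finset.mem_image]
    exact ⟨fun ⟨v, hv, h⟩ => ⟨v, hv, h.symm⟩, fun ⟨v, hv, h⟩ => ⟨v, hv, h.symm⟩⟩
  rw [hSB] at halg ⊢
  exact key B subset_rfl x hx halg

/-- a common bound of the degrees over the ultraproduct. -/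
theorem e4r_deg {G : Subfield Ω} {R : I → Subfield Ω} {d : ℕ}
    (hd : ∀ i, ∀ c ∈ R i, ∃ p : G[X], p.Monic ∧ p.natDegree ≤ d ∧ aeval c p = 0)
    {x : Gm U Ω} (hx : x ∈ uSub U R) :
    ∃ P : (uSub U (fun _ => G))[X], P.Monic ∧ P.natDegree ≤ d ∧ aeval x P = 0 := by
  obtain ⟨f, rfl, hf⟩ := hx
  have h1 : ∀ i, ∃ c : ℕ → G, (f i) ^ d + ∑ j ∈ Finset.range d, (c j : Ω) * (f i) ^ j = 0 := by
    intro i
    obtain ⟨p, hp, hpd, hp0⟩ := hd i (f i) (hf i)
    set q : G[X] := p * X ^ (d - p.natDegree) with hq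
    have hqm : q.Monic := hp.mul (monic_X_pow _)
    have hqd : q.natDegree = d := by
      rw [hq, hp.natDegree_mul (monic_X_pow _), natDegree_X_pow]
      omega
    refine ⟨q.coeff, ?_⟩
    have h2 : aeval (f i) q = 0 := by rw [hq, map_mul, hp0, zero_mul]
    conv_lhs at h2 => rw [hqm.as_sum, hqd]
    rw [map_add, map_pow, aeval_X, map_sum] at h2
    rw [← h2]
    congr 1
    refine Finset.sum_congr rfl fun j _ => ?_
    rw [map_mul, aeval_C, map_pow, aeval_X]
    rfl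
  choose c hc using h1
  obtain ⟨b, hb⟩ : ∃ b : ℕ → uSub U (fun _ => G), ∀ j, ((b j : uSub U (fun _ => G)) : Gm U Ω) =
      gm U (fun i => (c i j : Ω)) :=
    ⟨fun j => ⟨gm U (fun i => (c i j : Ω)), gm_mem_uSub.2 (Eventually.of_forall fun i =>
      (c i j).2)⟩, fun j => rfl⟩
  let P : (uSub U (fun _ => G))[X] := X ^ d + ∑ j ∈ Finset.range d, C (b j) * X ^ j
  have hlt : (∑ j ∈ Finset.range d, C (b j) * X ^ j).degree < (d : WithBot ℕ) := by
    refine (degree_sum_le _ _).trans_lt ?_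
    rw [Finset.sup_lt_iff (by exact_mod_cast WithBot.bot_lt_coe d)]
    intro j hj
    refine (degree_C_mul_X_pow_le _ _).trans_lt ?_
    exact_mod_cast Finset.mem_range.1 hj
  refine ⟨P, monic_X_pow_add hlt, ?_, ?_⟩
  · exact natDegree_le_of_degree_le
      ((degree_add_le _ _).trans (max_le (degree_X_pow_le d) hlt.le))
  · have h2 : aeval (gm U f) P = gm U (fun i => (f i) ^ d +
        ∑ j ∈ Finset.range d, (c i j : Ω) * (f i) ^ j) := by
      rw [gm_add, gm_pow, gm_sum, map_add, map_pow, aeval_X, map_sum]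
      congr 1
      refine Finset.sum_congr rfl fun j _ => ?_
      rw [map_mul, map_pow, aeval_X, aeval_C, gm_mul, gm_pow, ← hb]
      rfl
    rw [h2]
    refine (congrArg (gm U) (funext hc)).trans ?_
    exact map_zero (gm U)

/-- the degree over a relatively algebraically closed subfield. -/
theorem e4r_minpoly {K : Type*} [Field K] {A B : Subfield K} (hAB : A ≤ B)
    (hrac : ∀ z ∈ B, IsAlgebraic A z → z ∈ A) {x : K} (hx : IsAlgebraic A x) {d : ℕ}
    {P : B[X]} (hP : P.Monic) (hPd : P.natDegree ≤ d) (hP0 : aeval x P = 0) :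
    (minpoly A x).natDegree ≤ d := by
  have hxB : IsAlgebraic B x := isAlgebraic_mono hAB hx
  set m := minpoly B x with hm
  have hmm : m.Monic := minpoly.monic hxB.isIntegral
  have hmd : m.natDegree ≤ d :=
    (natDegree_le_of_dvd (minpoly.dvd B x hP0) hP.ne_zero).trans hPd
  set Q := minpoly A x with hQ
  have hQm : Q.Monic := minpoly.monic hx.isIntegral
  have hdvd : m ∣ Q.map (Subfield.inclusion hAB) := by
    refine minpoly.dvd B x ?_
    rw [uvar_aeval_map]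
    exact minpoly.aeval A x
  have hdvd2 : m.map B.subtype ∣ Q.map (algebraMap A K) := by
    have h1 := map_dvd (mapRingHom B.subtype) hdvd
    have h2 : (Q.map (Subfield.inclusion hAB)).map B.subtype = Q.map (algebraMap A K) := by
      rw [Polynomial.map_map]
      rfl
    rw [← h2]
    exact h1
  have hint : ∀ i, ((m.coeff i : B) : K) ∈ A := by
    intro i
    apply hrac _ (m.coeff i).2
    have h1 := isIntegral_coeff_of_dvd Q (m.map B.subtype) hQm (hmm.map _) hdvd2 i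
    rw [coeff_map] at h1
    exact h1.isAlgebraic
  obtain ⟨q, hq⟩ : ∃ q : A[X], q.map (Subfield.inclusion hAB) = m := by
    have h1 : m ∈ lifts (Subfield.inclusion hAB) := by
      rw [lifts_iff_coeff_lifts]
      intro i
      exact ⟨⟨_, hint i⟩, Subtype.ext rfl⟩
    exact h1
  have hq0 : aeval x q = 0 := by
    rw [← uvar_aeval_map hAB, hq]
    exact minpoly.aeval B x
  have hqd : q.natDegree = m.natDegree := by
    rw [← hq, natDegree_map]
  have hqne : q ≠ 0 := by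
    rintro rfl
    rw [Polynomial.map_zero] at hq
    exact hmm.ne_zero hq.symm
  calc Q.natDegree ≤ q.natDegree := natDegree_le_of_dvd (minpoly.dvd A x hq0) hqne
    _ = m.natDegree := hqd
    _ ≤ d := hmd

/-- the elements of bounded degree. -/
theorem gm_fin [PerfectField Ω] {k : Subfield Ω} [PerfectField k]
    {B : Finset Ω} (hB : Indp k B) {σ : Ω → Gm U Ω}
    (hσ : ∀ v ∈ B, ∃ f : I → Ω, gm U f = σ v ∧
      ∀ i, ∃ a b : ℕ, (f i) ^ (ringExpChar Ω) ^ a = v ^ (ringExpChar Ω) ^ b)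
    {S : Finset (Gm U Ω)} (hS : ∀ y, y ∈ S ↔ ∃ v ∈ B, y = σ v) {R : I → Subfield Ω}
    (hR : ∀ i, gsp k B ≤ R i) (hRp : ∀ i, PerfectField (R i)) {d : ℕ}
    (hd : ∀ i, ∀ c ∈ R i, ∃ p : (gsp k B)[X], p.Monic ∧ p.natDegree ≤ d ∧ aeval c p = 0) :
    FG (uSub U (fun _ => k)) (uSub U R ⊓ rac (gsp (uSub U (fun _ => k)) S) : Subfield (Gm U Ω)) := by
  set P : Subfield (Gm U Ω) := gsp (uSub U (fun _ => k)) S with hPdef
  haveI i1 : PerfectField P := gsp_perfect _ _
  haveI i2 : PerfectField (uSub U R) := e4r_perfect hRp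
  haveI i3 : PerfectField (rac P) := perfect_of_RAC (RAC_rac P)
  haveI i4 : PerfectField (uSub U R ⊓ rac P : Subfield (Gm U Ω)) := perfect_inf
  have hPF : P ≤ uSub U (fun _ => gsp k B) :=
    e4r_gsp_le hσ fun y hy => (hS y).1 hy
  have hFR : uSub U (fun _ => gsp k B) ≤ uSub U R := by
    rintro _ ⟨f, rfl, hf⟩
    exact ⟨f, rfl, fun i => hR i (hf i)⟩
  have hPκ : P ≤ uSub U R ⊓ rac P := le_inf (hPF.trans hFR) (le_rac P)
  have hrac : ∀ z ∈ uSub U (fun _ => gsp k B), IsAlgebraic P z → z ∈ P :=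
    fun z hz hz' => gsp_rac_gm hB hσ hS hz hz'
  obtain ⟨γ, hγ, hγκ⟩ := bd_prim (d := d) hPκ (fun r hr => mem_rac.1 (Subfield.mem_inf.1 hr).2)
    (fun r hr => by
      obtain ⟨p, hp, hpd, hp0⟩ := e4r_deg hd (Subfield.mem_inf.1 hr).1
      exact e4r_minpoly hPF hrac (mem_rac.1 (Subfield.mem_inf.1 hr).2) hp hpd hp0)
  have heq : (uSub U R ⊓ rac P : Subfield (Gm U Ω)) = adj P γ :=
    le_antisymm (hγκ.trans (le_pf _)) (adj_le hPκ hγ)
  rw [heq]
  exact (gsp_fg _ S).adj_right γ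

end Vale.Agent.P019P
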