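import Vale.Agent.P019Q.SA3

/-!
# Step A: a special element
-/

namespace Vale.Agent.P019P

open Vale.Agent.P019

set_option linter.style.haveILetI false
set_option linter.unusedSectionVars false

open Polynomial Filter

variable {L : Type*} [Field L] [PerfectField L] {I : Type*} {U : Ultrafilter I}
  {O : I → ValuationSubring L} {l : Subfield L}

/-- the image of the residue field of the limit. -/
noncomputable def ulRes (U : Ultrafilter I) (O : I → ValuationSubring L) :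
    Subfield (AlgebraicClosure (IsLocalRing.ResidueField (uVal U O))) :=
  (algebraMap (IsLocalRing.ResidueField (uVal U O))
    (AlgebraicClosure (IsLocalRing.ResidueField (uVal U O)))).fieldRange

theorem ev_mem_ulRes {z : Gm U L} (hz : z ∈ (ulP U O).O) : (ulP U O).ev z ∈ ulRes U O := by
  rw [Pl.ev_of_mem _ hz]
  exact ⟨IsLocalRing.residue (uVal U O) ⟨z, hz⟩, rfl⟩

theorem mem_ulRes {r : AlgebraicClosure (IsLocalRing.ResidueField (uVal U O))} :
    r ∈ ulRes U O ↔ ∃ w : I → L, (∀ᶠ i in U, w i ∈ O i) ∧ (ulP U O).ev (gm U w) = r := by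
  constructor
  · rintro ⟨c, rfl⟩
    obtain ⟨⟨z, hz⟩, rfl⟩ := IsLocalRing.residue_surjective c
    obtain ⟨w, rfl⟩ := gm_surj U z
    refine ⟨w, gm_mem_uVal.1 hz, ?_⟩
    rw [Pl.ev_of_mem _ hz]
    rfl
  · rintro ⟨w, hw, rfl⟩
    exact ev_mem_ulRes (ulP_mem hw)

theorem FG.refl' {Ω : Type*} [Field Ω] {B : Subfield Ω} [PerfectField B] : FG B B :=
  ⟨∅, by rw [Finset.coe_empty, Subfield.closure_empty, sup_bot_eq, pf_eq]⟩

theorem isAlgClosed_equiv {A B : Type*} [Field A] [Field B] (e : A ≃+* B) (h : IsAlgClosed A) :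
    IsAlgClosed B := by
  apply IsAlgClosed.of_exists_root
  intro p hp hirr
  obtain ⟨c, hc⟩ := IsAlgClosed.exists_root (p.map (e.symm : B →+* A)) (by
    rw [degree_map]
    exact (degree_pos_of_irreducible hirr).ne')
  refine ⟨e c, ?_⟩
  have h1 : e.symm (p.eval (e c)) = 0 := by
    rw [IsRoot.def, eval_map] at hc
    rw [← hc]
    have h2 := hom_eval₂ p (RingHom.id _) (e.symm : B →+* A) (e c)
    rw [RingHom.comp_id] at h2
    simpa using h2
  rwa [map_eq_zero] at h1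

theorem isAlgClosed_map {K Ω : Type*} [Field K] [Field Ω] (j : K →+* Ω) {l : Subfield K}
    (hl : IsAlgClosed l) : IsAlgClosed (l.map j) := by
  let e : l →+* l.map j := (j.comp l.subtype).codRestrict (l.map j) fun x => ⟨x, x.2, rfl⟩
  refine isAlgClosed_equiv (RingEquiv.ofBijective e ⟨e.injective, ?_⟩) hl
  rintro ⟨_, ⟨x, hx, rfl⟩⟩
  exact ⟨⟨x, hx⟩, rfl⟩

/-- Step A, the main case: infinitely many classes die in almost all residue fields of bounded
degree. -/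
theorem Ulu.special (hu : Ulu U O) {ℓ : ℕ} [Fact ℓ.Prime] [NeZero (ℓ : L)] (hl : IsAlgClosed l)
    (hfg : FG l (⊤ : Subfield L)) (hO : ∀ i, TrivOn (O i) l) {y1 y2 : L}
    (h1 : ¬ IsAlgebraic l y1) (h2 : ¬ IsAlgebraic (adj l y1) y2)
    (halg : ∀ z : L, IsAlgebraic (adj (adj l y1) y2) z) {d : ℕ}
    (hd : ∀ᶠ i in U, rs (O i) y1 ∉ bar (hO i) → Module.Finite (adj (bar (hO i)) (rs (O i) y1))
      (IsLocalRing.ResidueField (O i)) ∧
      Module.finrank (adj (bar (hO i)) (rs (O i) y1)) (IsLocalRing.ResidueField (O i)) ≤ d)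
    {d' : ℕ} (hrel : ∀ᶠ i in U, BRel (bar (hO i)) d' (rs (O i) y1) (rs (O i) y2))
    {X : Set L} (hX : ∀ x ∈ X, x ≠ 0 ∧ ∀ᶠ i in U, cl ℓ x ∈ U1 ℓ (O i))
    (hinf : ∀ n : ℕ, ∃ x : Fin n → L, (∀ i, x i ∈ X) ∧ ∀ i j, i ≠ j → cl ℓ (x i) ≠ cl ℓ (x j)) :
    ∃ h : L, h ∉ l ∧ ∃ c : I → L, (∀ i, c i ∈ l) ∧ ∀ᶠ i in U, (O i).valuation (h - c i) < 1 := by
  classical
  have hℓ : 0 < ℓ := (Fact.out : ℓ.Prime).pos
  haveI : PerfectField l := perfect_of_RAC (RAC_of_isAlgClosed l hl)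
  have hlO : ∀ x ∈ uSub U (fun _ => l), x ∈ (ulP U O).O :=
    ulP_triv (Eventually.of_forall hO)
  by_cases hy : hu.j y1 ∈ (ulP U O).im (uSub U (fun _ => l)) hlO
  · obtain ⟨c, hc, hc'⟩ := (hu.j_mem_iff hO hlO).1 hy
    exact ⟨y1, fun h => h1 (isAlgebraic_of_mem h), c, hc, hc'⟩
  have hd' := ((hu.notMem_bar hO hlO hy).and hd).mono fun i hi => hi.2 hi.1
  have h3 := hu.alg_of_brel hl hO hlO hy hrel
  have hdeg := fun (w : I → L) (hw : ∀ᶠ i in U, w i ∈ O i) =>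
    hu.deg_le hl hO hlO hy hd' hw
  set P := ulP U O with hP
  set Ω := AlgebraicClosure (IsLocalRing.ResidueField (uVal U O)) with hΩ
  set j : L →+* Ω := hu.j with hj
  haveI : NeZero (ℓ : Ω) := ⟨by
    rw [← map_natCast j, Ne, map_eq_zero]
    exact NeZero.ne (ℓ : L)⟩
  set Bs := P.im (uSub U (fun _ => l)) hlO with hBs
  have hBsac : IsAlgClosed Bs := P.isAlgClosed_im hlO (isAlgClosed_uSub fun _ => hl)
  have hBsR : RAC Bs := RAC_of_isAlgClosed Bs hBsac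
  haveI : PerfectField Bs := perfect_of_RAC hBsR
  set M := adj Bs (j y1) with hM
  haveI : PerfectField (IsLocalRing.ResidueField (uVal U O)) :=
    rs_perfect (W := uVal U O) (E := uSub U (fun _ => l)) hlO
  haveI : PerfectField (ulRes U O) := perfect_fieldRange _
  have hBR : Bs ≤ ulRes U O := by
    intro x hx
    obtain ⟨z, hz, rfl⟩ := P.mem_im.1 hx
    exact ev_mem_ulRes (hlO z hz)
  have hjR : ∀ x, j x ∈ ulRes U O := fun x => ev_mem_ulRes (hu.gc_mem x)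
  set κ := ulRes U O ⊓ rac M with hκ
  have hMκ : M ≤ κ := le_inf (adj_le hBR (hjR y1)) (le_rac _)
  have hκalg : ∀ r ∈ κ, IsAlgebraic M r := fun r hr => mem_rac.1 (Subfield.mem_inf.1 hr).2
  obtain ⟨γ, hγ, hγκ⟩ := bd_prim hMκ hκalg (d := d) (by
    intro r hr
    obtain ⟨w, hw, rfl⟩ := mem_ulRes.1 (Subfield.mem_inf.1 hr).1
    exact hdeg w hw (hκalg _ hr))
  have hκeq : κ = adj M γ := le_antisymm (hγκ.trans (adj0_le_adj _ _)) (adj_le hMκ hγ)
  have hfgκ : FG Bs κ := by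
    rw [hκeq]
    exact (FG.refl'.adj_right _).adj_right _
  have hlB : l.map j ≤ Bs := by
    rintro _ ⟨x, hx, rfl⟩
    exact P.ev_mem_im hlO (gc_mem_uSub hx)
  have hLM : ∀ x, IsAlgebraic M (j x) := by
    intro x
    have h5 : adj (adj (l.map j) (j y1)) (j y2) ≤ rac M := by
      haveI : PerfectField (rac M) := perfect_rac M
      exact adj_le ((adj_mono hlB _).trans (le_rac _)) (mem_rac.2 h3)
    have h6 : IsAlgebraic (adj (adj (l.map j) (j y1)) (j y2)) (j x) :=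
      isAlgebraic_mono ((map_adj_le j _ _).trans (adj_mono (map_adj_le j _ _) _))
        (isAlgebraic_map j (halg x))
    exact isAlgebraic_rac (isAlgebraic_mono h5 h6)
  have hLκ : (⊤ : Subfield L).map j ≤ κ := by
    rintro _ ⟨x, -, rfl⟩
    exact Subfield.mem_inf.2 ⟨hjR x, mem_rac.2 (hLM x)⟩
  obtain ⟨_, ⟨h, -, rfl⟩, hhB, hhl⟩ := ft_sub ℓ (l := l.map j) (L := (⊤ : Subfield L).map j)
    (Bs := Bs) (κ := κ) (y1 := j y1) (y2 := j y2) (isAlgClosed_map j hl) (fg_map j hfg) hlB hBsac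
    ⟨y1, Subfield.mem_top _, rfl⟩ ⟨y2, Subfield.mem_top _, rfl⟩ (by
      rintro _ ⟨x, -, rfl⟩
      exact isAlgebraic_mono ((map_adj_le j _ _).trans (adj_mono (map_adj_le j _ _) _))
        (isAlgebraic_map j (halg x)))
    (fun h => hy (hBsR _ h))
    (fun h => h2 (isAlgebraic_of_map j (isAlgebraic_mono (adj_map_le j l y1) h)))
    h3 hfgκ hLκ (j '' X) (by
      rintro _ ⟨x, hx, rfl⟩
      exact ⟨⟨x, Subfield.mem_top x, rfl⟩, by rw [Ne, map_eq_zero]; exact (hX x hx).1⟩) (by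
      intro n
      obtain ⟨x, hxX, hx⟩ := hinf n
      refine ⟨fun i => j (x i), fun i => ⟨x i, hxX i, rfl⟩, ?_⟩
      rintro a b hab ⟨_, ⟨w, -, rfl⟩, hw⟩
      refine hx a b hab ?_
      rw [← map_pow, ← map_mul] at hw
      have hw' := j.injective hw
      have hw0 : w ≠ 0 := by
        rintro rfl
        rw [zero_pow hℓ.ne', mul_zero] at hw'
        exact (hX _ (hxX a)).1 hw'
      rw [cl_eq_iff ℓ (hX _ (hxX a)).1 (hX _ (hxX b)).1]
      exact ⟨w, hw0, hw'⟩) (by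
      rintro _ ⟨x, hx, rfl⟩
      obtain ⟨w, hw, hwr⟩ := exists_root_of_U1 (U := U) (O := O) (hX x hx).1 (hu x (hX x hx).1)
        (hX x hx).2
      refine ⟨P.ev (gm U w), Subfield.mem_inf.2 ⟨ev_mem_ulRes (ulP_mem hw), ?_⟩, hwr⟩
      rw [mem_rac]
      refine IsAlgebraic.of_pow hℓ ?_
      have h5 : P.ev (gm U w) ^ ℓ = j x := hwr
      rw [h5]
      exact hLM x)
  refine ⟨h, fun hh => hhl ⟨h, hh, rfl⟩, ?_⟩
  exact (hu.j_mem_iff hO hlO).1 hhB

end Vale.Agent.P019P
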