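import Vale.Agent.P019Q.E4g
import Vale.Agent.P019Q.E4r
import Vale.Agent.P019Q.E4b
import Vale.Agent.P019Q.E4c
import Vale.Agent.P019Q.SA4

/-!
# The limit theorem
-/

namespace Vale.Agent.P019P

open Vale.Agent.P019

set_option linter.style.haveILetI false
set_option linter.unusedSectionVars false

open Polynomial Filter

section e4tr

variable {G : Type*} [Field G] {κ : Subfield G}

theorem e4_map_comap {E : Subfield G} (h : E ≤ κ) :
    (E.comap κ.subtype).map κ.subtype = E := by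
  ext x
  constructor
  · rintro ⟨y, hy, rfl⟩
    exact hy
  · intro hx
    exact ⟨⟨x, h hx⟩, hx, rfl⟩

theorem e4_isAlgClosed {E : Subfield G} (h : E ≤ κ) (hE : IsAlgClosed E) :
    IsAlgClosed (E.comap κ.subtype) := by
  let e : E →+* E.comap κ.subtype :=
    (Subfield.inclusion h).codRestrict (E.comap κ.subtype) fun x => x.2
  refine isAlgClosed_equiv (RingEquiv.ofBijective e ⟨e.injective, ?_⟩) hE
  rintro ⟨⟨x, hx⟩, hxE⟩
  exact ⟨⟨x, hxE⟩, rfl⟩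

theorem e4_alg {E : Subfield G} (h : E ≤ κ) {z : κ} :
    IsAlgebraic (E.comap κ.subtype) z ↔ IsAlgebraic E (z : G) := by
  constructor
  · intro hz
    have h1 := isAlgebraic_map κ.subtype hz
    rw [e4_map_comap h] at h1
    exact h1
  · intro hz
    apply isAlgebraic_of_map κ.subtype
    rw [e4_map_comap h]
    exact hz

theorem e4_map_gsp {K' : Type*} [Field K'] [PerfectField K'] [DecidableEq G]
    (j : K' →+* G) (E : Subfield K') (B : Finset K') :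
    (gsp E B).map j = gsp (E.map j) (B.image j) := by
  have key : (E ⊔ Subfield.closure (B : Set K')).map j =
      E.map j ⊔ Subfield.closure ((B.image j : Finset G) : Set G) := by
    rw [Subfield.map_sup, RingHom.map_field_closure, Finset.coe_image]
  apply le_antisymm
  · refine (map_pf_le j _).trans ?_
    rw [key]
    exact le_rfl
  · haveI := gsp_perfect E B
    haveI : PerfectField ((gsp E B).map j) := perfect_map j _
    refine pf_le ?_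
    rw [← key]
    exact sub_map_mono j (le_pf _)

theorem e4_indp_map {K' : Type*} [Field K'] [PerfectField K'] [DecidableEq G]
    (j : K' →+* G) {E : Subfield K'} {B : Finset K'} :
    Indp (E.map j) (B.image j) ↔ Indp E B := by
  constructor
  · intro h T hT v hv hvT halg
    refine h (T.image j) (Finset.image_subset_image hT) (j v) (Finset.mem_image_of_mem j hv) ?_ ?_
    · intro h1
      obtain ⟨y, hy, hyv⟩ := Finset.mem_image.1 h1
      rw [j.injective hyv] at hy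
      exact hvT hy
    · rw [← e4_map_gsp]
      exact isAlgebraic_map j halg
  · intro h T hT v hv hvT halg
    obtain ⟨v, hvB, rfl⟩ := Finset.mem_image.1 hv
    have hT0 : T = (B.filter fun x => j x ∈ T).image j := by
      ext x
      rw [Finset.mem_image]
      constructor
      · intro hx
        obtain ⟨y, hy, rfl⟩ := Finset.mem_image.1 (hT hx)
        exact ⟨y, Finset.mem_filter.2 ⟨hy, hx⟩, rfl⟩
      · rintro ⟨y, hy, rfl⟩
        exact (Finset.mem_filter.1 hy).2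
    rw [hT0, ← e4_map_gsp] at halg
    exact h _ (Finset.filter_subset _ _) v hvB
      (fun h1 => hvT (Finset.mem_filter.1 h1).2) (isAlgebraic_of_map j halg)

theorem e4_lift [DecidableEq G] {S : Finset G} (hS : ∀ x ∈ S, x ∈ κ) :
    ∃ S' : Finset κ, S'.image κ.subtype = S ∧ S'.card = S.card := by
  have hinj : Function.Injective fun x : {x // x ∈ S} => (⟨x.1, hS x.1 x.2⟩ : κ) := by
    intro x y h
    exact Subtype.ext (congrArg (fun z : κ => (z : G)) h)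
  refine ⟨S.attach.map ⟨fun x : {x // x ∈ S} => (⟨x.1, hS x.1 x.2⟩ : κ), hinj⟩, ?_, ?_⟩
  · ext x
    rw [Finset.mem_image]
    constructor
    · rintro ⟨y, hy, rfl⟩
      obtain ⟨z, -, rfl⟩ := Finset.mem_map.1 hy
      exact z.2
    · intro hx
      exact ⟨⟨x, hS x hx⟩, Finset.mem_map.2 ⟨⟨x, hx⟩, Finset.mem_attach _ _, rfl⟩, rfl⟩
  · rw [Finset.card_map, Finset.card_attach]

theorem e4_mem_gsp [DecidableEq G] [PerfectField κ] {E : Subfield G} (h : E ≤ κ)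
    {S' : Finset κ} {z : κ} :
    z ∈ gsp (E.comap κ.subtype) S' ↔ (z : G) ∈ gsp E (S'.image κ.subtype) := by
  have h1 := e4_map_gsp κ.subtype (E.comap κ.subtype) S'
  rw [e4_map_comap h] at h1
  rw [← h1]
  constructor
  · intro hz
    exact ⟨z, hz, rfl⟩
  · rintro ⟨y, hy, hyz⟩
    rw [← Subtype.ext (show (y : G) = z from hyz)]
    exact hy

theorem e4_alg_gsp [DecidableEq G] [PerfectField κ] {E : Subfield G} (h : E ≤ κ)
    {S' : Finset κ} {z : κ} :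
    IsAlgebraic (gsp (E.comap κ.subtype) S') z ↔
      IsAlgebraic (gsp E (S'.image κ.subtype)) (z : G) := by
  have h1 := e4_map_gsp κ.subtype (E.comap κ.subtype) S'
  rw [e4_map_comap h] at h1
  rw [← h1]
  exact ⟨fun hz => isAlgebraic_map κ.subtype hz, fun hz => isAlgebraic_of_map κ.subtype hz⟩

theorem e4_fg [PerfectField κ] {E : Subfield G} (h : FG E κ) (hE : E ≤ κ) :
    FG (E.comap κ.subtype) (⊤ : Subfield κ) := by
  classical
  obtain ⟨S, hS⟩ := h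
  have hSκ : ∀ x ∈ S, x ∈ κ := by
    intro x hx
    rw [hS]
    exact mem_gsp (k := E) hx
  obtain ⟨S', hS', -⟩ := e4_lift hSκ
  refine ⟨S', le_antisymm ?_ le_top⟩
  intro z _
  change z ∈ gsp (E.comap κ.subtype) S'
  rw [e4_mem_gsp hE, hS']
  change (z : G) ∈ pf (E ⊔ Subfield.closure (S : Set G))
  rw [← hS]
  exact z.2

end e4tr

/-- `f` is a twist of `v` by powers of Frobenius. -/
def Twi {Ω I : Type*} [Field Ω] (f : I → Ω) (v : Ω) : Prop :=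
  ∀ i, ∃ a b : ℕ, (f i) ^ (ringExpChar Ω) ^ a = v ^ (ringExpChar Ω) ^ b

section e4a

variable {Ω : Type*} [Field Ω]

theorem e4_rcl_pow {k : Subfield Ω} {x y : Ω} {a b : ℕ}
    (h : x ^ ringExpChar Ω ^ a = y ^ ringExpChar Ω ^ b) : rcl k {x} ≤ rcl k {y} := by
  refine rcl_le (rcl_RAC _ _) (le_rcl _ _) ?_
  intro c hc
  rw [Finset.mem_singleton] at hc
  subst hc
  apply rcl_RAC
  refine IsAlgebraic.of_pow (n := ringExpChar Ω ^ a) (pow_pos (expChar_pos Ω _) a) ?_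
  rw [h]
  exact isAlgebraic_of_mem (pow_mem (mem_rcl (Finset.mem_singleton_self y)) _)

theorem e4_rcl_twi {I : Type*} {k : Subfield Ω} {f : I → Ω} {v : Ω} (h : Twi f v) (i : I) :
    rcl k {f i} = rcl k {v} := by
  obtain ⟨a, b, hab⟩ := h i
  exact le_antisymm (e4_rcl_pow hab) (e4_rcl_pow hab.symm)

theorem e4_gsp_twi {I : Type*} [PerfectField Ω] {k : Subfield Ω} {B : Finset Ω} {f : I → Ω}
    {v : Ω} (hv : v ∈ B) (h : Twi f v) (i : I) : f i ∈ gsp k B := by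
  haveI := gsp_perfect k B
  obtain ⟨a, b, hab⟩ := h i
  refine mem_of_pow_q (n := a) ?_
  rw [hab]
  exact pow_mem (mem_gsp hv) _

theorem e4_gsp_le_rcl (k : Subfield Ω) (B : Finset Ω) : gsp k B ≤ rcl k B := by
  unfold gsp rcl
  exact pf_le_rac _

theorem e4_bd_rcl {k : Subfield Ω} {B : Finset Ω} {c : Ω} {d : ℕ}
    (h : ∃ p : (gsp k B)[X], p.Monic ∧ p.natDegree ≤ d ∧ aeval c p = 0) : c ∈ rcl k B := by
  obtain ⟨p, hp, -, hpc⟩ := h
  exact rcl_RAC k B c (isAlgebraic_mono (e4_gsp_le_rcl k B) ⟨p, hp.ne_zero, hpc⟩)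

theorem e4_twist {ℓ : ℕ} [Fact ℓ.Prime] [NeZero (ℓ : Ω)] {R : Subfield Ω} {x w z h : Ω}
    {a b e : ℕ} (hw : w ∈ R) (hz : z ∈ R) (hh : h ∈ R) (hz0 : z ≠ 0) (hh0 : h ≠ 0)
    (hwx : w ^ ringExpChar Ω ^ a = x ^ ringExpChar Ω ^ b) (hx : x = z ^ e * h ^ ℓ) :
    ∃ e' ∈ Set.Iio ℓ, ∃ h' : Ω, h' ∈ R ∧ h' ≠ 0 ∧ w = z ^ e' * h' ^ ℓ := by
  have hℓ : 1 < ℓ := (Fact.out : ℓ.Prime).one_lt
  have hq := q_pow_ne_zero ℓ Ω a
  obtain ⟨u, m, hum⟩ : ∃ u m : ℕ, ringExpChar Ω ^ a * u = 1 + ℓ * m := by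
    refine ⟨(((ringExpChar Ω ^ a : ℕ) : ZMod ℓ)⁻¹).val,
      ringExpChar Ω ^ a * (((ringExpChar Ω ^ a : ℕ) : ZMod ℓ)⁻¹).val / ℓ, ?_⟩
    have h1 : ((ringExpChar Ω ^ a * (((ringExpChar Ω ^ a : ℕ) : ZMod ℓ)⁻¹).val : ℕ) : ZMod ℓ) =
        ((1 : ℕ) : ZMod ℓ) := by
      rw [Nat.cast_mul, ZMod.natCast_zmod_val, mul_inv_cancel₀ hq, Nat.cast_one]
    rw [ZMod.natCast_eq_natCast_iff'] at h1
    rw [Nat.mod_eq_of_lt hℓ] at h1
    have h2 := Nat.mod_add_div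
      (ringExpChar Ω ^ a * (((ringExpChar Ω ^ a : ℕ) : ZMod ℓ)⁻¹).val) ℓ
    rw [h1] at h2
    exact h2.symm
  have hx0 : x ≠ 0 := by
    rw [hx]
    exact mul_ne_zero (pow_ne_zero _ hz0) (pow_ne_zero _ hh0)
  have hw0 : w ≠ 0 := by
    rintro rfl
    rw [zero_pow (pow_pos (expChar_pos Ω _) a).ne'] at hwx
    exact pow_ne_zero _ hx0 hwx.symm
  set n := e * (ringExpChar Ω ^ b * u) with hn
  refine ⟨n % ℓ, Nat.mod_lt _ (by omega), z ^ (n / ℓ) * h ^ (ringExpChar Ω ^ b * u) / w ^ m,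
    R.div_mem (R.mul_mem (R.pow_mem hz _) (R.pow_mem hh _)) (R.pow_mem hw _),
    div_ne_zero (mul_ne_zero (pow_ne_zero _ hz0) (pow_ne_zero _ hh0)) (pow_ne_zero _ hw0), ?_⟩
  have h3 : w * (w ^ m) ^ ℓ = z ^ n * (h ^ (ringExpChar Ω ^ b * u)) ^ ℓ := by
    calc w * (w ^ m) ^ ℓ = w ^ (1 + ℓ * m) := by
          rw [pow_add, pow_one, ← pow_mul, mul_comm m ℓ]
      _ = (x ^ ringExpChar Ω ^ b) ^ u := by rw [← hum, pow_mul, hwx]
      _ = z ^ n * (h ^ (ringExpChar Ω ^ b * u)) ^ ℓ := by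
          rw [hx, ← pow_mul, mul_pow, ← pow_mul, ← pow_mul, ← pow_mul, mul_comm ℓ]
  have h4 : z ^ n = z ^ (n % ℓ) * (z ^ (n / ℓ)) ^ ℓ := by
    rw [← pow_mul, ← pow_add, mul_comm (n / ℓ) ℓ, Nat.mod_add_div]
  rw [div_pow, mul_pow, eq_comm, ← mul_div_assoc, div_eq_iff (pow_ne_zero _ (pow_ne_zero _ hw0)),
    h3, h4, mul_assoc]

end e4a

section e4b

variable {Ω : Type*} [Field Ω] {I : Type*} {U : Ultrafilter I}

theorem e4_ultra {ℓ : ℕ} [Fact ℓ.Prime] [NeZero (ℓ : Ω)] {R : I → Subfield Ω} {v c : Ω}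
    {f c' : I → Ω} (hf : ∀ i, ∃ a b : ℕ, f i ^ ringExpChar Ω ^ a = v ^ ringExpChar Ω ^ b ∧
      c' i ^ ringExpChar Ω ^ a = c ^ ringExpChar Ω ^ b) (hfR : ∀ i, f i - c' i ∈ R i)
    {z h : Gm U Ω} (hz : z ∈ uSub U R) (hz0 : z ≠ 0) (hh : h ∈ uSub U R) (hh0 : h ≠ 0) {e : ℕ}
    (hvc : gm U (fun _ => v - c) = z ^ e * h ^ ℓ) :
    ∃ e' : ℕ, ∃ h' ∈ uSub U R, h' ≠ 0 ∧ gm U f - gm U c' = z ^ e' * h' ^ ℓ := by
  obtain ⟨zf, rfl, hzR⟩ := hz
  obtain ⟨hf', rfl, hhR⟩ := hh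
  rw [← gm_pow, ← gm_pow, ← gm_mul, gm_eq] at hvc
  have hz1 : ∀ᶠ i in U, zf i ≠ 0 := by
    rw [Ultrafilter.eventually_not, ← gm_eq_zero]
    exact hz0
  have hh1 : ∀ᶠ i in U, hf' i ≠ 0 := by
    rw [Ultrafilter.eventually_not, ← gm_eq_zero]
    exact hh0
  have h1 : ∀ᶠ i in U, ∃ e' ∈ Set.Iio ℓ, ∃ h' : Ω, h' ∈ R i ∧ h' ≠ 0 ∧
      f i - c' i = zf i ^ e' * h' ^ ℓ := by
    filter_upwards [hvc, hz1, hh1] with i h2 h3 h4
    obtain ⟨a, b, ha, hb⟩ := hf i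
    refine e4_twist (a := a) (b := b) (hfR i) (hzR i) (hhR i) h3 h4 ?_ h2
    rw [sub_pow_expChar_pow, sub_pow_expChar_pow, ha, hb]
  rw [Ultrafilter.eventually_exists_mem_iff (Set.finite_Iio ℓ)] at h1
  obtain ⟨e', -, h2⟩ := h1
  obtain ⟨h', hh'⟩ := h2.choice
  refine ⟨e', gm U h', gm_mem_uSub.2 (hh'.mono fun i hi => hi.1), ?_, ?_⟩
  · rw [Ne, gm_eq_zero, ← Ultrafilter.eventually_not]
    exact hh'.mono fun i hi => hi.2.1
  · rw [← gm_sub, ← gm_pow, ← gm_pow, ← gm_mul, gm_eq]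
    exact hh'.mono fun i hi => hi.2.2

theorem e4_perfect_uSub {R : I → Subfield Ω} (hR : ∀ i, PerfectField (R i)) :
    PerfectField (uSub U R) := by
  refine perfect_of_root ?_
  rintro _ ⟨f, rfl, hf⟩
  have h : ∀ i, ∃ y ∈ R i, y ^ ringExpChar Ω = f i := by
    intro i
    haveI := hR i
    obtain ⟨y, hy, hyz⟩ := exists_root_q (R i) (hf i) 1
    exact ⟨y, hy, by rwa [pow_one] at hyz⟩
  choose y hy hyf using h
  refine ⟨gm U y, ⟨y, rfl, hy⟩, ?_⟩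
  rw [ringExpChar_gm, ← gm_pow]
  exact congrArg _ (funext hyf)

/-- Steps 1 and 2: the choice of the twists. -/
theorem e4_choose [IsAlgClosed Ω] [DecidableEq Ω] {k : Subfield Ω} (hk : IsAlgClosed k)
    {B : Finset Ω} (hB : Indp k B) {R : I → Subfield Ω} {d : ℕ}
    (hd : ∀ i, ∀ c ∈ R i, ∃ p : (gsp k B)[X], p.Monic ∧ p.natDegree ≤ d ∧ aeval c p = 0)
    {L : Type*} [Field L] (A : L →+* Gm U Ω) (hAR : ∀ z, A z ∈ uSub U R)
    (hdep : ∀ v ∈ B, ∀ x y : L, A x ∈ uSub U (fun _ => rcl k (B.erase v)) ∨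
      IsAlgebraic (adj (uSub U (fun _ => rcl k (B.erase v))) (A x)) (A y))
    (htw : ∀ v ∈ B, ∀ x : L, A x ∉ uSub U (fun _ => rcl k (B.erase v)) →
      ∃ f : I → Ω, Twi f v ∧
        IsAlgebraic (adj (uSub U (fun _ => rcl k (B.erase v))) (gm U f)) (A x)) :
    ∃ F : Ω → I → Ω, (∀ v ∈ B, Twi (F v) v) ∧ ∀ y : L, ∃ T : Finset (Gm U Ω),
      (∀ t ∈ T, ∃ v ∈ B, t = gm U (F v)) ∧
        IsAlgebraic (gsp (uSub U (fun _ => k)) T) (A y) := by
  have h1 : ∀ v : Ω, ∃ f : I → Ω, v ∈ B → Twi f v ∧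
      ∀ y : L, IsAlgebraic (adj (uSub U (fun _ => rcl k (B.erase v))) (gm U f)) (A y) := by
    intro v
    by_cases hv : v ∈ B
    · by_cases hall : ∀ x : L, A x ∈ uSub U (fun _ => rcl k (B.erase v))
      · exact ⟨fun _ => v, fun _ => ⟨fun _ => ⟨0, 0, rfl⟩,
          fun y => isAlgebraic_of_mem (le_adj _ _ (hall y))⟩⟩
      · push Not at hall
        obtain ⟨x0, hx0⟩ := hall
        obtain ⟨f, hf, hfx⟩ := htw v hv x0 hx0
        refine ⟨f, fun _ => ⟨hf, fun y => ?_⟩⟩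
        have h2 := (hdep v hv x0 y).resolve_left hx0
        have h3 : adj (uSub U (fun _ => rcl k (B.erase v))) (A x0) ≤
            rac (adj (uSub U (fun _ => rcl k (B.erase v))) (gm U f)) :=
          adj_le ((le_adj _ _).trans (le_rac _)) (mem_rac.2 hfx)
        exact isAlgebraic_rac (isAlgebraic_mono h3 h2)
    · exact ⟨fun _ => v, fun h => absurd h hv⟩
  choose F hF using h1
  refine ⟨F, fun v hv => (hF v hv).1, fun y => ?_⟩
  refine geo hk hB (σ := fun v => gm U (F v))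
    (fun v hv => ⟨F v, rfl, fun i => e4_rcl_twi (hF v hv).1 i⟩) ?_ (fun v hv => (hF v hv).2 y)
  obtain ⟨g, hg, hgR⟩ := hAR y
  exact ⟨g, hg, fun i => e4_bd_rcl (hd i _ (hgR i))⟩

end e4b

/-- the limit theorem: a function field `L` of transcendence degree `m + 1` over `l` inside a
limit of function fields of transcendence degree `m` over `k`. -/
theorem lim_main {Ω : Type*} [Field Ω] [IsAlgClosed Ω] (ℓ : ℕ) [Fact ℓ.Prime] [NeZero (ℓ : Ω)]
    [DecidableEq Ω] {I : Type*} {U : Ultrafilter I} {k : Subfield Ω} (hk : IsAlgClosed k)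
    {B : Finset Ω} (hB : Indp k B) {R : I → Subfield Ω} (hR : ∀ i, gsp k B ≤ R i)
    (hRp : ∀ i, PerfectField (R i)) {d : ℕ}
    (hd : ∀ i, ∀ c ∈ R i, ∃ p : (gsp k B)[X], p.Monic ∧ p.natDegree ≤ d ∧ aeval c p = 0)
    {L : Type*} [Field L] [PerfectField L] {l : Subfield L} (hl : IsAlgClosed l)
    (hfg : FG l (⊤ : Subfield L)) (htd : Td l (B.card + 1)) (A : L →+* Gm U Ω)
    (hAR : ∀ z, A z ∈ uSub U R) (hAl : ∀ c ∈ l, A c ∈ uSub U (fun _ => k))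
    (hdep : ∀ v ∈ B, ∀ x y : L, A x ∈ uSub U (fun _ => rcl k (B.erase v)) ∨
      IsAlgebraic (adj (uSub U (fun _ => rcl k (B.erase v))) (A x)) (A y))
    (htw : ∀ v ∈ B, ∀ x : L, A x ∉ uSub U (fun _ => rcl k (B.erase v)) →
      ∃ f : I → Ω, Twi f v ∧
        IsAlgebraic (adj (uSub U (fun _ => rcl k (B.erase v))) (gm U f)) (A x))
    (hdie : ∀ N : ℕ, ∃ x : Fin N → L, (∀ i, x i ≠ 0 ∧ ∃ h ∈ uSub U R, h ^ ℓ = A (x i)) ∧
      ∀ i j, i ≠ j → ¬ ∃ w : L, x i = x j * w ^ ℓ)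
    (hram : ∀ v ∈ B, {c : Ω | c ∈ k ∧ ∃ z : L, z ≠ 0 ∧ ∃ e : ℕ, ∃ h ∈ uSub U R, h ≠ 0 ∧
      gm U (fun _ => v - c) = A z ^ e * h ^ ℓ}.Infinite) :
    ∃ e : L, e ∉ l ∧ A e ∈ uSub U (fun _ => k) := by
  classical
  haveI : PerfectField k := by
    haveI := hk
    infer_instance
  have hℓ : 0 < ℓ := (Fact.out : ℓ.Prime).pos
  obtain ⟨F, hFB, hFalg⟩ := e4_choose hk hB hd A hAR hdep htw
  have hσ : ∀ v ∈ B, ∃ f : I → Ω, gm U f = gm U (F v) ∧
      ∀ i, ∃ a b : ℕ, (f i) ^ (ringExpChar Ω) ^ a = v ^ (ringExpChar Ω) ^ b :=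
    fun v hv => ⟨F v, rfl, hFB v hv⟩
  obtain ⟨S, hS, hScard, hSind⟩ := gm_indp (U := U) hB (σ := fun v => gm U (F v)) hσ
  have hfin := gm_fin (U := U) hB (σ := fun v => gm U (F v)) hσ hS hR hRp hd
  set Λ : Subfield (Gm U Ω) := uSub U (fun _ => k) with hΛdef
  have hΛac : IsAlgClosed Λ := isAlgClosed_uSub fun _ => hk
  set P := gsp Λ S with hP
  set κ : Subfield (Gm U Ω) := uSub U R ⊓ rac P with hκ
  haveI : PerfectField (uSub U R) := e4_perfect_uSub hRp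
  haveI hκp : PerfectField κ := perfect_inf
  have hkR : ∀ i, k ≤ R i := fun i => (le_gsp k B).trans (hR i)
  have hΛR : Λ ≤ uSub U R := by
    rintro _ ⟨f, rfl, hf⟩
    exact ⟨f, rfl, fun i => hkR i (hf i)⟩
  have hΛκ : Λ ≤ κ := le_inf hΛR ((le_gsp Λ S).trans (le_rac _))
  have hAκ : ∀ z : L, A z ∈ κ := by
    intro z
    refine Subfield.mem_inf.2 ⟨hAR z, mem_rac.2 ?_⟩
    obtain ⟨T, hT, hTz⟩ := hFalg z
    exact isAlgebraic_mono (gsp_mono Λ fun t ht => (hS t).2 (hT t ht)) hTz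
  have hFR : ∀ v ∈ B, ∀ i, F v i ∈ R i := fun v hv i => hR i (e4_gsp_twi hv (hFB v hv) i)
  have hSκ : ∀ y ∈ S, y ∈ κ := by
    intro y hy
    refine Subfield.mem_inf.2 ⟨?_, le_rac _ (mem_gsp hy)⟩
    obtain ⟨v, hv, rfl⟩ := (hS y).1 hy
    exact ⟨F v, rfl, hFR v hv⟩
  obtain ⟨S', hS', hS'card⟩ := e4_lift hSκ
  have hpow : ∀ h ∈ uSub U R, h ^ ℓ ∈ κ → h ∈ κ := fun h hh hhκ =>
    Subfield.mem_inf.2 ⟨hh, mem_rac.2 (isAlgebraic_rac
      (IsAlgebraic.of_pow hℓ (isAlgebraic_of_mem (Subfield.mem_inf.1 hhκ).2)))⟩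
  let A' : L →+* κ := A.codRestrict κ hAκ
  have hA' : ∀ z, ((A' z : κ) : Gm U Ω) = A z := fun z => rfl
  haveI : NeZero (ℓ : κ) := ⟨by
    intro h
    have h1 : gc U ((ℓ : ℕ) : Ω) = 0 := by
      rw [map_natCast, ← map_natCast κ.subtype, h, map_zero]
    rw [map_eq_zero] at h1
    exact NeZero.ne _ h1⟩
  set Λκ : Subfield κ := Λ.comap κ.subtype with hΛκdef
  set Lκ : Subfield κ := (⊤ : Subfield L).map A' with hLκ
  have hΛκac : IsAlgClosed Λκ := e4_isAlgClosed hΛκ hΛac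
  have hfgκ : FG Λκ (⊤ : Subfield κ) := e4_fg hfin hΛκ
  -- the generators are algebraic over `Λ L`
  have hS'alg : ∀ y ∈ S', IsAlgebraic (Λκ ⊔ Lκ : Subfield κ) y := by
    intro y hy
    have hyS : (y : Gm U Ω) ∈ S := by
      rw [← hS']
      exact Finset.mem_image_of_mem κ.subtype hy
    obtain ⟨v, hv, hyv⟩ := (hS _).1 hyS
    refine ram_alg ℓ hΛκac hfgκ le_sup_left ?_
    choose a b hab using hFB v hv
    have hC : ∀ c : Ω, ∃ g : I → Ω, c ∈ k → ∀ i, g i ∈ k ∧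
        g i ^ ringExpChar Ω ^ a i = c ^ ringExpChar Ω ^ b i := by
      intro c
      by_cases hc : c ∈ k
      · choose g hg hg' using fun i => exists_root_q k (pow_mem hc (ringExpChar Ω ^ b i)) (a i)
        exact ⟨g, fun _ i => ⟨hg i, hg' i⟩⟩
      · exact ⟨fun _ => 0, fun h => absurd h hc⟩
    choose C hC using hC
    refine Set.Infinite.of_image (fun z : κ => (z : Gm U Ω)) ?_
    refine ((hram v hv).image (f := fun c => gm U (C c)) ?_).mono ?_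
    · rintro c ⟨hc, -⟩ c' ⟨hc', -⟩ hcc
      obtain ⟨i, hi⟩ := (gm_eq.1 hcc).exists
      have h1 := (hC c hc i).2
      rw [hi, (hC c' hc' i).2] at h1
      exact (pow_q_injective (b i) h1).symm
    · rintro _ ⟨c, ⟨hc, z, hz0, e, h, hh, hh0, heq⟩, rfl⟩
      have hCR : ∀ i, C c i ∈ R i := fun i => hkR i (hC c hc i).1
      have hCΛ : gm U (C c) ∈ Λ := ⟨C c, rfl, fun i => (hC c hc i).1⟩
      have hAz0 : A z ≠ 0 := (map_ne_zero A).2 hz0
      obtain ⟨e', h', hh', hh'0, heq'⟩ := e4_ultra (ℓ := ℓ) (R := R) (v := v) (c := c) (f := F v)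
        (c' := C c) (fun i => ⟨a i, b i, hab i, (hC c hc i).2⟩)
        (fun i => (R i).sub_mem (hFR v hv i) (hCR i)) (hAR z) hAz0 hh hh0 heq
      have hh'κ : h' ∈ κ := by
        refine hpow h' hh' ?_
        have h1 : h' ^ ℓ = ((y : Gm U Ω) - gm U (C c)) / A z ^ e' := by
          rw [hyv, heq', mul_div_cancel_left₀ _ (pow_ne_zero _ hAz0)]
        rw [h1]
        exact κ.div_mem (κ.sub_mem y.2 (hΛκ hCΛ)) (κ.pow_mem (hAκ z) _)
      refine ⟨⟨gm U (C c), hΛκ hCΛ⟩, ⟨hCΛ, A' z ^ e', ?_, ⟨h', hh'κ⟩, ?_, ?_⟩, rfl⟩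
      · have hzL : A' z ∈ Lκ := ⟨z, Subfield.mem_top z, rfl⟩
        exact (le_sup_right : Lκ ≤ Λκ ⊔ Lκ) (pow_mem hzL _)
      · intro h1
        exact hh'0 (congrArg (fun z : κ => (z : Gm U Ω)) h1)
      · apply Subtype.ext
        change (y : Gm U Ω) - gm U (C c) = A z ^ e' * h' ^ ℓ
        rw [hyv, heq']
  have halg : ∀ z : κ, IsAlgebraic (Λκ ⊔ Lκ : Subfield κ) z := by
    intro z
    have h1 : IsAlgebraic (gsp Λκ S') z := by
      rw [hΛκdef, e4_alg_gsp hΛκ, hS']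
      exact mem_rac.1 (Subfield.mem_inf.1 z.2).2
    have h2 : gsp Λκ S' ≤ rac (Λκ ⊔ Lκ) :=
      gsp_le (le_sup_left.trans (le_rac _)) fun y hy => mem_rac.2 (hS'alg y hy)
    exact isAlgebraic_rac (isAlgebraic_mono h2 h1)
  have htd' : Td Λκ B.card := by
    refine ⟨S', hS'card.trans hScard, ?_, fun z => ?_⟩
    · rw [← e4_indp_map κ.subtype, hΛκdef, e4_map_comap hΛκ, hS']
      exact hSind
    · rw [hΛκdef, e4_alg_gsp hΛκ, hS']
      exact mem_rac.1 (Subfield.mem_inf.1 z.2).2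
  obtain ⟨BL, hBLc, hBLi, hBLa⟩ := htd
  obtain ⟨e, he, heΛ, hel⟩ := ftn ℓ hΛκac hfgκ (l := l.map A') (L := Lκ) (isAlgClosed_map A' hl)
    (by
      rintro _ ⟨c, hc, rfl⟩
      exact hAl c hc) (fg_map A' hfg) htd' (B := BL.image A') ((e4_indp_map A').2 hBLi)
    (by rw [Finset.card_image_of_injective _ A'.injective, hBLc])
    (fun x hx => by
      obtain ⟨y, -, rfl⟩ := Finset.mem_image.1 hx
      exact ⟨y, Subfield.mem_top y, rfl⟩)
    (by
      rintro _ ⟨x, -, rfl⟩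
      rw [← e4_map_gsp]
      exact isAlgebraic_map A' (hBLa x)) halg
    (by
      intro N
      obtain ⟨x, hx, hne⟩ := hdie N
      refine ⟨fun i => A' (x i), fun i => ⟨⟨x i, Subfield.mem_top _, rfl⟩,
        (map_ne_zero A').2 (hx i).1, ?_⟩, ?_⟩
      · obtain ⟨h, hh, hhx⟩ := (hx i).2
        exact ⟨⟨h, hpow h hh (by rw [hhx]; exact hAκ _)⟩, Subtype.ext hhx⟩
      · rintro i j hij ⟨_, ⟨w, -, rfl⟩, hw⟩
        refine hne i j hij ⟨w, A'.injective ?_⟩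
        rw [map_mul, map_pow]
        exact hw)
  obtain ⟨e0, -, rfl⟩ := he
  exact ⟨e0, fun h => hel ⟨e0, h, rfl⟩, heΛ⟩

end Vale.Agent.P019P
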