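import Vale.Agent.P019Q.E0
import Vale.Agent.P019Q.UKill3

/-!
# Free subfields
-/

namespace Vale.Agent.P019P

open Vale.Agent.P019

set_option linter.style.haveILetI false
set_option linter.unusedSectionVars false

open Polynomial Filter

variable {Ω : Type*} [Field Ω]

/-- one step: adjoining a free element keeps linear independence. -/
theorem e4f_step {A N : Subfield Ω} (hN : IsAlgClosed N) (hNA : N ≤ A) {b : Ω}
    (hb : ¬ IsAlgebraic A b) {ι : Type*} [Fintype ι] {p : ι → Ω} (hp : ∀ i, p i ∈ A)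
    (hind : ¬ LinearIndependent (rac (adj N b)) p) : ¬ LinearIndependent N p := by
  classical
  rw [Fintype.not_linearIndependent_iff] at hind ⊢
  obtain ⟨g, hg, i₀, hi₀⟩ := hind
  obtain ⟨P, hPA, -, -, hPB⟩ := exists_one (K := Ω) (Ω := AlgebraicClosure Ω) hN hNA hb
    N.zero_mem
  obtain ⟨j, -, hjmax⟩ := Finset.univ.exists_max_image
    (fun i => P.O.valuation ((g i : rac (adj N b)) : Ω)) ⟨i₀, Finset.mem_univ i₀⟩
  have hj0 : ((g j : rac (adj N b)) : Ω) ≠ 0 := by
    intro h
    have h1 := hjmax i₀ (Finset.mem_univ i₀)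
    rw [h, map_zero, le_zero_iff, Valuation.zero_iff] at h1
    exact hi₀ (Subtype.ext h1)
  have hcO : ∀ i, ((g i : rac (adj N b)) : Ω) / (g j : Ω) ∈ P.O := by
    intro i
    rw [← P.O.valuation_le_one_iff, map_div₀]
    exact div_le_one_of_le₀ (hjmax i (Finset.mem_univ i)) zero_le
  have hcB : ∀ i, ∃ d ∈ N, P.ev (((g i : rac (adj N b)) : Ω) / (g j : Ω)) =
      algebraMap Ω (AlgebraicClosure Ω) d := fun i =>
    hPB _ (hcO i) (mem_rac.1 (Subfield.div_mem _ (g i).2 (g j).2))
  choose d hdN hd using hcB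
  refine ⟨fun i => ⟨d i, hdN i⟩, ?_, j, ?_⟩
  · have h1 : ∑ i, (((g i : rac (adj N b)) : Ω) / (g j : Ω)) * p i = 0 := by
      have h2 : ∑ i, ((g i : rac (adj N b)) : Ω) * p i = 0 := hg
      have h3 : ∑ i, (((g i : rac (adj N b)) : Ω) / (g j : Ω)) * p i =
          (∑ i, ((g i : rac (adj N b)) : Ω) * p i) / (g j : Ω) := by
        rw [Finset.sum_div]
        exact Finset.sum_congr rfl fun i _ => by ring
      rw [h3, h2, zero_div]
    have h4 : ∀ s : Finset ι, (∑ i ∈ s, (((g i : rac (adj N b)) : Ω) / (g j : Ω)) * p i ∈ P.O) ∧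
        P.ev (∑ i ∈ s, (((g i : rac (adj N b)) : Ω) / (g j : Ω)) * p i) =
          algebraMap Ω (AlgebraicClosure Ω) (∑ i ∈ s, d i * p i) := by
      intro s
      induction s using Finset.induction_on with
      | empty => exact ⟨by simp, by simp [P.ev_zero]⟩
      | insert i s his ih =>
        have h5 : (((g i : rac (adj N b)) : Ω) / (g j : Ω)) * p i ∈ P.O :=
          P.O.mul_mem _ _ (hcO i) (hPA _ (hp i)).1
        refine ⟨?_, ?_⟩
        · rw [Finset.sum_insert his]
          exact P.O.add_mem _ _ h5 ih.1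
        · rw [Finset.sum_insert his, Finset.sum_insert his, P.ev_add h5 ih.1, ih.2,
            P.ev_mul (hcO i) (hPA _ (hp i)).1, hd, (hPA _ (hp i)).2, map_add, map_mul]
    have h6 := (h4 Finset.univ).2
    rw [h1, P.ev_zero] at h6
    have h7 : ∑ i, d i * p i = 0 :=
      (map_eq_zero_iff _ (algebraMap Ω (AlgebraicClosure Ω)).injective).1 h6.symm
    exact h7
  · intro h
    have h1 : d j = 0 := congrArg Subtype.val h
    have h2 := hd j
    rw [div_self hj0, P.ev_one, h1, map_zero] at h2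
    exact one_ne_zero h2

/-- free subfields over an algebraically closed one are linearly disjoint. -/
theorem Fre.indep {R P Q : Subfield Ω} (hR : IsAlgClosed R) (hQ : IsAlgClosed Q) (hRP : R ≤ P)
    (hRQ : R ≤ Q) (h : Fre R P Q) {ι : Type*} [Fintype ι] {p : ι → Ω} (hp : ∀ i, p i ∈ P)
    (hind : LinearIndependent R p) : LinearIndependent Q p := by
  classical
  by_contra hcon
  rw [Fintype.not_linearIndependent_iff] at hcon
  obtain ⟨g, hg, i₀, hi₀⟩ := hcon
  have hQR : RAC Q := RAC_of_isAlgClosed Q hQ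
  set T : Finset Ω := Finset.univ.image fun i => (g i : Ω) with hT
  have hTQ : ∀ c ∈ T, c ∈ Q := by
    intro c hc
    obtain ⟨i, -, rfl⟩ := Finset.mem_image.1 hc
    exact (g i).2
  have h0 : ¬ LinearIndependent (rcl R T) p := by
    rw [Fintype.not_linearIndependent_iff]
    refine ⟨fun i => ⟨(g i : Ω), mem_rcl (Finset.mem_image.2 ⟨i, Finset.mem_univ i, rfl⟩)⟩,
      hg, i₀, ?_⟩
    intro h1
    have h2 : ((g i₀ : Q) : Ω) = 0 := congrArg (fun z : rcl R T => (z : Ω)) h1
    exact hi₀ (Subtype.ext h2)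
  refine chain_down (B := Q) (RAC_of_isAlgClosed R hR) (fun N => ¬ LinearIndependent N p)
    ?_ T hTQ h0 hind
  intro S hS b hb hbN hN
  have hNR := rcl_RAC R S
  have hNQ := rcl_le hQR hRQ hS
  have hNc : IsAlgClosed (rcl R S) := isAlgClosed_of_RAC hQ hNR hNQ
  -- independence over `N` from the step over `P ⊔ N`
  exact e4f_step (A := P ⊔ rcl R S) hNc le_sup_right
    (fun h1 => hbN (h _ hNR (le_rcl R S) hNQ b hb h1))
    (fun i => (le_sup_left : P ≤ P ⊔ rcl R S) (hp i)) hN

/-- `rcl k S` and `rcl k T` are free over `rcl k (S ∩ T)`. -/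
theorem rcl_fre [IsAlgClosed Ω] [DecidableEq Ω] {k : Subfield Ω} (hk : IsAlgClosed k)
    {B : Finset Ω} (hB : Indp k B) {S T : Finset Ω} (hS : S ⊆ B) (hT : T ⊆ B) :
    Fre (rcl k (S ∩ T)) (rcl k S) (rcl k T) := by
  intro N hN hlN hNT a ha halg
  have h1 : rcl k S ≤ rcl N (S \ T) := by
    refine rcl_le (rcl_RAC _ _) ((le_rcl k _).trans (hlN.trans (le_rcl _ _))) ?_
    intro c hc
    by_cases hcT : c ∈ T
    · exact le_rcl _ _ (hlN (mem_rcl (Finset.mem_inter.2 ⟨hc, hcT⟩)))
    · exact mem_rcl (Finset.mem_sdiff.2 ⟨hc, hcT⟩)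
  have h2 : a ∈ rcl N (S \ T) :=
    rcl_RAC _ _ a (isAlgebraic_mono (sup_le h1 (le_rcl _ _)) halg)
  have h3 : ∀ X : Finset Ω, X ⊆ S \ T → a ∈ rcl N X → a ∈ N := by
    intro X
    induction X using Finset.induction_on with
    | empty =>
      intro _ h
      rwa [rcl_empty hN] at h
    | insert s X hsX ih =>
      intro hX h
      have hX' : X ⊆ S \ T := fun c hc => hX (Finset.mem_insert_of_mem hc)
      have hs := Finset.mem_sdiff.1 (hX (Finset.mem_insert_self s X))
      apply ih hX'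
      by_contra haX
      rw [rcl_insert] at h
      have h4 : IsAlgebraic (adj (rcl N X) a) s :=
        exchange (fun h5 => haX (rcl_RAC _ _ a h5)) (mem_rac.1 h)
      have h6 : rcl N X ≤ rac (gsp k (T ∪ X)) := by
        refine rcl_le (RAC_rac _) (hNT.trans (rcl_le (RAC_rac _) ?_ ?_)) ?_
        · exact (le_gsp _ _).trans (le_rac _)
        · intro c hc
          exact le_rac _ (mem_gsp (Finset.mem_union_left _ hc))
        · intro c hc
          exact le_rac _ (mem_gsp (Finset.mem_union_right _ hc))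
      have h7 : a ∈ rac (gsp k (T ∪ X)) := by
        refine (rcl_le (RAC_rac _) ?_ ?_ : rcl k T ≤ rac (gsp k (T ∪ X))) ha
        · exact (le_gsp _ _).trans (le_rac _)
        · intro c hc
          exact le_rac _ (mem_gsp (Finset.mem_union_left _ hc))
      have h8 : adj (rcl N X) a ≤ rac (gsp k (T ∪ X)) :=
        (le_rac _).trans (RAC_adj_le (RAC_rac _) h6 h7)
      refine hB (T ∪ X) ?_ s (hS hs.1) ?_ (mem_rac.1 (RAC_rac _ s (isAlgebraic_mono h8 h4)))
      · intro c hc
        rcases Finset.mem_union.1 hc with hc | hc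
        · exact hT hc
        · exact hS (Finset.mem_sdiff.1 (hX' hc)).1
      · intro h9
        rcases Finset.mem_union.1 h9 with h9 | h9
        · exact hs.2 h9
        · exact hsX h9
  exact h3 _ (Finset.Subset.refl _) h2

end Vale.Agent.P019P
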