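import Vale.Agent.P019Q.E4f
import Vale.Agent.P019Q.UGer
import Vale.Agent.P019.Indep

/-!
# Geometry of the ultrapower of an algebraically closed field
-/

namespace Vale.Agent.P019P

open Vale.Agent.P019

set_option linter.style.haveILetI false
set_option linter.unusedSectionVars false

open Polynomial Filter

variable {Ω : Type*} [Field Ω] {I : Type*} {U : Ultrafilter I}

/-- linear disjointness in the ultrapower. -/
theorem e4g_lin {R P Q : Subfield Ω} (hR : IsAlgClosed R) (hQ : IsAlgClosed Q) (hRP : R ≤ P)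
    (hRQ : R ≤ Q) (h : Fre R P Q) {ι : Type*} [Fintype ι] {q : ι → Gm U Ω}
    (hq : ∀ j, q j ∈ uSub U (fun _ => P))
    (hind : LinearIndependent (uSub U (fun _ => R)) q) :
    LinearIndependent (uSub U (fun _ => Q)) q := by
  classical
  have hq' : ∀ j, ∃ f : I → Ω, gm U f = q j ∧ ∀ i, f i ∈ P := hq
  choose a ha haP using hq'
  rw [Fintype.linearIndependent_iff] at hind ⊢
  intro g hg j₀
  by_contra hgj
  have hc : ∀ j, ∃ f : I → Ω, gm U f = ((g j : uSub U (fun _ => Q)) : Gm U Ω) ∧ ∀ i, f i ∈ Q :=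
    fun j => (g j).2
  choose c hc hcQ using hc
  have h1 : ∀ᶠ i in U, ∑ j, c j i * a j i = 0 := by
    rw [← gm_eq_zero, gm_sum Finset.univ (fun j i => c j i * a j i), ← hg]
    refine Finset.sum_congr rfl fun j _ => ?_
    rw [gm_mul, hc, ha]
    rfl
  have h2 : ∀ᶠ i in U, c j₀ i ≠ 0 := by
    rw [Ultrafilter.eventually_not, ← gm_eq_zero, hc]
    exact fun h0 => hgj (Subtype.ext h0)
  have h3 : ∀ i, ∃ d : ι → Ω, (∀ j, d j ∈ R) ∧ ∑ j, d j * a j i = 0 ∧
      (∑ j, c j i * a j i = 0 → c j₀ i ≠ 0 → ∃ j, d j ≠ 0) := by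
    intro i
    by_cases hi : ∑ j, c j i * a j i = 0 ∧ c j₀ i ≠ 0
    · have h4 : ¬ LinearIndependent R (fun j => a j i) := by
        intro h5
        have h6 := Fre.indep hR hQ hRP hRQ h (fun j => haP j i) h5
        rw [Fintype.linearIndependent_iff] at h6
        have h7 := h6 (fun j => ⟨c j i, hcQ j i⟩) hi.1 j₀
        exact hi.2 (congrArg Subtype.val h7)
      rw [Fintype.not_linearIndependent_iff] at h4
      obtain ⟨d, hd, j, hj⟩ := h4
      exact ⟨fun j => (d j : Ω), fun j => (d j).2, hd,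
        fun _ _ => ⟨j, fun h0 => hj (Subtype.ext h0)⟩⟩
    · exact ⟨0, fun _ => R.zero_mem, by simp, fun h5 h6 => absurd ⟨h5, h6⟩ hi⟩
  choose d hdR hd0 hdne using h3
  have h4 : ∃ j, ∀ᶠ i in U, d i j ≠ 0 := by
    by_contra hcon
    have h5 : ∀ j, ∀ᶠ i in U, d i j = 0 := fun j => by
      by_contra h6
      exact hcon ⟨j, Ultrafilter.eventually_not.2 h6⟩
    have h6 : ∀ᶠ i in U, ∀ j, d i j = 0 := Filter.eventually_all.2 h5
    obtain ⟨i, hi1, hi2, hi3⟩ := (h1.and (h2.and h6)).exists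
    obtain ⟨j, hj⟩ := hdne i hi1 hi2
    exact hj (hi3 j)
  obtain ⟨j, hj⟩ := h4
  have h5 := hind (fun j => ⟨gm U (fun i => d i j), _, rfl, fun i => hdR i j⟩) (by
    have h6 : ∑ j, gm U (fun i => d i j) * gm U (a j) = 0 := by
      have h7 : gm U (fun i => ∑ j, d i j * a j i) = 0 := by
        rw [gm_eq_zero]
        exact Eventually.of_forall hd0
      rw [gm_sum Finset.univ (fun j i => d i j * a j i)] at h7
      rw [← h7]
      exact Finset.sum_congr rfl fun j _ => (gm_mul (fun i => d i j) (a j)).symm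
    rw [← h6]
    refine Finset.sum_congr rfl fun j _ => ?_
    rw [ha]
    rfl) j
  have h6 : gm U (fun i => d i j) = 0 := congrArg Subtype.val h5
  rw [gm_eq_zero] at h6
  obtain ⟨i, hi1, hi2⟩ := (h6.and hj).exists
  exact hi2 hi1

/-- algebraic independence through linear independence of monomials. -/
theorem e4g_alg {K : Type*} [Field K] {F : Subfield K} {r : ℕ} {p : Fin r → K} :
    AlgebraicIndependent F p ↔ ∀ s : Finset (Fin r →₀ ℕ),
      LinearIndependent F (fun m : s => (m : Fin r →₀ ℕ).prod fun i k => p i ^ k) := by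
  classical
  constructor
  · intro h s
    have h1 := (MvPolynomial.basisMonomials (Fin r) F).linearIndependent.map'
      (MvPolynomial.aeval p).toLinearMap (LinearMap.ker_eq_bot.2 h)
    have h2 := h1.comp (fun m : s => (m : Fin r →₀ ℕ)) Subtype.val_injective
    have h3 : ((MvPolynomial.aeval p : MvPolynomial (Fin r) F →ₐ[F] K).toLinearMap ∘
        (MvPolynomial.basisMonomials (Fin r) F)) ∘ (fun m : s => (m : Fin r →₀ ℕ)) =
        fun m : s => (m : Fin r →₀ ℕ).prod fun i k => p i ^ k := by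
      funext m
      simp [MvPolynomial.aeval_monomial]
    rwa [h3] at h2
  · intro h
    rw [algebraicIndependent_iff]
    intro f hf
    have h1 := Fintype.linearIndependent_iff.1 (h f.support) (fun m => f.coeff m) (by
      rw [← hf]
      have h2 : ∑ m : f.support, f.coeff (m : Fin r →₀ ℕ) •
          ((m : Fin r →₀ ℕ).prod fun i k => p i ^ k) =
          ∑ m ∈ f.support, f.coeff m • (m.prod fun i k => p i ^ k) :=
        Finset.sum_coe_sort f.support fun m => f.coeff m • (m.prod fun i k => p i ^ k)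
      rw [h2]
      conv_rhs => rw [f.as_sum, map_sum]
      refine Finset.sum_congr rfl fun m _ => ?_
      rw [MvPolynomial.aeval_monomial]
      rfl)
    ext m
    by_cases hm : m ∈ f.support
    · rw [h1 ⟨m, hm⟩]
      rfl
    · rw [MvPolynomial.notMem_support_iff.1 hm]
      rfl

/-- freeness in the ultrapower. -/
theorem gm_fre [IsAlgClosed Ω] {R P Q : Subfield Ω} (hR : IsAlgClosed R) (hQ : IsAlgClosed Q)
    (hRP : R ≤ P) (hRQ : R ≤ Q) (h : Fre R P Q) {r : ℕ} {p : Fin r → Gm U Ω}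
    (hp : ∀ i, p i ∈ uSub U (fun _ => P))
    (hind : AlgebraicIndependent (uSub U (fun _ => R)) p) :
    AlgebraicIndependent (uSub U (fun _ => Q)) p := by
  rw [e4g_alg] at hind ⊢
  intro s
  refine e4g_lin hR hQ hRP hRQ h (fun m => ?_) (hind s)
  exact prod_mem fun i _ => pow_mem (hp i) _

theorem e4g_mono {E F : Subfield Ω} (h : E ≤ F) :
    uSub U (fun _ => E) ≤ uSub U (fun _ => F) := by
  rintro _ ⟨f, rfl, hf⟩
  exact ⟨f, rfl, fun i => h (hf i)⟩

theorem e4g_snoc {K : Type*} [Field K] {r : ℕ} {N : Subfield K} {y : Fin r → K} {z : K}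
    (hy : AlgebraicIndependent N (Fin.snoc y z : Fin (r + 1) → K)) : z ∉ clx N y := by
  rw [algebraicIndependent_equiv' finSuccEquivLast
    (f := fun o : Option (Fin r) => o.elim z y)
    (g := (Fin.snoc y z : Fin (r + 1) → K)) (by
      funext i
      refine Fin.lastCases ?_ (fun j => ?_) i
      · simp
      · simp), AlgebraicIndependent.option_iff] at hy
  intro hz
  exact hy.2 ((isAlgebraic_adjoin_iff' N (Set.range y) z).2 (mem_rac.1 hz))

/-- finite sets have transcendence bases. -/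
theorem e4g_basis {K : Type*} [Field K] {R N : Subfield K} (S : Finset K)
    (hS : ∀ c ∈ S, c ∈ N) : ∃ (r : ℕ) (y : Fin r → K), (∀ i, y i ∈ N) ∧
      AlgebraicIndependent R y ∧ ∀ c ∈ S, c ∈ clx R y := by
  classical
  induction S using Finset.induction_on with
  | empty =>
    refine ⟨0, Fin.elim0, fun i => i.elim0, algebraicIndependent_empty_type, fun c hc => ?_⟩
    exact absurd hc (Finset.notMem_empty c)
  | insert b S _ ih =>
    obtain ⟨r, y, hyN, hy, hyS⟩ := ih fun c hc => hS c (Finset.mem_insert_of_mem hc)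
    by_cases hb : b ∈ clx R y
    · refine ⟨r, y, hyN, hy, fun c hc => ?_⟩
      rcases Finset.mem_insert.1 hc with rfl | hc
      · exact hb
      · exact hyS c hc
    · refine ⟨r + 1, Fin.snoc y b, fun i => ?_, indep_snoc hy hb, fun c hc => ?_⟩
      · refine Fin.lastCases ?_ (fun j => ?_) i
        · rw [Fin.snoc_last]
          exact hS b (Finset.mem_insert_self b S)
        · rw [Fin.snoc_castSucc]
          exact hyN j
      · have h1 : clx R y ≤ clx R (Fin.snoc y b : Fin (r + 1) → K) := by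
          refine clx_le (RAC_rac _) (le_clx _ _) fun j => ?_
          have h2 := mem_clx R (Fin.snoc y b : Fin (r + 1) → K) j.castSucc
          rwa [Fin.snoc_castSucc] at h2
        rcases Finset.mem_insert.1 hc with rfl | hc
        · have h2 := mem_clx R (Fin.snoc y c : Fin (r + 1) → K) (Fin.last r)
          rwa [Fin.snoc_last] at h2
        · exact h1 (hyS c hc)

/-- freeness of the ultrapowers. -/
theorem e4g_fre [IsAlgClosed Ω] {R P Q : Subfield Ω} (hR : IsAlgClosed R) (hQ : IsAlgClosed Q)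
    (hRP : R ≤ P) (hRQ : R ≤ Q) (h : Fre R P Q) :
    Fre (uSub U (fun _ => R)) (uSub U (fun _ => Q)) (uSub U (fun _ => P)) := by
  intro N hN hRN hNP a ha halg
  by_contra haN
  obtain ⟨C, hC, hCN⟩ := isAlgebraic_sup_finite (k := N)
    (L := (uSub U (fun _ => Q) : Set (Gm U Ω))) (z := a) (by
    rw [Subfield.closure_eq, sup_comm]
    exact halg)
  obtain ⟨r, y, hyN, hy, hyS⟩ := e4g_basis (R := uSub U (fun _ => R)) (N := N) C
    fun c hc => hC hc
  have h1 : IsAlgebraic (clx (uSub U (fun _ => R)) y ⊔ uSub U (fun _ => Q) :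
      Subfield (Gm U Ω)) a := by
    have h2 := hCN (clx (uSub U (fun _ => R)) y) fun c hc => hyS c hc
    rwa [Subfield.closure_eq] at h2
  have h2 : a ∉ clx (uSub U (fun _ => R)) y := fun h3 => haN (clx_le hN hRN hyN h3)
  have h3 : AlgebraicIndependent (uSub U (fun _ => Q))
      (Fin.snoc y a : Fin (r + 1) → Gm U Ω) := by
    refine gm_fre hR hQ hRP hRQ h (fun i => ?_) (indep_snoc hy h2)
    refine Fin.lastCases ?_ (fun j => ?_) i
    · rw [Fin.snoc_last]
      exact ha
    · rw [Fin.snoc_castSucc]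
      exact hNP (hyN j)
  refine e4g_snoc h3 ?_
  have h4 : clx (uSub U (fun _ => R)) y ⊔ uSub U (fun _ => Q) ≤
      clx (uSub U (fun _ => Q)) y := by
    refine sup_le (clx_le (RAC_rac _) ((e4g_mono hRQ).trans (le_clx _ _)) fun i => ?_)
      (le_clx _ _)
    exact mem_clx _ _ i
  exact RAC_rac _ a (isAlgebraic_mono h4 h1)

/-- one step. -/
theorem e4g_step {K : Type*} [Field K] [DecidableEq K] {R P Q : Subfield K} (hP : RAC P)
    (hRP : R ≤ P) (hRQ : R ≤ Q) (h : Fre R Q P) {T : Finset K} (hT : ∀ c ∈ T, c ∈ Q) {v : K}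
    (hv : v ∈ P) {x : K} (hxT : x ∈ rcl P T) (hxv : IsAlgebraic (adj Q v) x) :
    x ∈ rcl R (insert v T) := by
  classical
  obtain ⟨S, hSP, hSN⟩ := isAlgebraic_sup_finite (mem_rac.1 hxT)
  set C := rcl R (insert v T) with hC
  have hCR : RAC C := rcl_RAC _ _
  have h0 : x ∈ rcl C S := by
    refine mem_rac.2 (isAlgebraic_mono ?_ (hSN (Subfield.closure (S : Set K))
      Subfield.subset_closure))
    refine sup_le le_sup_right (le_sup_of_le_left (Subfield.closure_le.2 fun c hc => ?_))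
    exact mem_rcl (Finset.mem_insert_of_mem hc)
  refine chain_down (B := P) hCR (fun N => x ∈ N) ?_ S (fun c hc => hSP hc) h0
  intro S' hS' b hb hbN hx
  by_contra hxS
  have h1 : IsAlgebraic (adj (rcl C S') x) b :=
    exchange (fun h => hxS (rcl_RAC _ _ x h)) (mem_rac.1 hx)
  -- the common field
  set N := rcl R (insert v S') with hNdef
  have hNP : N ≤ P := by
    refine rcl_le hP hRP fun c hc => ?_
    rcases Finset.mem_insert.1 hc with rfl | hc
    · exact hv
    · exact hS' c hc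
  have hle : Q ⊔ N ≤ rac (Q ⊔ N) := le_rac _
  have h2 : rcl C S' ≤ rac (Q ⊔ N) := by
    refine rcl_le (RAC_rac _) (rcl_le (RAC_rac _) (hRQ.trans (le_sup_left.trans hle)) ?_) ?_
    · intro c hc
      rcases Finset.mem_insert.1 hc with rfl | hc
      · exact hle ((le_sup_right : N ≤ Q ⊔ N) (mem_rcl (Finset.mem_insert_self _ _)))
      · exact hle ((le_sup_left : Q ≤ Q ⊔ N) (hT c hc))
    · intro c hc
      exact hle ((le_sup_right : N ≤ Q ⊔ N) (mem_rcl (Finset.mem_insert_of_mem hc)))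
  have h3 : x ∈ rac (Q ⊔ N) := by
    have h4 : adj Q v ≤ rac (Q ⊔ N) := by
      refine (le_rac _).trans (RAC_adj_le (RAC_rac _) (le_sup_left.trans hle) ?_)
      exact hle ((le_sup_right : N ≤ Q ⊔ N) (mem_rcl (Finset.mem_insert_self _ _)))
    exact RAC_rac _ x (isAlgebraic_mono h4 hxv)
  have h5 : IsAlgebraic (Q ⊔ N : Subfield K) b := by
    refine mem_rac.1 (RAC_rac _ b (isAlgebraic_mono ?_ h1))
    exact (le_rac _).trans (RAC_adj_le (RAC_rac _) h2 h3)
  have h6 : b ∈ N := h N (rcl_RAC _ _) (le_rcl _ _) hNP b hb h5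
  apply hbN
  refine (rcl_le (rcl_RAC _ _) ?_ ?_ : N ≤ rcl C S') h6
  · exact (le_rcl R (insert v T)).trans (le_rcl C S')
  · intro c hc
    rcases Finset.mem_insert.1 hc with rfl | hc
    · exact le_rcl C S' (mem_rcl (Finset.mem_insert_self _ _))
    · exact mem_rcl hc

theorem e4g_rcl_mono {K : Type*} [Field K] {l : Subfield K} {S T : Finset K} (h : S ⊆ T) :
    rcl l S ≤ rcl l T :=
  rcl_le (rcl_RAC _ _) (le_rcl _ _) fun _ hc => mem_rcl (h hc)

theorem e4g_closed [IsAlgClosed Ω] {E : Subfield Ω} (hE : RAC E) : IsAlgClosed E := by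
  have h1 : IsAlgClosed (⊤ : Subfield Ω) :=
    IsAlgClosed.of_ringEquiv Ω (⊤ : Subfield Ω) Subfield.topEquiv.symm
  exact isAlgClosed_of_RAC h1 hE le_top

/-- the induction. -/
theorem e4g_ind [IsAlgClosed Ω] [DecidableEq Ω] [DecidableEq (Gm U Ω)] {k : Subfield Ω}
    (hk : IsAlgClosed k) {B : Finset Ω}
    (hB : Indp k B) {σ : Ω → Gm U Ω}
    (hσ : ∀ v ∈ B, ∃ f : I → Ω, gm U f = σ v ∧ ∀ i, rcl k {f i} = rcl k {v}) {x : Gm U Ω}
    (hx0 : x ∈ uSub U (fun _ => rcl k B))
    (hx : ∀ v ∈ B, IsAlgebraic (adj (uSub U (fun _ => rcl k (B.erase v))) (σ v)) x)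
    (T : Finset Ω) (hT : T ⊆ B) : x ∈ rcl (uSub U (fun _ => rcl k (B \ T))) (T.image σ) := by
  classical
  have hmem : ∀ v ∈ B, ∀ S : Finset Ω, v ∈ S → σ v ∈ uSub U (fun _ => rcl k S) := by
    intro v hv S hvS
    obtain ⟨f, hf, hfv⟩ := hσ v hv
    refine ⟨f, hf, fun i => ?_⟩
    have h1 : rcl k {v} ≤ rcl k S := e4g_rcl_mono (Finset.singleton_subset_iff.2 hvS)
    refine h1 ?_
    rw [← hfv i]
    exact mem_rcl (Finset.mem_singleton_self _)
  induction T using Finset.induction_on with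
  | empty =>
    refine le_rcl _ _ ?_
    rwa [Finset.sdiff_empty]
  | insert v T hvT ih =>
    have hTB : T ⊆ B := fun c hc => hT (Finset.mem_insert_of_mem hc)
    have hvB : v ∈ B := hT (Finset.mem_insert_self v T)
    have e1 : (B \ T) ∩ (B.erase v) = B \ (insert v T) := by
      ext c
      simp only [Finset.mem_inter, Finset.mem_sdiff, Finset.mem_erase, Finset.mem_insert]
      tauto
    have hfre := rcl_fre hk hB (S := B \ T) (T := B.erase v) Finset.sdiff_subset
      (Finset.erase_subset v B)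
    rw [e1] at hfre
    have hRP : rcl k (B \ insert v T) ≤ rcl k (B \ T) :=
      e4g_rcl_mono (by rw [← e1]; exact Finset.inter_subset_left)
    have hRQ : rcl k (B \ insert v T) ≤ rcl k (B.erase v) :=
      e4g_rcl_mono (by rw [← e1]; exact Finset.inter_subset_right)
    have hPc : RAC (uSub U (fun _ => rcl k (B \ T))) :=
      RAC_of_isAlgClosed _ (isAlgClosed_uSub fun _ => e4g_closed (rcl_RAC _ _))
    rw [Finset.image_insert]
    refine e4g_step hPc (e4g_mono hRP) (e4g_mono hRQ)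
      (e4g_fre (e4g_closed (rcl_RAC _ _)) (e4g_closed (rcl_RAC _ _)) hRP hRQ hfre) ?_ ?_ (ih hTB)
      (hx v hvB)
    · intro c hc
      obtain ⟨w, hw, rfl⟩ := Finset.mem_image.1 hc
      refine hmem w (hTB hw) _ (Finset.mem_erase.2 ⟨?_, hTB hw⟩)
      rintro rfl
      exact hvT hw
    · exact hmem v hvB _ (Finset.mem_sdiff.2 ⟨hvB, hvT⟩)

/-- the main geometric lemma. -/
theorem geo [IsAlgClosed Ω] [DecidableEq Ω] {k : Subfield Ω} (hk : IsAlgClosed k) {B : Finset Ω}
    (hB : Indp k B) {σ : Ω → Gm U Ω}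
    (hσ : ∀ v ∈ B, ∃ f : I → Ω, gm U f = σ v ∧ ∀ i, rcl k {f i} = rcl k {v}) {x : Gm U Ω}
    (hx0 : x ∈ uSub U (fun _ => rcl k B))
    (hx : ∀ v ∈ B, IsAlgebraic (adj (uSub U (fun _ => rcl k (B.erase v))) (σ v)) x) :
    ∃ T : Finset (Gm U Ω), (∀ y ∈ T, ∃ v ∈ B, y = σ v) ∧
      IsAlgebraic (gsp (uSub U (fun _ => k)) T) x := by
  classical
  refine ⟨B.image σ, fun y hy => ?_, ?_⟩
  · obtain ⟨v, hv, rfl⟩ := Finset.mem_image.1 hy
    exact ⟨v, hv, rfl⟩
  · have h1 := e4g_ind hk hB hσ hx0 hx B (Finset.Subset.refl B)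
    rw [Finset.sdiff_self, rcl_empty (RAC_of_isAlgClosed k hk)] at h1
    exact isAlgebraic_mono (le_pf _) (mem_rac.1 h1)

end Vale.Agent.P019P
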