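import Vale.Agent.P019Q.E1a
import Vale.Agent.P019Q.E3

/-!
# The five points condition in all directions
-/

namespace Vale.Agent.P019P

open Vale.Agent.P019

set_option linter.style.haveILetI false
set_option linter.unusedSectionVars false

open Polynomial Filter

section e5apriv

theorem e5a_brel_mono {Ω : Type*} [Field Ω] {E : Subfield Ω} {D D' : ℕ}
    (hD : D ≤ D') {x y : Ω} (h : BRel E D x y) : BRel E D' x y := by
  classical
  obtain ⟨c, hc, ⟨i, hi, j, hj, hij⟩, hs⟩ := h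
  have hsub : Finset.range (D + 1) ⊆ Finset.range (D' + 1) :=
    Finset.range_subset_range.2 (by omega)
  let c' : ℕ → ℕ → Ω := fun i j =>
    if i ∈ Finset.range (D + 1) ∧ j ∈ Finset.range (D + 1) then c i j else 0
  have hc'1 : ∀ {i j}, i ∈ Finset.range (D + 1) → j ∈ Finset.range (D + 1) → c' i j = c i j :=
    fun h1 h2 => if_pos ⟨h1, h2⟩
  have hc'0 : ∀ {i j}, ¬ (i ∈ Finset.range (D + 1) ∧ j ∈ Finset.range (D + 1)) → c' i j = 0 :=
    fun h => if_neg h
  refine ⟨c', ?_, ⟨i, hsub hi, j, hsub hj, ?_⟩, ?_⟩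
  · intro i j
    by_cases h : i ∈ Finset.range (D + 1) ∧ j ∈ Finset.range (D + 1)
    · rw [hc'1 h.1 h.2]; exact hc i j
    · rw [hc'0 h]; exact E.zero_mem
  · rw [hc'1 hi hj]; exact hij
  · refine Eq.trans (Eq.symm ?_) hs
    refine Finset.sum_subset_zero_on_sdiff hsub ?_ ?_
    · intro i hi
      rw [Finset.mem_sdiff] at hi
      refine Finset.sum_eq_zero fun j _ => ?_
      rw [hc'0 (fun h => hi.2 h.1), zero_mul, zero_mul]
    · intro i hi
      refine Finset.sum_subset_zero_on_sdiff hsub ?_ ?_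
      · intro j hj
        rw [Finset.mem_sdiff] at hj
        rw [hc'0 (fun h => hj.2 h.2), zero_mul, zero_mul]
      · intro j hj
        rw [hc'1 hi hj]

theorem e5a_brel_map {F Ω : Type*} [Field F] [Field Ω] (f : F →+* Ω) {E : Subfield F}
    {E' : Subfield Ω} (hE : ∀ c ∈ E, f c ∈ E') {D : ℕ} {x y : F} (h : BRel E D x y) :
    BRel E' D (f x) (f y) := by
  obtain ⟨c, hc, ⟨i, hi, j, hj, hij⟩, hs⟩ := h
  refine ⟨fun i j => f (c i j), fun i j => hE _ (hc i j), ⟨i, hi, j, hj, ?_⟩, ?_⟩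
  · exact (map_ne_zero f).2 hij
  · have h1 := congrArg f hs
    simpa only [map_sum, map_mul, map_pow, map_zero] using h1

variable {K : Type*} [Field K] {Ω : Type*} [Field Ω] [Algebra K Ω]

theorem e5a_char : ringExpChar Ω = ringExpChar K := by
  haveI : ExpChar Ω (ringExpChar K) := expChar_of_injective_algebraMap
    (algebraMap K Ω).injective (ringExpChar K)
  exact ringExpChar.eq Ω (ringExpChar K)

/-- the image of `gsp k T` is in `rcl` of the images. -/
theorem e5a_gsp_rcl [DecidableEq Ω] {k : Subfield K} {T : Finset K} {x : K} (hx : x ∈ gsp k T) :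
    algebraMap K Ω x ∈ rcl (k.map (algebraMap K Ω)) (T.image (algebraMap K Ω)) := by
  obtain ⟨n, hn⟩ := mem_pf.1 hx
  have h1 : k ⊔ Subfield.closure (T : Set K) ≤
      (rcl (k.map (algebraMap K Ω)) (T.image (algebraMap K Ω))).comap (algebraMap K Ω) := by
    refine sup_le ?_ (Subfield.closure_le.2 ?_)
    · intro a ha
      exact le_rcl _ _ ⟨a, ha, rfl⟩
    · intro a ha
      exact mem_rcl (Finset.mem_image_of_mem _ ha)
  have h2 : algebraMap K Ω x ^ ringExpChar K ^ n ∈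
      rcl (k.map (algebraMap K Ω)) (T.image (algebraMap K Ω)) := by
    rw [← map_pow]
    exact h1 hn
  refine rcl_RAC _ _ _ (IsAlgebraic.of_pow (n := ringExpChar K ^ n) ?_ (isAlgebraic_of_mem h2))
  exact pow_pos (expChar_pos K _) n

/-- the image of `gsp k B` is in `adj` of `rcl` of the images without `v` and the image of `v`. -/
theorem e5a_gsp_adj [DecidableEq K] [DecidableEq Ω] {k : Subfield K} {B : Finset K} {x v : K}
    (hx : x ∈ gsp k B) :
    algebraMap K Ω x ∈ adj (rcl (k.map (algebraMap K Ω)) ((B.erase v).image (algebraMap K Ω)))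
      (algebraMap K Ω v) := by
  obtain ⟨n, hn⟩ := mem_pf.1 hx
  have h1 : k ⊔ Subfield.closure (B : Set K) ≤
      (Vale.Agent.P019.adj (rcl (k.map (algebraMap K Ω)) ((B.erase v).image (algebraMap K Ω)))
      (algebraMap K Ω v)).comap (algebraMap K Ω) := by
    refine sup_le ?_ (Subfield.closure_le.2 ?_)
    · intro a ha
      exact Vale.Agent.P019.le_adj _ _ (le_rcl _ _ ⟨a, ha, rfl⟩)
    · intro a ha
      by_cases hav : a = v
      · subst hav
        exact Vale.Agent.P019.mem_adj _ _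
      · refine Vale.Agent.P019.le_adj _ _ (mem_rcl (Finset.mem_image_of_mem _ ?_))
        exact Finset.mem_erase.2 ⟨hav, ha⟩
  refine mem_adj_iff.2 ⟨n, ?_⟩
  rw [e5a_char (K := K), ← map_pow]
  exact h1 hn

/-- relations in all directions. -/
theorem e5a_rel [PerfectField K] [DecidableEq K] [DecidableEq Ω] {k : Subfield K} {B : Finset K}
    {t : K} (halg : ∀ z : K, IsAlgebraic (adj (gsp k B) t) z) (w : K) :
    ∃ m : ℕ, ∀ᶠ b in ae k, ∀ W : ValuationSubring K, Over W (gsp k B) t b → w ∈ W →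
      ∀ ι : IsLocalRing.ResidueField W →+* Ω,
      (∀ z ∈ gsp k B, ι (rs W z) = algebraMap K Ω z) → ∀ v ∈ B,
      BRel (rcl (k.map (algebraMap K Ω)) ((B.erase v).image (algebraMap K Ω))) m
        (algebraMap K Ω v) (ι (rs W w)) := by
  have key : ∀ v ∈ B, ∃ m : ℕ, ∀ᶠ b in ae k, ∀ W : ValuationSubring K,
      Over W (gsp k B) t b → w ∈ W → ∀ ι : IsLocalRing.ResidueField W →+* Ω,
      (∀ z ∈ gsp k B, ι (rs W z) = algebraMap K Ω z) →
      BRel (rcl (k.map (algebraMap K Ω)) ((B.erase v).image (algebraMap K Ω))) m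
        (algebraMap K Ω v) (ι (rs W w)) := by
    intro v hv
    have hB : gsp k B = adj (gsp k (B.erase v)) v := by
      rw [← gsp_insert, Finset.insert_erase hv]
    have hw : IsAlgebraic (adj (adj (gsp k (B.erase v)) v) t) w := by
      rw [← hB]; exact halg w
    obtain ⟨m, hm⟩ := apd_rel hw
    refine ⟨m, ?_⟩
    filter_upwards [ae_mono (le_gsp k (B.erase v)) hm, ae_mem k] with b hb hbk W hO hwW ι hι
    have hsub : gsp k (B.erase v) ≤ gsp k B := gsp_mono k (Finset.erase_subset v B)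
    have hWG : TrivOn W (gsp k (B.erase v)) := fun c hc => hO.triv c (hsub hc)
    have hvB : v ∈ gsp k B := mem_gsp hv
    have hr : BRel (bar hWG) m (rs W v) (rs W w) :=
      hb W hWG hO.lt (hO.mem (le_gsp k B hbk)) (hO.triv _ hvB) hwW
    rw [← hι v hvB]
    refine e5a_brel_map ι ?_ hr
    intro c hc
    obtain ⟨e, he, rfl⟩ := (mem_bar hWG).1 hc
    rw [hι e (hsub he)]
    exact e5a_gsp_rcl he
  choose! m hm using key
  refine ⟨B.sup m, ?_⟩
  have h1 : ∀ᶠ b in ae k, ∀ v ∈ B, ∀ W : ValuationSubring K,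
      Over W (gsp k B) t b → w ∈ W → ∀ ι : IsLocalRing.ResidueField W →+* Ω,
      (∀ z ∈ gsp k B, ι (rs W z) = algebraMap K Ω z) →
      BRel (rcl (k.map (algebraMap K Ω)) ((B.erase v).image (algebraMap K Ω))) (m v)
        (algebraMap K Ω v) (ι (rs W w)) := by
    rw [Filter.eventually_all_finset]
    exact hm
  filter_upwards [h1] with b hb W hO hwW ι hι v hv
  exact e5a_brel_mono (Finset.le_sup hv) (hb v hv W hO hwW ι hι)

end e5apriv

variable {K L : Type*} [Field K] [Field L] [PerfectField K] [PerfectField L] {ℓ : ℕ}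
  [Fact ℓ.Prime] [NeZero (ℓ : K)] [NeZero (ℓ : L)]

/-- generators of the residue fields in all directions. -/
theorem exists_gen {k : Subfield K} (hk : IsAlgClosed k) (hfgk : FG k (⊤ : Subfield K))
    {B : Finset K} (hB : Indp k B) {t : K}
    (ht : ¬ IsAlgebraic (gsp k B) t) (halg : ∀ z : K, IsAlgebraic (adj (gsp k B) t) z)
    {Ω : Type*} [Field Ω] [IsAlgClosed Ω] [Algebra K Ω] [DecidableEq K] [DecidableEq Ω] :
    ∃ (m : ℕ) (θ : K), ∀ᶠ b in ae k, ∀ W : ValuationSubring K,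
      Over W (gsp k B) t b → ∀ (ι : IsLocalRing.ResidueField W →+* Ω),
      (∀ z ∈ gsp k B, ι (rs W z) = algebraMap K Ω z) →
      ∀ v ∈ B,
        BRel (rcl (k.map (algebraMap K Ω)) ((B.erase v).image (algebraMap K Ω))) m
          (algebraMap K Ω v) (ι (rs W θ)) ∧
        ι.fieldRange ≤ adj (adj (rcl (k.map (algebraMap K Ω))
          ((B.erase v).image (algebraMap K Ω))) (algebraMap K Ω v)) (ι (rs W θ)) := by
  obtain ⟨θ, hθ⟩ := exists_over_nice hk hfgk hB ht halg
  obtain ⟨m, hm⟩ := e5a_rel (Ω := Ω) halg θ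
  refine ⟨m, θ, ?_⟩
  filter_upwards [hθ, hm] with b h1 h2 W hO ι hι v hv
  have hN := h1.2 W hO
  refine ⟨h2 W hO hN.mem ι hι v hv, ?_⟩
  rintro _ ⟨c, rfl⟩
  obtain ⟨z, hz, rfl⟩ := rs_surj c
  obtain ⟨P, Q, hQ, hPQ⟩ := hN.res z ((W.valuation_le_one_iff z).2 hz)
  have hmem : ∀ R : (gsp k B)[X], aeval θ R ∈ W := fun R =>
    aeval_mem hN.mem (fun i => hN.triv _ (R.coeff i).2)
  have hin : ∀ R : (gsp k B)[X], ι (rs W (aeval θ R)) ∈ adj (adj (rcl (k.map (algebraMap K Ω))
      ((B.erase v).image (algebraMap K Ω))) (algebraMap K Ω v)) (ι (rs W θ)) := by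
    intro R
    induction R using Polynomial.induction_on' with
    | add p q hp hq =>
      rw [map_add, rs_add (hmem p) (hmem q), map_add]
      exact Subfield.add_mem _ hp hq
    | monomial n a =>
      rw [← C_mul_X_pow_eq_monomial, map_mul, aeval_C, map_pow, aeval_X]
      change ι (rs W ((a : K) * θ ^ n)) ∈ _
      rw [rs_mul (hN.triv _ a.2) (pow_mem hN.mem n), rs_pow hN.mem, map_mul, map_pow, hι _ a.2]
      exact Subfield.mul_mem _ (le_adj _ _ (e5a_gsp_adj a.2)) (Subfield.pow_mem _ (mem_adj _ _) n)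
  have h3 : ι (rs W z) * ι (rs W (aeval θ Q)) = ι (rs W (aeval θ P)) := by
    rw [← map_mul, ← rs_mul hz (hmem Q), (rs_eq (mul_mem hz (hmem Q)) (hmem P)).2 hPQ]
  have hQ0 : ι (rs W (aeval θ Q)) ≠ 0 := (map_ne_zero ι).2 ((rs_ne_zero (hmem Q)).2 hQ)
  rw [eq_div_of_mul_eq hQ0 h3]
  exact Subfield.div_mem _ (hin P) (hin Q)

/-- bounds of the transferred functions in all directions. -/
theorem exists_five {k : Subfield K} (hk : IsAlgClosed k) (hfgk : FG k (⊤ : Subfield K))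
    {l : Subfield L} (hl : IsAlgClosed l) {B : Finset K} (hB : Indp k B) {t : K}
    (ht : ¬ IsAlgebraic (gsp k B) t) (halg : ∀ z : K, IsAlgebraic (adj (gsp k B) t) z)
    {Ω : Type*} [Field Ω] [IsAlgClosed Ω] [Algebra K Ω] [DecidableEq K] [DecidableEq Ω]
    (Θ : V ℓ K ≃ₗ[ZMod ℓ] V ℓ L) (g : L) : ∃ m : ℕ, ∀ᶠ b in ae k, ∀ W : ValuationSubring K,
      Over W (gsp k B) t b → ∀ O : ValuationSubring L, O.valuation g ≤ 1 →
      ∀ (ι : IsLocalRing.ResidueField W →+* Ω),
      (∀ z ∈ gsp k B, ι (rs W z) = algebraMap K Ω z) →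
      ∀ (hW : TrivOn W k) (hO : TrivOn O l)
        (α : IsLocalRing.ResidueField W ≃+* IsLocalRing.ResidueField O) (e : (ZMod ℓ)ˣ),
        (∀ x, x ∈ bar hW ↔ α x ∈ bar hO) →
        (∀ (z : K) (y : L), W.valuation z = 1 → O.valuation y = 1 → Θ (cl ℓ z) = cl ℓ y →
          cl ℓ (rs O y) = (e : ZMod ℓ) • cl ℓ (α (rs W z))) →
        ∀ v ∈ B, Five' ℓ (rcl (k.map (algebraMap K Ω)) ((B.erase v).image (algebraMap K Ω)))
          ι.fieldRange m (algebraMap K Ω v) (ι (α.symm (rs O g))) := by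
  classical
  haveI : Infinite l := inferInstance
  obtain ⟨S0', hS0'⟩ := Infinite.exists_subset_card_eq l 5
  set S0 : Finset L := S0'.map ⟨Subtype.val, Subtype.val_injective⟩ with hS0def
  have hS0l : ∀ c ∈ S0, c ∈ l := by
    intro c hc
    rw [hS0def, Finset.mem_map] at hc
    obtain ⟨c', -, rfl⟩ := hc
    exact c'.2
  have hS0c : S0.card = 5 := by rw [hS0def, Finset.card_map, hS0']
  have hy : ∀ c : L, ∃ y : K, y ≠ 0 ∧ Θ (cl ℓ y) = cl ℓ (g - c) := by
    intro c
    obtain ⟨y, hy0, hy⟩ := cl_surj ℓ (Θ.symm (cl ℓ (g - c)))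
    exact ⟨y, hy0, by rw [hy, LinearEquiv.apply_symm_apply]⟩
  choose y hy0 hyΘ using hy
  have hrel : ∀ c : L, _ := fun c => e5a_rel (Ω := Ω) halg (y c)
  choose m hm using hrel
  refine ⟨S0.sup m, ?_⟩
  have hE1 : ∀ᶠ b in ae k, ∀ c ∈ S0, ∀ W : ValuationSubring K, Over W (gsp k B) t b → y c ∈ W →
      ∀ ι : IsLocalRing.ResidueField W →+* Ω,
      (∀ z ∈ gsp k B, ι (rs W z) = algebraMap K Ω z) → ∀ v ∈ B,
      BRel (rcl (k.map (algebraMap K Ω)) ((B.erase v).image (algebraMap K Ω))) (m c)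
        (algebraMap K Ω v) (ι (rs W (y c))) := by
    rw [Filter.eventually_all_finset]
    exact fun c _ => hm c
  have hE2 : ∀ᶠ b in ae k, ∀ c ∈ S0, ∀ W : ValuationSubring K, Over W (gsp k B) t b →
      W.valuation (y c) = 1 := by
    rw [Filter.eventually_all_finset]
    exact fun c _ => ae_mono (le_gsp k B) (unit_over (hy0 c) (halg (y c)))
  filter_upwards [hE1, hE2] with b h1 h2 W hOv O hg ι hι hW hO α e hbar htr v hv
  have hgO : g ∈ O := (O.valuation_le_one_iff g).1 hg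
  refine ⟨S0.image (fun c => ι (α.symm (rs O c))), ?_, ?_⟩
  · rw [Finset.card_image_of_injOn, hS0c]
    intro c hc c' hc' hcc
    exact rs_injOn hO (hS0l c hc) (hS0l c' hc') (α.symm.injective (ι.injective hcc))
  · intro c' hc'
    obtain ⟨c, hc, rfl⟩ := Finset.mem_image.1 hc'
    have hcl := hS0l c hc
    have hcO : c ∈ O := hO c hcl
    have hyv := h2 c hc W hOv
    refine ⟨?_, ⟨_, rfl⟩, ι (rs W (y c)), ⟨_, rfl⟩, ?_, ?_, ?_⟩
    · have hb1 : α.symm (rs O c) ∈ bar hW := by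
        rw [hbar, RingEquiv.apply_symm_apply]
        exact rs_mem_bar hO hcl
      obtain ⟨a, ha, hae⟩ := (mem_bar hW).1 hb1
      rw [← hae, hι a (le_gsp k B ha)]
      exact le_rcl _ _ ⟨a, ha, rfl⟩
    · exact (map_ne_zero ι).2 ((rs_ne_zero (mem_of_val hyv)).2 hyv)
    · exact e5a_brel_mono (Finset.le_sup hc) (h1 c hc W hOv (mem_of_val hyv) ι hι v hv)
    · have hZ : ι (α.symm (rs O g)) - ι (α.symm (rs O c)) = ι (α.symm (rs O (g - c))) := by
        rw [rs_sub hgO hcO, map_sub, map_sub]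
      have hgc : g - c ∈ O := sub_mem hgO hcO
      rw [hZ]
      by_cases hv1 : O.valuation (g - c) = 1
      · have h3 := htr (y c) (g - c) hyv hv1 (hyΘ c)
        have hx0 : rs O (g - c) ≠ 0 := (rs_ne_zero hgc).2 hv1
        have hx1 : α (rs W (y c)) ≠ 0 := by
          rw [Ne, EmbeddingLike.map_eq_zero_iff]
          exact (rs_ne_zero (mem_of_val hyv)).2 hyv
        have h4 : (e : ZMod ℓ) • cl ℓ (α (rs W (y c))) =
            cl ℓ (α (rs W (y c)) ^ (e : ZMod ℓ).val) := by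
          rw [cl_pow, ← Nat.cast_smul_eq_nsmul (ZMod ℓ), ZMod.natCast_zmod_val]
        rw [h4, cl_eq_iff ℓ hx0 (pow_ne_zero _ hx1)] at h3
        obtain ⟨w, -, hw⟩ := h3
        refine ⟨(e : ZMod ℓ).val, ι (α.symm w), ⟨_, rfl⟩, ?_⟩
        rw [hw, map_mul, map_mul, map_pow, map_pow, map_pow, map_pow, RingEquiv.symm_apply_apply]
      · refine ⟨0, 0, Subfield.zero_mem _, ?_⟩
        have h5 : rs O (g - c) = 0 := by
          by_contra hne
          exact hv1 ((rs_ne_zero hgc).1 hne)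
        rw [h5, map_zero, map_zero, zero_pow (Fact.out : ℓ.Prime).ne_zero, mul_zero]

end Vale.Agent.P019P
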