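import Vale.Agent.P019Q.K2
import Vale.Agent.P019Q.AeUnit

/-!
# Step A: the data, and the case of a special element
-/

namespace Vale.Agent.P019P

open Vale.Agent.P019

set_option linter.style.haveILetI false
set_option linter.unusedSectionVars false

open Polynomial Filter

variable {K L : Type*} [Field K] [Field L] [PerfectField K] [PerfectField L] {ℓ : ℕ}
  [Fact ℓ.Prime] [NeZero (ℓ : K)] [NeZero (ℓ : L)]

/-- infinitely many points of `t`, valuations over them and corresponding valuations. -/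
structure Dat (k F : Subfield K) (t : K) (Θ : V ℓ K ≃ₗ[ZMod ℓ] V ℓ L) where
  S : Set K
  inf : Infinite S
  le : ∀ b ∈ S, b ∈ k
  W : S → ValuationSubring K
  O : S → ValuationSubring L
  ov : ∀ i, Over (W i) F t i
  tr : ∀ i, Tr Θ (W i) (t - i) (O i)
  unif : ∀ i, IsUnif (W i) (t - i)

attribute [instance] Dat.inf

variable {Θ : V ℓ K ≃ₗ[ZMod ℓ] V ℓ L} {k F : Subfield K} {t : K} {l : Subfield L}

/-- the ultrafilter. -/
noncomputable abbrev Dat.U (D : Dat k F t Θ) : Ultrafilter D.S := hyperfilter D.S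

theorem Dat.ev (D : Dat k F t Θ) {p : K → Prop} (h : ∀ᶠ a in ae k, p a) :
    ∀ᶠ i : D.S in D.U, p i.1 := hyper_of_ae D.le h

theorem Dat.mem_of_ev (D : Dat k F t Θ) (hk : IsAlgClosed k) (hfg : FG k (⊤ : Subfield K))
    (hF : RatF k F) (ht : Good k t) (htF : ¬ IsAlgebraic F t)
    (halg : ∀ z : K, IsAlgebraic (adj F t) z) {v : V ℓ K}
    (h : ∀ᶠ i in D.U, Θ v ∈ U1 ℓ (D.O i)) : v ∈ VS ℓ (adj k t) := by
  have h1 : {i : D.S | Θ v ∈ U1 ℓ (D.O i)}.Infinite := by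
    intro hfin
    exact Filter.notMem_hyperfilter_of_finite hfin h
  have h2 : {β : K | β ∈ k ∧ ∃ W : ValuationSubring K, Over W F t β ∧ v ∈ U1 ℓ W}.Infinite := by
    refine (h1.image (f := fun i : D.S => (i : K)) Subtype.val_injective.injOn).mono ?_
    rintro _ ⟨i, hi, rfl⟩
    exact ⟨D.le _ i.2, D.W i, D.ov i, ((D.tr i).iff v).1 hi⟩
  exact VS_mono (ht.2.le le_rfl) (k1 hk hfg hF htF halg h2)

theorem Dat.ev_of_mem (D : Dat k F t Θ) (hk : IsAlgClosed k) (hkF : k ≤ F)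
    (ht : t ∉ k) {v : V ℓ K} (hv : v ∈ VS ℓ (adj k t)) :
    ∀ᶠ i in D.U, Θ v ∈ U1 ℓ (D.O i) := by
  classical
  have hℓ : 0 < ℓ := (Fact.out : ℓ.Prime).pos
  obtain ⟨s, n, hs, hv⟩ := adj_factor hk ht hv
  have h1 : ∀ᶠ i : D.S in D.U, (i : K) ∉ s := by
    refine D.ev (p := fun a => a ∉ s) ?_
    rw [ae_iff]
    refine s.finite_toSet.subset ?_
    rintro a ⟨-, ha⟩
    rw [not_not] at ha
    exact ha
  refine h1.mono fun i hi => ?_
  rw [(D.tr i).iff, hv]
  refine Submodule.sum_mem _ fun c hc => Submodule.smul_mem _ _ ?_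
  have hic : (i : K) - c ∈ k := k.sub_mem (D.le _ i.2) (hs c hc)
  have hic0 : (i : K) - c ≠ 0 := by
    intro h0
    rw [sub_eq_zero] at h0
    exact hi (h0 ▸ hc)
  have h2 : (D.W i).valuation ((i : K) - c) = 1 :=
    (D.ov i).triv.eq_one (hkF hic) hic0
  have h3 := cl_sub_cl_mem_U1 (ℓ := ℓ) (x := t - c) h2
    (by rw [show t - c - ((i : K) - c) = t - i by ring]; exact (D.ov i).lt)
  rwa [cl_const hk hℓ hic, sub_zero] at h3

theorem Dat.ulu (D : Dat k F t Θ) (hk : IsAlgClosed k) (hfgk : FG k (⊤ : Subfield K))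
    (hl : IsAlgClosed l) (hfgl : FG l (⊤ : Subfield L)) (hΘ : Compatible Θ)
    (htrl : ∃ x y : L, x ∉ l ∧ ¬ IsAlgebraic (adj l x) y) (hF : RatF k F) (ht : Good k t)
    (htF : ¬ IsAlgebraic F t) (halg : ∀ z : K, IsAlgebraic (adj F t) z) : Ulu D.U D.O :=
  fun _ hx => (D.ev (ae_unit hk hfgk hl hfgl hΘ htrl hF ht htF halg hx)).mono
    fun i h => h (D.W i) (D.ov i) (D.O i) (D.tr i)

/-- an element `h` which is constant modulo almost all `O i`. -/
theorem Dat.case_one (D : Dat k F t Θ) (hk : IsAlgClosed k) (hfgk : FG k (⊤ : Subfield K))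
    (hl : IsAlgClosed l) (hfgl : FG l (⊤ : Subfield L)) (hΘ : Compatible Θ)
    (htrl : ∃ x y : L, x ∉ l ∧ ¬ IsAlgebraic (adj l x) y) (hF : RatF k F) (ht : Good k t)
    (htF : ¬ IsAlgebraic F t) (halg : ∀ z : K, IsAlgebraic (adj F t) z)
    (hO : ∀ i, TrivOn (D.O i) l) {h : L} (hh : h ∉ l) {c : D.S → L} (hc : ∀ i, c i ∈ l)
    (hhc : ∀ᶠ i in D.U, (D.O i).valuation (h - c i) < 1) :
    ∃ E : Subfield L, Crv l E ∧ ∀ v, Θ v ∈ VS ℓ E ↔ v ∈ VS ℓ (adj k t) := by
  classical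
  have hℓ : 0 < ℓ := (Fact.out : ℓ.Prime).pos
  have hkF : k ≤ F := hF.le
  have hu : Ulu D.U D.O := D.ulu hk hfgk hl hfgl hΘ htrl hF ht htF halg
  have hlO : ∀ x ∈ uSub D.U (fun _ => l), x ∈ (ulP D.U D.O).O :=
    ulP_triv (Eventually.of_forall hO)
  set P := ulP D.U D.O with hP
  set j := hu.j with hj
  set Bs := P.im (uSub D.U (fun _ => l)) hlO with hBs
  have hBsac : IsAlgClosed Bs := P.isAlgClosed_im hlO (isAlgClosed_uSub fun _ => hl)
  have hBsR : RAC Bs := RAC_of_isAlgClosed Bs hBsac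
  haveI : PerfectField Bs := perfect_of_RAC hBsR
  have hlB : l.map j ≤ Bs := by
    rintro _ ⟨x, hx, rfl⟩
    exact P.ev_mem_im hlO (gc_mem_uSub hx)
  have hval : ∀ x : L, ∀ᶠ i in D.U, x ∈ D.O i := by
    intro x
    by_cases hx : x = 0
    · rw [hx]; exact Eventually.of_forall fun i => (D.O i).zero_mem
    · exact (hu x hx).mono fun i hi => ((D.O i).valuation_le_one_iff x).1 hi.le
  have hhB : j h ∈ Bs := by
    have h2 : P.ev (gm D.U (fun _ => h)) = P.ev (gm D.U c) := by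
      rw [ulP_ev_eq (hval h) (Eventually.of_forall fun i => hO i _ (hc i))]
      exact hhc
    have h3 : j h = P.ev (gm D.U c) := h2
    rw [h3]
    exact P.ev_mem_im hlO ⟨_, rfl, hc⟩
  have hE : ∀ e ∈ rac (adj l h), j e ∈ Bs := by
    intro e he
    apply hBsR
    refine isAlgebraic_mono ?_ (isAlgebraic_map j (mem_rac.1 he))
    exact (map_adj_le j _ _).trans (adj_le hlB hhB)
  have hVE : ∀ v ∈ VS ℓ (rac (adj l h)), Θ.symm v ∈ VS ℓ (adj k t) := by
    rintro _ ⟨e, he, he0, rfl⟩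
    refine D.mem_of_ev hk hfgk hF ht htF halg ?_
    rw [LinearEquiv.apply_symm_apply]
    obtain ⟨y, ⟨f, rfl, hf⟩, hy⟩ := P.mem_im.1 (hE e he)
    have h2 : P.ev (gm D.U (fun _ => e)) = P.ev (gm D.U f) := hy.symm
    rw [ulP_ev_eq (hval e) (Eventually.of_forall fun i => hO i _ (hf i))] at h2
    filter_upwards [h2, hu e he0] with i hi1 hi2
    have h4 : (D.O i).valuation (f i) = 1 := by
      have h5 : f i = e + -(e - f i) := by ring
      have h6 : (D.O i).valuation (-(e - f i)) < (D.O i).valuation e := by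
        rw [Valuation.map_neg, hi2]
        exact hi1
      rw [h5, Valuation.map_add_eq_of_lt_left _ h6, hi2]
    have h3 := cl_sub_cl_mem_U1 (ℓ := ℓ) h4 hi1
    rwa [cl_const hl hℓ (hf i), sub_zero] at h3
  obtain ⟨y, hy⟩ := aeu_indep hl htrl h
  refine ⟨rac (adj l h), ⟨(le_adj _ _).trans (le_rac _), RAC_rac _, h,
    le_rac _ (mem_adj _ _), hh, fun z hz => mem_rac.1 hz⟩, fun v => ⟨fun hv => ?_, fun hv => ?_⟩⟩
  · have h1 := hVE _ hv
    rwa [LinearEquiv.symm_apply_apply] at h1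
  · refine k2 hl hfgl hh hy ?_
    refine (infinite_of_isAlgClosed hl).mono fun β hβ => ⟨hβ, ?_⟩
    have h1 : cl ℓ (h - β) ∈ VS ℓ (rac (adj l h)) :=
      cl_mem_VS (Subfield.sub_mem _ (le_rac _ (mem_adj _ _))
        (le_rac _ (le_adj _ _ hβ)))
    have h2 := adj_isotropic (ℓ := ℓ) hk ht.1 _ hv _ (hVE _ h1)
    have h3 := hΘ.orth h2
    rwa [LinearEquiv.apply_symm_apply] at h3

end Vale.Agent.P019P
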