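import Vale.Agent.P019Q.ApE
import Vale.Agent.P019Q.SA1
import Vale.Agent.P019Q.SA4

/-!
# Step A for surfaces over closures of finite fields
-/

namespace Vale.Agent.P019P

open Vale.Agent.P019

set_option linter.style.haveILetI false
set_option linter.unusedSectionVars false

open Polynomial Filter

variable {K L : Type*} [Field K] [Field L] [PerfectField K] [PerfectField L] {ℓ : ℕ}
  [Fact ℓ.Prime] [NeZero (ℓ : K)] [NeZero (ℓ : L)] {Θ : V ℓ K ≃ₗ[ZMod ℓ] V ℓ L}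

theorem exists_dat {k : Subfield K} (hk : IsAlgClosed k) (hfgk : FG k (⊤ : Subfield K))
    {l : Subfield L} (hl : IsAlgClosed l) (hΘ : Compatible Θ) {G : Subfield K} {t s : K}
    (hfr : Frame k G t s) : Nonempty (Dat k (adj G s) t Θ) := by
  classical
  have hkF : k ≤ adj G s := hfr.le.trans (le_adj G s)
  have hsk : s ∉ k := fun h => hfr.ss (isAlgebraic_of_mem (hfr.le h))
  obtain ⟨θ, hθ⟩ := hfr.nice hfgk
  set S : Set K := {b | b ∈ k ∧ ∃ (W : ValuationSubring K) (O : ValuationSubring L),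
    Over W (adj G s) t b ∧ Tr Θ W (t - b) O ∧ IsUnif W (t - b)} with hS
  have hinf : S.Infinite := by
    rw [ae_iff] at hθ
    refine ((infinite_of_isAlgClosed hk).sdiff hθ).mono ?_
    rintro b ⟨hb, hbad⟩
    refine ⟨hb, ?_⟩
    have hgood : ∀ W : ValuationSubring K, Over W (adj G s) t b →
        Nice W (adj G s) (t - b) θ := by
      by_contra hcon
      exact hbad ⟨hkF hb, hcon⟩
    obtain ⟨W, hW⟩ := exists_over hfr.tt (hkF hb)
    have hN := hgood W hW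
    obtain ⟨O, hO⟩ := exists_tr0 hk hfgk hl hΘ hkF (hfr.fg.adj_right s) hN hsk
      (hN.triv.mono (adj_mono hfr.le s))
    exact ⟨W, O, hW, hO, hN.unif⟩
  choose W O hW hO hu using fun i : S => i.2.2
  exact ⟨⟨S, hinf.to_subtype, fun b hb => hb.1, W, O, hW, hO, hu⟩⟩

theorem sa_inf {k : Subfield K} (hk : IsAlgClosed k) {t : K} (ht : Good k t) (n : ℕ) :
    ∃ x : Fin n → L, (∀ i, x i ∈ {z : L | z ≠ 0 ∧ Θ.symm (cl ℓ z) ∈ VS ℓ (adj k t)}) ∧
      ∀ i j, i ≠ j → cl ℓ (x i) ≠ cl ℓ (x j) := by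
  classical
  haveI : Infinite (k : Set K) := (infinite_of_isAlgClosed hk).to_subtype
  let c : ℕ ↪ (k : Set K) := Infinite.natEmbedding _
  choose x hx0 hx using fun i : Fin n => cl_surj ℓ (Θ (cl ℓ (t - (c i : K))))
  refine ⟨x, fun i => ⟨hx0 i, ?_⟩, fun i j hij h => ?_⟩
  · rw [hx, LinearEquiv.symm_apply_apply]
    exact cl_mem_VS (Subfield.sub_mem _ (mem_adj k t) (le_adj k t (c i).2))
  · rw [hx, hx] at h
    have h1 := Θ.injective h
    have hne : (c i : K) ≠ c j := by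
      intro h2
      exact hij (Fin.ext (c.injective (Subtype.ext h2)))
    have h2 := good_independent (ℓ := ℓ) hk ht {(c i : K), (c j : K)} (by
      intro a ha
      rw [Finset.mem_insert, Finset.mem_singleton] at ha
      rcases ha with rfl | rfl
      · exact (c i).2
      · exact (c j).2) (fun a => if a = c i then (1 : ZMod ℓ) else -1) (by
      rw [Finset.sum_pair hne, if_pos rfl, if_neg hne.symm, one_smul, neg_smul, one_smul, h1,
        add_neg_cancel]) (c i) (by simp)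
    rw [if_pos rfl] at h2
    exact one_ne_zero h2

theorem stepA2 {k : Subfield K} (hk : IsAlgClosed k) (hfgk : FG k (⊤ : Subfield K))
    (hfk : Fin' k) {l : Subfield L} (hl : IsAlgClosed l) (hfgl : FG l (⊤ : Subfield L))
    (hfl : Fin' l) (hΘ : Compatible Θ) {t₀ s₀ : K} (hK : Srf k t₀ s₀) {x y : L} (hL : Srf l x y)
    {t : K} (ht : Good k t) : ∃ E : Subfield L, Crv l E ∧
      ∀ v, Θ v ∈ VS ℓ E ↔ v ∈ VS ℓ (adj k t) := by
  classical
  have htk : ¬ IsAlgebraic k t := fun h => ht.1 (RAC_of_isAlgClosed k hk t h)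
  obtain ⟨s, hs, hs'⟩ := rsb_exch hK htk
  have hfr0 : Frame k k s t := ⟨le_rfl, hK.fg, hs, htk, hs'⟩
  have hfr : Frame k k t s := hfr0.swap
  have hF : RatF k (adj k s) := RatF.base.step hfr.ss
  have htrl : ∃ x y : L, x ∉ l ∧ ¬ IsAlgebraic (adj l x) y :=
    ⟨y, x, fun h => hL.ss (isAlgebraic_of_mem h), hL.tt⟩
  obtain ⟨D⟩ := exists_dat (Θ := Θ) hk hfgk hl hΘ hfr
  have hu : Ulu D.U D.O := D.ulu hk hfgk hl hfgl hΘ htrl hF ht hfr.tt hfr.alg
  have hO : ∀ i, TrivOn (D.O i) l := fun i => hfl.triv (D.O i)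
  by_cases hcase : ∃ h : L, h ∉ l ∧ ∃ c : D.S → L, (∀ i, c i ∈ l) ∧
      ∀ᶠ i in D.U, (D.O i).valuation (h - c i) < 1
  · obtain ⟨h, hh, c, hc, hhc⟩ := hcase
    exact D.case_one hk hfgk hl hfgl hΘ htrl hF ht hfr.tt hfr.alg hO hh hc hhc
  exfalso
  apply hcase
  have hlO : ∀ x ∈ uSub D.U (fun _ => l), x ∈ (ulP D.U D.O).O :=
    ulP_triv (Eventually.of_forall hO)
  have hnot : ∀ g : L, g ∉ l → ∀ᶠ i in D.U, rs (D.O i) g ∉ bar (hO i) := by
    intro g hg
    refine hu.notMem_bar hO hlO fun h => hcase ?_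
    obtain ⟨c, hc, hc'⟩ := (hu.j_mem_iff hO hlO).1 h
    exact ⟨g, hg, c, hc, hc'⟩
  have hdeg : ∀ g : L, g ∉ l → ∃ d : ℕ, ∀ᶠ i in D.U, rs (D.O i) g ∉ bar (hO i) ∧
      Module.Finite (adj (bar (hO i)) (rs (D.O i) g)) (IsLocalRing.ResidueField (D.O i)) ∧
      Module.finrank (adj (bar (hO i)) (rs (D.O i) g)) (IsLocalRing.ResidueField (D.O i)) ≤ d := by
    intro g hg
    obtain ⟨d, hd⟩ := deg_bound hk hfgk hfk hl hfgl hfl hΘ hfr hL hg
    have hg0 : g ≠ 0 := fun h => hg (h ▸ l.zero_mem)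
    refine ⟨d, ?_⟩
    filter_upwards [D.ev hd, hnot g hg, hu g hg0] with i h1 h2 h3
    haveI : PerfectField (IsLocalRing.ResidueField (D.O i)) := rs_perfect (hO i)
    have hCv := (Srf.val hl hfgl hL (hO i) (dbd_ne_top (D.tr i) (D.unif i)) ⟨_, h2⟩).2.1
    exact ⟨h2, hCv.finite h2, h1 (D.W i) (D.ov i) (D.O i) (D.tr i) h3 h2⟩
  -- the transcendence basis
  have hyl : y ∉ l := fun h => hL.ss (isAlgebraic_of_mem h)
  have hxy' : ∀ z, IsAlgebraic (adj l y) (y + z) → IsAlgebraic (adj l y) z := by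
    intro z hz
    have h1 : IsAlgebraic (adj l y) (y + z - y) :=
      hz.sub (isAlgebraic_of_mem (mem_adj l y))
    rwa [add_sub_cancel_left] at h1
  have hxl : ¬ IsAlgebraic l x := fun h => hL.tt (isAlgebraic_mono (le_adj l y) h)
  have hyx : ¬ IsAlgebraic (adj l x) y := fun h => hL.tt (exchange hL.ss h)
  have hsl : y + x ∉ l := fun h => hL.tt (hxy' x (isAlgebraic_of_mem (le_adj l y h)))
  have hxl' : x ∉ l := fun h => hxl (isAlgebraic_of_mem h)
  obtain ⟨d1, hd1⟩ := hdeg y hyl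
  obtain ⟨d2, hd2⟩ := hdeg x hxl'
  obtain ⟨d3, hd3⟩ := hdeg (y + x) hsl
  set d := max d1 (max d2 d3) with hd
  have h1d : d1 ≤ d := le_max_left _ _
  have h2d : d2 ≤ d := (le_max_left _ _).trans (le_max_right _ _)
  have h3d : d3 ≤ d := (le_max_right _ _).trans (le_max_right _ _)
  have hrel : ∀ᶠ i in D.U, BRel (bar (hO i)) d (rs (D.O i) y) (rs (D.O i) x) ∨
      (BRel (bar (hO i)) d (rs (D.O i) y) (rs (D.O i) (y + x)) ∨
        BRel (bar (hO i)) d (rs (D.O i) x) (rs (D.O i) (y + x))) := by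
    filter_upwards [hd1, hd2, hd3, hu.ev_mem y, hu.ev_mem x] with i h1 h2 h3 h4 h5
    haveI : PerfectField (IsLocalRing.ResidueField (D.O i)) := rs_perfect (hO i)
    have h6 := rs_add h4 h5
    rw [h6] at h3 ⊢
    exact exists_brel (bar_isAlgClosed (hO i) hl) ⟨h1.1, h1.2.1, h1.2.2.trans h1d⟩
      ⟨h2.1, h2.2.1, h2.2.2.trans h2d⟩ ⟨h3.1, h3.2.1, h3.2.2.trans h3d⟩
  -- the classes
  have hX : ∀ z ∈ {z : L | z ≠ 0 ∧ Θ.symm (cl ℓ z) ∈ VS ℓ (adj k t)}, z ≠ 0 ∧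
      ∀ᶠ i in D.U, cl ℓ z ∈ U1 ℓ (D.O i) := by
    rintro z ⟨hz0, hz⟩
    refine ⟨hz0, ?_⟩
    have h1 := D.ev_of_mem hk hF.le ht.1 hz
    rwa [LinearEquiv.apply_symm_apply] at h1
  have hinf := sa_inf (Θ := Θ) hk ht
  have hspec : ∀ (y1 y2 : L) (d0 : ℕ), ¬ IsAlgebraic l y1 → ¬ IsAlgebraic (adj l y1) y2 →
      (∀ z : L, IsAlgebraic (adj (adj l y1) y2) z) →
      (∀ᶠ i in D.U, rs (D.O i) y1 ∉ bar (hO i) ∧
      Module.Finite (adj (bar (hO i)) (rs (D.O i) y1)) (IsLocalRing.ResidueField (D.O i)) ∧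
      Module.finrank (adj (bar (hO i)) (rs (D.O i) y1))
        (IsLocalRing.ResidueField (D.O i)) ≤ d0) →
      (∀ᶠ i in D.U, BRel (bar (hO i)) d (rs (D.O i) y1) (rs (D.O i) y2)) →
      ∃ h : L, h ∉ l ∧ ∃ c : D.S → L, (∀ i, c i ∈ l) ∧
        ∀ᶠ i in D.U, (D.O i).valuation (h - c i) < 1 := fun y1 y2 d0 h1 h2 halg h4 h5 =>
    hu.special hl hfgl hO h1 h2 halg (h4.mono fun i hi _ => hi.2) h5 hX hinf
  have hle1 : adj (adj l y) x ≤ adj (adj l y) (y + x) := by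
    refine adj_le (le_adj _ _) ?_
    have h1 := Subfield.sub_mem _ (mem_adj (adj l y) (y + x))
      (le_adj (adj l y) (y + x) (mem_adj l y))
    rwa [add_sub_cancel_left] at h1
  have hle2 : adj (adj l y) x ≤ adj (adj l x) (y + x) := by
    refine adj_le (adj_le ((le_adj l x).trans (le_adj _ _)) ?_) (le_adj _ _ (mem_adj l x))
    have h1 := Subfield.sub_mem _ (mem_adj (adj l x) (y + x))
      (le_adj (adj l x) (y + x) (mem_adj l x))
    rwa [add_sub_cancel_right] at h1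
  rw [Ultrafilter.eventually_or, Ultrafilter.eventually_or] at hrel
  rcases hrel with h | h | h
  · exact hspec y x d1 hL.ss hL.tt hL.alg hd1 h
  · exact hspec y (y + x) d1 hL.ss (fun h' => hL.tt (hxy' x h'))
      (fun z => isAlgebraic_mono hle1 (hL.alg z)) hd1 h
  · refine hspec x (y + x) d2 hxl (fun h' => hyx ?_)
      (fun z => isAlgebraic_mono hle2 (hL.alg z)) hd2 h
    have h1 : IsAlgebraic (adj l x) (y + x - x) :=
      h'.sub (isAlgebraic_of_mem (mem_adj l x))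
    rwa [add_sub_cancel_right] at h1

end Vale.Agent.P019P
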