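import Vale.Agent.P019Q.E1
import Vale.Agent.P019Q.E2
import Vale.Agent.P019Q.E5a
import Vale.Agent.P019Q.E4
import Vale.Agent.P019Q.StepA2

/-!
# Step A in transcendence degree at least three
-/

namespace Vale.Agent.P019P

open Vale.Agent.P019

set_option linter.style.haveILetI false
set_option linter.unusedSectionVars false

open Polynomial Filter

variable {K L : Type*} [Field K] [Field L] [PerfectField K] [PerfectField L] {ℓ : ℕ}
  [Fact ℓ.Prime] [NeZero (ℓ : K)] [NeZero (ℓ : L)] {Θ : V ℓ K ≃ₗ[ZMod ℓ] V ℓ L}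

/-- the residue fields of `W` and `O` correspond: `Θ` induces a multiple of an isomorphism. -/
def ResIso (ℓ : ℕ) {K L : Type*} [Field K] [Field L] (Θ : V ℓ K ≃ₗ[ZMod ℓ] V ℓ L)
    (k : Subfield K) (l : Subfield L) (W : ValuationSubring K) (O : ValuationSubring L) : Prop :=
  ∃ (hW : TrivOn W k) (hO : TrivOn O l) (e : (ZMod ℓ)ˣ)
    (α : IsLocalRing.ResidueField W ≃+* IsLocalRing.ResidueField O),
    (∀ x, x ∈ bar hW ↔ α x ∈ bar hO) ∧
    ∀ (z : K) (y : L), W.valuation z = 1 → O.valuation y = 1 → Θ (cl ℓ z) = cl ℓ y →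
      cl ℓ (rs O y) = (e : ZMod ℓ) • cl ℓ (α (rs W z))

section e5map

variable {K Ω : Type*} [Field K] [Field Ω]

theorem e5_gsp_map [PerfectField K] (j : K →+* Ω) [DecidableEq Ω] (k : Subfield K)
    (S : Finset K) : gsp (k.map j) (S.image j) = (gsp k S).map j := by
  haveI := gsp_perfect k S
  apply le_antisymm
  · refine gsp_le (sub_map_mono j (le_gsp k S)) fun x hx => ?_
    obtain ⟨y, hy, rfl⟩ := Finset.mem_image.1 hx
    exact ⟨y, mem_gsp hy, rfl⟩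
  · refine (map_pf_le j _).trans (pf_mono ?_)
    rw [Subfield.map_sup, RingHom.map_field_closure, Finset.coe_image]

theorem e5_indp [PerfectField K] (j : K →+* Ω) [DecidableEq Ω] {k : Subfield K} {B : Finset K}
    (hB : Indp k B) : Indp (k.map j) (B.image j) := by
  classical
  intro S hS v hv hvS h
  obtain ⟨v0, hv0, rfl⟩ := Finset.mem_image.1 hv
  have hS' : S = (B.filter (fun x => j x ∈ S)).image j := by
    ext x
    constructor
    · intro hx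
      obtain ⟨y, hy, rfl⟩ := Finset.mem_image.1 (hS hx)
      exact Finset.mem_image_of_mem j (Finset.mem_filter.2 ⟨hy, hx⟩)
    · intro hx
      obtain ⟨y, hy, rfl⟩ := Finset.mem_image.1 hx
      exact (Finset.mem_filter.1 hy).2
  rw [hS', e5_gsp_map] at h
  exact hB _ (Finset.filter_subset _ _) v0 hv0 (fun h1 => hvS (Finset.mem_filter.1 h1).2)
    (isAlgebraic_of_map j h)

theorem e5_notMem_rcl {k : Subfield Ω} {B : Finset Ω} [DecidableEq Ω] (hB : Indp k B) {v : Ω}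
    (hv : v ∈ B) : v ∉ rcl k (B.erase v) := fun h =>
  hB _ (Finset.erase_subset _ _) v hv (Finset.notMem_erase _ _)
    (isAlgebraic_mono (le_pf _) (mem_rac.1 h))

theorem e5_rcl_ac [IsAlgClosed Ω] (k : Subfield Ω) (T : Finset Ω) : IsAlgClosed (rcl k T) := by
  haveI : IsAlgClosed (⊤ : Subfield Ω) :=
    IsAlgClosed.of_ringEquiv _ _ (Subfield.topEquiv (K := Ω)).symm
  exact isAlgClosed_of_RAC (k := ⊤) inferInstance (rcl_RAC _ _) le_top

theorem e5_map_ac (j : K →+* Ω) {k : Subfield K} (hk : IsAlgClosed k) :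
    IsAlgClosed (k.map j) := by
  let φ : k →+* k.map j := (j.comp k.subtype).codRestrict (k.map j) fun x => ⟨x, x.2, rfl⟩
  have hφ : Function.Bijective φ := by
    refine ⟨φ.injective, ?_⟩
    rintro ⟨_, x, hx, rfl⟩
    exact ⟨⟨x, hx⟩, rfl⟩
  let e : k ≃+* k.map j := RingEquiv.ofBijective φ hφ
  refine IsAlgClosed.of_exists_root _ fun p _ hirr => ?_
  obtain ⟨x, hx⟩ := IsAlgClosed.exists_root (p.map (e.symm : k.map j →+* k)) (by
    rw [degree_map]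
    exact (degree_pos_of_irreducible hirr).ne')
  refine ⟨e x, ?_⟩
  have h1 : e.symm (eval (e x) p) = 0 := by
    rw [← hx, eval_map, ← RingEquiv.coe_toRingHom, ← eval₂_at_apply, RingEquiv.coe_toRingHom,
      RingEquiv.symm_apply_apply]
  exact (map_eq_zero_iff e.symm e.symm.injective).1 h1

/-- one of the values of a function to a finite type is attained almost everywhere. -/
theorem e5_const {I α : Type*} [Finite α] (U : Ultrafilter I) (f : I → α) :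
    ∃ a, ∀ᶠ i in U, f i = a := by
  by_contra hcon
  push Not at hcon
  have h2 : ∀ᶠ i in U, ∀ a, f i ≠ a := eventually_all.2 hcon
  obtain ⟨i, hi⟩ := h2.exists
  exact hi _ rfl

end e5map

section e5pt

/-- the data at one point. -/
structure E5D (ℓ : ℕ) {K L : Type*} [Field K] [Field L] (k : Subfield K) (l : Subfield L)
    (F : Subfield K) (Θ : V ℓ K ≃ₗ[ZMod ℓ] V ℓ L) (W : ValuationSubring K)
    (O : ValuationSubring L) (Ω : Type*) [Field Ω] [Algebra K Ω] where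
  hF : TrivOn W F
  hW : TrivOn W k
  hO : TrivOn O l
  e : (ZMod ℓ)ˣ
  α : IsLocalRing.ResidueField W ≃+* IsLocalRing.ResidueField O
  hα : ∀ x, x ∈ bar hW ↔ α x ∈ bar hO
  hcl : ∀ (z : K) (y : L), W.valuation z = 1 → O.valuation y = 1 → Θ (cl ℓ z) = cl ℓ y →
    cl ℓ (rs O y) = (e : ZMod ℓ) • cl ℓ (α (rs W z))
  ι : IsLocalRing.ResidueField W →+* Ω
  hι : ∀ z ∈ F, ι (rs W z) = algebraMap K Ω z

variable {K L : Type*} [Field K] [Field L] {ℓ : ℕ} {Θ : V ℓ K ≃ₗ[ZMod ℓ] V ℓ L}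
  {k F : Subfield K} {l : Subfield L} {W : ValuationSubring K} {O : ValuationSubring L}
  {Ω : Type*} [Field Ω] [Algebra K Ω]

theorem e5_exists [IsAlgClosed Ω] {π θ : K} (hN : Nice W F π θ) (h : ResIso ℓ Θ k l W O) :
    Nonempty (E5D ℓ k l F Θ W O Ω) := by
  obtain ⟨hW, hO, e, α, hα, hcl⟩ := h
  obtain ⟨ι, hι⟩ := exists_emb hN.triv hN.alg_bar (Ω := Ω)
  exact ⟨⟨hN.triv, hW, hO, e, α, hα, hcl, ι, hι⟩⟩

/-- the embedding of the residue field. -/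
noncomputable def E5D.ρ (P : E5D ℓ k l F Θ W O Ω) : IsLocalRing.ResidueField O →+* Ω :=
  P.ι.comp (P.α.symm : IsLocalRing.ResidueField O →+* IsLocalRing.ResidueField W)

theorem E5D.ρ_apply (P : E5D ℓ k l F Θ W O Ω) (c : IsLocalRing.ResidueField O) :
    P.ρ c = P.ι (P.α.symm c) := rfl

theorem E5D.ρ_mem (P : E5D ℓ k l F Θ W O Ω) (c : IsLocalRing.ResidueField O) :
    P.ρ c ∈ P.ι.fieldRange := ⟨_, rfl⟩

theorem E5D.map_le (P : E5D ℓ k l F Θ W O Ω) : F.map (algebraMap K Ω) ≤ P.ι.fieldRange := by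
  rintro _ ⟨x, hx, rfl⟩
  exact ⟨rs W x, P.hι x hx⟩

theorem E5D.ρ_l (P : E5D ℓ k l F Θ W O Ω) (hkF : k ≤ F) {c : L} (hc : c ∈ l) :
    P.ρ (rs O c) ∈ k.map (algebraMap K Ω) := by
  have h1 : P.α.symm (rs O c) ∈ bar P.hW := by
    rw [P.hα, RingEquiv.apply_symm_apply]
    exact rs_mem_bar P.hO hc
  obtain ⟨z, hz, hz'⟩ := (mem_bar P.hW).1 h1
  refine ⟨z, hz, ?_⟩
  rw [P.ρ_apply, ← hz']
  exact (P.hι z (hkF hz)).symm

theorem E5D.of_ρ (P : E5D ℓ k l F Θ W O Ω) (hkF : k ≤ F) {c : IsLocalRing.ResidueField O}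
    (h : P.ρ c ∈ k.map (algebraMap K Ω)) : c ∈ bar P.hO := by
  obtain ⟨z, hz, hz'⟩ := h
  have h1 : P.α.symm c = rs W z := by
    apply P.ι.injective
    rw [P.hι z (hkF hz)]
    exact hz'.symm
  have h2 : P.α.symm c ∈ bar P.hW := by
    rw [h1]
    exact rs_mem_bar P.hW hz
  rw [P.hα, RingEquiv.apply_symm_apply] at h2
  exact h2

/-- transport of monic polynomials. -/
theorem E5D.deg (P : E5D ℓ k l F Θ W O Ω) {G : Subfield Ω} (hG : G = F.map (algebraMap K Ω))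
    {d : ℕ} (h : ∀ c : IsLocalRing.ResidueField W,
      ∃ p : (bar P.hF)[X], p.Monic ∧ p.natDegree ≤ d ∧ aeval c p = 0) {c : Ω}
    (hc : c ∈ P.ι.fieldRange) : ∃ p : G[X], p.Monic ∧ p.natDegree ≤ d ∧ aeval c p = 0 := by
  subst hG
  obtain ⟨c, rfl⟩ := hc
  obtain ⟨p, hp, hpd, hpc⟩ := h c
  have hmem : ∀ x : bar P.hF, (P.ι.comp (bar P.hF).subtype) x ∈ F.map (algebraMap K Ω) := by
    rintro ⟨x, hx⟩
    obtain ⟨z, hz, rfl⟩ := (mem_bar P.hF).1 hx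
    exact ⟨z, hz, (P.hι z hz).symm⟩
  let φ : bar P.hF →+* (F.map (algebraMap K Ω) : Subfield Ω) :=
    (P.ι.comp (bar P.hF).subtype).codRestrict _ hmem
  refine ⟨p.map φ, hp.map φ, natDegree_map_le.trans hpd, ?_⟩
  rw [aeval_def, eval₂_map]
  have h1 : (algebraMap (F.map (algebraMap K Ω) : Subfield Ω) Ω).comp φ =
      P.ι.comp (algebraMap (bar P.hF) (IsLocalRing.ResidueField W)) := rfl
  rw [h1, ← hom_eval₂, ← aeval_def, hpc, map_zero]

theorem E5D.root (P : E5D ℓ k l F Θ W O Ω) [Fact ℓ.Prime] {z : L} (hz : O.valuation z = 1)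
    (h : cl ℓ z ∈ U1 ℓ O) : ∃ w ∈ P.ι.fieldRange, w ^ ℓ = P.ρ (rs O z) := by
  have h2 : rs O z ≠ 0 := (rs_ne_zero (mem_of_val hz)).2 hz
  rw [cl_mem_U1_iff hz, cl_eq_zero_iff ℓ h2] at h
  obtain ⟨c, -, hc⟩ := h
  exact ⟨P.ρ c, P.ρ_mem c, by rw [← map_pow, hc]⟩

theorem E5D.cl_eq (P : E5D ℓ k l F Θ W O Ω) [Fact ℓ.Prime] {x : K} (hx : x ∈ F) (hx0 : x ≠ 0)
    {z : L} (hz : O.valuation z = 1) (h : Θ (cl ℓ x) = cl ℓ z) {n : ℕ}
    (hn : (n : ZMod ℓ) * (P.e : ZMod ℓ) = 1) :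
    ∃ w ∈ P.ι.fieldRange, w ≠ 0 ∧ algebraMap K Ω x = P.ρ (rs O z) ^ n * w ^ ℓ := by
  have h1 := P.hcl x z (P.hF.eq_one hx hx0) hz h
  have h2 : rs O z ≠ 0 := (rs_ne_zero (mem_of_val hz)).2 hz
  have h3 : rs W x ≠ 0 := (rs_ne_zero (P.hF _ hx)).2 (P.hF.eq_one hx hx0)
  have h4 : cl ℓ (P.α (rs W x)) = cl ℓ (rs O z ^ n) := by
    rw [cl_pow, h1, ← Nat.cast_smul_eq_nsmul (ZMod ℓ), smul_smul, hn, one_smul]
  obtain ⟨w, hw0, hw⟩ := (cl_eq_iff ℓ ((map_ne_zero P.α).2 h3) (pow_ne_zero n h2)).1 h4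
  refine ⟨P.ρ w, P.ρ_mem w, (map_ne_zero P.ρ).2 hw0, ?_⟩
  rw [← map_pow, ← map_pow, ← map_mul, ← hw, P.ρ_apply, RingEquiv.symm_apply_apply, P.hι x hx]

end e5pt

section e5ul

variable {I : Type*} {U : Ultrafilter I} {Ω : Type*} [Field Ω] [PerfectField Ω] {ℓ : ℕ}
  [Fact ℓ.Prime] [NeZero (ℓ : Ω)] {E : Subfield Ω} {R : I → Subfield Ω} {s : Ω} {θ X Y : I → Ω}
  {m : ℕ}

theorem e5_five_mono {E R : Subfield Ω} {m m' : ℕ} (h : m ≤ m') {s Z : Ω}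
    (hZ : Five' ℓ E R m s Z) : Five' ℓ E R m' s Z := by
  obtain ⟨S, hS, h1⟩ := hZ
  refine ⟨S, hS, fun c hc => ?_⟩
  obtain ⟨h2, h3, y, hy, hy0, hyr, h4⟩ := h1 c hc
  exact ⟨h2, h3, y, hy, hy0, hyr.mono le_rfl h, h4⟩

theorem e5_dep (hE : IsAlgClosed E) (hR : ∀ i, PerfectField (R i)) (hsR : ∀ i, s ∈ R i)
    (hsE : s ∉ E) (hθR : ∀ i, θ i ∈ R i)
    (hθ : ∀ᶠ i in U, BRel E m s (θ i) ∧ R i ≤ adj (adj E s) (θ i))
    (hX : ∀ i, X i ∈ R i) (hY : ∀ i, Y i ∈ R i) (h5X : ∀ᶠ i in U, Five' ℓ E (R i) m s (X i))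
    (h5Y : ∀ᶠ i in U, Five' ℓ E (R i) m s (Y i))
    (h5XY : ∀ᶠ i in U, Five' ℓ E (R i) m s (X i + Y i)) :
    gm U X ∈ uSub U (fun _ => E) ∨
      IsAlgebraic (adj (uSub U (fun _ => E)) (gm U X)) (gm U Y) := by
  by_cases h2 : gm U X ∈ uSub U (fun _ => E)
  · exact Or.inl h2
  right
  have h2' : ∀ᶠ i in U, X i ∉ E := by
    rw [Ultrafilter.eventually_not, ← gm_mem_uSub]
    exact h2
  have h3 : ∀ᶠ i in U, BRel E (28 * m ^ 2 + 1) (X i) (Y i) := by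
    filter_upwards [hθ, h5X, h5Y, h5XY, h2'] with i h1 h3 h4 h5 h6
    haveI := hR i
    exact (dirb ℓ hE (hsR i) (hθR i) hsE h1.2 h1.1 (hX i) (hY i) h3 h4 h5).resolve_left h6
  exact brel_alg' (isAlgClosed_uSub fun _ => hE) (brel_lim h3) h2

theorem e5_tw (hE : IsAlgClosed E) (hR : ∀ i, PerfectField (R i)) (hsR : ∀ i, s ∈ R i)
    (hsE : s ∉ E) (hθR : ∀ i, θ i ∈ R i)
    (hθ : ∀ᶠ i in U, BRel E m s (θ i) ∧ R i ≤ adj (adj E s) (θ i))
    (hX : ∀ i, X i ∈ R i) (h5X : ∀ᶠ i in U, Five' ℓ E (R i) m s (X i))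
    (hXE : gm U X ∉ uSub U (fun _ => E)) :
    ∃ f : I → Ω, Twi f s ∧ IsAlgebraic (adj (uSub U (fun _ => E)) (gm U f)) (gm U X) := by
  have h2 : ∀ᶠ i in U, X i ∉ E := by
    rw [Ultrafilter.eventually_not, ← gm_mem_uSub]
    exact hXE
  have h3 : ∀ᶠ i in U, ∃ σ : Ω, (∃ a b : ℕ, σ ^ ringExpChar Ω ^ a = s ^ ringExpChar Ω ^ b) ∧
      BRel E (28 * m ^ 2 + 1) (X i) σ := by
    filter_upwards [hθ, h5X, h2] with i h1 h3 h4
    haveI := hR i
    obtain ⟨a, b, σ, h5, h6⟩ := dirb_tw ℓ hE (hsR i) (hθR i) hsE h1.2 h1.1 (hX i) h4 h3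
    exact ⟨σ, ⟨a, b, h5⟩, h6⟩
  have h4 : ∀ i, ∃ σ : Ω, (∃ a b : ℕ, σ ^ ringExpChar Ω ^ a = s ^ ringExpChar Ω ^ b) ∧
      ((∃ σ : Ω, (∃ a b : ℕ, σ ^ ringExpChar Ω ^ a = s ^ ringExpChar Ω ^ b) ∧
        BRel E (28 * m ^ 2 + 1) (X i) σ) → BRel E (28 * m ^ 2 + 1) (X i) σ) := by
    intro i
    by_cases h : ∃ σ : Ω, (∃ a b : ℕ, σ ^ ringExpChar Ω ^ a = s ^ ringExpChar Ω ^ b) ∧
        BRel E (28 * m ^ 2 + 1) (X i) σ
    · obtain ⟨σ, h1, h2⟩ := h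
      exact ⟨σ, h1, fun _ => h2⟩
    · exact ⟨s, ⟨0, 0, rfl⟩, fun h' => absurd h' h⟩
  choose f hf hf' using h4
  refine ⟨f, hf, ?_⟩
  have h5 : BRel (uSub U (fun _ => E)) (28 * m ^ 2 + 1) (gm U X) (gm U f) :=
    brel_lim (h3.mono fun i hi => hf' i hi)
  have h6 := brel_alg' (isAlgClosed_uSub fun _ => hE) h5 hXE
  refine exchange ?_ h6
  intro h7
  have h8 := RAC_of_isAlgClosed _ (isAlgClosed_uSub fun _ => hE) _ h7
  rw [gm_mem_uSub] at h8
  obtain ⟨i, hi⟩ := h8.exists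
  obtain ⟨a, b, hab⟩ := hf i
  haveI : PerfectField E := inferInstance
  exact hsE (mem_of_pow_q (n := b) (by rw [← hab]; exact E.pow_mem hi _))

end e5ul

section e5fam

variable {K L : Type*} [Field K] [Field L] {ℓ : ℕ} [Fact ℓ.Prime]
  {Θ : V ℓ K ≃ₗ[ZMod ℓ] V ℓ L} {k F : Subfield K} {l : Subfield L} {Ω : Type*} [Field Ω]
  [Algebra K Ω] {I : Type*} {U : Ultrafilter I} {W : I → ValuationSubring K}
  {O : I → ValuationSubring L}

theorem e5_die (P : ∀ i, E5D ℓ k l F Θ (W i) (O i) Ω) {z : L}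
    (hz : ∀ᶠ i in U, (O i).valuation z = 1) (h : ∀ᶠ i in U, cl ℓ z ∈ U1 ℓ (O i)) :
    ∃ h ∈ uSub U (fun i => (P i).ι.fieldRange),
      h ^ ℓ = gm U (fun i => (P i).ρ (rs (O i) z)) := by
  have h1 : ∀ i, ∃ w ∈ (P i).ι.fieldRange, ((O i).valuation z = 1 → cl ℓ z ∈ U1 ℓ (O i) →
      w ^ ℓ = (P i).ρ (rs (O i) z)) := by
    intro i
    by_cases h : (O i).valuation z = 1 ∧ cl ℓ z ∈ U1 ℓ (O i)
    · obtain ⟨w, hw, hw'⟩ := (P i).root h.1 h.2
      exact ⟨w, hw, fun _ _ => hw'⟩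
    · exact ⟨0, Subfield.zero_mem _, fun h1 h2 => absurd ⟨h1, h2⟩ h⟩
  choose w hw hw' using h1
  refine ⟨gm U w, ⟨w, rfl, hw⟩, ?_⟩
  rw [← gm_pow, gm_eq]
  filter_upwards [hz, h] with i h1 h2
  exact hw' i h1 h2

theorem e5_ram (P : ∀ i, E5D ℓ k l F Θ (W i) (O i) Ω) {x : K} (hx : x ∈ F) (hx0 : x ≠ 0)
    {z : L} (hzx : Θ (cl ℓ x) = cl ℓ z) (hz : ∀ᶠ i in U, (O i).valuation z = 1) :
    ∃ e : ℕ, ∃ h ∈ uSub U (fun i => (P i).ι.fieldRange), h ≠ 0 ∧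
      gm U (fun _ => algebraMap K Ω x) = gm U (fun i => (P i).ρ (rs (O i) z)) ^ e * h ^ ℓ := by
  obtain ⟨e0, he0⟩ := e5_const U (fun i => (P i).e)
  have hn : (((((e0⁻¹ : (ZMod ℓ)ˣ) : ZMod ℓ).val : ℕ) : ZMod ℓ)) * (e0 : ZMod ℓ) = 1 := by
    rw [ZMod.natCast_zmod_val, ← Units.val_mul, inv_mul_cancel, Units.val_one]
  set n : ℕ := ((e0⁻¹ : (ZMod ℓ)ˣ) : ZMod ℓ).val
  have h1 : ∀ i, ∃ w ∈ (P i).ι.fieldRange, w ≠ 0 ∧ ((O i).valuation z = 1 → (P i).e = e0 →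
      algebraMap K Ω x = (P i).ρ (rs (O i) z) ^ n * w ^ ℓ) := by
    intro i
    by_cases h : (O i).valuation z = 1 ∧ (P i).e = e0
    · obtain ⟨w, hw, hw0, hw'⟩ := (P i).cl_eq hx hx0 h.1 hzx (n := n) (by rw [h.2]; exact hn)
      exact ⟨w, hw, hw0, fun _ _ => hw'⟩
    · exact ⟨1, Subfield.one_mem _, one_ne_zero, fun h1 h2 => absurd ⟨h1, h2⟩ h⟩
  choose w hw hw0 hw' using h1
  refine ⟨n, gm U w, ⟨w, rfl, hw⟩, ?_, ?_⟩
  · rw [Ne, gm_eq_zero, ← Ultrafilter.eventually_not]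
    exact Eventually.of_forall hw0
  · rw [← gm_pow, ← gm_pow, ← gm_mul, gm_eq]
    filter_upwards [hz, he0] with i h1 h2
    exact hw' i h1 h2

end e5fam

section e5main

variable {K L : Type*} [Field K] [Field L] [PerfectField K] [PerfectField L] {ℓ : ℕ}
  [Fact ℓ.Prime] [NeZero (ℓ : K)] [NeZero (ℓ : L)] {Θ : V ℓ K ≃ₗ[ZMod ℓ] V ℓ L}
  {k : Subfield K} {l : Subfield L} {B : Finset K} {t : K}

/-- the data, with good points only. -/
theorem e5_dat (hk : IsAlgClosed k) {F : Subfield K} {θ : K}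
    {q : ValuationSubring K → ValuationSubring L → Prop}
    (h : ∀ᶠ b in ae k, (∃ W : ValuationSubring K, Over W F t b) ∧
      ∀ W : ValuationSubring K, Over W F t b → Nice W F (t - b) θ)
    (h' : ∀ᶠ b in ae k, ∀ W : ValuationSubring K, Over W F t b →
      ∃ O : ValuationSubring L, Tr Θ W (t - b) O ∧ q W O) :
    ∃ D : Dat k F t Θ, ∀ i, Nice (D.W i) F (t - i) θ ∧ q (D.W i) (D.O i) := by
  set S : Set K := {b | b ∈ k ∧ ∃ (W : ValuationSubring K) (O : ValuationSubring L),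
    Over W F t b ∧ Tr Θ W (t - b) O ∧ Nice W F (t - b) θ ∧ q W O} with hS
  have hinf : S.Infinite := by
    have h2 := h.and h'
    rw [ae_iff] at h2
    refine ((infinite_of_isAlgClosed hk).sdiff h2).mono ?_
    rintro b ⟨hb, hbad⟩
    refine ⟨hb, ?_⟩
    by_contra hcon
    refine hbad ⟨hb, ?_⟩
    rintro ⟨⟨⟨W, hW⟩, hN⟩, hT⟩
    obtain ⟨O, hO, hq⟩ := hT W hW
    exact hcon ⟨W, O, hW, hO, hN W hW, hq⟩
  choose W O hW hO hN hq using fun i : S => i.2.2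
  exact ⟨⟨S, hinf.to_subtype, fun b hb => hb.1, W, O, hW, hO, fun i => (hN i).unif⟩,
    fun i => ⟨hN i, hq i⟩⟩

theorem e5_trl {n : ℕ} (hn : 0 < n) (h : Td l (n + 1)) :
    ∃ x y : L, x ∉ l ∧ ¬ IsAlgebraic (adj l x) y := by
  classical
  obtain ⟨B, hB, hi, -⟩ := h
  obtain ⟨x, hx, y, hy, hxy⟩ := Finset.one_lt_card.1 (by omega : 1 < B.card)
  refine ⟨x, y, fun hxl => ?_, fun h => ?_⟩
  · exact hi ∅ (Finset.empty_subset _) x hx (Finset.notMem_empty _)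
      (isAlgebraic_of_mem (le_gsp l ∅ hxl))
  · refine hi {x} (Finset.singleton_subset_iff.2 hx) y hy
      (by rw [Finset.mem_singleton]; exact fun h => hxy h.symm) ?_
    haveI := gsp_perfect l {x}
    exact isAlgebraic_mono (adj_le (le_gsp l {x}) (mem_gsp (Finset.mem_singleton_self x))) h

variable {Ω : Type*} [Field Ω] [IsAlgClosed Ω] [Algebra K Ω]

/-- the five points condition for almost all members of the family. -/
theorem e5_five [DecidableEq K] [DecidableEq Ω] (hk : IsAlgClosed k)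
    (hfgk : FG k (⊤ : Subfield K)) (hl : IsAlgClosed l) (hB : Indp k B)
    (ht : ¬ IsAlgebraic (gsp k B) t) (halg : ∀ z : K, IsAlgebraic (adj (gsp k B) t) z)
    (D : Dat k (gsp k B) t Θ) (hu : Ulu D.U D.O)
    (P : ∀ i, E5D ℓ k l (gsp k B) Θ (D.W i) (D.O i) Ω) (x : L) :
    ∃ m : ℕ, ∀ᶠ i in D.U, ∀ v ∈ B, Five' ℓ (rcl (k.map (algebraMap K Ω))
      ((B.erase v).image (algebraMap K Ω))) (P i).ι.fieldRange m (algebraMap K Ω v)
      ((P i).ρ (rs (D.O i) x)) := by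
  obtain ⟨m, hm⟩ := exists_five hk hfgk hl hB ht halg (Ω := Ω) Θ x
  refine ⟨m, ?_⟩
  have hx : ∀ᶠ i in D.U, (D.O i).valuation x ≤ 1 := by
    by_cases hx : x = 0
    · refine Eventually.of_forall fun i => ?_
      rw [hx, map_zero]
      exact zero_le_one
    · exact (hu x hx).mono fun i hi => hi.le
  filter_upwards [D.ev hm, hx] with i h1 h2
  exact h1 (D.W i) (D.ov i) (D.O i) h2 (P i).ι (P i).hι (P i).hW (P i).hO (P i).α (P i).e
    (P i).hα (P i).hcl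

theorem e5_gen [DecidableEq K] [DecidableEq Ω] (hk : IsAlgClosed k)
    (hfgk : FG k (⊤ : Subfield K)) (hB : Indp k B)
    (ht : ¬ IsAlgebraic (gsp k B) t) (halg : ∀ z : K, IsAlgebraic (adj (gsp k B) t) z)
    (D : Dat k (gsp k B) t Θ) (P : ∀ i, E5D ℓ k l (gsp k B) Θ (D.W i) (D.O i) Ω) :
    ∃ (m : ℕ) (θ : D.S → Ω), (∀ i, θ i ∈ (P i).ι.fieldRange) ∧ ∀ᶠ i in D.U, ∀ v ∈ B,
      BRel (rcl (k.map (algebraMap K Ω)) ((B.erase v).image (algebraMap K Ω))) m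
        (algebraMap K Ω v) (θ i) ∧
      (P i).ι.fieldRange ≤ adj (adj (rcl (k.map (algebraMap K Ω))
        ((B.erase v).image (algebraMap K Ω))) (algebraMap K Ω v)) (θ i) := by
  obtain ⟨m, θ, h⟩ := exists_gen hk hfgk hB ht halg (Ω := Ω)
  refine ⟨m, fun i => (P i).ι (rs (D.W i) θ), fun i => ⟨_, rfl⟩, ?_⟩
  filter_upwards [D.ev h] with i h1 v hv
  exact h1 (D.W i) (D.ov i) (P i).ι (P i).hι v hv

theorem e5_erase {v : K} (j : K →+* Ω) [DecidableEq K] [DecidableEq Ω] :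
    (B.image j).erase (j v) = (B.erase v).image j :=
  (Finset.image_erase j.injective B v).symm

theorem e5_notMem [DecidableEq K] [DecidableEq Ω] (hB : Indp k B) {v : K} (hv : v ∈ B) :
    algebraMap K Ω v ∉
      rcl (k.map (algebraMap K Ω)) ((B.erase v).image (algebraMap K Ω)) := by
  rw [← e5_erase]
  exact e5_notMem_rcl (e5_indp _ hB) (Finset.mem_image_of_mem _ hv)

end e5main

section e5lim

variable {K L : Type*} [Field K] [Field L] [PerfectField K] [PerfectField L] {ℓ : ℕ}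
  [Fact ℓ.Prime] [NeZero (ℓ : K)] [NeZero (ℓ : L)] {Θ : V ℓ K ≃ₗ[ZMod ℓ] V ℓ L}
  {k : Subfield K} {l : Subfield L} {B : Finset K} {t : K}
  {Ω : Type*} [Field Ω] [IsAlgClosed Ω] [Algebra K Ω] [DecidableEq K] [DecidableEq Ω]

theorem e5_hdep [NeZero (ℓ : Ω)] (hk : IsAlgClosed k)
    (hfgk : FG k (⊤ : Subfield K)) (hl : IsAlgClosed l) (hB : Indp k B)
    (ht : ¬ IsAlgebraic (gsp k B) t) (halg : ∀ z : K, IsAlgebraic (adj (gsp k B) t) z)
    (D : Dat k (gsp k B) t Θ) (hu : Ulu D.U D.O)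
    (P : ∀ i, E5D ℓ k l (gsp k B) Θ (D.W i) (D.O i) Ω) {v : K} (hv : v ∈ B) (x y : L) :
    gm D.U (fun i => (P i).ρ (rs (D.O i) x)) ∈ uSub D.U (fun _ =>
        rcl (k.map (algebraMap K Ω)) ((B.erase v).image (algebraMap K Ω))) ∨
      IsAlgebraic (adj (uSub D.U (fun _ =>
        rcl (k.map (algebraMap K Ω)) ((B.erase v).image (algebraMap K Ω))))
          (gm D.U (fun i => (P i).ρ (rs (D.O i) x))))
        (gm D.U (fun i => (P i).ρ (rs (D.O i) y))) := by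
  obtain ⟨m0, θ, hθR, hθ⟩ := e5_gen hk hfgk hB ht halg D P
  obtain ⟨m1, h1⟩ := e5_five hk hfgk hl hB ht halg D hu P x
  obtain ⟨m2, h2⟩ := e5_five hk hfgk hl hB ht halg D hu P y
  obtain ⟨m3, h3⟩ := e5_five hk hfgk hl hB ht halg D hu P (x + y)
  have e0 : m0 ≤ max (max m0 m1) (max m2 m3) := (le_max_left _ _).trans (le_max_left _ _)
  have e1 : m1 ≤ max (max m0 m1) (max m2 m3) := (le_max_right _ _).trans (le_max_left _ _)
  have e2 : m2 ≤ max (max m0 m1) (max m2 m3) := (le_max_left _ _).trans (le_max_right _ _)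
  have e3 : m3 ≤ max (max m0 m1) (max m2 m3) := (le_max_right _ _).trans (le_max_right _ _)
  refine e5_dep (ℓ := ℓ) (R := fun i => (P i).ι.fieldRange) (s := algebraMap K Ω v) (θ := θ)
    (m := max (max m0 m1) (max m2 m3)) (e5_rcl_ac _ _) (fun i => ?_)
    (fun i => (P i).map_le ⟨v, mem_gsp hv, rfl⟩) (e5_notMem hB hv) hθR ?_
    (fun i => (P i).ρ_mem _) (fun i => (P i).ρ_mem _) ?_ ?_ ?_
  · haveI := rs_perfect (P i).hW
    exact perfect_fieldRange _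
  · filter_upwards [hθ] with i hi
    exact ⟨(hi v hv).1.mono le_rfl e0, (hi v hv).2⟩
  · filter_upwards [h1] with i hi
    exact e5_five_mono e1 (hi v hv)
  · filter_upwards [h2] with i hi
    exact e5_five_mono e2 (hi v hv)
  · filter_upwards [h3, hu.ev_mem x, hu.ev_mem y] with i h4 h5 h6
    rw [← map_add, ← rs_add h5 h6]
    exact e5_five_mono e3 (h4 v hv)

theorem e5_htw [NeZero (ℓ : Ω)] (hk : IsAlgClosed k)
    (hfgk : FG k (⊤ : Subfield K)) (hl : IsAlgClosed l) (hB : Indp k B)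
    (ht : ¬ IsAlgebraic (gsp k B) t) (halg : ∀ z : K, IsAlgebraic (adj (gsp k B) t) z)
    (D : Dat k (gsp k B) t Θ) (hu : Ulu D.U D.O)
    (P : ∀ i, E5D ℓ k l (gsp k B) Θ (D.W i) (D.O i) Ω) {v : K} (hv : v ∈ B) (x : L)
    (hx : gm D.U (fun i => (P i).ρ (rs (D.O i) x)) ∉ uSub D.U (fun _ =>
        rcl (k.map (algebraMap K Ω)) ((B.erase v).image (algebraMap K Ω)))) :
    ∃ f : D.S → Ω, Twi f (algebraMap K Ω v) ∧
      IsAlgebraic (adj (uSub D.U (fun _ =>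
        rcl (k.map (algebraMap K Ω)) ((B.erase v).image (algebraMap K Ω)))) (gm D.U f))
        (gm D.U (fun i => (P i).ρ (rs (D.O i) x))) := by
  obtain ⟨m0, θ, hθR, hθ⟩ := e5_gen hk hfgk hB ht halg D P
  obtain ⟨m1, h1⟩ := e5_five hk hfgk hl hB ht halg D hu P x
  refine e5_tw (ℓ := ℓ) (R := fun i => (P i).ι.fieldRange) (θ := θ)
    (m := max m0 m1) (e5_rcl_ac _ _) (fun i => ?_)
    (fun i => (P i).map_le ⟨v, mem_gsp hv, rfl⟩) (e5_notMem hB hv) hθR ?_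
    (fun i => (P i).ρ_mem _) ?_ hx
  · haveI := rs_perfect (P i).hW
    exact perfect_fieldRange _
  · filter_upwards [hθ] with i hi
    exact ⟨(hi v hv).1.mono le_rfl (le_max_left _ _), (hi v hv).2⟩
  · filter_upwards [h1] with i hi
    exact e5_five_mono (le_max_right _ _) (hi v hv)

/-- classes dying in the residue fields. -/
theorem e5_hdie (hk : IsAlgClosed k) (htg : Good k t) (D : Dat k (gsp k B) t Θ)
    (hu : Ulu D.U D.O) (P : ∀ i, E5D ℓ k l (gsp k B) Θ (D.W i) (D.O i) Ω) (N : ℕ) :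
    ∃ x : Fin N → L, (∀ i, x i ≠ 0 ∧ ∃ h ∈ uSub D.U (fun i => (P i).ι.fieldRange),
      h ^ ℓ = gm D.U (fun j => (P j).ρ (rs (D.O j) (x i)))) ∧
      ∀ i j, i ≠ j → ¬ ∃ w : L, x i = x j * w ^ ℓ := by
  obtain ⟨x, hx, hxx⟩ := sa_inf (Θ := Θ) hk htg N
  refine ⟨x, fun i => ⟨(hx i).1, ?_⟩, ?_⟩
  · refine e5_die P (hu _ (hx i).1) ?_
    have h1 := D.ev_of_mem hk (le_gsp k B) htg.1 (hx i).2
    rwa [LinearEquiv.apply_symm_apply] at h1
  · rintro i j hij ⟨w, hw⟩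
    apply hxx i j hij
    have hw0 : w ≠ 0 := by
      rintro rfl
      rw [zero_pow (Fact.out : ℓ.Prime).ne_zero, mul_zero] at hw
      exact (hx i).1 hw
    exact (cl_eq_iff ℓ (hx i).1 (hx j).1).2 ⟨w, hw0, hw⟩

theorem e5_hram (hk : IsAlgClosed k) (hB : Indp k B) (D : Dat k (gsp k B) t Θ)
    (hu : Ulu D.U D.O) (P : ∀ i, E5D ℓ k l (gsp k B) Θ (D.W i) (D.O i) Ω) {v : K}
    (hv : v ∈ B) :
    {c : Ω | c ∈ k.map (algebraMap K Ω) ∧ ∃ z : L, z ≠ 0 ∧ ∃ e : ℕ,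
      ∃ h ∈ uSub D.U (fun i => (P i).ι.fieldRange), h ≠ 0 ∧
      gm D.U (fun _ => algebraMap K Ω v - c) =
        gm D.U (fun i => (P i).ρ (rs (D.O i) z)) ^ e * h ^ ℓ}.Infinite := by
  refine ((infinite_of_isAlgClosed hk).image (algebraMap K Ω).injective.injOn).mono ?_
  rintro _ ⟨c, hc, rfl⟩
  refine ⟨⟨c, hc, rfl⟩, ?_⟩
  have h0 : v - c ≠ 0 := by
    intro h
    rw [sub_eq_zero] at h
    refine hB ∅ (Finset.empty_subset _) v hv (Finset.notMem_empty _)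
      (isAlgebraic_of_mem (le_gsp k ∅ ?_))
    rw [h]
    exact hc
  obtain ⟨z, hz0, hz⟩ := cl_surj ℓ (Θ (cl ℓ (v - c)))
  obtain ⟨e, h, hh, hh0, h1⟩ := e5_ram P (x := v - c)
    (Subfield.sub_mem _ (mem_gsp hv) (le_gsp k B hc)) h0 hz.symm (hu z hz0)
  refine ⟨z, hz0, e, h, hh, hh0, ?_⟩
  rw [← h1, map_sub]

theorem e5_lim [NeZero (ℓ : Ω)] (hk : IsAlgClosed k) (hfgk : FG k (⊤ : Subfield K))
    (hl : IsAlgClosed l) (hfgl : FG l (⊤ : Subfield L)) (hB : Indp k B) (htg : Good k t)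
    (ht : ¬ IsAlgebraic (gsp k B) t) (halg : ∀ z : K, IsAlgebraic (adj (gsp k B) t) z)
    (hL : Td l (B.card + 1)) (D : Dat k (gsp k B) t Θ) (hu : Ulu D.U D.O)
    (P : ∀ i, E5D ℓ k l (gsp k B) Θ (D.W i) (D.O i) Ω) (A : L →+* Gm D.U Ω)
    (hA : ∀ z, A z = gm D.U (fun i => (P i).ρ (rs (D.O i) z))) :
    ∃ e : L, e ∉ l ∧ A e ∈ uSub D.U (fun _ => k.map (algebraMap K Ω)) := by
  haveI : PerfectField (gsp k B) := gsp_perfect k B
  have hFG : FG (gsp k B) (⊤ : Subfield K) := hfgk.mono (le_gsp k B) le_top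
  obtain ⟨d, hd⟩ := res_deg hFG ht halg
  have hcard : (B.image (algebraMap K Ω)).card = B.card :=
    Finset.card_image_of_injective _ (algebraMap K Ω).injective
  refine lim_main ℓ (k := k.map (algebraMap K Ω)) (B := B.image (algebraMap K Ω))
    (R := fun i => (P i).ι.fieldRange) (d := d) (l := l) (e5_map_ac _ hk) (e5_indp _ hB)
    (fun i => ?_) (fun i => ?_) (fun i c hc => ?_) hl hfgl ?_ A (fun z => ?_) (fun c hc => ?_)
    ?_ ?_ ?_ ?_
  · rw [e5_gsp_map]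
    exact (P i).map_le
  · haveI := rs_perfect (P i).hW
    exact perfect_fieldRange _
  · exact (P i).deg (e5_gsp_map _ _ _) (hd (D.W i) (P i).hF i.1 (le_gsp k B (D.le _ i.2))
      (D.ov i).lt) hc
  · rw [hcard]
    exact hL
  · rw [hA]
    exact ⟨_, rfl, fun i => (P i).ρ_mem _⟩
  · rw [hA]
    exact ⟨_, rfl, fun i => (P i).ρ_l (le_gsp k B) hc⟩
  · intro v hv x y
    obtain ⟨v, hv', rfl⟩ := Finset.mem_image.1 hv
    rw [e5_erase, hA, hA]
    exact e5_hdep hk hfgk hl hB ht halg D hu P hv' x y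
  · intro v hv x hx
    obtain ⟨v, hv', rfl⟩ := Finset.mem_image.1 hv
    rw [e5_erase, hA] at hx ⊢
    exact e5_htw hk hfgk hl hB ht halg D hu P hv' x hx
  · intro N
    simp only [hA]
    exact e5_hdie hk htg D hu P N
  · intro v hv
    obtain ⟨v, hv', rfl⟩ := Finset.mem_image.1 hv
    simp only [hA]
    exact e5_hram hk hB D hu P hv'

end e5lim

/-- Step A, assuming that the theorem holds for the residue fields. -/
theorem stepAn {k : Subfield K} (hk : IsAlgClosed k) (hfgk : FG k (⊤ : Subfield K))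
    {l : Subfield L} (hl : IsAlgClosed l) (hfgl : FG l (⊤ : Subfield L)) (hΘ : Compatible Θ)
    {B : Finset K} (hB : Indp k B) (hBne : B.Nonempty) {t : K} (htg : Good k t)
    (ht : ¬ IsAlgebraic (gsp k B) t) (halg : ∀ z : K, IsAlgebraic (adj (gsp k B) t) z)
    (hL : Td l (B.card + 1))
    (hIH : ∀ᶠ b in ae k, ∀ W : ValuationSubring K, Over W (gsp k B) t b →
      ∃ O : ValuationSubring L, Tr Θ W (t - b) O ∧ ResIso ℓ Θ k l W O) :
    ∃ E : Subfield L, Crv l E ∧ ∀ v, Θ v ∈ VS ℓ E ↔ v ∈ VS ℓ (adj k t) := by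
  classical
  haveI : PerfectField k := inferInstance
  have hF : RatF k (gsp k B) := hB.ratF
  have hkF : k ≤ gsp k B := le_gsp k B
  have htrl := e5_trl (Finset.card_pos.2 hBne) hL
  haveI : NeZero (ℓ : AlgebraicClosure K) := ⟨by
    rw [← map_natCast (algebraMap K (AlgebraicClosure K)), Ne, map_eq_zero]
    exact NeZero.ne (ℓ : K)⟩
  obtain ⟨θ, hθ⟩ := exists_over_nice hk hfgk hB ht halg
  obtain ⟨D, hD⟩ := e5_dat (Θ := Θ) (q := ResIso ℓ Θ k l) hk hθ hIH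
  have hP : ∀ i, Nonempty (E5D ℓ k l (gsp k B) Θ (D.W i) (D.O i) (AlgebraicClosure K)) :=
    fun i => e5_exists (hD i).1 (hD i).2
  have hu : Ulu D.U D.O := D.ulu hk hfgk hl hfgl hΘ htrl hF htg ht halg
  let P := fun i => (hP i).some
  obtain ⟨A, hA⟩ := exists_lim D.U D.O (fun i => (P i).ρ) hu
  obtain ⟨h, hhl, hh⟩ := e5_lim hk hfgk hl hfgl hB htg ht halg hL D hu P A hA
  rw [hA, gm_mem_uSub] at hh
  have h1 : ∀ᶠ i in D.U, ∃ c ∈ l, (D.O i).valuation (h - c) < 1 := by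
    filter_upwards [hh, hu.ev_mem h] with i h2 h3
    obtain ⟨c, hc, hc'⟩ := (mem_bar (P i).hO).1 ((P i).of_ρ hkF h2)
    exact ⟨c, hc, (rs_eq h3 ((P i).hO _ hc)).1 hc'.symm⟩
  have h2 : ∀ i, ∃ c ∈ l, (∃ c ∈ l, (D.O i).valuation (h - c) < 1) →
      (D.O i).valuation (h - c) < 1 := by
    intro i
    by_cases h : ∃ c ∈ l, (D.O i).valuation (h - c) < 1
    · obtain ⟨c, hc, hc'⟩ := h
      exact ⟨c, hc, fun _ => hc'⟩
    · exact ⟨0, l.zero_mem, fun h' => absurd h' h⟩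
  choose c hc hc' using h2
  exact D.case_one hk hfgk hl hfgl hΘ htrl hF htg ht halg (fun i => (P i).hO) hhl hc
    (h1.mono fun i hi => hc' i hi)

end Vale.Agent.P019P
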