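import Vale.Agent.P019P.Main
import Vale.Agent.P019P.Bert

/-!
# The main theorem from Step A in both directions
-/

namespace Vale.Agent.P019P

open Vale.Agent.P019

set_option linter.style.haveILetI false
set_option linter.unusedSectionVars false

open Polynomial Filter

variable {K L : Type*} [Field K] [Field L] [PerfectField K] [PerfectField L] {ℓ : ℕ}
  [Fact ℓ.Prime] [NeZero (ℓ : K)] [NeZero (ℓ : L)]

/-- infinitely many powers of a constant of small valuation. -/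
theorem fin1_const {l : Subfield L} {O : ValuationSubring L} (h : ¬ TrivOn O l) :
    ∃ a ∈ l, a ≠ 0 ∧ O.valuation a < 1 := by
  simp only [TrivOn] at h
  push Not at h
  obtain ⟨c, hc, hcO⟩ := h
  have h1 : 1 < O.valuation c := by
    rw [← not_le, O.valuation_le_one_iff]
    exact hcO
  have hc0 : c ≠ 0 := by
    rintro rfl
    exact hcO O.zero_mem
  exact ⟨c⁻¹, l.inv_mem hc, inv_ne_zero hc0, by
    rw [map_inv₀]
    exact inv_lt_one_of_one_lt₀ h1⟩

/-- valuations transferred in a weak sense are trivial on the constants, from Step A. -/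
theorem fin1_ltr {l : Subfield L} {Θ : V ℓ K ≃ₗ[ZMod ℓ] V ℓ L}
    (hl : IsAlgClosed l) (hfgl : FG l (⊤ : Subfield L))
    {U : Submodule (ZMod ℓ) (V ℓ K)} {T : Submodule (ZMod ℓ) (V ℓ K)}
    {E : Subfield L} (hE : Crv l E) (hA : ∀ v, Θ v ∈ VS ℓ E ↔ v ∈ T)
    (hfin : ((U ⊓ T : Submodule (ZMod ℓ) (V ℓ K)) : Set (V ℓ K)).Finite)
    {O : ValuationSubring L} (hO : ∀ z, O.valuation z < 1 → Θ.symm (cl ℓ (1 + z)) ∈ U) :
    TrivOn O l := by
  by_contra hcon
  obtain ⟨a, ha, ha0, haO⟩ := fin1_const hcon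
  -- an element of the curve
  obtain ⟨e, heE, hel, heO⟩ : ∃ e ∈ E, e ∉ l ∧ O.valuation e ≤ 1 := by
    obtain ⟨y, hyE, hyl, -⟩ := hE.ex
    by_cases h1 : O.valuation y ≤ 1
    · exact ⟨y, hyE, hyl, h1⟩
    · push Not at h1
      refine ⟨y⁻¹, E.inv_mem hyE, fun h => hyl (by simpa using l.inv_mem h), ?_⟩
      rw [map_inv₀]
      exact (inv_lt_one_of_one_lt₀ h1).le
  have hO0 : O.valuation a ≠ 0 := (_root_.map_ne_zero _).2 ha0
  have key : ∀ j : ℕ, Θ.symm (cl ℓ (e - -((a ^ (j + 1))⁻¹))) ∈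
      ((U ⊓ T : Submodule (ZMod ℓ) (V ℓ K)) : Set (V ℓ K)) := by
    intro j
    have haj : a ^ (j + 1) ≠ 0 := pow_ne_zero _ ha0
    have hajl : a ^ (j + 1) ∈ l := l.pow_mem ha _
    have h1 : O.valuation (a ^ (j + 1) * e) < 1 := by
      rw [map_mul, map_pow]
      exact mul_lt_one_of_lt_of_le (pow_lt_one₀ zero_le haO (Nat.succ_ne_zero j)) heO
    have hne : e - -((a ^ (j + 1))⁻¹) ≠ 0 := by
      intro h
      apply hel
      rw [sub_eq_zero.1 h]
      exact l.neg_mem (l.inv_mem hajl)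
    have h2 : cl ℓ (1 + a ^ (j + 1) * e) = cl ℓ (e - -((a ^ (j + 1))⁻¹)) := by
      have e1 : 1 + a ^ (j + 1) * e = a ^ (j + 1) * (e - -((a ^ (j + 1))⁻¹)) := by
        rw [sub_neg_eq_add, mul_add, mul_inv_cancel₀ haj, add_comm]
      rw [e1, cl_mul ℓ haj hne, line_cl_const hl hajl, zero_add]
    have h3 : Θ.symm (cl ℓ (e - -((a ^ (j + 1))⁻¹))) ∈ U := by
      rw [← h2]
      exact hO _ h1
    refine ⟨h3, ?_⟩
    show Θ.symm (cl ℓ (e - -((a ^ (j + 1))⁻¹))) ∈ T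
    rw [← hA, LinearEquiv.apply_symm_apply]
    exact cl_mem_VS (E.sub_mem heE (hE.le (l.neg_mem (l.inv_mem hajl))))
  -- the constants are pairwise different
  have hinj : Function.Injective (fun j : ℕ => -((a ^ (j + 1))⁻¹)) := by
    intro i j hij
    have h1 : a ^ (i + 1) = a ^ (j + 1) := inv_injective (neg_injective hij)
    have h2 := congrArg O.valuation h1
    rw [map_pow, map_pow] at h2
    have h3 := pow_right_injective₀ (zero_lt_iff.2 hO0) haO.ne h2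
    omega
  have hfin' : (Set.range fun j : ℕ => -((a ^ (j + 1))⁻¹)).Finite := by
    have h1 : (Set.range fun j : ℕ => -((a ^ (j + 1))⁻¹)) ⊆
        ⋃ v ∈ ((U ⊓ T : Submodule (ZMod ℓ) (V ℓ K)) : Set (V ℓ K)),
          {c : L | c ∈ l ∧ cl ℓ (e - c) = Θ v} := by
      rintro _ ⟨j, rfl⟩
      refine Set.mem_biUnion (key j) ⟨l.neg_mem (l.inv_mem (l.pow_mem ha _)), ?_⟩
      rw [LinearEquiv.apply_symm_apply]
    exact (hfin.biUnion fun v _ => dist_top (ℓ := ℓ) hl hfgl hel (Θ v)).subset h1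
  exact Set.infinite_range_of_injective hinj hfin'

/-- the main theorem from Step A in both directions. -/
theorem final_of_stepA' {Θ : V ℓ K ≃ₗ[ZMod ℓ] V ℓ L}
    {k : Subfield K} (hk : IsAlgClosed k) (hfgk : FG k (⊤ : Subfield K))
    {l : Subfield L} (hl : IsAlgClosed l) (hfgl : FG l (⊤ : Subfield L))
    (hΘ : Compatible Θ) (trk : ∃ x y : K, x ∉ k ∧ ¬ IsAlgebraic (adj k x) y)
    (trl : ∃ x y : L, x ∉ l ∧ ¬ IsAlgebraic (adj l x) y)
    (hA : ∀ t, Good k t → ∃ E : Subfield L, Crv l E ∧ ∀ v, Θ v ∈ VS ℓ E ↔ v ∈ VS ℓ (adj k t))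
    (hA' : ∀ t, Good l t → ∃ E : Subfield K, Crv k E ∧
      ∀ v, Θ.symm v ∈ VS ℓ E ↔ v ∈ VS ℓ (adj l t)) :
    ∃ (c : (ZMod ℓ)ˣ) (α : K ≃+* L), (∀ x, x ∈ k ↔ α x ∈ l) ∧
      ∀ x : K, Θ (cl ℓ x) = (c : ZMod ℓ) • cl ℓ (α x) := by
  have H : Hyp ℓ k l Θ := by
    refine ⟨hk, hl, hfgk, hfgl, trk, trl, hΘ, hA, hA', ?_, ?_, ?_, ?_⟩
    · intro U x hx hfin O hO
      obtain ⟨E, hE, h1⟩ := hA x hx
      exact fin1_ltr hl hfgl hE h1 hfin hO
    · intro U x hx hfin O hO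
      obtain ⟨E, hE, h1⟩ := hA' x hx
      exact fin1_ltr (Θ := Θ.symm) hk hfgk hE h1 hfin hO
    · intro x y hx hy
      exact ae_iff.2 (bertini hk hfgk hx hy)
    · intro x y hx hy
      exact ae_iff.2 (bertini hl hfgl hx hy)
  exact H.final

end Vale.Agent.P019P
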