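import Vale.Agent.P019Q.CIface

/-!
# Semilinear isomorphisms act on places and divisors
-/

namespace Vale.Agent.P019P

open Polynomial IntermediateField

namespace AuxFAct

section

variable {F : Type*} [Field F] {O : ValuationSubring F} {f g : F → ℤ}

theorem f_one (hf : IsOrd O f) : f 1 = 0 := by
  have h := hf.mul 1 1 one_ne_zero one_ne_zero
  rw [mul_one] at h
  omega

theorem f_inv (hf : IsOrd O f) {z : F} (hz : z ≠ 0) : f z⁻¹ = - f z := by
  have h := hf.mul z z⁻¹ hz (inv_ne_zero hz)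
  rw [mul_inv_cancel₀ hz, f_one hf] at h
  omega

theorem f_pow (hf : IsOrd O f) {z : F} (hz : z ≠ 0) (n : ℕ) : f (z ^ n) = n * f z := by
  induction n with
  | zero => rw [pow_zero, f_one hf]; simp
  | succ n ih =>
    rw [pow_succ, hf.mul _ _ (pow_ne_zero n hz) hz, ih]
    push_cast
    ring

theorem f_zpow (hf : IsOrd O f) {z : F} (hz : z ≠ 0) (n : ℤ) : f (z ^ n) = n * f z := by
  rcases Int.eq_nat_or_neg n with ⟨m, rfl | rfl⟩
  · rw [zpow_natCast, f_pow hf hz]
  · rw [zpow_neg, zpow_natCast, f_inv hf (pow_ne_zero m hz), f_pow hf hz]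
    ring

theorem nonneg_iff (hf : IsOrd O f) (hg : IsOrd O g) {z : F} (hz : z ≠ 0) :
    0 ≤ f z ↔ 0 ≤ g z := by
  have h1 := hf.mem z
  have h2 := hg.mem z
  constructor
  · intro h
    exact (h2.1 (h1.2 (Or.inr h))).resolve_left hz
  · intro h
    exact (h1.1 (h2.2 (Or.inr h))).resolve_left hz

theorem zero_iff (hf : IsOrd O f) (hg : IsOrd O g) {z : F} (hz : z ≠ 0) (h : f z = 0) :
    g z = 0 := by
  have h1 := (nonneg_iff hf hg hz).1 h.ge
  have h2 := (nonneg_iff hf hg (inv_ne_zero hz)).1 (by rw [f_inv hf hz, h]; simp)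
  rw [f_inv hg hz] at h2
  omega

end

end AuxFAct

open AuxFAct in
/-- the normalised valuation is unique. -/
theorem IsOrd.ext {F : Type*} [Field F] {O : ValuationSubring F} {f g : F → ℤ}
    (hf : IsOrd O f) (hg : IsOrd O g) : f = g := by
  obtain ⟨π, hπ⟩ := hf.one
  obtain ⟨π', hπ'⟩ := hg.one
  have hπ0 : π ≠ 0 := by
    rintro rfl
    rw [hf.zero] at hπ
    exact zero_ne_one hπ
  have hπ0' : π' ≠ 0 := by
    rintro rfl
    rw [hg.zero] at hπ'
    exact zero_ne_one hπ'
  have key : ∀ z, z ≠ 0 → g z = f z * g π := by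
    intro z hz
    have h1 : z * π ^ (-f z) ≠ 0 := mul_ne_zero hz (zpow_ne_zero _ hπ0)
    have h2 : f (z * π ^ (-f z)) = 0 := by
      rw [hf.mul _ _ hz (zpow_ne_zero _ hπ0), f_zpow hf hπ0, hπ]
      ring
    have h3 := zero_iff hf hg h1 h2
    rw [hg.mul _ _ hz (zpow_ne_zero _ hπ0), f_zpow hg hπ0] at h3
    linarith
  have h0 : 0 ≤ g π := (nonneg_iff hf hg hπ0).1 (by rw [hπ]; exact zero_le_one)
  have h1 := key π' hπ0'
  rw [hπ'] at h1
  have h2 : g π = 1 := Int.eq_one_of_mul_eq_one_left h0 h1.symm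
  funext z
  by_cases hz : z = 0
  · rw [hz, hf.zero, hg.zero]
  · rw [key z hz, h2, mul_one]

section

variable {k F k' F' : Type*} [Field k] [Field F] [Algebra k F] [CFF k F]
  [Field k'] [Field F'] [Algebra k' F'] [CFF k' F']

/-- the action of a semilinear isomorphism on places. -/
noncomputable def plEquiv (e : F ≃+* F') (e₀ : k ≃+* k')
    (h : ∀ a, e (algebraMap k F a) = algebraMap k' F' (e₀ a)) : Plk k F ≃ Plk k' F' where
  toFun P := ⟨P.1.comap (e.symm : F' →+* F), by
    refine ⟨fun b => ?_, fun hP => P.2.2 ?_⟩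
    · rw [ValuationSubring.mem_comap]
      have h1 : (e.symm : F' →+* F) (algebraMap k' F' b) = algebraMap k F (e₀.symm b) := by
        have h2 := h (e₀.symm b)
        rw [RingEquiv.apply_symm_apply] at h2
        rw [← h2]
        exact e.symm_apply_apply _
      rw [h1]
      exact P.2.1 _
    · ext z
      refine ⟨fun _ => ValuationSubring.mem_top z, fun _ => ?_⟩
      have h1 : e z ∈ P.1.comap (e.symm : F' →+* F) := by
        rw [hP]; exact ValuationSubring.mem_top _
      rw [ValuationSubring.mem_comap] at h1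
      have h2 : (e.symm : F' →+* F) (e z) = z := e.symm_apply_apply z
      rwa [h2] at h1⟩
  invFun P := ⟨P.1.comap (e : F →+* F'), by
    refine ⟨fun b => ?_, fun hP => P.2.2 ?_⟩
    · rw [ValuationSubring.mem_comap]
      have h1 : (e : F →+* F') (algebraMap k F b) = algebraMap k' F' (e₀ b) := h b
      rw [h1]
      exact P.2.1 _
    · ext z
      refine ⟨fun _ => ValuationSubring.mem_top z, fun _ => ?_⟩
      have h1 : e.symm z ∈ P.1.comap (e : F →+* F') := by
        rw [hP]; exact ValuationSubring.mem_top _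
      rw [ValuationSubring.mem_comap] at h1
      have h2 : (e : F →+* F') (e.symm z) = z := e.apply_symm_apply z
      rwa [h2] at h1⟩
  left_inv := by
    intro P
    refine Subtype.ext (ValuationSubring.ext _ _ fun z => ?_)
    change (e.symm : F' →+* F) ((e : F →+* F') z) ∈ P.1 ↔ z ∈ P.1
    rw [show (e.symm : F' →+* F) ((e : F →+* F') z) = z from e.symm_apply_apply z]
  right_inv := by
    intro P
    refine Subtype.ext (ValuationSubring.ext _ _ fun z => ?_)
    change (e : F →+* F') ((e.symm : F' →+* F) z) ∈ P.1 ↔ z ∈ P.1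
    rw [show (e : F →+* F') ((e.symm : F' →+* F) z) = z from e.apply_symm_apply z]

theorem AuxFAct.mem_plEquiv (e : F ≃+* F') (e₀ : k ≃+* k')
    (h : ∀ a, e (algebraMap k F a) = algebraMap k' F' (e₀ a)) (P : Plk k F) (z : F') :
    z ∈ (plEquiv e e₀ h P).1 ↔ e.symm z ∈ P.1 := Iff.rfl

theorem ord_plEquiv (e : F ≃+* F') (e₀ : k ≃+* k')
    (h : ∀ a, e (algebraMap k F a) = algebraMap k' F' (e₀ a)) (P : Plk k F) (z : F) :
    ord (plEquiv e e₀ h P) (e z) = ord P z := by
  have hP := ord_spec P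
  have h1 : IsOrd (plEquiv e e₀ h P).1 (fun z => ord P (e.symm z)) := by
    have hne : ∀ x : F', x ≠ 0 → e.symm x ≠ 0 := fun x hx h0 =>
      hx ((map_eq_zero_iff e.symm e.symm.injective).1 h0)
    refine ⟨?_, ?_, ?_, ?_, ?_⟩
    · change ord P (e.symm 0) = 0
      rw [map_zero]
      exact hP.zero
    · intro x y hx hy
      change ord P (e.symm (x * y)) = ord P (e.symm x) + ord P (e.symm y)
      rw [map_mul]
      exact hP.mul _ _ (hne x hx) (hne y hy)
    · intro x y hx hy hxy
      change min (ord P (e.symm x)) (ord P (e.symm y)) ≤ ord P (e.symm (x + y))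
      have h3 := hne _ hxy
      rw [map_add] at h3 ⊢
      exact hP.add _ _ (hne x hx) (hne y hy) h3
    · intro x
      rw [AuxFAct.mem_plEquiv, hP.mem, map_eq_zero_iff e.symm e.symm.injective]
    · obtain ⟨π, hπ⟩ := hP.one
      exact ⟨e π, by change ord P (e.symm (e π)) = 1; rw [e.symm_apply_apply]; exact hπ⟩
  have h2 := IsOrd.ext (ord_spec (plEquiv e e₀ h P)) h1
  rw [h2]
  change ord P (e.symm (e z)) = ord P z
  rw [e.symm_apply_apply]

theorem dv_plEquiv (e : F ≃+* F') (e₀ : k ≃+* k')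
    (h : ∀ a, e (algebraMap k F a) = algebraMap k' F' (e₀ a)) (z : F) :
    dv k' (e z) = (dv k z).mapDomain (plEquiv e e₀ h) := by
  ext Q
  obtain ⟨P, rfl⟩ := (plEquiv e e₀ h).surjective Q
  rw [Finsupp.mapDomain_apply (plEquiv e e₀ h).injective, dv_apply, dv_apply, ord_plEquiv]

end

section

variable {k F : Type*} [Field k] [Field F] [Algebra k F] [CFF k F]

theorem semi_pow {e : F ≃+* F} {e₀ : k ≃+* k}
    (h : ∀ a, e (algebraMap k F a) = algebraMap k F (e₀ a)) (n : ℕ) (a : k) :
    (e ^ n) (algebraMap k F a) = algebraMap k F ((e₀ ^ n) a) := by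
  induction n generalizing a with
  | zero => rfl
  | succ n ih =>
    rw [pow_succ, pow_succ, RingAut.mul_apply, RingAut.mul_apply, h, ih]

theorem plEquiv_pow (e : F ≃+* F) (e₀ : k ≃+* k)
    (h : ∀ a, e (algebraMap k F a) = algebraMap k F (e₀ a)) (n : ℕ) :
    (plEquiv e e₀ h : Equiv.Perm (Plk k F)) ^ n = plEquiv (e ^ n) (e₀ ^ n) (semi_pow h n) := by
  induction n with
  | zero =>
    ext P
    rfl
  | succ n ih =>
    refine Equiv.ext fun P => ?_
    refine Subtype.ext (ValuationSubring.ext _ _ fun z => ?_)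
    have h1 : ((plEquiv e e₀ h : Equiv.Perm (Plk k F)) ^ (n + 1)) P =
        plEquiv e e₀ h (((plEquiv e e₀ h : Equiv.Perm (Plk k F)) ^ n) P) := by
      rw [pow_succ', Equiv.Perm.mul_apply]
    rw [h1, AuxFAct.mem_plEquiv, AuxFAct.mem_plEquiv, ih, AuxFAct.mem_plEquiv]
    have h2 : (e ^ (n + 1)).symm z = (e ^ n).symm (e.symm z) := by
      rw [RingEquiv.symm_apply_eq, pow_succ', RingAut.mul_apply, RingEquiv.apply_symm_apply,
        RingEquiv.apply_symm_apply]
    rw [h2]

end

end Vale.Agent.P019P
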