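import Mathlib

/-!
# Fields of roots of unity
-/

namespace Vale.Agent.P019P

/-- the characteristic of a field of roots of unity. -/
theorem exists_prime_char {k : Type*} [Field k] (hf : ∀ a : k, a ≠ 0 → ∃ n : ℕ, 0 < n ∧ a ^ n = 1) :
    ∃ p : ℕ, p.Prime ∧ CharP k p := by
  obtain ⟨p, hp⟩ := CharP.exists k
  rcases CharP.char_is_prime_or_zero k p with h | h
  · exact ⟨p, h, hp⟩
  · exfalso
    subst h
    have : CharZero k := CharP.charP_to_charZero k
    obtain ⟨n, hn, h1⟩ := hf 2 two_ne_zero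
    have h2 : ((2 ^ n : ℕ) : k) = ((1 : ℕ) : k) := by
      push_cast
      exact h1
    have h3 : (2 : ℕ) ^ n = 1 := Nat.cast_injective h2
    have h4 : 1 < 2 ^ n := Nat.one_lt_two_pow hn.ne'
    omega

namespace AuxFFrobA

theorem iter_fix {k : Type*} [Field k] {p m : ℕ} {a : k} (h : a ^ p ^ m = a) (j : ℕ) :
    a ^ p ^ (m * j) = a := by
  induction j with
  | zero => simp
  | succ j ih =>
    rw [Nat.mul_succ, pow_add, pow_mul, ih, h]

theorem one_fix {k : Type*} [Field k] {p : ℕ} [Fact p.Prime] [CharP k p]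
    (hf : ∀ a : k, a ≠ 0 → ∃ n : ℕ, 0 < n ∧ a ^ n = 1) (a : k) :
    ∃ m : ℕ, 0 < m ∧ a ^ p ^ m = a := by
  have hp : p.Prime := Fact.out
  by_cases ha : a = 0
  · subst ha
    exact ⟨1, one_pos, by rw [pow_one, zero_pow hp.ne_zero]⟩
  · obtain ⟨n, hn, h1⟩ := hf a ha
    obtain ⟨r, q, hq, rfl⟩ := Nat.exists_eq_pow_mul_and_not_dvd hn.ne' p hp.ne_one
    have hq0 : 0 < q := Nat.pos_of_mul_pos_left hn |> fun h => by
      rcases Nat.eq_zero_or_pos q with h0 | h0
      · subst h0; simp at hq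
      · exact h0
    have haq : a ^ q = 1 := by
      have h2 : (a ^ q) ^ p ^ r = 1 := by
        rw [← pow_mul, mul_comm]; exact h1
      have h3 : (a ^ q) ^ p ^ r = (1 : k) ^ p ^ r := by rw [h2, one_pow]
      exact iterateFrobenius_inj k p r (by
        simpa [iterateFrobenius_def] using h3)
    have hcop : Nat.Coprime p q := (Nat.Prime.coprime_iff_not_dvd hp).2 hq
    have hmod : p ^ Nat.totient q ≡ 1 [MOD q] := Nat.ModEq.pow_totient hcop
    refine ⟨Nat.totient q, Nat.totient_pos.2 hq0, ?_⟩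
    have h4 : a ^ p ^ Nat.totient q = a ^ 1 :=
      pow_eq_pow_of_modEq hmod haq
    rw [h4, pow_one]

end AuxFFrobA

/-- finitely many constants lie in a finite field. -/
theorem exists_pow_fix {k : Type*} [Field k] {p : ℕ} [Fact p.Prime] [CharP k p]
    (hf : ∀ a : k, a ≠ 0 → ∃ n : ℕ, 0 < n ∧ a ^ n = 1) (s : Finset k) :
    ∃ m : ℕ, 0 < m ∧ ∀ a ∈ s, a ^ p ^ m = a := by
  classical
  induction s using Finset.induction_on with
  | empty => exact ⟨1, one_pos, by simp⟩
  | insert b s hb ih =>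
    obtain ⟨m, hm, h⟩ := ih
    obtain ⟨m', hm', h'⟩ := AuxFFrobA.one_fix (p := p) hf b
    refine ⟨m * m', Nat.mul_pos hm hm', ?_⟩
    intro a ha
    rcases Finset.mem_insert.1 ha with h1 | h1
    · subst h1
      rw [mul_comm]
      exact AuxFFrobA.iter_fix h' m
    · exact AuxFFrobA.iter_fix (h a h1) m'

end Vale.Agent.P019P
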