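import Vale.Agent.P019Q.FFrobA

/-!
# Frobenius on the rational function field
-/

namespace Vale.Agent.P019P

open Polynomial IntermediateField

/-- the Frobenius of the constants acting on the coefficients of rational functions. -/
theorem exists_frob_adj {k F : Type*} [Field k] [Field F] [Algebra k F]
    {p : ℕ} [Fact p.Prime] [CharP k p] {x : F} (hx : Transcendental k x) (m : ℕ) :
    ∃ τ : k⟮x⟯ →+* k⟮x⟯, (∀ a : k, τ (algebraMap k k⟮x⟯ a) = algebraMap k k⟮x⟯ (a ^ p ^ m)) ∧
      τ (AdjoinSimple.gen k x) = AdjoinSimple.gen k x := by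
  set φ : k[X] →+* k⟮x⟯ := Polynomial.eval₂RingHom
    ((algebraMap k k⟮x⟯).comp (iterateFrobenius k p m)) (AdjoinSimple.gen k x) with hφd
  have hgen : Transcendental k (AdjoinSimple.gen k x) := by
    intro h
    apply hx
    have := h.algebraMap (A := F)
    rwa [AdjoinSimple.algebraMap_gen] at this
  have hinj : ∀ f : k[X], φ f = 0 → f = 0 := by
    intro f hf
    have h1 : φ f = aeval (AdjoinSimple.gen k x) (f.map (iterateFrobenius k p m)) := by
      simp only [hφd, coe_eval₂RingHom, aeval_def, eval₂_map]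
    rw [h1] at hf
    have h2 : f.map (iterateFrobenius k p m) = 0 := by
      by_contra hne
      exact hgen ⟨_, hne, hf⟩
    rwa [Polynomial.map_eq_zero] at h2
  have hφ : nonZeroDivisors k[X] ≤ (nonZeroDivisors k⟮x⟯).comap φ := by
    intro f hf
    rw [Submonoid.mem_comap, mem_nonZeroDivisors_iff_ne_zero]
    intro h
    exact (mem_nonZeroDivisors_iff_ne_zero.1 hf) (hinj f h)
  refine ⟨(RatFunc.liftRingHom φ hφ).comp
    ((RatFunc.algEquivOfTranscendental x hx).symm : k⟮x⟯ →+* RatFunc k), ?_, ?_⟩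
  · intro a
    have h1 : (RatFunc.algEquivOfTranscendental x hx).symm (algebraMap k k⟮x⟯ a) =
        RatFunc.C a := by
      rw [AlgEquiv.commutes]
      rfl
    simp only [RingHom.comp_apply, RingHom.coe_coe]
    rw [h1, RatFunc.liftRingHom_C]
    simp [hφd, iterateFrobenius_def]
  · simp only [RingHom.comp_apply, RingHom.coe_coe]
    rw [RatFunc.algEquivOfTranscendental_symm_gen, RatFunc.liftRingHom_X]
    simp [hφd]

/-- every element of `k(x)` is fixed by a power of Frobenius. -/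
theorem exists_frob_fix {k F : Type*} [Field k] [Field F] [Algebra k F]
    {p : ℕ} [Fact p.Prime] [CharP k p]
    (hf : ∀ a : k, a ≠ 0 → ∃ n : ℕ, 0 < n ∧ a ^ n = 1) {x : F} (s : Finset k⟮x⟯) :
    ∃ m : ℕ, 0 < m ∧ ∀ τ : k⟮x⟯ →+* k⟮x⟯,
      (∀ a : k, τ (algebraMap k k⟮x⟯ a) = algebraMap k k⟮x⟯ (a ^ p ^ m)) →
      τ (AdjoinSimple.gen k x) = AdjoinSimple.gen k x → ∀ z ∈ s, τ z = z := by
  classical
  have hex : ∀ z : k⟮x⟯, ∃ r q : k[X], z = aeval (AdjoinSimple.gen k x) r /
      aeval (AdjoinSimple.gen k x) q := by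
    intro z
    obtain ⟨r, q, h⟩ := (IntermediateField.mem_adjoin_simple_iff k (z : F)).1 z.2
    refine ⟨r, q, ?_⟩
    apply (algebraMap k⟮x⟯ F).injective
    rw [map_div₀, ← aeval_algebraMap_apply, ← aeval_algebraMap_apply,
      AdjoinSimple.algebraMap_gen]
    exact h
  choose r q hrq using hex
  obtain ⟨m, hm, hfix⟩ := exists_pow_fix (p := p) hf
    (s.biUnion fun z => (r z).coeffs ∪ (q z).coeffs)
  refine ⟨m, hm, fun τ hτ hτx z hz => ?_⟩
  have key : ∀ f : k[X], (∀ n ∈ f.support, f.coeff n ^ p ^ m = f.coeff n) →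
      τ (aeval (AdjoinSimple.gen k x) f) = aeval (AdjoinSimple.gen k x) f := by
    intro f hcf
    rw [aeval_def, Polynomial.hom_eval₂, hτx, eval₂_eq_sum, eval₂_eq_sum, Polynomial.sum_def,
      Polynomial.sum_def]
    refine Finset.sum_congr rfl fun n hn => ?_
    rw [RingHom.comp_apply, hτ, hcf n hn]
  have h1 : τ (aeval (AdjoinSimple.gen k x) (r z)) = aeval (AdjoinSimple.gen k x) (r z) := by
    refine key _ fun n hn => hfix _ (Finset.mem_biUnion.2 ⟨z, hz, Finset.mem_union_left _ ?_⟩)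
    exact Polynomial.coeff_mem_coeffs (Polynomial.mem_support_iff.1 hn)
  have h2 : τ (aeval (AdjoinSimple.gen k x) (q z)) = aeval (AdjoinSimple.gen k x) (q z) := by
    refine key _ fun n hn => hfix _ (Finset.mem_biUnion.2 ⟨z, hz, Finset.mem_union_right _ ?_⟩)
    exact Polynomial.coeff_mem_coeffs (Polynomial.mem_support_iff.1 hn)
  rw [hrq z, map_div₀, h1, h2]

end Vale.Agent.P019P
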