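import Vale.Agent.P019Q.FLang1

/-!
# Lang's lemma: fixed vectors of semilinear maps
-/

namespace Vale.Agent.P019P

namespace AuxFLang

open Polynomial

/-- the fixed field has `p ^ n` elements. -/
theorem card_fixed {k : Type*} [Field k] [IsAlgClosed k] {p n : ℕ} [Fact p.Prime] [CharP k p]
    (hn : 0 < n) : Nat.card {a : k // a ^ (p ^ n) = a} = p ^ n := by
  classical
  have hp : 1 < p := (Fact.out : p.Prime).one_lt
  have hdeg : (X ^ (p ^ n) - X : k[X]).natDegree = p ^ n :=
    FiniteField.X_pow_card_pow_sub_X_natDegree_eq k hn.ne' hp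
  have hne : (X ^ (p ^ n) - X : k[X]) ≠ 0 :=
    FiniteField.X_pow_card_pow_sub_X_ne_zero k hn.ne' hp
  have hsep : (X ^ (p ^ n) - X : k[X]).Separable :=
    galois_poly_separable p (p ^ n) (dvd_pow_self p hn.ne')
  have h1 := card_rootSet_eq_natDegree (K := k) hsep (IsAlgClosed.splits _)
  rw [hdeg, ← Nat.card_eq_fintype_card] at h1
  refine (Nat.card_congr (Equiv.subtypeEquivRight fun a => ?_)).trans h1
  rw [mem_rootSet_of_ne hne]
  simp [sub_eq_zero]

theorem exists_pow_sub {k : Type*} [Field k] [IsAlgClosed k] {Q : ℕ} (hQ : 1 < Q) (b : k) :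
    ∃ a : k, a ^ Q - a = b := by
  have hdeg : (X ^ Q - X - C b : k[X]).degree ≠ 0 := by
    have h1 : (X ^ Q - X - C b : k[X]).natDegree = Q := by
      have h2 : (X ^ Q - X - C b : k[X]) = X ^ Q - (X + C b) := by ring
      rw [h2, natDegree_sub_eq_left_of_natDegree_lt]
      · simp
      · rw [natDegree_X_add_C, natDegree_X_pow]; exact hQ
    intro h
    have h3 : (X ^ Q - X - C b : k[X]).natDegree = 0 :=
      natDegree_eq_zero_iff_degree_le_zero.2 h.le
    omega
  obtain ⟨a, ha⟩ := IsAlgClosed.exists_root _ hdeg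
  refine ⟨a, ?_⟩
  simp only [IsRoot.def, eval_sub, eval_pow, eval_X, eval_C] at ha
  exact sub_eq_zero.1 ha

end AuxFLang

section lang

variable {k V : Type*} [Field k] [IsAlgClosed k] [AddCommGroup V] [Module k V]

/-- the number of fixed vectors. -/
theorem lang_card {p n : ℕ} [Fact p.Prime] [CharP k p] (hn : 0 < n) [FiniteDimensional k V]
    (φ : V →+ V) (hinj : Function.Injective φ)
    (hφ : ∀ (a : k) (v : V), φ (a • v) = a ^ (p ^ n) • φ v) :
    Nat.card {v : V // φ v = v} = (p ^ n) ^ Module.finrank k V := by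
  obtain ⟨d, hd⟩ : ∃ d, d = Module.finrank k V := ⟨_, rfl⟩
  induction d generalizing V with
  | zero =>
    have hsub : Subsingleton V := Module.finrank_zero_iff.1 hd.symm
    rw [← hd, pow_zero, Nat.card_eq_one_iff_unique]
    exact ⟨inferInstance, ⟨⟨0, map_zero φ⟩⟩⟩
  | succ d ih =>
    have hQ : 1 < p ^ n := Nat.one_lt_pow hn.ne' (Fact.out : p.Prime).one_lt
    have hnt : Nontrivial V := Module.nontrivial_of_finrank_pos (R := k) (by omega)
    obtain ⟨v, hv0, hv⟩ := lang_exists hn φ hinj hφ
    set S : Submodule k V := Submodule.span k {v} with hS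
    have hφS : ∀ w ∈ S, φ w ∈ S := by
      intro w hw
      obtain ⟨a, rfl⟩ := Submodule.mem_span_singleton.1 hw
      rw [hφ, hv]
      exact Submodule.smul_mem _ _ (Submodule.mem_span_singleton_self v)
    let ψ : (V ⧸ S) →+ (V ⧸ S) := QuotientAddGroup.lift S.toAddSubgroup
      ((S.mkQ.toAddMonoidHom).comp φ) (by
        intro w hw
        have h1 : φ w ∈ S := hφS w hw
        change S.mkQ (φ w) = 0
        rw [Submodule.mkQ_apply, Submodule.Quotient.mk_eq_zero]
        exact h1)
    have hψ : ∀ w, ψ (S.mkQ w) = S.mkQ (φ w) := fun w => rfl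
    have hψs : ∀ (a : k) (x : V ⧸ S), ψ (a • x) = a ^ (p ^ n) • ψ x := by
      intro a x
      obtain ⟨w, rfl⟩ := S.mkQ_surjective x
      rw [← map_smul, hψ, hψ, hφ, map_smul]
    have hψi : Function.Injective ψ := by
      rw [injective_iff_map_eq_zero]
      intro x hx
      obtain ⟨w, rfl⟩ := S.mkQ_surjective x
      rw [hψ, Submodule.mkQ_apply, Submodule.Quotient.mk_eq_zero] at hx
      rw [Submodule.mkQ_apply, Submodule.Quotient.mk_eq_zero]
      obtain ⟨a, ha⟩ := Submodule.mem_span_singleton.1 hx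
      obtain ⟨b, hb⟩ := IsAlgClosed.exists_pow_nat_eq a (n := p ^ n) (by omega)
      have h1 : φ (b • v) = φ w := by rw [hφ, hv, hb, ha]
      rw [← hinj h1]
      exact Submodule.smul_mem _ _ (Submodule.mem_span_singleton_self v)
    have hfr : Module.finrank k (V ⧸ S) = d := by
      have h1 := S.finrank_quotient_add_finrank
      have h2 : Module.finrank k S = 1 := finrank_span_singleton hv0
      omega
    have key := ih ψ hψi hψs hfr.symm
    rw [hfr] at key
    -- surjectivity on fixed vectors
    have hsurj : ∀ x : {x : V ⧸ S // ψ x = x}, ∃ w : V, φ w = w ∧ S.mkQ w = x.1 := by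
      rintro ⟨x, hx⟩
      obtain ⟨w, rfl⟩ := S.mkQ_surjective x
      rw [hψ, ← sub_eq_zero, ← map_sub, Submodule.mkQ_apply, Submodule.Quotient.mk_eq_zero] at hx
      obtain ⟨b, hb⟩ := Submodule.mem_span_singleton.1 hx
      obtain ⟨a, ha⟩ := AuxFLang.exists_pow_sub hQ (-b)
      refine ⟨w + a • v, ?_, ?_⟩
      · have h1 : φ w = w + b • v := by rw [hb]; abel
        rw [map_add, hφ, hv, h1]
        have h2 : a ^ (p ^ n) = a - b := by linear_combination ha
        rw [h2, sub_smul]
        abel
      · rw [map_add, add_eq_left, Submodule.mkQ_apply, Submodule.Quotient.mk_eq_zero]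
        exact Submodule.smul_mem _ _ (Submodule.mem_span_singleton_self v)
    choose s hs1 hs2 using hsurj
    let F : {x : V ⧸ S // ψ x = x} × {a : k // a ^ (p ^ n) = a} → {w : V // φ w = w} :=
      fun y => ⟨s y.1 + y.2.1 • v, by rw [map_add, hs1, hφ, hv, y.2.2]⟩
    have hmv : ∀ a : k, S.mkQ (a • v) = 0 := fun a => by
      rw [Submodule.mkQ_apply, Submodule.Quotient.mk_eq_zero]
      exact Submodule.smul_mem _ _ (Submodule.mem_span_singleton_self v)
    have hF : Function.Bijective F := by
      constructor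
      · rintro ⟨x, a⟩ ⟨y, b⟩ h
        have h1 : s x + a.1 • v = s y + b.1 • v := congrArg Subtype.val h
        have h2 := congrArg S.mkQ h1
        rw [map_add, map_add, hs2, hs2, hmv, hmv, add_zero, add_zero] at h2
        have h3 : x = y := Subtype.ext h2
        subst h3
        have h4 : a.1 • v = b.1 • v := add_left_cancel h1
        have h5 : a = b := Subtype.ext (smul_left_injective k hv0 h4)
        rw [h5]
      · rintro ⟨w, hw⟩
        have hx : ψ (S.mkQ w) = S.mkQ w := by rw [hψ, hw]
        have h1 : S.mkQ (w - s ⟨S.mkQ w, hx⟩) = 0 := by rw [map_sub, hs2, sub_self]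
        rw [Submodule.mkQ_apply, Submodule.Quotient.mk_eq_zero] at h1
        obtain ⟨a, ha⟩ := Submodule.mem_span_singleton.1 h1
        have h2 : a ^ (p ^ n) = a := by
          have h3 : φ (a • v) = a • v := by rw [ha, map_sub, hw, hs1]
          rw [hφ, hv] at h3
          exact smul_left_injective k hv0 h3
        refine ⟨(⟨S.mkQ w, hx⟩, ⟨a, h2⟩), Subtype.ext ?_⟩
        change s _ + a • v = w
        rw [ha]
        abel
    rw [← Nat.card_eq_of_bijective F hF, Nat.card_prod, key, AuxFLang.card_fixed hn, ← hd, pow_succ]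

end lang

end Vale.Agent.P019P
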