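import Mathlib

/-!
# Lang's lemma: a nonzero fixed vector of a semilinear map
-/

namespace Vale.Agent.P019P

namespace AuxFLang1

open Polynomial

variable {k : Type*} [Field k]

/-- The coefficient polynomials: `f 0 = c 0 X^Q`, `f (i+1) = (f i)^Q + c (i+1) X^Q`. -/
noncomputable def f (Q : ℕ) (c : ℕ → k) : ℕ → k[X]
  | 0 => C (c 0) * X ^ Q
  | i + 1 => f Q c i ^ Q + C (c (i + 1)) * X ^ Q

theorem dvd_f {Q : ℕ} (hQ : 2 ≤ Q) (c : ℕ → k) (i : ℕ) : (X : k[X]) ^ 2 ∣ f Q c i := by
  have h2 : (X : k[X]) ^ 2 ∣ X ^ Q := pow_dvd_pow _ hQ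
  induction i with
  | zero => exact Dvd.dvd.mul_left h2 _
  | succ i ih => exact dvd_add (dvd_pow ih (by omega)) (Dvd.dvd.mul_left h2 _)

theorem natDegree_f {Q : ℕ} (hQ : 2 ≤ Q) {c : ℕ → k} (hc : c 0 ≠ 0) (i : ℕ) :
    2 ≤ (f Q c i).natDegree := by
  induction i with
  | zero =>
    rw [f, natDegree_C_mul_X_pow _ _ hc]
    exact hQ
  | succ i ih =>
    have h1 : (C (c (i + 1)) * X ^ Q : k[X]).natDegree < (f Q c i ^ Q).natDegree := by
      refine lt_of_le_of_lt (natDegree_C_mul_X_pow_le _ _) ?_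
      rw [natDegree_pow]
      nlinarith
    rw [f, natDegree_add_eq_left_of_natDegree_lt h1, natDegree_pow]
    nlinarith

theorem exists_fix [IsAlgClosed k] {Q : ℕ} (hQ : 2 ≤ Q) {c : ℕ → k} (hc : c 0 ≠ 0) (i : ℕ) :
    ∃ x : k, x ≠ 0 ∧ (f Q c i).eval x = x := by
  obtain ⟨h, hh⟩ := dvd_f hQ c i
  have hh0 : h ≠ 0 := by
    rintro rfl
    have := natDegree_f hQ hc i
    rw [hh, mul_zero, natDegree_zero] at this
    omega
  have hd : (X * h - 1 : k[X]).degree ≠ 0 := by
    have h1 : (1 : k[X]).degree < (X * h).degree := by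
      rw [degree_one, degree_mul, degree_X, degree_eq_natDegree hh0]
      exact_mod_cast (by omega : 0 < 1 + h.natDegree)
    rw [degree_sub_eq_left_of_degree_lt h1]
    rw [degree_one] at h1
    exact h1.ne'
  obtain ⟨x, hx⟩ := IsAlgClosed.exists_root _ hd
  rw [IsRoot.def, eval_sub, eval_mul, eval_X, eval_one, sub_eq_zero] at hx
  refine ⟨x, ?_, ?_⟩
  · rintro rfl
    simp at hx
  · rw [hh, eval_mul, eval_pow, eval_X, sq, mul_assoc, hx, mul_one]

end AuxFLang1

section lang

variable {k V : Type*} [Field k] [IsAlgClosed k] [AddCommGroup V] [Module k V]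

open AuxFLang1 in
/-- a nonzero fixed vector. -/
theorem lang_exists {p n : ℕ} [Fact p.Prime] [CharP k p] (hn : 0 < n) [FiniteDimensional k V]
    (φ : V →+ V) (hinj : Function.Injective φ)
    (hφ : ∀ (a : k) (v : V), φ (a • v) = a ^ (p ^ n) • φ v) [Nontrivial V] :
    ∃ v : V, v ≠ 0 ∧ φ v = v := by
  classical
  set Q := p ^ n with hQdef
  have hQ : 2 ≤ Q := le_trans (Fact.out : p.Prime).two_le (Nat.le_self_pow (by omega) p)
  obtain ⟨v, hv⟩ := exists_ne (0 : V)
  set e : ℕ → V := fun i => φ^[i] v with he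
  have hs : ∀ i, φ (e i) = e (i + 1) := fun i => (Function.iterate_succ_apply' φ i v).symm
  have hex : ∃ r : ℕ, ¬ LinearIndependent k (fun i : Fin r => e i) := by
    refine ⟨Module.finrank k V + 1, fun h => ?_⟩
    have := h.fintype_card_le_finrank
    simp at this
  have hr := Nat.find_spec hex
  have hmin := fun m => Nat.find_min hex (m := m)
  set r := Nat.find hex with hrdef
  obtain ⟨s, hs1⟩ : ∃ s, r = s + 1 := by
    refine ⟨r - 1, ?_⟩
    have : r ≠ 0 := by
      intro h0
      rw [h0] at hr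
      exact hr linearIndependent_empty_type
    omega
  have hLI : LinearIndependent k (fun i : Fin s => e i) := not_not.1 (hmin s (by omega))
  have hspan : e s ∈ Submodule.span k (Set.range fun i : Fin s => e i) := by
    by_contra hcon
    rw [hs1] at hr
    apply hr
    rw [linearIndependent_finSucc']
    refine ⟨?_, ?_⟩
    · exact hLI
    · have e1 : (Fin.init fun i : Fin (s + 1) => e i) = fun i : Fin s => e i := by
        funext i
        simp [Fin.init]
      rw [e1]
      simpa using hcon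
  obtain ⟨m, rfl⟩ : ∃ m, s = m + 1 := by
    refine ⟨s - 1, ?_⟩
    have : s ≠ 0 := by
      rintro rfl
      have h1 : (Set.range fun i : Fin 0 => e i) = ∅ := Set.range_eq_empty _
      rw [h1, Submodule.span_empty, Submodule.mem_bot] at hspan
      exact hv hspan
    omega
  obtain ⟨c₀, hc₀⟩ := (Submodule.mem_span_range_iff_exists_fun k).1 hspan
  set c : ℕ → k := fun i => if h : i < m + 1 then c₀ ⟨i, h⟩ else 0 with hcdef
  have hc : e (m + 1) = ∑ i ∈ Finset.range (m + 1), c i • e i := by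
    rw [← hc₀, ← Fin.sum_univ_eq_sum_range (fun i => c i • e i) (m + 1)]
    refine Finset.sum_congr rfl fun i _ => ?_
    simp only [hcdef, i.2, dif_pos]
  -- the powers of `φ` on combinations
  have hsum : ∀ (x : ℕ → k) (N : ℕ), φ (∑ i ∈ Finset.range N, x i • e i) =
      ∑ i ∈ Finset.range N, x i ^ Q • e (i + 1) := by
    intro x N
    rw [map_sum]
    exact Finset.sum_congr rfl fun i _ => by rw [hφ, hs]
  have hc0 : c 0 ≠ 0 := by
    intro h0
    have hroot : ∀ a : k, ∃ d : k, d ^ Q = a := fun a =>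
      IsAlgClosed.exists_pow_nat_eq a (by omega)
    choose ρ hρ using hroot
    have h1 : φ (e m) = φ (∑ i ∈ Finset.range m, ρ (c (i + 1)) • e i) := by
      rw [hs, hc, Finset.sum_range_succ', h0, zero_smul, add_zero,
        hsum (fun i => ρ (c (i + 1)))]
      exact Finset.sum_congr rfl fun i _ => by rw [hρ]
    have h2 := hinj h1
    have h3 := (linearIndependent_finSucc'.1 hLI).2
    apply h3
    have e1 : (Fin.init fun i : Fin (m + 1) => e i) = fun i : Fin m => e i := by
      funext i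
      simp [Fin.init]
    rw [e1, Fin.val_last, h2]
    refine Submodule.sum_mem _ fun i hi => Submodule.smul_mem _ _ (Submodule.subset_span ?_)
    exact ⟨⟨i, Finset.mem_range.1 hi⟩, rfl⟩
  obtain ⟨x₀, hx₀, hfix⟩ := exists_fix hQ hc0 m
  set x : ℕ → k := fun i => (f Q c i).eval x₀ with hx
  have hxm : x m = x₀ := hfix
  have hx0 : x 0 = c 0 * x₀ ^ Q := by simp [hx, f]
  have hxs : ∀ i, x (i + 1) = x i ^ Q + c (i + 1) * x₀ ^ Q := by
    intro i
    simp [hx, f]
  refine ⟨∑ i ∈ Finset.range (m + 1), x i • e i, ?_, ?_⟩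
  · intro h0
    rw [← Fin.sum_univ_eq_sum_range (fun i => x i • e i) (m + 1)] at h0
    have h1 := Fintype.linearIndependent_iff.1 hLI (fun i => x i) h0 (Fin.last m)
    simp only [Fin.val_last] at h1
    exact hx₀ (hxm ▸ h1)
  · rw [hsum, Finset.sum_range_succ, hxm, hc, Finset.smul_sum, Finset.sum_range_succ',
      Finset.sum_range_succ' (fun i => x i • e i), hx0]
    simp only [hxs, smul_smul]
    rw [← add_assoc, ← Finset.sum_add_distrib]
    congr 1
    · refine Finset.sum_congr rfl fun i _ => ?_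
      rw [add_smul, mul_comm (c (i + 1))]
    · rw [mul_comm]

end lang

end Vale.Agent.P019P
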