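import Vale.Agent.P019Q.FAct
import Vale.Agent.P019Q.FFrobA

/-!
# Periodic places
-/

namespace Vale.Agent.P019P

open Polynomial IntermediateField

variable {k F : Type*} [Field k] [Field F] [Algebra k F] [CFF k F] {p m : ℕ} [Fact p.Prime]
  [CharP k p]

namespace AuxFPer

theorem const_unique {P : Plk k F} {x : F} {c c' : k} (h : 0 < ord P (x - algebraMap k F c))
    (h' : 0 < ord P (x - algebraMap k F c')) : c = c' := by
  by_contra hne
  have h1 : x - algebraMap k F c ≠ 0 := by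
    intro h0
    rw [h0, (ord_spec P).zero] at h
    exact lt_irrefl _ h
  have h2 : x - algebraMap k F c' ≠ 0 := by
    intro h0
    rw [h0, (ord_spec P).zero] at h'
    exact lt_irrefl _ h'
  have h3 : (x - algebraMap k F c') + -(x - algebraMap k F c) = algebraMap k F (c - c') := by
    rw [map_sub]; ring
  have h4 : algebraMap k F (c - c') ≠ 0 := by
    rw [Ne, map_eq_zero, sub_eq_zero]
    exact hne
  have h5 := ord_le_add P h2 (neg_ne_zero.2 h1) (by rw [h3]; exact h4)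
  rw [h3, ord_const, ord_neg] at h5
  rcases min_le_iff.1 h5 with h6 | h6
  · exact absurd h' (not_lt.2 h6)
  · exact absurd h (not_lt.2 h6)

theorem pow_x {σ : F ≃+* F} {x : F} (hσ : σ x = x) (n : ℕ) : (σ ^ n) x = x := by
  induction n with
  | zero => rfl
  | succ n ih => rw [pow_succ, RingAut.mul_apply, hσ, ih]

theorem pow_c {σ₀ : k ≃+* k} (h0 : ∀ a : k, σ₀ a = a ^ p ^ m) (n : ℕ) (a : k) :
    (σ₀ ^ n) a = a ^ p ^ (m * n) := by
  induction n generalizing a with
  | zero => simp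
  | succ n ih =>
    rw [pow_succ, RingAut.mul_apply, ih, h0, ← pow_mul, ← pow_add, mul_add, mul_one, add_comm]

theorem ord_pow_sub (σ : F ≃+* F) (σ₀ : k ≃+* k) (h0 : ∀ a : k, σ₀ a = a ^ p ^ m)
    (h : ∀ a, σ (algebraMap k F a) = algebraMap k F (σ₀ a)) {x : F} (hσ : σ x = x) (n : ℕ)
    (P : Plk k F) (c : k) :
    ord (((plEquiv σ σ₀ h : Equiv.Perm (Plk k F)) ^ n) P)
      (x - algebraMap k F (c ^ p ^ (m * n))) = ord P (x - algebraMap k F c) := by
  have h1 := ord_plEquiv (σ ^ n) (σ₀ ^ n) (semi_pow h n) P (x - algebraMap k F c)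
  rw [← plEquiv_pow, map_sub, pow_x hσ, semi_pow h n, pow_c h0] at h1
  exact h1

theorem ord_pow_x (σ : F ≃+* F) (σ₀ : k ≃+* k)
    (h : ∀ a, σ (algebraMap k F a) = algebraMap k F (σ₀ a)) {x : F} (hσ : σ x = x) (n : ℕ)
    (P : Plk k F) :
    ord (((plEquiv σ σ₀ h : Equiv.Perm (Plk k F)) ^ n) P) x = ord P x := by
  have h1 := ord_plEquiv (σ ^ n) (σ₀ ^ n) (semi_pow h n) P x
  rw [← plEquiv_pow, pow_x hσ] at h1
  exact h1

theorem per_of_finite {α : Type*} (s : Equiv.Perm α) {A : Set α} (hA : A.Finite)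
    (hs : ∀ a ∈ A, s a ∈ A) {a : α} (ha : a ∈ A) : ∃ n : ℕ, 0 < n ∧ (s ^ n) a = a := by
  have h1 : ∀ n : ℕ, (s ^ n) a ∈ A := by
    intro n
    induction n with
    | zero => exact ha
    | succ n ih => rw [pow_succ', Equiv.Perm.mul_apply]; exact hs _ ih
  obtain ⟨i, j, hij, h2⟩ := hA.exists_lt_map_eq_of_forall_mem h1
  refine ⟨j - i, Nat.sub_pos_of_lt hij, ?_⟩
  have h3 : s ^ j = s ^ i * s ^ (j - i) := by rw [← pow_add, Nat.add_sub_cancel' hij.le]
  rw [h3, Equiv.Perm.mul_apply] at h2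
  exact ((s ^ i).injective h2).symm

end AuxFPer

open AuxFPer

/-- there are only finitely many `q ^ n`-rational places. -/
theorem pl_fin (hm : 0 < m) (σ : F ≃+* F) (σ₀ : k ≃+* k) (h0 : ∀ a : k, σ₀ a = a ^ p ^ m)
    (h : ∀ a, σ (algebraMap k F a) = algebraMap k F (σ₀ a)) {x : F}
    (hx : ∀ a : k, x ≠ algebraMap k F a) (hσ : σ x = x) {n : ℕ} (hn : 0 < n) :
    {P : Plk k F | ((plEquiv σ σ₀ h : Equiv.Perm (Plk k F)) ^ n) P = P}.Finite := by
  classical
  have hx0 : x ≠ 0 := fun h1 => hx 0 (by rw [h1, map_zero])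
  have hp : 1 < p := (Fact.out : p.Prime).one_lt
  have hq : 1 < p ^ (m * n) := Nat.one_lt_pow (Nat.mul_pos hm hn).ne' hp
  let R : Finset k := (X ^ p ^ (m * n) - X : k[X]).roots.toFinset
  refine Set.Finite.subset (Set.Finite.union (dv_finite hx0)
    (Set.Finite.biUnion R.finite_toSet fun c _ => fib_finite hx c)) ?_
  intro P hP
  change ((plEquiv σ σ₀ h : Equiv.Perm (Plk k F)) ^ n) P = P at hP
  by_cases hxP : x ∈ P.1
  · right
    obtain ⟨c, hc⟩ := exists_cst P hxP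
    have hc := hc.resolve_left (hx c)
    have h1 := ord_pow_sub σ σ₀ h0 h hσ n P c
    rw [hP] at h1
    rw [← h1] at hc
    have h2 : 0 < ord P (x - algebraMap k F c) := by rw [← h1]; exact hc
    have h3 : c ^ p ^ (m * n) = c := const_unique hc h2
    have h4 : c ∈ R := by
      rw [Multiset.mem_toFinset, mem_roots (FiniteField.X_pow_card_sub_X_ne_zero k hq),
        IsRoot.def, eval_sub, eval_pow, eval_X, h3, sub_self]
    exact Set.mem_biUnion (Finset.mem_coe.2 h4) h2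
  · left
    change ord P x ≠ 0
    intro h1
    exact hxP (((ord_spec P).mem x).2 (Or.inr h1.ge))

/-- every place is rational over a finite field. -/
theorem pl_per (hf : ∀ a : k, a ≠ 0 → ∃ n : ℕ, 0 < n ∧ a ^ n = 1)
    (σ : F ≃+* F) (σ₀ : k ≃+* k) (h0 : ∀ a : k, σ₀ a = a ^ p ^ m)
    (h : ∀ a, σ (algebraMap k F a) = algebraMap k F (σ₀ a)) {x : F}
    (hx : ∀ a : k, x ≠ algebraMap k F a) (hσ : σ x = x) (P : Plk k F) :
    ∃ n : ℕ, 0 < n ∧ ((plEquiv σ σ₀ h : Equiv.Perm (Plk k F)) ^ n) P = P := by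
  classical
  have hx0 : x ≠ 0 := fun h1 => hx 0 (by rw [h1, map_zero])
  by_cases hxP : x ∈ P.1
  · obtain ⟨c, hc⟩ := exists_cst P hxP
    have hc := hc.resolve_left (hx c)
    obtain ⟨r, hr, hcr⟩ := exists_pow_fix (p := p) hf {c}
    have hcr := hcr c (Finset.mem_singleton_self c)
    have h1 : ∀ j : ℕ, c ^ p ^ (j * r) = c := by
      intro j
      induction j with
      | zero => simp
      | succ j ih => rw [add_mul, one_mul, pow_add, pow_mul, ih, hcr]
    obtain ⟨n, hn, hPn⟩ := per_of_finite ((plEquiv σ σ₀ h : Equiv.Perm (Plk k F)) ^ r)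
      (fib_finite hx c) (fun Q hQ => by
        have h2 := ord_pow_sub σ σ₀ h0 h hσ r Q c
        rw [h1 m] at h2
        change 0 < ord _ _
        rw [h2]
        exact hQ) hc
    exact ⟨r * n, Nat.mul_pos hr hn, by rw [pow_mul]; exact hPn⟩
  · have h1 : ord P x ≠ 0 := fun h1 => hxP (((ord_spec P).mem x).2 (Or.inr h1.ge))
    refine per_of_finite _ (dv_finite hx0) (fun Q hQ => ?_) h1
    have h2 := ord_pow_x σ σ₀ h hσ 1 Q
    rw [pow_one] at h2
    change ord _ x ≠ 0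
    rw [h2]
    exact hQ

end Vale.Agent.P019P
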