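import Vale.Agent.P019Q.CIface
import Vale.Agent.P019Q.Defs

/-!
# Places of a perfect field and of a function field with this perfect closure
-/

namespace Vale.Agent.P019P

open Vale.Agent.P019

set_option linter.style.haveILetI false
set_option linter.unusedSectionVars false

open Polynomial IntermediateField

namespace AuxFPl

theorem mem_of_pow {K : Type*} [Field K] (O : ValuationSubring K) {w : K} {n : ℕ} (hn : n ≠ 0)
    (h : w ^ n ∈ O) : w ∈ O := by
  rw [← O.valuation_le_one_iff] at h ⊢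
  by_contra hcon
  push Not at hcon
  have h2 := one_lt_pow₀ hcon hn
  rw [← map_pow] at h2
  exact absurd h (not_le.2 h2)

theorem q_pow_ne (F : Type*) [Field F] (n : ℕ) : ringExpChar F ^ n ≠ 0 :=
  pow_ne_zero _ (expChar_pos F (ringExpChar F)).ne'

variable {F : Type*} [Field F] {k : Subfield F} (F0 : IntermediateField k F)

theorem exists_low [IsPurelyInseparable F0 F] (z : F) :
    ∃ (n : ℕ) (w : F0), (w : F) = z ^ ringExpChar F ^ n := by
  haveI : ExpChar F0 (ringExpChar F) :=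
    (algebraMap F0 F).expChar (algebraMap F0 F).injective (ringExpChar F)
  obtain ⟨n, w, hw⟩ := IsPurelyInseparable.pow_mem F0 (ringExpChar F) z
  exact ⟨n, w, hw⟩

variable {F0}

theorem mem_iff (O : ValuationSubring F0) {z : F} {n : ℕ} {w : F0}
    (h : (w : F) = z ^ ringExpChar F ^ n) :
    (∃ (m : ℕ) (v : F0), v ∈ O ∧ (v : F) = z ^ ringExpChar F ^ m) ↔ w ∈ O := by
  constructor
  · rintro ⟨m, v, hv, hvz⟩
    apply mem_of_pow O (q_pow_ne F m)
    have h1 : w ^ ringExpChar F ^ m = v ^ ringExpChar F ^ n := by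
      apply Subtype.ext
      rw [SubmonoidClass.coe_pow, SubmonoidClass.coe_pow, h, hvz, ← pow_mul, ← pow_mul,
        mul_comm]
    rw [h1]
    exact pow_mem hv _
  · intro hw
    exact ⟨n, w, hw, h⟩

end AuxFPl

variable {F : Type*} [Field F] {k : Subfield F} (F0 : IntermediateField k F) [CFF k F0]
  [IsPurelyInseparable F0 F]

/-- the valuation ring of `F` over a valuation ring of `F0`. -/
noncomputable def vExt (O : ValuationSubring F0) : ValuationSubring F where
  carrier := {z | ∃ (n : ℕ) (w : F0), w ∈ O ∧ (w : F) = z ^ ringExpChar F ^ n}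
  mul_mem' := by
    rintro z z' ⟨n, w, hw, hz⟩ ⟨n', w', hw', hz'⟩
    refine ⟨n + n', w ^ ringExpChar F ^ n' * w' ^ ringExpChar F ^ n,
      mul_mem (pow_mem hw _) (pow_mem hw' _), ?_⟩
    rw [MulMemClass.coe_mul, SubmonoidClass.coe_pow, SubmonoidClass.coe_pow, hz, hz', mul_pow,
      ← pow_mul, ← pow_mul, ← pow_add, ← pow_add, add_comm n' n]
  one_mem' := ⟨0, 1, one_mem O, by simp⟩
  add_mem' := by
    rintro z z' ⟨n, w, hw, hz⟩ ⟨n', w', hw', hz'⟩
    refine ⟨n + n', w ^ ringExpChar F ^ n' + w' ^ ringExpChar F ^ n,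
      add_mem (pow_mem hw _) (pow_mem hw' _), ?_⟩
    rw [AddMemClass.coe_add, SubmonoidClass.coe_pow, SubmonoidClass.coe_pow, hz, hz',
      add_pow_expChar_pow, ← pow_mul, ← pow_mul, ← pow_add, ← pow_add, add_comm n' n]
  zero_mem' := ⟨0, 0, zero_mem O, by simp⟩
  neg_mem' := by
    rintro z ⟨n, w, hw, hz⟩
    refine ⟨n, (-1) ^ ringExpChar F ^ n * w, mul_mem (pow_mem (neg_mem (one_mem O)) _) hw, ?_⟩
    rw [neg_pow z, ← hz]
    rfl
  mem_or_inv_mem' := by
    intro z
    obtain ⟨n, w, hw⟩ := AuxFPl.exists_low F0 z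
    rcases O.mem_or_inv_mem w with h | h
    · exact Or.inl ⟨n, w, h, hw⟩
    · refine Or.inr ⟨n, w⁻¹, h, ?_⟩
      rw [inv_pow, ← hw]
      rfl

theorem AuxFPl.mem_vExt (O : ValuationSubring F0) {z : F} {n : ℕ} {w : F0}
    (h : (w : F) = z ^ ringExpChar F ^ n) : z ∈ vExt F0 O ↔ w ∈ O := AuxFPl.mem_iff O h

theorem AuxFPl.mem_vExt' (O : ValuationSubring F0) (w : F0) : (w : F) ∈ vExt F0 O ↔ w ∈ O :=
  AuxFPl.mem_vExt F0 O (n := 0) (by rw [pow_zero, pow_one])

/-- places of `F` and places of `F0`. -/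
noncomputable def plRes : Plc k ≃ Plk k F0 where
  toFun O := ⟨O.1.comap (algebraMap F0 F), by
    refine ⟨fun a => O.2.1 a a.2, fun h => O.2.2 ?_⟩
    rw [eq_top_iff]
    intro z _
    obtain ⟨n, w, hw⟩ := AuxFPl.exists_low F0 z
    apply AuxFPl.mem_of_pow O.1 (AuxFPl.q_pow_ne F n)
    rw [← hw]
    have h1 : w ∈ O.1.comap (algebraMap F0 F) := by rw [h]; exact ValuationSubring.mem_top w
    exact h1⟩
  invFun P := ⟨vExt F0 P.1, by
    refine ⟨fun a ha => ⟨0, algebraMap k F0 ⟨a, ha⟩, P.2.1 _, ?_⟩, fun h => P.2.2 ?_⟩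
    · rw [pow_zero, pow_one]; rfl
    · rw [eq_top_iff]
      intro w _
      rw [← AuxFPl.mem_vExt' F0, h]
      exact ValuationSubring.mem_top _⟩
  left_inv := by
    intro O
    apply Subtype.ext
    ext z
    obtain ⟨n, w, hw⟩ := AuxFPl.exists_low F0 z
    change z ∈ vExt F0 (O.1.comap (algebraMap F0 F)) ↔ _
    rw [AuxFPl.mem_vExt F0 _ hw]
    change (w : F) ∈ O.1 ↔ _
    rw [hw]
    exact ⟨AuxFPl.mem_of_pow O.1 (AuxFPl.q_pow_ne F n), fun h => pow_mem h _⟩
  right_inv := by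
    intro P
    apply Subtype.ext
    ext w
    exact AuxFPl.mem_vExt' F0 P.1 w

theorem mem_plRes (O : Plc k) (z : F0) : z ∈ (plRes F0 O).1 ↔ (z : F) ∈ O.1 := Iff.rfl

namespace AuxFPl

theorem ord_one {K : Type*} [Field K] {O : ValuationSubring K} {f : K → ℤ} (hf : IsOrd O f) :
    f 1 = 0 := by
  have h := hf.mul 1 1 one_ne_zero one_ne_zero
  rw [mul_one] at h
  omega

theorem ord_pow {K : Type*} [Field K] {O : ValuationSubring K} {f : K → ℤ} (hf : IsOrd O f)
    {x : K} (hx : x ≠ 0) (n : ℕ) : f (x ^ n) = n * f x := by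
  induction n with
  | zero => rw [pow_zero, ord_one hf]; simp
  | succ n ih =>
    rw [pow_succ, hf.mul _ _ (pow_ne_zero _ hx) hx, ih]
    push_cast
    ring

theorem ord_inv {K : Type*} [Field K] {O : ValuationSubring K} {f : K → ℤ} (hf : IsOrd O f)
    {x : K} (hx : x ≠ 0) : f x⁻¹ = - f x := by
  have h := hf.mul x x⁻¹ hx (inv_ne_zero hx)
  rw [mul_inv_cancel₀ hx, ord_one hf] at h
  omega

theorem ord_zpow {K : Type*} [Field K] {O : ValuationSubring K} {f : K → ℤ} (hf : IsOrd O f)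
    {x : K} (hx : x ≠ 0) (n : ℤ) : f (x ^ n) = n * f x := by
  cases n with
  | ofNat n =>
    rw [Int.ofNat_eq_natCast, zpow_natCast]; exact ord_pow hf hx n
  | negSucc n =>
    rw [zpow_negSucc, ord_inv hf (pow_ne_zero _ hx), ord_pow hf hx, Int.negSucc_eq]
    push_cast
    ring

theorem ord_eq_zero_iff {K : Type*} [Field K] {O : ValuationSubring K} {f : K → ℤ}
    (hf : IsOrd O f) {x : K} (hx : x ≠ 0) : f x = 0 ↔ O.valuation x = 1 := by
  have h1 := hf.mem x
  have h2 := hf.mem x⁻¹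
  rw [ord_inv hf hx] at h2
  have h3 : O.valuation x⁻¹ ≤ 1 ↔ 1 ≤ O.valuation x := by
    rw [map_inv₀]
    have hpos : 0 < O.valuation x := by
      rw [zero_lt_iff]; exact (Valuation.ne_zero_iff _).2 hx
    exact inv_le_one₀ hpos
  rw [← O.valuation_le_one_iff] at h1 h2
  rw [h3] at h2
  have hx' := inv_ne_zero hx
  constructor
  · intro h
    apply le_antisymm
    · rw [h1]; right; omega
    · rw [h2]; right; omega
  · intro h
    have h4 := h1.1 h.le
    have h5 := h2.1 h.ge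
    have h6 := h4.resolve_left hx
    have h7 := h5.resolve_left hx'
    omega

end AuxFPl

/-- unramified classes. -/
theorem cl_mem_UC_iff {ℓ : ℕ} [Fact ℓ.Prime] [NeZero (ℓ : F)] (O : Plc k) {z : F0} (hz : z ≠ 0) :
    cl ℓ (z : F) ∈ UC ℓ O.1 ↔ (ℓ : ℤ) ∣ ord (plRes F0 O) z := by
  have hO := ord_spec (plRes F0 O)
  set f := ord (plRes F0 O) with hf
  have hzF : (z : F) ≠ 0 := fun h => hz (Subtype.ext h)
  rw [mem_UC]
  constructor
  · rintro ⟨w, hw, hzw⟩
    have hw0 : w ≠ 0 := by rintro rfl; rw [map_zero] at hw; exact zero_ne_one hw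
    obtain ⟨t, ht0, hzt⟩ := (cl_eq_iff ℓ hzF hw0).1 hzw
    obtain ⟨n, W, hW⟩ := AuxFPl.exists_low F0 w
    obtain ⟨m, T, hT⟩ := AuxFPl.exists_low F0 t
    have hW0 : W ≠ 0 := by
      rintro rfl
      exact pow_ne_zero _ hw0 hW.symm
    have hT0 : T ≠ 0 := by
      rintro rfl
      exact pow_ne_zero _ ht0 hT.symm
    have key : z ^ ringExpChar F ^ (n + m) =
        W ^ ringExpChar F ^ m * (T ^ ringExpChar F ^ n) ^ ℓ := by
      apply Subtype.ext
      rw [MulMemClass.coe_mul, SubmonoidClass.coe_pow, SubmonoidClass.coe_pow,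
        SubmonoidClass.coe_pow, SubmonoidClass.coe_pow, hW, hT, hzt, mul_pow]
      congr 1
      · rw [← pow_mul, pow_add]
      · rw [← pow_mul, ← pow_mul, ← pow_mul, pow_add]
        congr 1
        ring
    have hWu : (plRes F0 O).1.valuation W = 1 := by
      have h1 : ∀ x : F0, (plRes F0 O).1.valuation x ≤ 1 ↔ O.1.valuation (x : F) ≤ 1 := by
        intro x
        rw [ValuationSubring.valuation_le_one_iff, ValuationSubring.valuation_le_one_iff]
        exact mem_plRes F0 O x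
      have h2 : O.1.valuation (W : F) = 1 := by
        rw [hW, map_pow, hw, one_pow]
      have h3 := (h1 W).2 h2.le
      have h4 := (h1 W⁻¹).2 (by
        have : ((W⁻¹ : F0) : F) = (W : F)⁻¹ := rfl
        rw [this, map_inv₀, h2, inv_one])
      apply le_antisymm h3
      rw [map_inv₀] at h4
      have hpos : 0 < (plRes F0 O).1.valuation W := by
        rw [zero_lt_iff]; exact (Valuation.ne_zero_iff _).2 hW0
      exact (inv_le_one₀ hpos).1 h4
    have hfW : f W = 0 := (AuxFPl.ord_eq_zero_iff hO hW0).2 hWu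
    have h5 := congrArg f key
    rw [AuxFPl.ord_pow hO hz, hO.mul _ _ (pow_ne_zero _ hW0) (pow_ne_zero _ (pow_ne_zero _ hT0)),
      AuxFPl.ord_pow hO hW0, hfW, mul_zero, zero_add, AuxFPl.ord_pow hO (pow_ne_zero _ hT0)] at h5
    have h6 : (ℓ : ℤ) ∣ ((ringExpChar F ^ (n + m) : ℕ) : ℤ) * f z := ⟨_, h5⟩
    have hq := q_ne_zero ℓ F
    have hp : Prime (ℓ : ℤ) := Nat.prime_iff_prime_int.1 (Fact.out : ℓ.Prime)
    rcases hp.dvd_or_dvd h6 with h7 | h7
    · exfalso
      rw [Nat.cast_pow] at h7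
      have h8 := hp.dvd_of_dvd_pow h7
      apply hq
      rw [ZMod.natCast_eq_zero_iff]
      exact_mod_cast h8
    · exact h7
  · rintro ⟨m, hm⟩
    obtain ⟨π, hπ⟩ := hO.one
    have hπ0 : π ≠ 0 := by
      rintro rfl
      rw [hO.zero] at hπ
      exact zero_ne_one hπ
    have hw0 : z * ((π ^ m) ^ ℓ)⁻¹ ≠ 0 :=
      mul_ne_zero hz (inv_ne_zero (pow_ne_zero _ (zpow_ne_zero _ hπ0)))
    have hfw : f (z * ((π ^ m) ^ ℓ)⁻¹) = 0 := by
      rw [hO.mul _ _ hz (inv_ne_zero (pow_ne_zero _ (zpow_ne_zero _ hπ0))),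
        AuxFPl.ord_inv hO (pow_ne_zero _ (zpow_ne_zero _ hπ0)),
        AuxFPl.ord_pow hO (zpow_ne_zero _ hπ0), AuxFPl.ord_zpow hO hπ0, hπ, hm]
      ring
    have hu := (AuxFPl.ord_eq_zero_iff hO hw0).1 hfw
    set w : F0 := z * ((π ^ m) ^ ℓ)⁻¹ with hwdef
    refine ⟨(w : F), ?_, ?_⟩
    · have h1 : ∀ x : F0, (plRes F0 O).1.valuation x ≤ 1 ↔ O.1.valuation (x : F) ≤ 1 := by
        intro x
        rw [ValuationSubring.valuation_le_one_iff, ValuationSubring.valuation_le_one_iff]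
        exact mem_plRes F0 O x
      have h3 := (h1 w).1 hu.le
      have h4 := (h1 w⁻¹).1 (by rw [map_inv₀, hu, inv_one])
      apply le_antisymm h3
      have h5 : ((w⁻¹ : F0) : F) = (w : F)⁻¹ := rfl
      rw [h5, map_inv₀] at h4
      have hpos : 0 < O.1.valuation (w : F) := by
        rw [zero_lt_iff]
        exact (Valuation.ne_zero_iff _).2 (fun h => hw0 (Subtype.ext h))
      exact (inv_le_one₀ hpos).1 h4
    · have hwF : (w : F) ≠ 0 := fun h => hw0 (Subtype.ext h)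
      have hπF : ((π ^ m : F0) : F) ≠ 0 := fun h => zpow_ne_zero m hπ0 (Subtype.ext h)
      rw [cl_eq_iff ℓ hzF hwF]
      refine ⟨((π ^ m : F0) : F), hπF, ?_⟩
      have h1 : z = w * (π ^ m) ^ ℓ := by
        rw [hwdef, inv_mul_cancel_right₀ (pow_ne_zero _ (zpow_ne_zero _ hπ0))]
      have h2 := congrArg (fun x : F0 => (x : F)) h1
      exact h2

end Vale.Agent.P019P
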