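import Vale.Agent.P019Q.CIface

/-!
# Purely inseparable extensions of degree `p` of function fields
-/

namespace Vale.Agent.P019P

set_option linter.style.haveILetI false
set_option linter.unusedSectionVars false

open Polynomial IntermediateField

/-- a subfield over which the field is purely inseparable of degree `p` consists of the
`p`-th powers. -/
theorem frob_step {k E : Type*} [Field k] [Field E] [Algebra k E] [CFF k E] {p : ℕ}
    [Fact p.Prime] [CharP E p] (S : Subfield E) (hS : ∀ a : k, algebraMap k E a ∈ S) {z : E}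
    (hz : z ∉ S) (hzp : z ^ p ∈ S) (htop : S ⊔ Subfield.closure {z} = ⊤) (a : E) :
    a ∈ S ↔ ∃ b : E, b ^ p = a := by
  have hp : p.Prime := Fact.out
  -- the subfield of `p`-th powers
  obtain ⟨P, hP⟩ : ∃ P : Subfield E, P = (frobenius E p).fieldRange := ⟨_, rfl⟩
  have hPm : ∀ x : E, x ∈ P ↔ ∃ b : E, b ^ p = x := by
    intro x
    rw [hP, RingHom.mem_fieldRange]
    rfl
  have hPS : P ≤ S := by
    have h1 : S ⊔ Subfield.closure {z} ≤ S.comap (frobenius E p) := by
      refine sup_le (fun x hx => ?_) ?_
      · rw [Subfield.mem_comap, frobenius_def]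
        exact pow_mem hx p
      · rw [Subfield.closure_le, Set.singleton_subset_iff]
        simpa [frobenius_def] using hzp
    intro x hx
    obtain ⟨b, rfl⟩ := (hPm x).1 hx
    have h2 : b ∈ S.comap (frobenius E p) := h1 (by rw [htop]; exact Subfield.mem_top b)
    simpa [frobenius_def] using h2
  haveI hac : IsAlgClosed k := CFF.ac E
  have hkP : ∀ c : k, algebraMap k E c ∈ P := by
    intro c
    obtain ⟨d, hd⟩ := IsAlgClosed.exists_pow_nat_eq c hp.pos
    exact (hPm _).2 ⟨algebraMap k E d, by rw [← map_pow, hd]⟩
  obtain ⟨t, ht, hfin, hsep⟩ := exists_sep k E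
  -- `P (t) = E`
  let A : IntermediateField P E := P⟮t⟯
  have hA : A = ⊤ := by
    have hkA : ∀ c : k⟮t⟯, algebraMap k⟮t⟯ E c ∈ A.toSubfield := by
      intro c
      have h1 : k⟮t⟯.toSubfield ≤ A.toSubfield := by
        rw [IntermediateField.adjoin_toSubfield, Subfield.closure_le]
        rintro x (⟨c, rfl⟩ | hx)
        · exact A.algebraMap_mem ⟨algebraMap k E c, hkP c⟩
        · rw [Set.mem_singleton_iff.1 hx]
          exact mem_adjoin_simple_self P t
      exact h1 c.2
    let B : IntermediateField k⟮t⟯ E :=
      { A.toSubfield with algebraMap_mem' := hkA }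
    haveI : Algebra.IsSeparable B E := Algebra.isSeparable_tower_top_of_isSeparable k⟮t⟯ B E
    haveI : CharP B p := inferInstance
    haveI : IsPurelyInseparable B E := by
      rw [isPurelyInseparable_iff_pow_mem B p]
      intro x
      refine ⟨1, ⟨⟨x ^ p ^ 1, ?_⟩, rfl⟩⟩
      show x ^ p ^ 1 ∈ A
      rw [pow_one]
      exact A.algebraMap_mem ⟨x ^ p, (hPm _).2 ⟨x, rfl⟩⟩
    rw [eq_top_iff]
    intro x _
    obtain ⟨y, hy⟩ := IsPurelyInseparable.surjective_algebraMap_of_isSeparable B E x
    have := y.2
    rw [← hy]
    exact this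
  have htP : t ∉ P := by
    intro h
    have h1 : A = ⊥ := by
      rw [eq_bot_iff]
      exact adjoin_simple_le_iff.2 (IntermediateField.mem_bot.2 ⟨⟨t, h⟩, rfl⟩)
    apply hz
    apply hPS
    have h2 : z ∈ (⊥ : IntermediateField P E) := by rw [← h1, hA]; trivial
    obtain ⟨y, hy⟩ := IntermediateField.mem_bot.1 h2
    rw [← hy]
    exact y.2
  have hfr : Module.finrank P E = p := by
    have hirr : Irreducible (X ^ p - C (⟨t ^ p, (hPm _).2 ⟨t, rfl⟩⟩ : P)) := by
      refine X_pow_sub_C_irreducible_of_prime hp fun b hb => htP ?_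
      have h1 : (b : E) ^ p = t ^ p := congrArg (fun x : P => (x : E)) hb
      have h2 : (b : E) = t := frobenius_inj E p h1
      rw [← h2]
      exact b.2
    have hmin : minpoly P t = X ^ p - C (⟨t ^ p, (hPm _).2 ⟨t, rfl⟩⟩ : P) := by
      symm
      refine minpoly.eq_of_irreducible_of_monic hirr ?_ (monic_X_pow_sub_C _ hp.ne_zero)
      simp only [map_sub, map_pow, aeval_X, aeval_C]
      exact sub_self _
    have hint : IsIntegral P t := by
      by_contra h
      have := minpoly.eq_zero h
      rw [hmin] at this
      exact X_pow_sub_C_ne_zero hp.pos _ this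
    have h3 := IntermediateField.adjoin.finrank hint
    rw [hmin, natDegree_X_pow_sub_C] at h3
    have h4 : Module.finrank P A = p := h3
    rw [hA, IntermediateField.finrank_top'] at h4
    exact h4
  -- the intermediate field `S`
  let S' : IntermediateField P E :=
    { S with algebraMap_mem' := fun x => hPS x.2 }
  have hmul := Module.finrank_mul_finrank P S' E
  rw [hfr] at hmul
  have hdvd : Module.finrank P S' ∣ p := ⟨_, hmul.symm⟩
  rcases (Nat.dvd_prime hp).1 hdvd with h1 | h1
  · constructor
    · intro ha
      have h2 : S' = ⊥ := IntermediateField.finrank_eq_one_iff.1 h1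
      have h3 : a ∈ S' := ha
      rw [h2] at h3
      obtain ⟨y, hy⟩ := IntermediateField.mem_bot.1 h3
      exact (hPm a).1 (by rw [← hy]; exact y.2)
    · rintro hb
      exact hPS ((hPm a).2 hb)
  · exfalso
    rw [h1] at hmul
    have h2 : Module.finrank S' E = 1 := by
      have := Nat.eq_of_mul_eq_mul_left hp.pos (hmul.trans (mul_one p).symm)
      exact this
    have h3 : S' = ⊤ := by
      have h4 : Module.finrank P S' = Module.finrank P E := by rw [h1, hfr]
      haveI : FiniteDimensional P E := Module.finite_of_finrank_pos (by rw [hfr]; exact hp.pos)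
      exact IntermediateField.eq_of_le_of_finrank_eq le_top
        (by rw [h4, IntermediateField.finrank_top'])
    apply hz
    have h5 : z ∈ S' := by rw [h3]; trivial
    exact h5

end Vale.Agent.P019P
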