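import Vale.Agent.P019Q.GModel
import Vale.Agent.P019Q.GStep

/-!
# The genus of the function fields with a given perfect closure
-/

namespace Vale.Agent.P019P

open Vale.Agent.P019

set_option linter.style.haveILetI false
set_option linter.unusedSectionVars false

open Polynomial IntermediateField

variable {F : Type*} [Field F] {k : Subfield F}

theorem fg_of_cff (E : IntermediateField k F) [CFF k E] : E.FG := by
  obtain ⟨x, _, hfin⟩ := CFF.ex (k := k) (F := E)
  haveI : Algebra.EssFiniteType k k⟮x⟯ :=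
    IntermediateField.essFiniteType_iff.2 ⟨{x}, by rw [Finset.coe_singleton]⟩
  haveI : Algebra.EssFiniteType k⟮x⟯ E := inferInstance
  haveI : Algebra.EssFiniteType k E := Algebra.EssFiniteType.comp k k⟮x⟯ E
  exact IntermediateField.essFiniteType_iff.1 inferInstance

theorem exists_nonconst (E : IntermediateField k F) [CFF k E] : ∃ x ∈ E, x ∉ k := by
  obtain ⟨x, hx, _⟩ := CFF.ex (k := k) (F := E)
  refine ⟨x, x.2, fun h => hx ?_⟩
  have h1 : x = algebraMap k E ⟨x, h⟩ := Subtype.ext rfl
  rw [h1]
  exact isAlgebraic_algebraMap _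

theorem cff_le (h : Cv k) {E E' : IntermediateField k F} [CFF k E] (hE : E ≤ E') (hE' : E'.FG) :
    CFF k E' := by
  obtain ⟨x, hx, hxk⟩ := exists_nonconst E
  exact cff_of h E' hE' (hE hx) hxk

/-- one step. -/
theorem gen_step {E E' : IntermediateField k F} [CFF k E] [CFF k E'] {z : F}
    (hz : z ^ ringExpChar F ∈ E) (hE : E' = E ⊔ k⟮z⟯) : gen k E' = gen k E := by
  by_cases hzE : z ∈ E
  · have h1 : E' = E := by
      rw [hE, sup_eq_left, IntermediateField.adjoin_simple_le_iff]
      exact hzE
    subst h1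
    rfl
  have hle : E ≤ E' := hE ▸ le_sup_left
  have hzE' : z ∈ E' := by
    rw [hE]
    exact (le_sup_right : k⟮z⟯ ≤ E ⊔ k⟮z⟯) (IntermediateField.mem_adjoin_simple_self k z)
  have hq : ringExpChar F ≠ 1 := by
    intro h1
    rw [h1, pow_one] at hz
    exact hzE hz
  obtain ⟨p, hp⟩ := CharP.exists F
  have hpq : ringExpChar F = p ∧ p.Prime := by
    have h1 : ringExpChar F = max p 1 := by rw [ringExpChar, ringChar.eq F p]
    rcases CharP.char_is_prime_or_zero F p with h2 | h2
    · exact ⟨by rw [h1]; exact max_eq_left h2.one_lt.le, h2⟩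
    · subst h2
      exact absurd (by rw [h1]; simp) hq
  rw [hpq.1] at hz
  haveI : Fact p.Prime := ⟨hpq.2⟩
  haveI : CharP E' p := (algebraMap E' F).charP (algebraMap E' F).injective p
  haveI : CharP k p := (algebraMap k F).charP (algebraMap k F).injective p
  let S : Subfield E' := E.toSubfield.comap (algebraMap E' F)
  have hS : ∀ a : k, algebraMap k E' a ∈ S := fun a => E.algebraMap_mem a
  have htop : S ⊔ Subfield.closure {(⟨z, hzE'⟩ : E')} = ⊤ := by
    set T : Subfield E' := S ⊔ Subfield.closure {(⟨z, hzE'⟩ : E')} with hT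
    let M : IntermediateField k F :=
      { T.map (algebraMap E' F) with
        algebraMap_mem' := fun a => ⟨algebraMap k E' a, (le_sup_left : S ≤ T) (hS a), rfl⟩ }
    have hM : E' ≤ M := by
      rw [hE]
      refine sup_le ?_ ?_
      · intro w hw
        exact ⟨⟨w, hle hw⟩, (le_sup_left : S ≤ T) hw, rfl⟩
      · rw [IntermediateField.adjoin_simple_le_iff]
        exact ⟨⟨z, hzE'⟩, (le_sup_right : Subfield.closure {(⟨z, hzE'⟩ : E')} ≤ T)
          (Subfield.subset_closure rfl), rfl⟩
    rw [eq_top_iff]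
    rintro w -
    obtain ⟨v, hv, hvw⟩ := hM w.2
    have h1 : v = w := Subtype.ext hvw
    rw [← h1]
    exact hv
  have hstep := frob_step (k := k) (p := p) S hS (z := ⟨z, hzE'⟩) hzE hz htop
  have hpowmem : ∀ b : E', (b : F) ^ p ∈ E := fun b => (hstep (b ^ p)).2 ⟨b, rfl⟩
  let e1 : E' →+* E :=
    ((frobenius F p).comp (algebraMap E' F)).codRestrict E.toSubfield hpowmem
  have he1 : Function.Bijective e1 := by
    refine ⟨e1.injective, ?_⟩
    intro a
    obtain ⟨b, hb⟩ := (hstep ⟨a, hle a.2⟩).1 a.2
    refine ⟨b, Subtype.ext ?_⟩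
    have h2 : (b : F) ^ p = (a : F) := congrArg Subtype.val hb
    exact h2
  haveI : IsAlgClosed k := CFF.ac E
  haveI : PerfectRing k p := PerfectField.toPerfectRing p
  refine gen_eq (RingEquiv.ofBijective e1 he1) (frobeniusEquiv k p) ?_
  intro a
  apply Subtype.ext
  change ((algebraMap k E' a : E') : F) ^ p = ((frobeniusEquiv k p a : k) : F)
  rw [frobeniusEquiv_apply, frobenius_def]
  rfl

theorem gen_steps (h : Cv k) (n : ℕ) : ∀ {E E' : IntermediateField k F} [CFF k E] [CFF k E']
    {z : F}, z ^ ringExpChar F ^ n ∈ E → E' = E ⊔ k⟮z⟯ → gen k E' = gen k E := by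
  induction n with
  | zero =>
    intro E E' _ _ z hz hE
    rw [pow_zero, pow_one] at hz
    have h1 : E' = E := by
      rw [hE, sup_eq_left, IntermediateField.adjoin_simple_le_iff]
      exact hz
    subst h1
    rfl
  | succ n ih =>
    intro E E' _ _ z hz hE
    set w := z ^ ringExpChar F with hw
    have hwn : w ^ ringExpChar F ^ n ∈ E := by
      rw [hw, ← pow_mul, ← pow_succ']
      exact hz
    have hFG : (E ⊔ k⟮w⟯).FG := fg_sup (fg_of_cff E) ⟨{w}, by rw [Finset.coe_singleton]⟩
    haveI : CFF k (E ⊔ k⟮w⟯ : IntermediateField k F) := cff_le h le_sup_left hFG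
    have h1 : gen k (E ⊔ k⟮w⟯ : IntermediateField k F) = gen k E := ih hwn rfl
    rw [← h1]
    refine gen_step (z := z) ?_ ?_
    · exact (le_sup_right : k⟮w⟯ ≤ E ⊔ k⟮w⟯) (IntermediateField.mem_adjoin_simple_self k w)
    · rw [hE, sup_assoc]
      congr 1
      rw [eq_comm, sup_eq_right, IntermediateField.adjoin_simple_le_iff]
      exact pow_mem (IntermediateField.mem_adjoin_simple_self k z) _

theorem gen_adjoin (h : Cv k) {E : IntermediateField k F} [CFF k E] [IsPurelyInseparable E F]
    (T : Finset F) : ∀ (E' : IntermediateField k F) [CFF k E'],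
    E' = E ⊔ IntermediateField.adjoin k (T : Set F) → gen k E' = gen k E := by
  classical
  induction T using Finset.induction_on with
  | empty =>
    intro E' _ hE
    have h1 : E' = E := by simpa using hE
    subst h1
    rfl
  | insert z T _ ih =>
    intro E' _ hE
    have hFG : (E ⊔ IntermediateField.adjoin k (T : Set F)).FG := fg_sup (fg_of_cff E) ⟨T, rfl⟩
    haveI : CFF k (E ⊔ IntermediateField.adjoin k (T : Set F) : IntermediateField k F) :=
      cff_le h le_sup_left hFG
    rw [← ih _ rfl]
    haveI : ExpChar E (ringExpChar F) := (algebraMap E F).expChar (algebraMap E F).injective _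
    obtain ⟨n, w, hw⟩ := (isPurelyInseparable_iff_pow_mem E (ringExpChar F)).1
      (inferInstance : IsPurelyInseparable E F) z
    refine gen_steps h n (z := z) ?_ ?_
    · rw [← hw]
      exact (le_sup_left : E ≤ _) w.2
    · rw [hE, sup_assoc]
      congr 1
      rw [← IntermediateField.adjoin_union, Finset.coe_insert, Set.union_singleton]

/-- the genus does not depend on the model. -/
theorem gen_model_eq (h : Cv k) (F0 F1 : IntermediateField k F) [CFF k F0] [CFF k F1]
    [IsPurelyInseparable F0 F] [IsPurelyInseparable F1 F] : gen k F0 = gen k F1 := by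
  obtain ⟨T0, hT0⟩ := fg_of_cff F0
  obtain ⟨T1, hT1⟩ := fg_of_cff F1
  have hFG : (F0 ⊔ F1).FG := fg_sup (fg_of_cff F0) (fg_of_cff F1)
  haveI : CFF k (F0 ⊔ F1 : IntermediateField k F) := cff_le h le_sup_left hFG
  have h0 : gen k (F0 ⊔ F1 : IntermediateField k F) = gen k F0 :=
    gen_adjoin h T1 (F0 ⊔ F1) (by rw [hT1])
  have h1 : gen k (F0 ⊔ F1 : IntermediateField k F) = gen k F1 :=
    gen_adjoin h T0 (F0 ⊔ F1) (by rw [hT0, sup_comm])
  rw [← h0, h1]

end Vale.Agent.P019P
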