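import Vale.Agent.P019Q.CIface

/-!
# Rings of functions with poles at one place: definitions
-/

namespace Vale.Agent.P019P

open Polynomial IntermediateField TensorProduct

/-- numerical semigroups with `g` gaps, all of them smaller than `2 * g`. -/
structure Sgp (g : ℕ) (S : Set ℕ) : Prop where
  zero : 0 ∈ S
  add : ∀ {a b : ℕ}, a ∈ S → b ∈ S → a + b ∈ S
  large : ∀ n, 2 * g ≤ n → n ∈ S
  gaps : Sᶜ.ncard = g

section

variable {A R : Type*} [CommRing A] [CommRing R] [Algebra A R] {S : Set ℕ}

/-- bases indexed by the degrees, the leading coefficients of the products are units. -/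
structure IsDB (b : Module.Basis S A R) : Prop where
  one : ∀ d : S, (d : ℕ) = 0 → b d = 1
  top : ∀ d e f : S, (f : ℕ) = d + e → IsUnit (b.repr (b d * b e) f)
  low : ∀ d e f : S, (d : ℕ) + e < f → b.repr (b d * b e) f = 0

/-- the elements of degree at most `n`. -/
def fil (b : Module.Basis S A R) (n : ℕ) : Submodule A R where
  carrier := {z | ∀ f : S, n < f → b.repr z f = 0}
  zero_mem' := fun f _ => by rw [map_zero]; rfl
  add_mem' := fun {z w} hz hw f hf => by
    rw [map_add, Finsupp.add_apply, hz f hf, hw f hf, add_zero]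
  smul_mem' := fun a z hz f hf => by
    rw [map_smul, Finsupp.smul_apply, hz f hf, smul_zero]

theorem mem_fil {b : Module.Basis S A R} {n : ℕ} {z : R} :
    z ∈ fil b n ↔ ∀ f : S, n < f → b.repr z f = 0 := Iff.rfl

/-- the degree. -/
noncomputable def dgr (b : Module.Basis S A R) (z : R) : ℕ :=
  (b.repr z).support.sup fun f => (f : ℕ)

/-- the bounded part of the index set. -/
abbrev SD (S : Set ℕ) (D : ℕ) : Type := {d : Fin (D + 1) // (d : ℕ) ∈ S}

noncomputable instance (S : Set ℕ) (D : ℕ) : Fintype (SD S D) := Fintype.ofFinite _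

noncomputable instance (S : Set ℕ) (D : ℕ) : DecidableEq (SD S D) := Classical.decEq _

/-- the index of an element of the bounded part. -/
def SD.ix {S : Set ℕ} {D : ℕ} (d : SD S D) : S := ⟨(d.1 : ℕ), d.2⟩

/-- elements with given coordinates. -/
noncomputable def el (b : Module.Basis S A R) {D : ℕ} (t : SD S D → A) : R :=
  ∑ d, t d • b d.ix

end

section

variable {k F : Type*} [Field k] [Field F] [Algebra k F] [CFF k F]

/-- the functions with poles only at `P₀`. -/
def RO (P₀ : Plk k F) : Subalgebra k F where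
  carrier := {w | ∀ P, P ≠ P₀ → w = 0 ∨ 0 ≤ ord P w}
  mul_mem' := by
    intro z w hz hw P hP
    rcases hz P hP with h1 | h1
    · left; rw [h1, zero_mul]
    rcases hw P hP with h2 | h2
    · left; rw [h2, mul_zero]
    by_cases hz0 : z = 0
    · left; rw [hz0, zero_mul]
    by_cases hw0 : w = 0
    · left; rw [hw0, mul_zero]
    right
    rw [ord_mul P hz0 hw0]
    omega
  add_mem' := by
    intro z w hz hw P hP
    have h1 : z ∈ P.1 := (mem_iff_ord P z).2 (hz P hP)
    have h2 : w ∈ P.1 := (mem_iff_ord P w).2 (hw P hP)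
    exact (mem_iff_ord P _).1 (add_mem h1 h2)
  algebraMap_mem' := by
    intro a P _
    right
    rw [ord_const]

theorem mem_RO {P₀ : Plk k F} {w : F} :
    w ∈ RO P₀ ↔ ∀ P, P ≠ P₀ → w = 0 ∨ 0 ≤ ord P w := Iff.rfl

/-- the functions with a pole of order at most `n` at `P₀` and no other poles. -/
noncomputable abbrev LP (P₀ : Plk k F) (n : ℕ) : Submodule k F :=
  LL k (Finsupp.single P₀ (n : ℤ))

/-- the data of a function which is locally a product of an `ℓ`-th power, a generator of the
ideal of the `p i` and a unit. -/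
structure JT {R : Type*} [CommRing R] (ℓ : ℕ) {ι : Type} [Fintype ι] (p : ι → R) (f : R)
    (a : Fin 2 → R) (r s : ι → Fin 2 → R) : Prop where
  eq : ∀ i j, p i * a j ^ ℓ = f * r i j
  one : ∑ i, ∑ j, s i j * r i j = 1

/-- `M` pairwise inequivalent functions with divisor divisible by `ℓ`. -/
def NC (ℓ : ℕ) (k F : Type*) [Field k] [Field F] [Algebra k F] [CFF k F] (M : ℕ) : Prop :=
  ∃ z : Fin M → F, (∀ i, z i ≠ 0 ∧ ∀ P : Plk k F, (ℓ : ℤ) ∣ ord P (z i)) ∧
    ∀ i j, i ≠ j → ¬ ∃ h : F, z i = h ^ ℓ * z j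

end

end Vale.Agent.P019P
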