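import Vale.Agent.P019Q.H4Ring

/-!
# The function field of a ring with a degree basis
-/

namespace Vale.Agent.P019P

open Polynomial IntermediateField TensorProduct

variable {K R F : Type*} [Field K] [IsAlgClosed K] [CommRing R] [Algebra K R] [Field F]
  [Algebra R F] [IsFractionRing R F] [Algebra K F] [IsScalarTower K R F] {S : Set ℕ} {g : ℕ}
  {b : Module.Basis S K R}

omit [IsAlgClosed K] [IsFractionRing R F] in
theorem h4FrA_smul (c : K) (r : R) : algebraMap R F (c • r) = c • algebraMap R F r := by
  rw [Algebra.smul_def, map_mul, ← IsScalarTower.algebraMap_apply, ← Algebra.smul_def]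

omit [IsAlgClosed K] [IsFractionRing R F] in
/-- the basis elements lie in the span of those of small degree. -/
theorem h4FrA_basis (h : IsDB b) (hS : Sgp g S) {m : ℕ} (hm : m ∈ S) (hm2 : 2 * g < m)
    (L : IntermediateField K F) (hL : algebraMap R F (b ⟨m, hm⟩) ∈ L) (N : Submodule L F)
    (hN : ∀ d : S, (d : ℕ) < 2 * m → algebraMap R F (b d) ∈ N) :
    ∀ e : ℕ, ∀ he : e ∈ S, algebraMap R F (b ⟨e, he⟩) ∈ N := by
  intro e
  induction e using Nat.strong_induction_on with
  | _ e ih =>
  intro he
  by_cases hlt : e < 2 * m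
  · exact hN ⟨e, he⟩ hlt
  rw [not_lt] at hlt
  have he1 : e - m ∈ S := hS.large _ (by omega)
  set z : R := b ⟨m, hm⟩ * b ⟨e - m, he1⟩ with hz
  have hu : IsUnit (b.repr z ⟨e, he⟩) :=
    h.top ⟨m, hm⟩ ⟨e - m, he1⟩ ⟨e, he⟩ (by simp only; omega)
  set u : K := b.repr z ⟨e, he⟩ with hudef
  have hu0 : u ≠ 0 := hu.ne_zero
  have hw : z - u • b ⟨e, he⟩ ∈ fil b (e - 1) := by
    intro f hf
    rw [map_sub, map_smul, b.repr_self, Finsupp.sub_apply, Finsupp.smul_apply, smul_eq_mul,
      Finsupp.single_apply]
    by_cases hfe : (⟨e, he⟩ : S) = f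
    · rw [if_pos hfe, mul_one, ← hfe, ← hudef, sub_self]
    · rw [if_neg hfe, mul_zero, sub_zero]
      refine h.low ⟨m, hm⟩ ⟨e - m, he1⟩ f ?_
      have h1 : e ≠ (f : ℕ) := fun h2 => hfe (Subtype.ext h2)
      simp only
      omega
  obtain ⟨t, ht⟩ := exists_el hw
  have hzN : algebraMap R F z ∈ N := by
    rw [hz, map_mul]
    exact N.smul_mem (⟨_, hL⟩ : L) (ih (e - m) (by omega) he1)
  have hwN : algebraMap R F (z - u • b ⟨e, he⟩) ∈ N := by
    rw [ht, el, map_sum]
    refine N.sum_mem fun d _ => ?_
    rw [h4FrA_smul]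
    refine N.smul_of_tower_mem _ ?_
    have hd : (d.1 : ℕ) < e := by
      have := d.1.2
      omega
    exact ih (d.1 : ℕ) hd d.2
  have hbe : algebraMap R F (b ⟨e, he⟩) = u⁻¹ • (algebraMap R F z -
      algebraMap R F (z - u • b ⟨e, he⟩)) := by
    rw [← map_sub, sub_sub_cancel, h4FrA_smul, smul_smul, inv_mul_cancel₀ hu0, one_smul]
  rw [hbe]
  exact N.smul_of_tower_mem _ (N.sub_mem hzN hwN)

/-- the fraction field is a function field of one variable. -/
theorem h4_cff (h : IsDB b) (hS : Sgp g S) : CFF K F := by
  have hdom : IsDomain R := h4_domain h hS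
  have hinj : Function.Injective (algebraMap R F) := IsFractionRing.injective R F
  set m : ℕ := 2 * g + 1 with hmdef
  have hm : m ∈ S := hS.large _ (by omega)
  set X : F := algebraMap R F (b ⟨m, hm⟩) with hX
  refine ⟨inferInstance, X, ?_, ?_⟩
  · intro halg
    have hint : IsIntegral K X := halg.isIntegral
    obtain ⟨a, ha⟩ := minpoly.mem_range_of_degree_eq_one K X
      (IsAlgClosed.degree_eq_one_of_irreducible K (minpoly.irreducible hint))
    rw [IsScalarTower.algebraMap_apply K R F] at ha
    have h1 : algebraMap K R a = b ⟨m, hm⟩ := hinj ha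
    have h2 := dgr_algebraMap (b := b) h hS a
    rw [h1, dgr_basis] at h2
    simp only at h2
    omega
  · have hXL : X ∈ K⟮X⟯ := mem_adjoin_simple_self K X
    set s : Set F := (fun d : S => algebraMap R F (b d)) '' {d : S | (d : ℕ) < 2 * m} with hs
    have hfin : s.Finite := by
      refine Set.Finite.image _ ?_
      refine Set.Finite.of_injOn (f := fun d : S => (d : ℕ)) (t := Set.Iio (2 * m)) ?_ ?_
        (Set.finite_Iio _)
      · intro d hd
        exact hd
      · intro d _ e _ hde
        exact Subtype.ext hde
    set N : Submodule K⟮X⟯ F := Submodule.span K⟮X⟯ s with hN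
    have hb : ∀ d : S, algebraMap R F (b d) ∈ N := fun d =>
      h4FrA_basis h hS hm (by omega) K⟮X⟯ hXL N
        (fun d hd => Submodule.subset_span ⟨d, hd, rfl⟩) d d.2
    have hR : ∀ a : R, algebraMap R F a ∈ N := by
      intro a
      have h1 : a = (b.repr a).sum fun d c => c • b d := by
        have := b.linearCombination_repr a
        rw [Finsupp.linearCombination_apply] at this
        exact this.symm
      rw [h1, Finsupp.sum, map_sum]
      refine N.sum_mem fun d _ => ?_
      rw [h4FrA_smul]
      exact N.smul_of_tower_mem _ (hb d)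
    have hmul : ∀ (a : R) (v : F), v ∈ N → algebraMap R F a * v ∈ N := by
      intro a v hv
      rw [hN] at hv
      induction hv using Submodule.span_induction with
      | mem x hx =>
        obtain ⟨d, _, rfl⟩ := hx
        simp only
        rw [← map_mul]
        exact hR _
      | zero => rw [mul_zero]; exact N.zero_mem
      | add x y _ _ hx hy => rw [mul_add]; exact N.add_mem hx hy
      | smul c x _ hx => rw [mul_smul_comm]; exact N.smul_mem c hx
    have hfd : FiniteDimensional K⟮X⟯ N := FiniteDimensional.span_of_finite _ hfin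
    have hinv : ∀ c : R, c ≠ 0 → (algebraMap R F c)⁻¹ ∈ N := by
      intro c hc
      have hc0 : algebraMap R F c ≠ 0 := by
        rw [Ne, map_eq_zero_iff _ hinj]
        exact hc
      let T : N →ₗ[K⟮X⟯] N :=
        { toFun := fun v => ⟨algebraMap R F c * v, hmul c v v.2⟩
          map_add' := fun v w => Subtype.ext (by
            simp only [Submodule.coe_add, mul_add])
          map_smul' := fun r v => Subtype.ext (by
            simp only [Submodule.coe_smul, RingHom.id_apply, mul_smul_comm]) }
      have hT : Function.Injective T := by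
        intro v w hvw
        have h1 : algebraMap R F c * (v : F) = algebraMap R F c * (w : F) :=
          congrArg Subtype.val hvw
        exact Subtype.ext (mul_left_cancel₀ hc0 h1)
      have hT2 : Function.Surjective T := LinearMap.injective_iff_surjective.1 hT
      have h1N : (1 : F) ∈ N := by
        have := hR 1
        rwa [map_one] at this
      obtain ⟨v, hv⟩ := hT2 ⟨1, h1N⟩
      have h1 : algebraMap R F c * (v : F) = 1 := congrArg Subtype.val hv
      have h2 : (algebraMap R F c)⁻¹ = v := by
        rw [inv_eq_iff_eq_inv, ← mul_eq_one_iff_eq_inv₀]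
        · exact h1
        · intro h3
          rw [h3, mul_zero] at h1
          exact zero_ne_one h1
      rw [h2]
      exact v.2
    have htop : N = ⊤ := by
      rw [eq_top_iff]
      intro y _
      obtain ⟨a, c, hc, rfl⟩ := IsFractionRing.div_surjective (A := R) y
      rw [div_eq_mul_inv]
      exact hmul a _ (hinv c (nonZeroDivisors.ne_zero hc))
    have : Module.Finite K⟮X⟯ F := ⟨by
      rw [← htop, hN]
      exact Submodule.fg_span hfin⟩
    exact this

end Vale.Agent.P019P
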