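import Vale.Agent.P019Q.H4RRA

/-!
# A basis of the functions with poles at one place, with finitely many structure constants
-/

namespace Vale.Agent.P019P

open Polynomial IntermediateField

variable {k F : Type*} [Field k] [Field F] [Algebra k F] [CFF k F]

theorem h4ModA_mem_S {P₀ : Plk k F} {z : F} (hz : z ∈ RO P₀) (hz0 : z ≠ 0) :
    ∃ j : ℕ, ord P₀ z = -(j : ℤ) := by
  have h := h4_ord_le P₀ hz hz0
  exact ⟨(-ord P₀ z).toNat, by rw [Int.toNat_of_nonneg (by omega)]; omega⟩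

/-- the dimension of `LP P₀ n` is the number of degrees up to `n`. -/
theorem h4ModA_card (P₀ : Plk k F) {S : Set ℕ}
    (hS : S = {n : ℕ | ∃ z : F, z ∈ RO P₀ ∧ z ≠ 0 ∧ ord P₀ z = -(n : ℤ)}) (n : ℕ) :
    Module.finrank k (LP P₀ n) = {d : ℕ | d ∈ S ∧ d ≤ n}.ncard := by
  induction n with
  | zero =>
    have h1 : (LP P₀ 0 : Submodule k F) = LL k 0 := by
      unfold LP
      simp
    have h2 : {d : ℕ | d ∈ S ∧ d ≤ 0} = {0} := by
      ext d
      simp only [Set.mem_ofPred_eq, Set.mem_singleton_iff]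
      constructor
      · rintro ⟨_, h⟩
        omega
      · rintro rfl
        refine ⟨?_, le_refl 0⟩
        rw [hS]
        exact ⟨1, one_mem _, one_ne_zero, by rw [ord_one]; simp⟩
    rw [h1, h2, Set.ncard_singleton]
    exact l_zero
  | succ n ih =>
    have h1 : Finsupp.single P₀ (((n + 1 : ℕ) : ℤ)) =
        Finsupp.single P₀ (n : ℤ) + Finsupp.single P₀ 1 := by
      rw [← Finsupp.single_add]
      push_cast
      rfl
    have hfin : ∀ N : ℕ, {d : ℕ | d ∈ S ∧ d ≤ N}.Finite := fun N =>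
      (Set.finite_Iic N).subset fun d hd => hd.2
    by_cases hmem : n + 1 ∈ S
    · have hm2 := hmem
      rw [hS] at hm2
      obtain ⟨z, hz, hz0, hzo⟩ := hm2
      have hz1 : z ∈ LP P₀ (n + 1) := mem_LP.2 ⟨hz, Or.inr hzo.ge⟩
      have hz2 : z ∉ LP P₀ n := by
        intro h
        have h3 := (mem_LP.1 h).2.resolve_left hz0
        rw [hzo] at h3
        push_cast at h3
        omega
      have h4 : z ∈ LL k (Finsupp.single P₀ (n : ℤ) + Finsupp.single P₀ 1) := by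
        rw [← h1]; exact hz1
      have h5 := l_step_of_mem h4 hz2
      rw [← h1] at h5
      have h6 : {d : ℕ | d ∈ S ∧ d ≤ n + 1} = insert (n + 1) {d : ℕ | d ∈ S ∧ d ≤ n} := by
        ext d
        simp only [Set.mem_ofPred_eq, Set.mem_insert_iff]
        constructor
        · rintro ⟨h7, h8⟩
          rcases Nat.lt_or_ge n d with h9 | h9
          · left; omega
          · right; exact ⟨h7, h9⟩
        · rintro (rfl | ⟨h7, h8⟩)
          · exact ⟨hmem, le_refl _⟩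
          · exact ⟨h7, by omega⟩
      rw [h6, Set.ncard_insert_of_notMem _ (hfin n), ← ih]
      · exact h5
      · rintro ⟨_, h⟩
        omega
    · have h4 : LL k (Finsupp.single P₀ (n : ℤ) + Finsupp.single P₀ 1) ≤
          LL k (Finsupp.single P₀ (n : ℤ)) := by
        rw [← h1]
        intro z hz
        have hz1 : z ∈ LP P₀ (n + 1) := hz
        obtain ⟨hz2, hz3⟩ := mem_LP.1 hz1
        have : z ∈ LP P₀ n := by
          refine mem_LP.2 ⟨hz2, ?_⟩
          by_cases hz0 : z = 0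
          · exact Or.inl hz0
          right
          have h5 := hz3.resolve_left hz0
          obtain ⟨j, hj⟩ := h4ModA_mem_S hz2 hz0
          have h6 : j ∈ S := by
            rw [hS]; exact ⟨z, hz2, hz0, hj⟩
          have h7 : j ≠ n + 1 := fun h => hmem (h ▸ h6)
          rw [hj] at h5 ⊢
          push_cast at h5
          omega
        exact this
      have h5 := l_step_of_eq h4
      rw [← h1] at h5
      have h6 : {d : ℕ | d ∈ S ∧ d ≤ n + 1} = {d : ℕ | d ∈ S ∧ d ≤ n} := by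
        ext d
        simp only [Set.mem_ofPred_eq]
        constructor
        · rintro ⟨h7, h8⟩
          refine ⟨h7, ?_⟩
          have h9 : d ≠ n + 1 := fun h => hmem (h ▸ h7)
          omega
        · rintro ⟨h7, h8⟩
          exact ⟨h7, by omega⟩
      rw [h6, ← ih]
      exact h5

/-- the semigroup of a place. -/
theorem exists_sgp (P₀ : Plk k F) :
    Sgp (gen k F) {n : ℕ | ∃ z : F, z ∈ RO P₀ ∧ z ≠ 0 ∧ ord P₀ z = -(n : ℤ)} := by
  have hadd : ∀ {a b : ℕ}, (∃ z : F, z ∈ RO P₀ ∧ z ≠ 0 ∧ ord P₀ z = -(a : ℤ)) →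
      (∃ z : F, z ∈ RO P₀ ∧ z ≠ 0 ∧ ord P₀ z = -(b : ℤ)) →
      ∃ z : F, z ∈ RO P₀ ∧ z ≠ 0 ∧ ord P₀ z = -((a + b : ℕ) : ℤ) := by
    rintro a b ⟨z, hz, hz0, hzo⟩ ⟨w, hw, hw0, hwo⟩
    refine ⟨z * w, mul_mem hz hw, mul_ne_zero hz0 hw0, ?_⟩
    rw [ord_mul P₀ hz0 hw0, hzo, hwo]
    push_cast
    ring
  refine ⟨⟨1, one_mem _, one_ne_zero, by rw [ord_one]; simp⟩, fun ha hb => hadd ha hb,
    fun n hn => exists_RO_ord P₀ hn, ?_⟩
  obtain ⟨S, hS⟩ : ∃ S : Set ℕ, S = {n : ℕ | ∃ z : F, z ∈ RO P₀ ∧ z ≠ 0 ∧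
    ord P₀ z = -(n : ℤ)} := ⟨_, rfl⟩
  rw [← hS]
  have hlarge : ∀ n, 2 * gen k F ≤ n → n ∈ S := fun n hn => by
    rw [hS]; exact exists_RO_ord P₀ hn
  have h1 := h4ModA_card P₀ hS (2 * gen k F)
  have h2 := l_LP P₀ (n := 2 * gen k F) (by omega)
  have h3 : Sᶜ ⊆ Set.Iic (2 * gen k F) := fun d hd => by
    by_contra h
    exact hd (hlarge d (by rw [Set.mem_Iic] at h; omega))
  have h4 : Set.Iic (2 * gen k F) \ Sᶜ = {d : ℕ | d ∈ S ∧ d ≤ 2 * gen k F} := by
    ext d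
    simp only [Set.mem_sdiff, Set.mem_Iic, Set.mem_compl_iff, not_not, Set.mem_ofPred_eq]
    exact and_comm
  have h5 := Set.ncard_sdiff_add_ncard_of_subset h3 (Set.finite_Iic _)
  rw [h4, ← h1] at h5
  have h6 : (Set.Iic (2 * gen k F)).ncard = 2 * gen k F + 1 := by
    rw [← Nat.card_coe_set_eq]
    simp
  rw [h6] at h5
  have h7 : (Module.finrank k (LP P₀ (2 * gen k F)) : ℤ) = gen k F + 1 := by
    rw [h2]; push_cast; ring
  omega

section

variable {P₀ : Plk k F} {S : Set ℕ}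

/-- subtracting a multiple of a function with the same order. -/
theorem h4ModA_step {z y : F} {n : ℕ} (hz : z ∈ RO P₀) (hzo : ord P₀ z = -(n : ℤ)) (hz0 : z ≠ 0)
    (hy : y ∈ RO P₀) (hy0 : y ≠ 0) (hyo : ord P₀ y = -(n : ℤ)) :
    ∃ a : k, a ≠ 0 ∧ z - a • y ∈ RO P₀ ∧ (z - a • y = 0 ∨ -(n : ℤ) + 1 ≤ ord P₀ (z - a • y)) := by
  obtain ⟨a, ha⟩ := exists_sub_mem (P := P₀) (n := -(n : ℤ)) hy0 hyo
    (mem_Mge.2 (Or.inr hzo.ge) : z ∈ Mge P₀ (-(n : ℤ)))
  refine ⟨a, ?_, sub_mem hz ((RO P₀).smul_mem hy a), mem_Mge.1 ha⟩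
  rintro rfl
  rw [zero_smul, sub_zero] at ha
  rcases mem_Mge.1 ha with h | h
  · exact hz0 h
  · rw [hzo] at h
    omega

/-- expansions with control of the degree. -/
theorem h4ModA_exp (β : S → F) (hβ : ∀ d, β d ∈ RO P₀ ∧ β d ≠ 0 ∧ ord P₀ (β d) = -((d : ℕ) : ℤ))
    (hS : ∀ (n : ℕ) (z : F), z ∈ RO P₀ → z ≠ 0 → ord P₀ z = -(n : ℤ) → n ∈ S) (n : ℕ) :
    ∀ z : F, z ∈ RO P₀ → (z = 0 ∨ -(n : ℤ) ≤ ord P₀ z) →
      ∃ c : S →₀ k, z = c.sum (fun f x => x • β f) ∧ (∀ f : S, n < (f : ℕ) → c f = 0) ∧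
        (z ≠ 0 → ord P₀ z = -(n : ℤ) → ∀ f : S, (f : ℕ) = n → c f ≠ 0) := by
  classical
  induction n using Nat.strong_induction_on with
  | _ n ih =>
    intro z hz hzn
    by_cases hz0 : z = 0
    · exact ⟨0, by rw [hz0, Finsupp.sum_zero_index], fun _ _ => rfl, fun h => absurd hz0 h⟩
    have hzn := hzn.resolve_left hz0
    obtain ⟨j, hj⟩ := h4ModA_mem_S hz hz0
    have hjn : j ≤ n := by rw [hj] at hzn; omega
    rcases hjn.lt_or_eq with hlt | heq
    · obtain ⟨c, h1, h2, _⟩ := ih j hlt z hz (Or.inr hj.ge)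
      refine ⟨c, h1, fun f hf => h2 f (hlt.trans hf), fun _ h => ?_⟩
      rw [hj] at h
      omega
    · subst heq
      have hjS : j ∈ S := hS j z hz hz0 hj
      obtain ⟨a, ha0, ha1, ha2⟩ := h4ModA_step (y := β ⟨j, hjS⟩) hz hj hz0 (hβ _).1 (hβ _).2.1
        (hβ _).2.2
      obtain ⟨c, h1, h2⟩ : ∃ c : S →₀ k, z - a • β ⟨j, hjS⟩ = c.sum (fun f x => x • β f) ∧
          ∀ f : S, j ≤ (f : ℕ) → c f = 0 := by
        by_cases hr : z - a • β ⟨j, hjS⟩ = 0
        · exact ⟨0, by rw [hr, Finsupp.sum_zero_index], fun _ _ => rfl⟩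
        · have h3 := ha2.resolve_left hr
          have h4 := h4_ord_le P₀ ha1 hr
          have hj1 : 1 ≤ j := by omega
          obtain ⟨c, h5, h6, _⟩ := ih (j - 1) (by omega) _ ha1 (Or.inr (by
            rw [Nat.cast_sub hj1]; push_cast; omega))
          exact ⟨c, h5, fun f hf => h6 f (by omega)⟩
      refine ⟨c + Finsupp.single ⟨j, hjS⟩ a, ?_, fun f hf => ?_, fun _ _ f hf => ?_⟩
      · rw [Finsupp.sum_add_index' (h := fun (f : S) (x : k) => x • β f) (fun _ => zero_smul _ _)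
            (fun _ _ _ => add_smul _ _ _), ← h1,
          Finsupp.sum_single_index (h := fun (f : S) (x : k) => x • β f) (zero_smul _ _),
          sub_add_cancel]
      · rw [Finsupp.add_apply, h2 f hf.le, Finsupp.single_apply, if_neg, add_zero]
        rintro rfl
        exact lt_irrefl _ hf
      · have h3 : (⟨j, hjS⟩ : S) = f := Subtype.ext hf.symm
        rw [Finsupp.add_apply, h2 f hf.ge, ← h3, Finsupp.single_eq_same, zero_add]
        exact ha0

end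

/-- a multiplicative basis with finitely many structure constants. -/
theorem exists_DB (P₀ : Plk k F) : ∃ (S : Set ℕ) (β : S → F) (Y : Finset k),
    Sgp (gen k F) S ∧ (∀ d, β d ∈ RO P₀ ∧ β d ≠ 0 ∧ ord P₀ (β d) = -((d : ℕ) : ℤ)) ∧
    (∀ d : S, (d : ℕ) = 0 → β d = 1) ∧
    (∀ w : F, w ∈ RO P₀ → w ∈ Submodule.span k (Set.range β)) ∧
    ∀ A₀ : Subalgebra ℤ k, (Y : Set k) ⊆ A₀ → ∀ d e : S, ∃ c : S →₀ A₀,
      β d * β e = c.sum (fun f x => (x : k) • β f) ∧ (∀ f : S, (d : ℕ) + e < f → c f = 0) ∧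
      ∀ f : S, (f : ℕ) = d + e → IsUnit (c f) := by
  classical
  have hsg := exists_sgp (k := k) P₀
  obtain ⟨S, hSd⟩ : ∃ S : Set ℕ, S = {n : ℕ | ∃ z : F, z ∈ RO P₀ ∧ z ≠ 0 ∧
    ord P₀ z = -(n : ℤ)} := ⟨_, rfl⟩
  rw [← hSd] at hsg
  have hS1 : ∀ n ∈ S, ∃ z : F, z ∈ RO P₀ ∧ z ≠ 0 ∧ ord P₀ z = -(n : ℤ) := fun n hn => by
    rw [hSd] at hn; exact hn
  have hS2 : ∀ (n : ℕ) (z : F), z ∈ RO P₀ → z ≠ 0 → ord P₀ z = -(n : ℤ) → n ∈ S :=
    fun n z h1 h2 h3 => by rw [hSd]; exact ⟨z, h1, h2, h3⟩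
  obtain ⟨m, hm⟩ : ∃ m, m = 2 * gen k F + 1 := ⟨_, rfl⟩
  have hm0 : 0 < m := by omega
  obtain ⟨x, hx, hx0, hxo⟩ := exists_RO_ord P₀ (n := m) (by omega)
  -- least elements of the residue classes
  have hw : ∀ r : ℕ, ∃ w : ℕ, w ∈ S ∧ w % m = r % m ∧ ∀ d ∈ S, d % m = r % m → w ≤ d := by
    intro r
    have hex : ∃ w, w ∈ S ∧ w % m = r % m :=
      ⟨m + r, hsg.large _ (by omega), by rw [Nat.add_mod_left]⟩
    exact ⟨Nat.find hex, (Nat.find_spec hex).1, (Nat.find_spec hex).2,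
      fun d hd hdr => Nat.find_min' hex ⟨hd, hdr⟩⟩
  choose w hwS hwr hwm using hw
  have hmS : ∀ l : ℕ, ∀ d ∈ S, d + m * l ∈ S := by
    intro l d hd
    induction l with
    | zero => simpa using hd
    | succ l ih =>
      have := hsg.add ih (hsg.large m (by omega))
      rwa [show d + m * l + m = d + m * (l + 1) by ring] at this
  have hy : ∀ r : ℕ, ∃ y : F, y ∈ RO P₀ ∧ y ≠ 0 ∧ ord P₀ y = -(w r : ℤ) ∧ (w r = 0 → y = 1) := by
    intro r
    by_cases h : w r = 0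
    · exact ⟨1, one_mem _, one_ne_zero, by rw [ord_one, h]; simp, fun _ => rfl⟩
    · obtain ⟨z, h1, h2, h3⟩ := hS1 (w r) (hwS r)
      exact ⟨z, h1, h2, h3, fun h4 => absurd h4 h⟩
  choose y hyR hy0 hyo hy1 using hy
  obtain ⟨β, hβd⟩ : ∃ β : S → F, ∀ d : S, β d = x ^ (((d : ℕ) - w (d % m)) / m) * y (d % m) :=
    ⟨_, fun _ => rfl⟩
  have hle : ∀ d : S, w (d % m) ≤ d := fun d => hwm _ d d.2 (by rw [Nat.mod_mod])
  have hdec : ∀ d : S, (d : ℕ) = w (d % m) + m * (((d : ℕ) - w (d % m)) / m) := by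
    intro d
    have h1 : (d : ℕ) % m = w (d % m) % m := by rw [hwr, Nat.mod_mod]
    have h2 : m ∣ (d : ℕ) - w (d % m) := (Nat.modEq_iff_dvd' (hle d)).1 (Eq.symm h1)
    rw [Nat.mul_div_cancel' h2]
    have := hle d
    omega
  have hβ : ∀ d, β d ∈ RO P₀ ∧ β d ≠ 0 ∧ ord P₀ (β d) = -((d : ℕ) : ℤ) := by
    intro d
    rw [hβd]
    refine ⟨mul_mem (pow_mem hx _) (hyR _), mul_ne_zero (pow_ne_zero _ hx0) (hy0 _), ?_⟩
    rw [ord_mul P₀ (pow_ne_zero _ hx0) (hy0 _), ord_pow, hxo, hyo]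
    have h1 := hdec d
    have h2 : ((d : ℕ) : ℤ) = w (d % m) + m * ((((d : ℕ) - w (d % m)) / m : ℕ) : ℤ) := by
      exact_mod_cast h1
    rw [h2]
    ring
  have hexp := h4ModA_exp β hβ hS2
  -- structure constants
  have hc : ∀ r s : ℕ, ∃ c : S →₀ k, y r * y s = c.sum (fun f x => x • β f) ∧
      (∀ f : S, w r + w s < (f : ℕ) → c f = 0) ∧ ∀ f : S, (f : ℕ) = w r + w s → c f ≠ 0 := by
    intro r s
    have h1 : ord P₀ (y r * y s) = -((w r + w s : ℕ) : ℤ) := by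
      rw [ord_mul P₀ (hy0 r) (hy0 s), hyo, hyo]
      push_cast
      ring
    obtain ⟨c, h2, h3, h4⟩ := hexp (w r + w s) (y r * y s) (mul_mem (hyR r) (hyR s))
      (Or.inr h1.ge)
    exact ⟨c, h2, h3, h4 (mul_ne_zero (hy0 r) (hy0 s)) h1⟩
  choose c hc1 hc2 hc3 using hc
  obtain ⟨Y, hY⟩ : ∃ Y : Finset k, ∀ r < m, ∀ s < m, ∀ f : S, c r s f ≠ 0 →
      c r s f ∈ Y ∧ (c r s f)⁻¹ ∈ Y := by
    refine ⟨(Finset.range m).biUnion fun r => (Finset.range m).biUnion fun s =>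
      (c r s).support.image (fun f => c r s f) ∪ (c r s).support.image (fun f => (c r s f)⁻¹),
      fun r hr s hs f hf => ?_⟩
    simp only [Finset.mem_biUnion, Finset.mem_range, Finset.mem_union, Finset.mem_image]
    exact ⟨⟨r, hr, s, hs, Or.inl ⟨f, Finsupp.mem_support_iff.2 hf, rfl⟩⟩,
      ⟨r, hr, s, hs, Or.inr ⟨f, Finsupp.mem_support_iff.2 hf, rfl⟩⟩⟩
  refine ⟨S, β, Y, hsg, hβ, fun d hd => ?_, fun z hz => ?_, fun A₀ hA d e => ?_⟩
  · have h1 : w (d % m) = 0 := by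
      have := hle d
      omega
    rw [hβd, h1, hy1 _ h1, hd]
    simp
  · obtain ⟨n, hn⟩ := exists_mem_LP hz
    obtain ⟨c', h1, _⟩ := hexp n z hz (mem_LP.1 hn).2
    rw [h1]
    exact Submodule.sum_mem _ fun f _ => Submodule.smul_mem _ _ (Submodule.subset_span ⟨f, rfl⟩)
  · obtain ⟨r, hr⟩ : ∃ r, r = (d : ℕ) % m := ⟨_, rfl⟩
    obtain ⟨s, hs⟩ : ∃ s, s = (e : ℕ) % m := ⟨_, rfl⟩
    have hrm : r < m := by rw [hr]; exact Nat.mod_lt _ hm0
    have hsm : s < m := by rw [hs]; exact Nat.mod_lt _ hm0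
    obtain ⟨i, hi⟩ : ∃ i, i = ((d : ℕ) - w r) / m := ⟨_, rfl⟩
    obtain ⟨j, hj⟩ : ∃ j, j = ((e : ℕ) - w s) / m := ⟨_, rfl⟩
    have hd' : (d : ℕ) = w r + m * i := by rw [hi, hr]; exact hdec d
    have he' : (e : ℕ) = w s + m * j := by rw [hj, hs]; exact hdec e
    have hmemA : ∀ f : S, c r s f ∈ A₀ := by
      intro f
      by_cases h : c r s f = 0
      · rw [h]; exact zero_mem _
      · exact hA (hY r hrm s hsm f h).1
    obtain ⟨c', hc'⟩ : ∃ c' : S →₀ A₀, ∀ f, ((c' f : A₀) : k) = c r s f := by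
      refine ⟨⟨(c r s).support, fun f => ⟨c r s f, hmemA f⟩, fun f => ?_⟩, fun f => rfl⟩
      rw [Finsupp.mem_support_iff, Ne, Ne, Subtype.ext_iff]
      rfl
    obtain ⟨σ, hσ⟩ : ∃ σ : S → S, ∀ f : S, ((σ f : S) : ℕ) = (f : ℕ) + m * (i + j) :=
      ⟨fun f => ⟨(f : ℕ) + m * (i + j), hmS _ _ f.2⟩, fun _ => rfl⟩
    have hσi : Function.Injective σ := fun f g h => Subtype.ext (by
      have h1 := hσ f
      rw [h, hσ g] at h1
      omega)
    have hshift : ∀ f : S, β (σ f) = x ^ (i + j) * β f := by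
      intro f
      rw [hβd, hβd, hσ, Nat.add_mul_mod_self_left]
      have h1 : ((f : ℕ) + m * (i + j) - w ((f : ℕ) % m)) / m =
          ((f : ℕ) - w ((f : ℕ) % m)) / m + (i + j) := by
        rw [Nat.add_comm (f : ℕ), Nat.add_sub_assoc (hle f), Nat.mul_add_div hm0, Nat.add_comm]
      rw [h1, pow_add]
      ring
    refine ⟨c'.mapDomain σ, ?_, fun f hf => ?_, fun f hf => ?_⟩
    · rw [Finsupp.sum_mapDomain_index (fun _ => by rw [ZeroMemClass.coe_zero, zero_smul])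
        (fun _ _ _ => by rw [AddMemClass.coe_add, add_smul])]
      have h1 : c'.sum (fun f x => (x : k) • β (σ f)) =
          x ^ (i + j) * (c r s).sum (fun f x => x • β f) := by
        rw [Finsupp.sum, Finsupp.sum, Finset.mul_sum]
        have h2 : c'.support = (c r s).support := by
          ext f
          rw [Finsupp.mem_support_iff, Finsupp.mem_support_iff, ← hc' f, Ne, Ne,
            ZeroMemClass.coe_eq_zero]
        rw [h2]
        refine Finset.sum_congr rfl fun f _ => ?_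
        rw [hc', hshift, mul_smul_comm]
      rw [h1, ← hc1, hβd d, hβd e, ← hr, ← hs, ← hi, ← hj, pow_add]
      ring
    · by_cases hfr : f ∈ Set.range σ
      · obtain ⟨g, rfl⟩ := hfr
        rw [Finsupp.mapDomain_apply hσi]
        have h1 := hσ g
        apply Subtype.ext
        rw [hc' g]
        refine hc2 r s g ?_
        rw [h1, hd', he'] at hf
        have h2 : m * (i + j) = m * i + m * j := Nat.mul_add _ _ _
        omega
      · rw [Finsupp.mapDomain_of_notMem_range _ _ hfr]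
    · have hg : w r + w s ∈ S := hsg.add (hwS r) (hwS s)
      have hfg : f = σ ⟨w r + w s, hg⟩ := Subtype.ext (by
        rw [hσ, hf, hd', he']
        have h2 : m * (i + j) = m * i + m * j := Nat.mul_add _ _ _
        simp only
        omega)
      rw [hfg, Finsupp.mapDomain_apply hσi]
      have h1 : c r s ⟨w r + w s, hg⟩ ≠ 0 := hc3 r s _ rfl
      have h2 := hY r hrm s hsm _ h1
      refine IsUnit.of_mul_eq_one ⟨(c r s ⟨w r + w s, hg⟩)⁻¹, hA h2.2⟩ (Subtype.ext ?_)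
      rw [MulMemClass.coe_mul, hc', OneMemClass.coe_one]
      exact mul_inv_cancel₀ h1

end Vale.Agent.P019P
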