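import Vale.Agent.P019Q.H4ModA

/-!
# A model over a finitely generated ring
-/

namespace Vale.Agent.P019P

open Polynomial IntermediateField

variable {k F : Type*} [Field k] [Field F] [Algebra k F] [CFF k F]

/-- functions with pairwise distinct orders are linearly independent. -/
theorem h4ModB_li {P₀ : Plk k F} {S : Set ℕ} {β : S → F}
    (hβ : ∀ d, β d ∈ RO P₀ ∧ β d ≠ 0 ∧ ord P₀ (β d) = -((d : ℕ) : ℤ)) :
    LinearIndependent k β := by
  classical
  rw [linearIndependent_iff']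
  intro s g hg
  by_contra hcon
  push Not at hcon
  obtain ⟨i₀, hi₀, hgi₀⟩ := hcon
  -- the terms with nonzero coefficient
  obtain ⟨i, hi, hmax⟩ := Finset.exists_max_image (s.filter fun i => g i ≠ 0)
    (fun i => ((i : S) : ℕ)) ⟨i₀, Finset.mem_filter.2 ⟨hi₀, hgi₀⟩⟩
  obtain ⟨his, hgi⟩ := Finset.mem_filter.1 hi
  have hord : ∀ j : S, g j ≠ 0 → g j • β j ≠ 0 ∧ ord P₀ (g j • β j) = -((j : ℕ) : ℤ) := by
    intro j hj
    have h3 : algebraMap k F (g j) ≠ 0 := by rwa [Ne, map_eq_zero]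
    rw [Algebra.smul_def, ord_mul P₀ h3 (hβ j).2.1, ord_const, zero_add, (hβ j).2.2]
    exact ⟨mul_ne_zero h3 (hβ j).2.1, rfl⟩
  have h := ord_sum_of_lt (P := P₀) (s := s) (f := fun j => g j • β j) (i := i) his
    (hord i hgi).1 (by
      intro j hj hji
      by_cases h0 : g j = 0
      · left
        show g j • β j = 0
        rw [h0, zero_smul]
      right
      show ord P₀ (g i • β i) + 1 ≤ ord P₀ (g j • β j)
      rw [(hord i hgi).2, (hord j h0).2]
      have h1 : ((j : S) : ℕ) ≤ (i : ℕ) := hmax j (Finset.mem_filter.2 ⟨hj, h0⟩)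
      have h2 : ((j : S) : ℕ) ≠ (i : ℕ) := fun h => hji (Subtype.ext h)
      omega)
  exact h.1 hg

/-- a model over a finitely generated subring of the constants which contains given functions. -/
theorem h4_model_ring (P₀ : Plk k F) (Z : Finset F) (hZ : ∀ z ∈ Z, z ∈ RO P₀) :
    ∃ (A₀ : Subalgebra ℤ k) (R₀ : Subalgebra A₀ F) (S : Set ℕ) (b : Module.Basis S A₀ R₀),
      A₀.FG ∧ Sgp (gen k F) S ∧ IsDB b ∧
      (∀ d : S, (b d : F) ∈ RO P₀ ∧ (b d : F) ≠ 0 ∧ ord P₀ (b d : F) = -((d : ℕ) : ℤ)) ∧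
      (∀ w : F, w ∈ RO P₀ → w ∈ Submodule.span k (Set.range fun d : S => (b d : F))) ∧
      ∀ z ∈ Z, z ∈ R₀ := by
  classical
  obtain ⟨S, β, Y, hsg, hβ, hβ1, hspan, hmul⟩ := exists_DB P₀
  -- coefficients of the given functions
  have hc : ∀ z : F, ∃ c : S →₀ k, z ∈ Z → (c.sum fun i a => a • β i) = z := by
    intro z
    by_cases hz : z ∈ Z
    · obtain ⟨c, hc⟩ := Finsupp.mem_span_range_iff_exists_finsupp.1 (hspan z (hZ z hz))
      exact ⟨c, fun _ => hc⟩
    · exact ⟨0, fun h => absurd h hz⟩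
  choose c hc using hc
  obtain ⟨Y', hY'⟩ : ∃ Y' : Finset k, Y' = Y ∪ Z.biUnion fun z => (c z).support.image (c z) :=
    ⟨_, rfl⟩
  obtain ⟨A₀, hA₀⟩ : ∃ A₀ : Subalgebra ℤ k, A₀ = Algebra.adjoin ℤ (Y' : Set k) := ⟨_, rfl⟩
  have hFG : A₀.FG := by
    rw [hA₀]
    exact Subalgebra.fg_adjoin_finset Y'
  have hsub : (Y' : Set k) ⊆ A₀ := by
    rw [hA₀]
    exact Algebra.subset_adjoin
  have hYA : (Y : Set k) ⊆ A₀ := fun y hy => hsub (by
    rw [hY']
    exact Finset.mem_coe.2 (Finset.mem_union_left _ (Finset.mem_coe.1 hy)))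
  have hcA : ∀ z ∈ Z, ∀ i : S, c z i ∈ A₀ := by
    intro z hz i
    by_cases h0 : c z i = 0
    · rw [h0]; exact zero_mem _
    · refine hsub ?_
      rw [hY']
      refine Finset.mem_coe.2 (Finset.mem_union_right _ ?_)
      rw [Finset.mem_biUnion]
      exact ⟨z, hz, Finset.mem_image.2 ⟨i, Finsupp.mem_support_iff.2 h0, rfl⟩⟩
  have hmul' := hmul A₀ hYA
  -- the span
  obtain ⟨p, hp⟩ : ∃ p : Submodule A₀ F, p = Submodule.span A₀ (Set.range β) := ⟨_, rfl⟩
  have hβp : ∀ d, β d ∈ p := fun d => by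
    rw [hp]; exact Submodule.subset_span ⟨d, rfl⟩
  have h1p : (1 : F) ∈ p := by
    have := hβp ⟨0, hsg.zero⟩
    rwa [hβ1 _ rfl] at this
  have hmulp : ∀ x y : F, x ∈ p → y ∈ p → x * y ∈ p := by
    intro x y hx hy
    rw [hp] at hx hy
    induction hx, hy using Submodule.span_induction₂ with
    | mem_mem x y hx hy =>
      obtain ⟨d, rfl⟩ := hx
      obtain ⟨e, rfl⟩ := hy
      obtain ⟨c', h1, _⟩ := hmul' d e
      rw [h1]
      exact Submodule.sum_mem _ fun f _ => p.smul_mem (c' f) (hβp f)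
    | zero_left y hy => rw [zero_mul]; exact zero_mem _
    | zero_right x hx => rw [mul_zero]; exact zero_mem _
    | add_left x y z hx hy hz h1 h2 => rw [add_mul]; exact add_mem h1 h2
    | add_right x y z hx hy hz h1 h2 => rw [mul_add]; exact add_mem h1 h2
    | smul_left r x y hx hy h => rw [smul_mul_assoc]; exact p.smul_mem r h
    | smul_right r x y hx hy h => rw [mul_smul_comm]; exact p.smul_mem r h
  -- independence
  have hli : LinearIndependent A₀ β := by
    have h1 := h4ModB_li hβ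
    exact h1.restrict_scalars (R := A₀) (fun a b h => Subtype.ext (by
      simpa [Algebra.smul_def] using h))
  obtain ⟨R₀, hR₀⟩ : ∃ R₀ : Subalgebra A₀ F, R₀ = p.toSubalgebra h1p hmulp := ⟨_, rfl⟩
  have hmemR : ∀ x : F, x ∈ R₀ ↔ x ∈ p := fun x => by
    rw [hR₀]; exact Iff.rfl
  -- the basis
  obtain ⟨b, hb⟩ : ∃ b : Module.Basis S A₀ R₀, ∀ d, (b d : F) = β d := by
    have hli' : LinearIndependent A₀ (fun d : S => (⟨β d, (hmemR _).2 (hβp d)⟩ : R₀)) := by
      refine LinearIndependent.of_comp R₀.val.toLinearMap ?_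
      exact hli
    refine ⟨Module.Basis.mk hli' ?_, fun d => ?_⟩
    · rintro ⟨x, hx⟩ _
      have hx' := (hmemR x).1 hx
      rw [hp, Finsupp.mem_span_range_iff_exists_finsupp] at hx'
      obtain ⟨c', hc'⟩ := hx'
      rw [Finsupp.mem_span_range_iff_exists_finsupp]
      refine ⟨c', Subtype.ext ?_⟩
      refine Eq.trans ?_ hc'
      rw [Finsupp.sum, Finsupp.sum, AddSubmonoidClass.coe_finsetSum]
      rfl
    · rw [Module.Basis.mk_apply]
  have hrange : (Set.range fun d : S => (b d : F)) = Set.range β := by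
    congr 1
    funext d
    exact hb d
  have hrepr : ∀ d e : S, ∃ c' : S →₀ A₀, b.repr (b d * b e) = c' ∧
      (∀ f : S, (d : ℕ) + e < f → c' f = 0) ∧ ∀ f : S, (f : ℕ) = d + e → IsUnit (c' f) := by
    intro d e
    obtain ⟨c', h1, h2, h3⟩ := hmul' d e
    refine ⟨c', ?_, h2, h3⟩
    have h4 : b d * b e = Finsupp.linearCombination A₀ b c' := by
      apply Subtype.ext
      rw [Subalgebra.coe_mul, hb, hb, h1, Finsupp.linearCombination_apply, Finsupp.sum,
        Finsupp.sum, AddSubmonoidClass.coe_finsetSum]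
      refine Finset.sum_congr rfl fun f _ => ?_
      rw [Subalgebra.coe_smul, hb]
      rfl
    rw [h4, Module.Basis.repr_linearCombination]
  refine ⟨A₀, R₀, S, b, hFG, hsg, ⟨fun d hd => ?_, fun d e f hf => ?_, fun d e f hf => ?_⟩,
    fun d => ?_, fun w hw => ?_, fun z hz => ?_⟩
  · apply Subtype.ext
    rw [hb, hβ1 d hd]
    rfl
  · obtain ⟨c', h1, h2, h3⟩ := hrepr d e
    rw [h1]
    exact h3 f hf
  · obtain ⟨c', h1, h2, h3⟩ := hrepr d e
    rw [h1]
    exact h2 f hf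
  · rw [hb]
    exact hβ d
  · rw [hrange]
    exact hspan w hw
  · rw [hmemR, ← hc z hz]
    exact Submodule.sum_mem _ fun f _ => p.smul_mem (⟨c z f, hcA z hz f⟩ : A₀) (hβp f)

end Vale.Agent.P019P
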