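import Vale.Agent.P019Q.H4ModB
import Vale.Agent.P019Q.H4FrD

/-!
# Models over finitely generated rings
-/

universe u

namespace Vale.Agent.P019P

open Polynomial IntermediateField TensorProduct

variable {k F : Type u} [Field k] [Field F] [Algebra k F] [CFF k F]

/-- every function of a function field is a quotient of functions with poles only at `P₀`. -/
theorem h4_frac (P₀ : Plk k F) (w : F) : ∃ c : F, c ∈ RO P₀ ∧ c ≠ 0 ∧ c * w ∈ RO P₀ := by
  classical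
  by_cases hw : w = 0
  · exact ⟨1, one_mem _, one_ne_zero, by rw [hw, mul_zero]; exact zero_mem _⟩
  let E : Plk k F →₀ ℤ := ((dv k w).mapRange (fun n => max (-n) 0) (by simp)).erase P₀
  have hE : ∀ Q, Q ≠ P₀ → E Q = max (-ord Q w) 0 := by
    intro Q hQ
    change Finsupp.erase P₀ _ Q = _
    rw [Finsupp.erase_ne hQ, Finsupp.mapRange_apply, dv_apply]
  have hE0 : ∀ Q, 0 ≤ E Q := by
    intro Q
    by_cases hQ : Q = P₀
    · rw [hQ]
      change 0 ≤ Finsupp.erase P₀ _ P₀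
      rw [Finsupp.erase_same]
    · rw [hE Q hQ]
      exact le_max_right _ _
  have hdg : 0 ≤ dg E := by
    have h1 : (0 : Plk k F →₀ ℤ) ≤ E := fun Q => by simpa using hE0 Q
    have h2 := dg_mono h1
    rwa [map_zero] at h2
  let n : ℕ := (dg E).toNat + 2 * gen k F
  obtain ⟨z, hz0, hz1, -⟩ := h4_exact (D := Finsupp.single P₀ (n : ℤ) - E) P₀ (by
    rw [map_sub, h4RRA_dg_single]
    have h3 := Int.toNat_of_nonneg hdg
    have h4 : (n : ℤ) = ((dg E).toNat : ℤ) + 2 * (gen k F : ℤ) := by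
      simp only [n]; push_cast; ring
    rw [h4, h3]
    linarith)
  have hz2 : ∀ Q, Q ≠ P₀ → E Q ≤ ord Q z := by
    intro Q hQ
    have h1 := hz1 Q
    rw [Finsupp.sub_apply, h4RRA_single_ne hQ] at h1
    linarith
  refine ⟨z, mem_RO.2 fun Q hQ => Or.inr ((hE0 Q).trans (hz2 Q hQ)), hz0,
    mem_RO.2 fun Q hQ => Or.inr ?_⟩
  rw [ord_mul Q hz0 hw]
  have h1 := hz2 Q hQ
  rw [hE Q hQ] at h1
  have h2 := le_max_left (-ord Q w) 0
  linarith

section

variable {A₀ : Type u} [CommRing A₀] [Algebra A₀ k] {R₀ : Type u} [CommRing R₀] [Algebra A₀ R₀]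
  {S : Set ℕ} (b : Module.Basis S A₀ R₀) (μ : (k ⊗[A₀] R₀) →ₐ[k] F)

omit [CFF k F] in
theorem h4ModC_eq (z : k ⊗[A₀] R₀) :
    μ z = ∑ d ∈ ((b.baseChange k).repr z).support,
      (b.baseChange k).repr z d • μ (1 ⊗ₜ b d) := by
  conv_lhs => rw [← (b.baseChange k).linearCombination_repr z]
  rw [Finsupp.linearCombination_apply, Finsupp.sum, map_sum]
  refine Finset.sum_congr rfl fun d _ => ?_
  rw [map_smul, Module.Basis.baseChange_apply]

theorem h4ModC_ord {P₀ : Plk k F} (hμ : ∀ d : S, μ (1 ⊗ₜ b d) ≠ 0 ∧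
      ord P₀ (μ (1 ⊗ₜ b d)) = -((d : ℕ) : ℤ)) {z : k ⊗[A₀] R₀} (hz : z ≠ 0) :
    μ z ≠ 0 ∧ ord P₀ (μ z) = -(dgr (b.baseChange k) z : ℤ) := by
  obtain ⟨d, hd, hd2⟩ := exists_lead (b := b.baseChange k) hz
  have hc : ∀ (c : k) (f : S), c ≠ 0 → c • μ (1 ⊗ₜ b f) ≠ 0 ∧
      ord P₀ (c • μ (1 ⊗ₜ b f)) = -((f : ℕ) : ℤ) := by
    intro c f hc
    have h1 : algebraMap k F c ≠ 0 := by rwa [Ne, map_eq_zero]
    refine ⟨smul_ne_zero hc (hμ f).1, ?_⟩
    rw [Algebra.smul_def, ord_mul P₀ h1 (hμ f).1, ord_const, zero_add, (hμ f).2]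
  rw [h4ModC_eq b μ z]
  have h1 := ord_sum_of_lt (P := P₀) (s := ((b.baseChange k).repr z).support)
    (f := fun d => (b.baseChange k).repr z d • μ (1 ⊗ₜ b d)) (i := d)
    (Finsupp.mem_support_iff.2 hd2) (hc _ d hd2).1 (by
      intro f hf hfd
      have hf2 := Finsupp.mem_support_iff.1 hf
      have h2 : (f : ℕ) ≤ dgr (b.baseChange k) z :=
        Finset.le_sup (f := fun f : S => (f : ℕ)) hf
      have h3 : (f : ℕ) ≠ d := fun h => hfd (Subtype.ext h)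
      refine Or.inr ?_
      rw [(hc _ d hd2).2, (hc _ f hf2).2]
      omega)
  refine ⟨h1.1, ?_⟩
  rw [h1.2, (hc _ d hd2).2, hd]

end

/-- models over finitely generated rings. -/
theorem h4_model (P₀ : Plk k F) (Z : Finset F) (hZ : ∀ z ∈ Z, z ∈ RO P₀) :
    ∃ (A₀ : Type u) (_ : CommRing A₀) (_ : IsDomain A₀) (_ : Algebra.FiniteType ℤ A₀)
      (_ : Algebra A₀ k) (R₀ : Type u) (_ : CommRing R₀) (_ : Algebra A₀ R₀) (S : Set ℕ)
      (b : Module.Basis S A₀ R₀) (_ : Algebra (k ⊗[A₀] R₀) F)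
      (_ : IsFractionRing (k ⊗[A₀] R₀) F) (_ : IsScalarTower k (k ⊗[A₀] R₀) F),
      Function.Injective (algebraMap A₀ k) ∧ IsDB b ∧
      HM (b.baseChange k) (gen k F) P₀ ∧
      ∀ z ∈ Z, ∃ r : R₀, algebraMap (k ⊗[A₀] R₀) F (1 ⊗ₜ r) = z := by
  obtain ⟨A₀, R₀, S, b, hFG, hSg, hDB, hb, hspan, hZR⟩ := h4_model_ring P₀ Z hZ
  let μ : (k ⊗[A₀] R₀) →ₐ[k] F :=
    Algebra.TensorProduct.lift (Algebra.ofId k F) R₀.val (fun _ _ => Commute.all _ _)
  have hμ : ∀ r : R₀, μ (1 ⊗ₜ r) = (r : F) := by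
    intro r
    simp only [μ, Algebra.TensorProduct.lift_tmul, map_one, one_mul, Subalgebra.coe_val]
  have hμb : ∀ d : S, μ (1 ⊗ₜ b d) ≠ 0 ∧ ord P₀ (μ (1 ⊗ₜ b d)) = -((d : ℕ) : ℤ) := by
    intro d
    rw [hμ]
    exact (hb d).2
  have hinj : Function.Injective μ := by
    rw [injective_iff_map_eq_zero]
    intro z hz
    by_contra hne
    exact (h4ModC_ord b μ hμb hne).1 hz
  have hfull : ∀ w : F, w ∈ RO P₀ → ∃ z, μ z = w := by
    intro w hw
    have h1 : Submodule.span k (Set.range fun d : S => (b d : F)) ≤ LinearMap.range μ.toLinearMap := by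
      rw [Submodule.span_le]
      rintro _ ⟨d, rfl⟩
      exact ⟨1 ⊗ₜ b d, hμ (b d)⟩
    exact h1 (hspan w hw)
  let alg : Algebra (k ⊗[A₀] R₀) F := μ.toRingHom.toAlgebra
  have halg : ∀ z, algebraMap (k ⊗[A₀] R₀) F z = μ z := fun z => rfl
  have hST : IsScalarTower k (k ⊗[A₀] R₀) F := by
    refine IsScalarTower.of_algebraMap_eq (R := k) (S := k ⊗[A₀] R₀) (A := F) fun x => ?_
    rw [halg, AlgHom.commutes]
  have hfs : FaithfulSMul (k ⊗[A₀] R₀) F :=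
    (faithfulSMul_iff_algebraMap_injective _ _).2 hinj
  have hFR : IsFractionRing (k ⊗[A₀] R₀) F := by
    refine IsFractionRing.of_field _ _ fun w => ?_
    obtain ⟨c, hc, hc0, hcw⟩ := h4_frac P₀ w
    obtain ⟨x, hx⟩ := hfull _ hcw
    obtain ⟨y, hy⟩ := hfull _ hc
    refine ⟨x, y, ?_⟩
    rw [halg, halg, hx, hy, mul_div_cancel_left₀ _ hc0]
  refine ⟨A₀, inferInstance, inferInstance, (Subalgebra.fg_iff_finiteType A₀).1 hFG, inferInstance,
    R₀, inferInstance, inferInstance, S, b, inferInstance, hFR, hST, Subtype.val_injective, hDB,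
    ⟨hDB.baseChange k, hSg, fun z hz => ?_, fun w hw => ?_⟩, fun z hz => ⟨⟨z, hZR z hz⟩, ?_⟩⟩
  · rw [halg]
    exact (h4ModC_ord b μ hμb hz).2
  · exact hfull w hw
  · rw [halg]
    exact hμ _

end Vale.Agent.P019P
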