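import Vale.Agent.P019Q.H4RRA

/-!
# Representatives and generators of bounded degree
-/

namespace Vale.Agent.P019P

open Polynomial IntermediateField

variable {k F : Type*} [Field k] [Field F] [Algebra k F] [CFF k F]

/-- representatives of classes with divisor divisible by `ℓ`. -/
theorem h4_rep {ℓ : ℕ} (hℓ : ℓ ≠ 0) (P₀ : Plk k F) {z : F} (hz : z ≠ 0)
    (hd : ∀ P : Plk k F, (ℓ : ℤ) ∣ ord P z) : ∃ h : F, h ≠ 0 ∧ z * h ^ ℓ ∈ RO P₀ ∧
      ord P₀ (z * h ^ ℓ) = -((2 * gen k F * ℓ : ℕ) : ℤ) := by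
  classical
  have hℓ' : (ℓ : ℤ) ≠ 0 := by exact_mod_cast hℓ
  set D₁ : Plk k F →₀ ℤ := (dv k z).mapRange (fun a => a / (ℓ : ℤ)) (by simp) with hD₁
  have h1 : ∀ P, (ℓ : ℤ) * D₁ P = ord P z := by
    intro P
    rw [hD₁, Finsupp.mapRange_apply, dv_apply]
    exact Int.mul_ediv_cancel' (hd P)
  have h2 : dg D₁ = 0 := by
    have e1 : ℓ • D₁ = dv k z := by
      ext P
      rw [Finsupp.smul_apply, nsmul_eq_mul, h1, dv_apply]
    have e2 : ℓ • dg D₁ = 0 := by rw [← map_nsmul, e1, dg_dv]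
    rw [nsmul_eq_mul] at e2
    exact (mul_eq_zero.1 e2).resolve_left hℓ'
  set D : Plk k F →₀ ℤ := D₁ + Finsupp.single P₀ (2 * (gen k F : ℤ)) with hD
  have h3 : 2 * (gen k F : ℤ) ≤ dg D := by
    rw [hD, map_add, h2, dg_sgl, zero_add]
  obtain ⟨h, hh0, hh, hhP⟩ := h4_exact P₀ h3
  refine ⟨h, hh0, ?_, ?_⟩
  · rw [mem_RO]
    intro Q hQ
    right
    rw [ord_mul Q hz (pow_ne_zero _ hh0), ord_pow, ← h1 Q]
    have h4 := hh Q
    have h5 : D Q = D₁ Q := by
      rw [hD, Finsupp.add_apply, Finsupp.single_eq_of_ne (by exact hQ), add_zero]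
    rw [h5] at h4
    have h6 : (ℓ : ℤ) * -D₁ Q ≤ ℓ * ord Q h := mul_le_mul_of_nonneg_left h4 (by positivity)
    linarith
  · rw [ord_mul P₀ hz (pow_ne_zero _ hh0), ord_pow, ← h1 P₀, hhP]
    have h5 : D P₀ = D₁ P₀ + 2 * (gen k F : ℤ) := by
      rw [hD, Finsupp.add_apply, Finsupp.single_eq_same]
    rw [h5]
    push_cast
    ring

/-- effective divisors are greatest common divisors of two functions of bounded degree. -/
theorem h4_gens (P₀ : Plk k F) {E : Plk k F →₀ ℤ} (hE : 0 ≤ E) (hE0 : E P₀ = 0) {n : ℕ}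
    (hn : dg E + 2 * gen k F ≤ n) : ∃ a : Fin 2 → F, (∀ j, a j ≠ 0 ∧ a j ∈ LP P₀ n) ∧
      ∀ P, P ≠ P₀ → (∀ j, E P ≤ ord P (a j)) ∧ ∃ j, ord P (a j) = E P := by
  classical
  have : IsAlgClosed k := CFF.ac F
  have hg : (0 : ℤ) ≤ gen k F := Int.natCast_nonneg _
  set D₀ : Plk k F →₀ ℤ := Finsupp.single P₀ (n : ℤ) - E with hD₀
  have hD₀P : ∀ P, P ≠ P₀ → D₀ P = - E P := by
    intro P hP
    rw [hD₀, Finsupp.sub_apply, Finsupp.single_eq_of_ne (by exact hP), zero_sub]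
  have hdg : dg D₀ = n - dg E := by rw [hD₀, map_sub, dg_sgl]
  have hfr : (Module.finrank k (LL k D₀) : ℤ) = dg D₀ + 1 - gen k F := h4_l_eq (by omega)
  -- the first function
  obtain ⟨a₀, ha₀, ha₀0⟩ : ∃ z ∈ LL k D₀, z ≠ 0 := by
    apply Submodule.exists_mem_ne_zero_of_ne_bot
    intro hb
    rw [hb, finrank_bot] at hfr
    push_cast at hfr
    omega
  have hLE : LL k D₀ ≤ LP P₀ n := by
    refine LL_mono ?_
    rw [hD₀]
    exact sub_le_self _ hE
  have hord : ∀ z ∈ LL k D₀, z ≠ 0 → ∀ P, P ≠ P₀ → E P ≤ ord P z := by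
    intro z hz hz0 P hP
    have h1 := ((mem_LL.1 hz).resolve_left hz0) P
    rw [hD₀P P hP, neg_neg] at h1
    exact h1
  set T : Set (Plk k F) := {P | P ≠ P₀ ∧ E P < ord P a₀} with hT
  have hTfin : T.Finite := by
    refine (dv_finite ha₀0).subset fun P hP => ?_
    have h1 : 0 ≤ E P := hE P
    have h2 : E P < ord P a₀ := hP.2
    show ord P a₀ ≠ 0
    omega
  have hTf : Finite T := hTfin
  -- the second function
  obtain ⟨a₁, ha₁, ha₁0, ha₁T⟩ : ∃ z ∈ LL k D₀, z ≠ 0 ∧ ∀ P ∈ T, ord P z = E P := by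
    by_cases hTe : T = ∅
    · refine ⟨a₀, ha₀, ha₀0, fun P hP => ?_⟩
      rw [hTe] at hP
      exact absurd hP (Set.notMem_empty P)
    · let W : T → Submodule k (LL k D₀) := fun P =>
        (LL k (D₀ - Finsupp.single P.1 1)).comap (LL k D₀).subtype
      have hW : ∀ P, W P ≠ ⊤ := by
        intro P hP
        have h1 : LL k D₀ ≤ LL k (D₀ - Finsupp.single P.1 1) := by
          intro z hz
          have h2 : (⟨z, hz⟩ : LL k D₀) ∈ W P := by rw [hP]; trivial
          exact h2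
        have h2 := Submodule.finrank_mono h1
        have h3 : dg (D₀ - Finsupp.single P.1 1) = dg D₀ - 1 := by rw [map_sub, dg_sgl]
        have h4 : (Module.finrank k (LL k (D₀ - Finsupp.single P.1 1)) : ℤ) =
            dg (D₀ - Finsupp.single P.1 1) + 1 - gen k F := h4_l_eq (by omega)
        omega
      have h1 : (⋃ P, (W P : Set (LL k D₀))) ≠ Set.univ := by
        intro h1
        obtain ⟨P, hP⟩ := Subspace.exists_eq_top_of_iUnion_eq_univ h1
        exact hW P hP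
      rw [Set.ne_univ_iff_exists_notMem] at h1
      obtain ⟨⟨z, hz⟩, hzW⟩ := h1
      rw [Set.mem_iUnion, not_exists] at hzW
      have hz2 : ∀ P ∈ T, z ∉ LL k (D₀ - Finsupp.single P 1) := fun P hP h => hzW ⟨P, hP⟩ h
      have hz0 : z ≠ 0 := by
        obtain ⟨P, hP⟩ := Set.nonempty_iff_ne_empty.2 hTe
        rintro rfl
        exact hz2 P hP (Submodule.zero_mem _)
      refine ⟨z, hz, hz0, fun P hP => ?_⟩
      refine le_antisymm ?_ (hord z hz hz0 P hP.1)
      by_contra hlt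
      push Not at hlt
      refine hz2 P hP (mem_LL.2 (Or.inr fun Q => ?_))
      rw [Finsupp.sub_apply]
      by_cases hQ : Q = P
      · subst hQ
        rw [Finsupp.single_eq_same, hD₀P Q hP.1]
        omega
      · rw [Finsupp.single_eq_of_ne (by exact hQ), sub_zero]
        exact ((mem_LL.1 hz).resolve_left hz0) Q
  refine ⟨![a₀, a₁], ?_, ?_⟩
  · intro j
    fin_cases j
    · exact ⟨ha₀0, hLE ha₀⟩
    · exact ⟨ha₁0, hLE ha₁⟩
  · intro P hP
    have h0 := hord a₀ ha₀ ha₀0 P hP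
    have h1 := hord a₁ ha₁ ha₁0 P hP
    refine ⟨fun j => ?_, ?_⟩
    · fin_cases j
      · exact h0
      · exact h1
    · by_cases hPT : P ∈ T
      · exact ⟨1, ha₁T P hPT⟩
      · refine ⟨0, le_antisymm ?_ h0⟩
        by_contra hlt
        push Not at hlt
        exact hPT ⟨hP, hlt⟩

end Vale.Agent.P019P
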