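import Vale.Agent.P019Q.H4RingA

/-!
# Rings with a degree basis over a field: degrees
-/

namespace Vale.Agent.P019P

open Polynomial IntermediateField TensorProduct

section

variable {K R : Type*} [Field K] [CommRing R] [Algebra K R] {S : Set ℕ} {g : ℕ}
  {b : Module.Basis S K R}

theorem mem_fil_iff {n : ℕ} {z : R} : z ∈ fil b n ↔ dgr b z ≤ n := by
  constructor
  · intro hz
    refine Finset.sup_le fun f hf => ?_
    by_contra h
    exact (Finsupp.mem_support_iff.1 hf) (hz f (not_le.1 h))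
  · intro h f hf
    by_contra h0
    have h1 : (f : ℕ) ≤ dgr b z :=
      Finset.le_sup (f := fun f : S => (f : ℕ)) (Finsupp.mem_support_iff.2 h0)
    omega

/-- the leading coefficient. -/
theorem exists_lead {z : R} (hz : z ≠ 0) : ∃ d : S, (d : ℕ) = dgr b z ∧ b.repr z d ≠ 0 := by
  have h1 : (b.repr z).support.Nonempty := by
    rw [Finsupp.support_nonempty_iff]
    intro h
    exact hz (b.repr.map_eq_zero_iff.1 h)
  obtain ⟨d, hd, hd2⟩ := Finset.exists_mem_eq_sup _ h1 (fun f : S => (f : ℕ))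
  exact ⟨d, hd2.symm, Finsupp.mem_support_iff.1 hd⟩

theorem h4Ring_basis_mem (b : Module.Basis S K R) (d : S) : b d ∈ fil b d := by
  intro f hf
  rw [b.repr_self, Finsupp.single_apply, if_neg]
  rintro rfl
  exact lt_irrefl _ hf

theorem h4Ring_lt (h : IsDB b) {m n : ℕ} {z w : R} (hz : ∀ f : S, m ≤ f → b.repr z f = 0)
    (hw : w ∈ fil b n) (f : S) (hf : m + n ≤ f) : b.repr (z * w) f = 0 := by
  rcases Nat.eq_zero_or_pos m with rfl | hm
  · have h0 : z = 0 := by
      apply b.repr.map_eq_zero_iff.1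
      ext f
      exact hz f (Nat.zero_le _)
    rw [h0, zero_mul, map_zero]
    rfl
  · have h1 : z ∈ fil b (m - 1) := fun f hf => hz f (by omega)
    exact fil_mul h h1 hw f (by omega)

theorem h4Ring_repr_sub {z : R} (d : S) (hd : z ∈ fil b d) (f : S) (hf : (d : ℕ) ≤ f) :
    b.repr (z - b.repr z d • b d) f = 0 := by
  rw [map_sub, map_smul, b.repr_self, Finsupp.sub_apply, Finsupp.smul_apply, smul_eq_mul,
    Finsupp.single_apply]
  by_cases h : d = f
  · subst h
    rw [if_pos rfl, mul_one, sub_self]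
  · rw [if_neg h, mul_zero, sub_zero]
    refine hd f (lt_of_le_of_ne hf fun h2 => h (Subtype.ext h2))

theorem h4Ring_repr_mul (h : IsDB b) {z w : R} (d e f : S) (hf : (f : ℕ) = d + e)
    (hz : z ∈ fil b d) (hw : w ∈ fil b e) :
    b.repr (z * w) f = b.repr z d * b.repr w e * b.repr (b d * b e) f := by
  have e1 : z * w = (z - b.repr z d • b d) * w + (w - b.repr w e • b e) * (b.repr z d • b d) +
      (b.repr z d * b.repr w e) • (b d * b e) := by
    simp only [Algebra.smul_def, map_mul]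
    ring
  have e2 : b.repr ((z - b.repr z d • b d) * w) f = 0 :=
    h4Ring_lt h (h4Ring_repr_sub d hz) hw f hf.ge
  have e3 : b.repr ((w - b.repr w e • b e) * (b.repr z d • b d)) f = 0 :=
    h4Ring_lt h (h4Ring_repr_sub e hw) (Submodule.smul_mem _ _ (h4Ring_basis_mem b d)) f
      (by omega)
  rw [e1, map_add, map_add, map_smul, Finsupp.add_apply, Finsupp.add_apply, e2, e3,
    Finsupp.smul_apply, smul_eq_mul, zero_add, zero_add]

theorem dgr_mul (h : IsDB b) (hS : Sgp g S) {z w : R} (hz : z ≠ 0) (hw : w ≠ 0) :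
    z * w ≠ 0 ∧ dgr b (z * w) = dgr b z + dgr b w := by
  obtain ⟨d, hd, hd2⟩ := exists_lead (b := b) hz
  obtain ⟨e, he, he2⟩ := exists_lead (b := b) hw
  have hz1 : z ∈ fil b d := mem_fil_iff.2 hd.ge
  have hw1 : w ∈ fil b e := mem_fil_iff.2 he.ge
  have hf := h4Ring_repr_mul h d e ⟨d + e, hS.add d.2 e.2⟩ rfl hz1 hw1
  have hne : b.repr (z * w) ⟨d + e, hS.add d.2 e.2⟩ ≠ 0 := by
    rw [hf]
    exact mul_ne_zero (mul_ne_zero hd2 he2) (h.top d e _ rfl).ne_zero
  refine ⟨fun h0 => hne (by rw [h0, map_zero]; rfl), le_antisymm ?_ ?_⟩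
  · rw [← hd, ← he]
    exact mem_fil_iff.1 (fil_mul h hz1 hw1)
  · rw [← hd, ← he]
    exact Finset.le_sup (f := fun f : S => (f : ℕ)) (Finsupp.mem_support_iff.2 hne)

theorem h4_domain (h : IsDB b) (hS : Sgp g S) : IsDomain R := by
  have : Nontrivial R := by
    refine ⟨⟨b ⟨0, hS.zero⟩, 0, ?_⟩⟩
    exact b.ne_zero _
  have : NoZeroDivisors R := ⟨by
    intro z w hzw
    by_contra hc
    rw [not_or] at hc
    exact (dgr_mul h hS hc.1 hc.2).1 hzw⟩
  exact NoZeroDivisors.to_isDomain R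

theorem h4Ring_algebraMap (h : IsDB b) (hS : Sgp g S) (c : K) :
    algebraMap K R c = c • b ⟨0, hS.zero⟩ := by
  rw [h.one ⟨0, hS.zero⟩ rfl, Algebra.algebraMap_eq_smul_one]

theorem dgr_algebraMap (h : IsDB b) (hS : Sgp g S) (c : K) : dgr b (algebraMap K R c) = 0 := by
  have h1 : algebraMap K R c ∈ fil b 0 := by
    rw [h4Ring_algebraMap h hS]
    exact Submodule.smul_mem _ _ (h4Ring_basis_mem b ⟨0, hS.zero⟩)
  exact Nat.le_zero.1 (mem_fil_iff.1 h1)

theorem eq_algebraMap_of_dgr (h : IsDB b) (hS : Sgp g S) {z : R} (hz : dgr b z = 0) :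
    ∃ c : K, z = algebraMap K R c := by
  refine ⟨b.repr z ⟨0, hS.zero⟩, ?_⟩
  rw [h4Ring_algebraMap h hS, ← sub_eq_zero]
  apply b.repr.map_eq_zero_iff.1
  ext f
  exact h4Ring_repr_sub ⟨0, hS.zero⟩ (mem_fil_iff.2 hz.le) f (Nat.zero_le _)

theorem dgr_add_le (b : Module.Basis S K R) (z w : R) :
    dgr b (z + w) ≤ max (dgr b z) (dgr b w) :=
  mem_fil_iff.1 (Submodule.add_mem _ (mem_fil_iff.2 (le_max_left _ _))
    (mem_fil_iff.2 (le_max_right _ _)))

theorem dgr_mem {z : R} (hS : Sgp g S) : dgr b z ∈ S := by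
  by_cases hz : z = 0
  · have : dgr b z = 0 := by
      rw [hz]
      simp [dgr]
    rw [this]
    exact hS.zero
  · obtain ⟨d, hd, -⟩ := exists_lead (b := b) hz
    rw [← hd]
    exact d.2

theorem dgr_basis (b : Module.Basis S K R) (d : S) : dgr b (b d) = d := by
  rw [dgr, b.repr_self, Finsupp.support_single_ne_zero _ one_ne_zero, Finset.sup_singleton]

/-- cancellation of the leading terms. -/
theorem exists_dgr_sub {z w : R} (hz : z ≠ 0) (hw : w ≠ 0) (h : dgr b z = dgr b w) :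
    ∃ c : K, c ≠ 0 ∧ (z - c • w = 0 ∨ dgr b (z - c • w) < dgr b z) := by
  obtain ⟨d, hd, hd2⟩ := exists_lead (b := b) hz
  obtain ⟨e, he, he2⟩ := exists_lead (b := b) hw
  have hde : d = e := Subtype.ext (by rw [hd, he, h])
  subst hde
  refine ⟨b.repr z d / b.repr w d, div_ne_zero hd2 he2, ?_⟩
  by_cases h0 : z - (b.repr z d / b.repr w d) • w = 0
  · exact Or.inl h0
  right
  obtain ⟨f, hf, hf2⟩ := exists_lead (b := b) h0
  by_contra hlt
  rw [not_lt] at hlt
  apply hf2
  rw [map_sub, map_smul, Finsupp.sub_apply, Finsupp.smul_apply, smul_eq_mul]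
  by_cases hfd : f = d
  · rw [hfd, div_mul_cancel₀ _ he2, sub_self]
  · have h3 : (d : ℕ) < f := by
      refine lt_of_le_of_ne ?_ fun h4 => hfd (Subtype.ext h4.symm)
      rw [hf, hd]
      exact hlt
    have hz1 : z ∈ fil b d := mem_fil_iff.2 hd.ge
    have hw1 : w ∈ fil b d := mem_fil_iff.2 he.ge
    rw [hz1 f h3, hw1 f h3, mul_zero, sub_zero]

/-- coordinates of the elements of bounded degree. -/
noncomputable def h4Ring_lin (b : Module.Basis S K R) (n : ℕ) : (SD S n → K) →ₗ[K] fil b n where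
  toFun t := ⟨el b t, el_mem b t⟩
  map_add' t u := Subtype.ext (by
    change el b (t + u) = el b t + el b u
    simp only [el, Pi.add_apply, add_smul, Finset.sum_add_distrib])
  map_smul' c t := Subtype.ext (by
    change el b (c • t) = c • el b t
    simp only [el, Pi.smul_apply, smul_eq_mul, mul_smul, Finset.smul_sum])

theorem h4Ring_lin_surj (b : Module.Basis S K R) (n : ℕ) :
    Function.Surjective (h4Ring_lin b n) := by
  rintro ⟨z, hz⟩
  obtain ⟨t, ht⟩ := exists_el hz
  exact ⟨t, Subtype.ext ht.symm⟩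

theorem h4Ring_lin_inj (b : Module.Basis S K R) (n : ℕ) :
    Function.Injective (h4Ring_lin b n) := by
  intro t u htu
  have h1 : el b t = el b u := congrArg Subtype.val htu
  funext d
  rw [← repr_el b t d, ← repr_el b u d, h1]

theorem fil_finite (b : Module.Basis S K R) (n : ℕ) : FiniteDimensional K (fil b n) :=
  Module.Finite.of_surjective (h4Ring_lin b n) (h4Ring_lin_surj b n)

theorem h4Ring_card (hS : Sgp g S) {n : ℕ} (hn : 2 * g ≤ n) :
    Fintype.card (SD S n) + g = n + 1 := by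
  classical
  have h1 : Fintype.card (SD S n) + Fintype.card {d : Fin (n + 1) // ¬ (d : ℕ) ∈ S} = n + 1 := by
    rw [Fintype.card_subtype_compl, Fintype.card_fin]
    have h2 := Fintype.card_subtype_le (fun d : Fin (n + 1) => (d : ℕ) ∈ S)
    rw [Fintype.card_fin] at h2
    have h3 : Fintype.card (SD S n) = Fintype.card {d : Fin (n + 1) // (d : ℕ) ∈ S} :=
      Fintype.card_congr (Equiv.refl _)
    omega
  have h2 : Fintype.card {d : Fin (n + 1) // ¬ (d : ℕ) ∈ S} = g := by
    rw [← hS.gaps, ← Nat.card_coe_set_eq, ← Nat.card_eq_fintype_card]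
    refine Nat.card_congr ⟨fun d => ⟨d.1, d.2⟩, fun d => ⟨⟨d.1, ?_⟩, d.2⟩, ?_, ?_⟩
    · have h3 : ¬ 2 * g ≤ (d : ℕ) := fun h4 => d.2 (hS.large _ h4)
      omega
    · intro d
      rfl
    · intro d
      rfl
  omega

theorem finrank_fil (b : Module.Basis S K R) (hS : Sgp g S) {n : ℕ} (hn : 2 * g ≤ n) :
    Module.finrank K (fil b n) + g = n + 1 := by
  rw [← h4Ring_card hS hn, ← Module.finrank_fintype_fun_eq_card K (η := SD S n)]
  congr 1
  exact (LinearEquiv.ofBijective (h4Ring_lin b n)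
    ⟨h4Ring_lin_inj b n, h4Ring_lin_surj b n⟩).finrank_eq.symm

end

end Vale.Agent.P019P
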