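import Vale.Agent.P019Q.H4Def

/-!
# Rings with a degree basis: filtration
-/

namespace Vale.Agent.P019P

open Polynomial IntermediateField TensorProduct

section

variable {A R : Type*} [CommRing A] [CommRing R] [Algebra A R] {S : Set ℕ}
  {b : Module.Basis S A R}

theorem repr_el (b : Module.Basis S A R) {D : ℕ} (t : SD S D → A) (d : SD S D) :
    b.repr (el b t) d.ix = t d := by
  rw [el, map_sum, Finsupp.finset_sum_apply, Finset.sum_eq_single d]
  · rw [map_smul, b.repr_self, Finsupp.smul_apply, Finsupp.single_eq_same, smul_eq_mul, mul_one]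
  · intro e _ he
    rw [map_smul, b.repr_self, Finsupp.smul_apply, Finsupp.single_eq_of_ne, smul_zero]
    intro h
    apply he
    apply Subtype.ext
    apply Fin.ext
    exact (congrArg (fun f : S => (f : ℕ)) h).symm
  · intro h
    exact absurd (Finset.mem_univ _) h

theorem el_mem (b : Module.Basis S A R) {D : ℕ} (t : SD S D → A) : el b t ∈ fil b D := by
  refine Submodule.sum_mem _ fun d _ => Submodule.smul_mem _ _ ?_
  intro f hf
  rw [b.repr_self, Finsupp.single_eq_of_ne]
  intro h
  have h1 : (f : ℕ) = (d.1 : ℕ) := congrArg (fun f : S => (f : ℕ)) h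
  have h2 := d.1.2
  omega

theorem exists_el {D : ℕ} {z : R} (hz : z ∈ fil b D) : ∃ t : SD S D → A, z = el b t := by
  refine ⟨fun d => b.repr z d.ix, ?_⟩
  apply b.ext_elem
  intro f
  by_cases hf : (f : ℕ) ≤ D
  · exact (repr_el b (fun d => b.repr z d.ix) ⟨⟨f, by omega⟩, f.2⟩).symm
  · rw [hz f (by omega), el_mem b _ f (by omega)]

/-- base change. -/
theorem IsDB.baseChange (h : IsDB b) (A' : Type*) [CommRing A'] [Algebra A A'] :
    IsDB (b.baseChange A') := by
  have key : ∀ d e f : S, (b.baseChange A').repr ((b.baseChange A') d * (b.baseChange A') e) f =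
      algebraMap A A' (b.repr (b d * b e) f) := by
    intro d e f
    rw [Module.Basis.baseChange_apply, Module.Basis.baseChange_apply,
      Algebra.TensorProduct.tmul_mul_tmul, mul_one, Module.Basis.baseChange_repr_tmul,
      Algebra.smul_def, mul_one]
  refine ⟨?_, ?_, ?_⟩
  · intro d hd
    rw [Module.Basis.baseChange_apply, h.one d hd]
    rfl
  · intro d e f hf
    rw [key]
    exact (h.top d e f hf).map _
  · intro d e f hf
    rw [key, h.low d e f hf, map_zero]

theorem fil_mono (b : Module.Basis S A R) {m n : ℕ} (h : m ≤ n) : fil b m ≤ fil b n :=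
  fun _ hz f hf => hz f (h.trans_lt hf)

theorem fil_mul (h : IsDB b) {m n : ℕ} {z w : R} (hz : z ∈ fil b m) (hw : w ∈ fil b n) :
    z * w ∈ fil b (m + n) := by
  obtain ⟨t, rfl⟩ := exists_el hz
  obtain ⟨u, rfl⟩ := exists_el hw
  rw [el, el, Finset.sum_mul_sum]
  refine Submodule.sum_mem _ fun d _ => Submodule.sum_mem _ fun e _ => ?_
  rw [smul_mul_smul_comm]
  refine Submodule.smul_mem _ _ ?_
  intro f hf
  apply h.low
  have h1 := d.1.2
  have h2 := e.1.2
  change (d.1 : ℕ) + (e.1 : ℕ) < f
  omega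

theorem fil_one (h : IsDB b) (hS : 0 ∈ S) (n : ℕ) : (1 : R) ∈ fil b n := by
  rw [← h.one ⟨0, hS⟩ rfl]
  intro f hf
  rw [b.repr_self, Finsupp.single_eq_of_ne]
  intro h1
  have h2 : (f : ℕ) = 0 := congrArg (fun f : S => (f : ℕ)) h1
  omega

end

end Vale.Agent.P019P
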