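import Mathlib

/-!
# Finite systems of polynomial equations over a ring
-/

universe u

namespace Vale.Agent.P019P

section

variable {A₀ : Type u} [CommRing A₀] {ι : Type}

/-- predicates given by polynomial equations with coefficients in `A₀`. -/
def IsSys (Q : ∀ (A : Type u) [CommRing A] [Algebra A₀ A], (ι → A) → Prop) : Prop :=
  ∃ E : Set (MvPolynomial ι A₀), ∀ (A : Type u) [CommRing A] [Algebra A₀ A] (t : ι → A),
    Q A t ↔ ∀ e ∈ E, MvPolynomial.aeval t e = 0

theorem IsSys.and {Q Q' : ∀ (A : Type u) [CommRing A] [Algebra A₀ A], (ι → A) → Prop}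
    (h : IsSys Q) (h' : IsSys Q') :
    IsSys fun (A : Type u) [CommRing A] [Algebra A₀ A] (t : ι → A) => Q A t ∧ Q' A t := by
  obtain ⟨E, hE⟩ := h
  obtain ⟨E', hE'⟩ := h'
  refine ⟨E ∪ E', fun A _ _ t => ?_⟩
  beta_reduce
  rw [hE, hE']
  constructor
  · rintro ⟨h1, h2⟩ e (he | he)
    · exact h1 e he
    · exact h2 e he
  · intro h
    exact ⟨fun e he => h e (Or.inl he), fun e he => h e (Or.inr he)⟩

theorem IsSys.all {J : Type*}
    {Q : J → ∀ (A : Type u) [CommRing A] [Algebra A₀ A], (ι → A) → Prop}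
    (h : ∀ j, IsSys (Q j)) :
    IsSys fun (A : Type u) [CommRing A] [Algebra A₀ A] (t : ι → A) => ∀ j, Q j A t := by
  choose E hE using h
  refine ⟨⋃ j, E j, fun A _ _ t => ?_⟩
  constructor
  · intro h1 e he
    obtain ⟨j, hj⟩ := Set.mem_iUnion.mp he
    exact (hE j A t).mp (h1 j) e hj
  · intro h1 j
    exact (hE j A t).mpr fun e he => h1 e (Set.mem_iUnion.mpr ⟨j, he⟩)

/-- natural functions are polynomial. -/
theorem isSys_scalar (G : ∀ (A : Type u) [CommRing A] [Algebra A₀ A], (ι → A) → A)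
    (nat : ∀ (A A' : Type u) [CommRing A] [Algebra A₀ A] [CommRing A'] [Algebra A₀ A']
      (φ : A →ₐ[A₀] A') (t : ι → A), φ (G A t) = G A' fun i => φ (t i)) :
    IsSys fun (A : Type u) [CommRing A] [Algebra A₀ A] (t : ι → A) => G A t = 0 := by
  refine ⟨{G (MvPolynomial ι A₀) MvPolynomial.X}, fun A _ _ t => ?_⟩
  have h := nat (MvPolynomial ι A₀) A (MvPolynomial.aeval t) MvPolynomial.X
  simp only [MvPolynomial.aeval_X] at h
  simp [h]

end

end Vale.Agent.P019P
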