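import Vale.Agent.P019Q.H4Sys

/-!
# Generic non-solvability
-/

universe u

namespace Vale.Agent.P019P

attribute [local instance] MvPolynomial.algebraMvPolynomial

theorem h4SysG_lift {K L k : Type*} [Field K] [Field L] [Field k] [IsAlgClosed k] [Algebra K L]
    [Algebra K k] [Module.Finite K L] : Nonempty (L →ₐ[K] k) := ⟨IsAlgClosed.lift⟩

section

variable {A₀ : Type u} [CommRing A₀] {ι : Type} [Finite ι] [IsDomain A₀] {k : Type u} [Field k]
  [IsAlgClosed k] [Algebra A₀ k]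
  {Q : ∀ (A : Type u) [CommRing A] [Algebra A₀ A], (ι → A) → Prop}

/-- no solution over an algebraically closed field: no generic solution. -/
theorem IsSys.gen (hQ : IsSys Q) (hinj : Function.Injective (algebraMap A₀ k))
    (h : ¬ ∃ t, Q k t) : ∃ δ : A₀, δ ≠ 0 ∧ ∀ (K : Type u) [Field K] [Algebra A₀ K],
      algebraMap A₀ K δ ≠ 0 → ¬ ∃ t, Q K t := by
  obtain ⟨E, hE⟩ := hQ
  let K₀ := FractionRing A₀
  haveI : FaithfulSMul A₀ k := (faithfulSMul_iff_algebraMap_injective A₀ k).2 hinj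
  letI : Algebra K₀ k := FractionRing.liftAlgebra A₀ k
  haveI : IsScalarTower A₀ K₀ k := FractionRing.isScalarTower_liftAlgebra A₀ k
  let I : Ideal (MvPolynomial ι A₀) := Ideal.span E
  let J : Ideal (MvPolynomial ι K₀) := I.map (algebraMap (MvPolynomial ι A₀) (MvPolynomial ι K₀))
  have hJ : J = ⊤ := by
    by_contra hJ
    obtain ⟨M, hM, hJM⟩ := Ideal.exists_le_maximal J hJ
    letI : Field (MvPolynomial ι K₀ ⧸ M) := Ideal.Quotient.field M
    haveI : Module.Finite K₀ (MvPolynomial ι K₀ ⧸ M) :=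
      finite_of_finite_type_of_isJacobsonRing K₀ (MvPolynomial ι K₀ ⧸ M)
    obtain ⟨φ⟩ : Nonempty ((MvPolynomial ι K₀ ⧸ M) →ₐ[K₀] k) := h4SysG_lift
    let ψ : MvPolynomial ι K₀ →ₐ[K₀] k := φ.comp (Ideal.Quotient.mkₐ K₀ M)
    apply h
    refine ⟨fun i => ψ (MvPolynomial.X i), ?_⟩
    rw [hE]
    intro e he
    have h1 : ψ (algebraMap (MvPolynomial ι A₀) (MvPolynomial ι K₀) e) = 0 := by
      have h2 : algebraMap (MvPolynomial ι A₀) (MvPolynomial ι K₀) e ∈ M :=
        hJM (Ideal.mem_map_of_mem _ (Ideal.subset_span he))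
      change φ (Ideal.Quotient.mk M _) = 0
      rw [Ideal.Quotient.eq_zero_iff_mem.2 h2, map_zero]
    rw [← h1]
    change MvPolynomial.aeval (fun i => ψ (MvPolynomial.X i)) e =
      ψ (MvPolynomial.map (algebraMap A₀ K₀) e)
    rw [← MvPolynomial.aeval_map_algebraMap K₀]
    have h3 : MvPolynomial.aeval (fun i => ψ (MvPolynomial.X i)) = ψ := by
      rw [← MvPolynomial.comp_aeval, MvPolynomial.aeval_X_left, AlgHom.comp_id]
    rw [h3]
  have h1 : (1 : MvPolynomial ι K₀) ∈ J := by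
    rw [hJ]
    trivial
  rw [IsLocalization.mem_map_algebraMap_iff
    ((nonZeroDivisors A₀).map (MvPolynomial.C (σ := ι)))] at h1
  obtain ⟨⟨⟨p, hp⟩, ⟨_, δ, hδ, rfl⟩⟩, hpδ⟩ := h1
  refine ⟨δ, nonZeroDivisors.ne_zero hδ, ?_⟩
  intro K _ _ hδK ⟨t, ht⟩
  apply hδK
  rw [hE] at ht
  have h2 : I ≤ RingHom.ker (MvPolynomial.aeval t : MvPolynomial ι A₀ →ₐ[A₀] K) := by
    rw [Ideal.span_le]
    intro e he
    exact ht e he
  have h3 : p = MvPolynomial.C δ := by
    rw [one_mul] at hpδ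
    exact (MvPolynomial.map_injective _ (IsFractionRing.injective A₀ K₀) hpδ).symm
  have h4 := h2 hp
  rw [h3, RingHom.mem_ker, MvPolynomial.aeval_C] at h4
  exact h4

end

end Vale.Agent.P019P
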