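import Vale.Agent.P019Q.H4Sys
import Vale.Agent.P019Q.H4RingA

/-!
# Systems of equations in the base changes of a ring
-/

universe u

namespace Vale.Agent.P019P

open Polynomial IntermediateField TensorProduct

section

variable {A₀ : Type u} [CommRing A₀] {R₀ : Type u} [CommRing R₀] [Algebra A₀ R₀]

/-- the map of the base changes. -/
noncomputable def bc (R₀ : Type u) [CommRing R₀] [Algebra A₀ R₀] {A A' : Type u} [CommRing A]
    [Algebra A₀ A] [CommRing A'] [Algebra A₀ A'] (φ : A →ₐ[A₀] A') :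
    A ⊗[A₀] R₀ →+* A' ⊗[A₀] R₀ :=
  (Algebra.TensorProduct.map φ (AlgHom.id A₀ R₀) : A ⊗[A₀] R₀ →ₐ[A₀] A' ⊗[A₀] R₀)

variable {A A' : Type u} [CommRing A] [Algebra A₀ A] [CommRing A'] [Algebra A₀ A']
  (φ : A →ₐ[A₀] A') {S : Set ℕ} (b : Module.Basis S A₀ R₀)

theorem bc_tmul (a : A) (r : R₀) : bc R₀ φ (a ⊗ₜ r) = φ a ⊗ₜ r := by
  change Algebra.TensorProduct.map φ (AlgHom.id A₀ R₀) (a ⊗ₜ r) = _
  rw [Algebra.TensorProduct.map_tmul, AlgHom.id_apply]

theorem bc_smul (a : A) (z : A ⊗[A₀] R₀) : bc R₀ φ (a • z) = φ a • bc R₀ φ z := by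
  induction z using TensorProduct.induction_on with
  | zero => rw [smul_zero, map_zero, smul_zero]
  | tmul x r =>
    rw [TensorProduct.smul_tmul', bc_tmul, bc_tmul, TensorProduct.smul_tmul', smul_eq_mul,
      map_mul, smul_eq_mul]
  | add x y hx hy => rw [smul_add, map_add, hx, hy, map_add, smul_add]

theorem bc_basis (d : S) : bc R₀ φ (b.baseChange A d) = b.baseChange A' d := by
  rw [Module.Basis.baseChange_apply, Module.Basis.baseChange_apply, bc_tmul, map_one]

theorem bc_el {D : ℕ} (t : SD S D → A) :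
    bc R₀ φ (el (b.baseChange A) t) = el (b.baseChange A') fun d => φ (t d) := by
  unfold el
  rw [map_sum]
  refine Finset.sum_congr rfl fun d _ => ?_
  rw [bc_smul, bc_basis]

theorem bc_repr (z : A ⊗[A₀] R₀) (d : S) :
    (b.baseChange A').repr (bc R₀ φ z) d = φ ((b.baseChange A).repr z d) := by
  induction z using TensorProduct.induction_on with
  | zero => rw [map_zero, map_zero, map_zero, Finsupp.zero_apply, Finsupp.zero_apply, map_zero]
  | tmul x r =>
    rw [bc_tmul, Module.Basis.baseChange_repr_tmul, Module.Basis.baseChange_repr_tmul, map_smul]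
  | add x y hx hy =>
    rw [map_add, map_add, map_add, Finsupp.add_apply, Finsupp.add_apply, hx, hy, map_add]

end

section

variable {A₀ : Type u} [CommRing A₀] {R₀ : Type u} [CommRing R₀] [Algebra A₀ R₀] {S : Set ℕ}
  {ι : Type}

/-- equations between natural scalars are systems. -/
theorem isSys_eq (G H : ∀ (A : Type u) [CommRing A] [Algebra A₀ A], (ι → A) → A)
    (nat : ∀ (A A' : Type u) [CommRing A] [Algebra A₀ A] [CommRing A'] [Algebra A₀ A']
      (φ : A →ₐ[A₀] A') (t : ι → A), φ (G A t) = G A' fun i => φ (t i))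
    (nat' : ∀ (A A' : Type u) [CommRing A] [Algebra A₀ A] [CommRing A'] [Algebra A₀ A']
      (φ : A →ₐ[A₀] A') (t : ι → A), φ (H A t) = H A' fun i => φ (t i)) :
    IsSys fun (A : Type u) [CommRing A] [Algebra A₀ A] (t : ι → A) => G A t = H A t := by
  obtain ⟨E, hE⟩ := isSys_scalar (A₀ := A₀) (ι := ι) (fun A _ _ t => G A t - H A t)
    (fun A A' _ _ _ _ φ t => by rw [map_sub, nat A A' φ t, nat' A A' φ t])
  exact ⟨E, fun A _ _ t => sub_eq_zero.symm.trans (hE A t)⟩

/-- equations between natural elements of the base changes are systems. -/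
theorem isSys_ring (b : Module.Basis S A₀ R₀)
    (X Y : ∀ (A : Type u) [CommRing A] [Algebra A₀ A], (ι → A) → A ⊗[A₀] R₀)
    (nat : ∀ (A A' : Type u) [CommRing A] [Algebra A₀ A] [CommRing A'] [Algebra A₀ A']
      (φ : A →ₐ[A₀] A') (t : ι → A), bc R₀ φ (X A t) = X A' fun i => φ (t i))
    (nat' : ∀ (A A' : Type u) [CommRing A] [Algebra A₀ A] [CommRing A'] [Algebra A₀ A']
      (φ : A →ₐ[A₀] A') (t : ι → A), bc R₀ φ (Y A t) = Y A' fun i => φ (t i)) :
    IsSys fun (A : Type u) [CommRing A] [Algebra A₀ A] (t : ι → A) => X A t = Y A t := by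
  obtain ⟨E, hE⟩ := IsSys.all (A₀ := A₀) (ι := ι) (J := S)
    (Q := fun d A _ _ t =>
      (b.baseChange A).repr (X A t) d = (b.baseChange A).repr (Y A t) d)
    (fun d => isSys_eq
      (fun A _ _ t => (b.baseChange A).repr (X A t) d)
      (fun A _ _ t => (b.baseChange A).repr (Y A t) d)
      (fun A A' _ _ _ _ φ t => by rw [← nat A A' φ t, bc_repr])
      (fun A A' _ _ _ _ φ t => by rw [← nat' A A' φ t, bc_repr]))
  refine ⟨E, fun A _ _ t => Iff.trans ?_ (hE A t)⟩
  constructor
  · intro h d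
    rw [h]
  · intro h
    exact (b.baseChange A).repr.injective (Finsupp.ext h)

end

end Vale.Agent.P019P
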