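import Vale.Agent.P019Q.Res

/-!
# Purely transcendental extensions
-/

namespace Vale.Agent.P019P

open Vale.Agent.P019

set_option linter.style.haveILetI false
set_option linter.unusedSectionVars false

open Polynomial Filter

/-- `F` is the perfect closure of a purely transcendental extension of `k`. -/
inductive RatF {K : Type*} [Field K] (k : Subfield K) : Subfield K → Prop
  | base : RatF k k
  | step {F : Subfield K} {y : K} : RatF k F → ¬ IsAlgebraic F y → RatF k (adj F y)

theorem RatF.le {K : Type*} [Field K] {k F : Subfield K} (h : RatF k F) : k ≤ F := by
  induction h with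
  | base => exact le_rfl
  | step _ _ ih => exact ih.trans (le_adj _ _)

theorem RatF.fg {K : Type*} [Field K] [PerfectField K] {k F : Subfield K} [PerfectField k]
    (h : RatF k F) : FG k F := by
  induction h with
  | base => exact ⟨∅, by rw [Finset.coe_empty, Subfield.closure_empty, sup_bot_eq, pf_eq]⟩
  | step _ _ ih => exact ih.adj_right _

theorem RatF.perfect {K : Type*} [Field K] [PerfectField K] {k F : Subfield K} [PerfectField k]
    (h : RatF k F) : PerfectField F := h.fg.perfect

end Vale.Agent.P019P
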