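import Vale.Agent.P019Q.K1

/-!
# Classes orthogonal to infinitely many points
-/

namespace Vale.Agent.P019P

open Vale.Agent.P019

set_option linter.style.haveILetI false
set_option linter.unusedSectionVars false

open Polynomial Filter

variable {K : Type*} [Field K] [PerfectField K] {ℓ : ℕ} [Fact ℓ.Prime] [NeZero (ℓ : K)]

/-- the induction for `exists_ratF`. -/
theorem k2_aux {k : Subfield K} {e y : K} (he : ¬ IsAlgebraic k e)
    (hy : ¬ IsAlgebraic (adj k e) y) (T : Finset K) : ∃ (G : Subfield K) (s : K), RatF k G ∧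
      ¬ IsAlgebraic G s ∧ ¬ IsAlgebraic (adj G s) e ∧
      ∀ t ∈ T, IsAlgebraic (adj (adj G s) e) t := by
  classical
  induction T using Finset.induction_on with
  | empty =>
    refine ⟨k, y, RatF.base, fun h => hy (isAlgebraic_mono (le_adj k e) h),
      fun h => hy (exchange he h), ?_⟩
    intro t ht
    exact absurd ht (Finset.notMem_empty t)
  | insert t T _ ih =>
    obtain ⟨G, s, hG, hs, he', hT⟩ := ih
    by_cases ht : IsAlgebraic (adj (adj G s) e) t
    · refine ⟨G, s, hG, hs, he', ?_⟩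
      intro t' ht'
      rcases Finset.mem_insert.1 ht' with h | h
      · rw [h]
        exact ht
      · exact hT t' h
    · refine ⟨adj G s, t, RatF.step hG hs, fun h => ht (isAlgebraic_mono (le_adj _ e) h),
        fun h => ht (exchange he' h), ?_⟩
      intro t' ht'
      rcases Finset.mem_insert.1 ht' with h | h
      · rw [h]
        exact isAlgebraic_of_mem (le_adj _ e (mem_adj _ t))
      · exact isAlgebraic_mono (adj_mono (le_adj _ t) e) (hT t' h)

/-- existence of a frame with rational `G`. -/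
theorem exists_ratF {k : Subfield K} (hk : IsAlgClosed k) (hfg : FG k (⊤ : Subfield K)) {e y : K}
    (he : e ∉ k) (hy : ¬ IsAlgebraic (adj k e) y) : ∃ (G : Subfield K) (s : K), RatF k G ∧
      Frame k G e s := by
  haveI : PerfectField k := by
    haveI := hk
    infer_instance
  obtain ⟨S, hS⟩ := hfg
  have he' : ¬ IsAlgebraic k e := fun h => he (RAC_of_isAlgClosed _ hk e h)
  obtain ⟨G, s, hG, hs, hes, hT⟩ := k2_aux he' hy S
  refine ⟨G, s, hG, hG.le, hG.fg, hes, hs, fun z => ?_⟩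
  have h1 : (⊤ : Subfield K) ≤ rac (adj (adj G s) e) := by
    rw [hS]
    refine pf_le (sup_le ?_ (Subfield.closure_le.2 fun w hw => mem_rac.2 (hT w hw)))
    exact hG.le.trans ((le_adj G s).trans ((le_adj _ e).trans (le_rac _)))
  exact mem_rac.1 (h1 (Subfield.mem_top z))

theorem k2_neg_one {K : Type*} [Field K] {k : Subfield K} (hk : IsAlgClosed k) {ℓ : ℕ}
    (hℓ : 0 < ℓ) : ∃ i : K, i ^ ℓ = -1 := by
  obtain ⟨d, hd⟩ := IsAlgClosed.exists_pow_nat_eq (-1 : k) hℓ
  exact ⟨d, congrArg Subtype.val hd⟩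

/-- K2: a class orthogonal to infinitely many `e - β`. -/
theorem k2 {k : Subfield K} (hk : IsAlgClosed k) (hfg : FG k (⊤ : Subfield K)) {e y : K}
    (he : e ∉ k) (hy : ¬ IsAlgebraic (adj k e) y)
    {v : V ℓ K} (hinf : {β : K | β ∈ k ∧ Orth v (cl ℓ (e - β))}.Infinite) :
    v ∈ VS ℓ (rac (adj k e)) := by
  have hℓ : 0 < ℓ := (Fact.out : ℓ.Prime).pos
  obtain ⟨G, s, hG, hfr⟩ := exists_ratF hk hfg he hy
  have hkF : k ≤ adj G s := hfr.le.trans (le_adj G s)
  obtain ⟨z, hz0, hz⟩ := cl_surj ℓ v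
  obtain ⟨θ, hnice⟩ := hfr.nice hfg
  have hboth := hnice.and (hfr.unit hz0)
  rw [ae_iff] at hboth
  refine k1 hk hfg (RatF.step hG hfr.ss) hfr.tt hfr.alg ?_
  refine (hinf.sdiff hboth).mono ?_
  rintro β ⟨⟨hβ, hor⟩, hbad⟩
  refine ⟨hβ, ?_⟩
  have hgood : (∀ W : ValuationSubring K, Over W (adj G s) e β → Nice W (adj G s) (e - β) θ) ∧
      ∀ W : ValuationSubring K, Over W (adj G s) e β → W.valuation z = 1 := by
    by_contra hcon
    exact hbad ⟨hkF hβ, hcon⟩
  obtain ⟨W, hW⟩ := exists_over hfr.tt (hkF hβ)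
  refine ⟨W, hW, ?_⟩
  have hU := (hgood.1 W hW).unif
  have h1 := tame_orth (k2_neg_one hk hℓ) W (hU.fn ℓ) (fun z hz => hU.fn_unit ℓ z hz) hor
  rw [hU.fn_self ℓ, ← hz, hU.fn_unit ℓ z (hgood.2 W hW), one_smul, zero_smul, sub_zero, hz] at h1
  exact h1

end Vale.Agent.P019P
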