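import Vale.Agent.P019Q.Defs

/-!
# Residue fields of transferred valuations: the kernel of the functional
-/

namespace Vale.Agent.P019P

open Vale.Agent.P019

set_option linter.style.haveILetI false
set_option linter.unusedSectionVars false

open Polynomial Filter

section resmap

variable {K : Type*} [Field K] {ℓ : ℕ} [Fact ℓ.Prime]

theorem resA_ne_zero {W : ValuationSubring K} {z : K} (hz : W.valuation z = 1) : z ≠ 0 := by
  rintro rfl
  rw [map_zero] at hz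
  exact zero_ne_one hz

theorem cl_mem_UC {W : ValuationSubring K} {u : K} (hu : W.valuation u = 1) :
    cl ℓ u ∈ UC ℓ W := ⟨u, hu, rfl⟩

/-- `U1` consists of unit classes. -/
theorem U1_le_UC (W : ValuationSubring K) : U1 ℓ W ≤ UC ℓ W := by
  rintro _ ⟨m, hm, rfl⟩
  exact ⟨1 + m, val_one_add hm, rfl⟩

/-- the class of the residue depends only on the class of the unit. -/
theorem resA_wd {W : ValuationSubring K} {z z' : K} (hz : W.valuation z = 1)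
    (hz' : W.valuation z' = 1) (h : cl ℓ z = cl ℓ z') :
    cl ℓ (rs W z) = cl ℓ (rs W z') := by
  have hℓ : ℓ ≠ 0 := (Fact.out : ℓ.Prime).ne_zero
  obtain ⟨w, hw0, hw⟩ := (cl_eq_iff ℓ (resA_ne_zero hz) (resA_ne_zero hz')).1 h
  have h1 : W.valuation w = 1 := by
    have h2 := congrArg W.valuation hw
    rw [hz, map_mul, hz', one_mul, map_pow] at h2
    exact (pow_eq_one_iff_of_nonneg zero_le hℓ).1 h2.symm
  have h3 : rs W z = rs W z' * rs W w ^ ℓ := by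
    rw [hw, rs_mul (mem_of_val hz') (pow_mem (mem_of_val h1) ℓ), rs_pow (mem_of_val h1)]
  have h4 : rs W z' ≠ 0 := (rs_ne_zero (mem_of_val hz')).2 hz'
  have h5 : rs W w ≠ 0 := (rs_ne_zero (mem_of_val h1)).2 h1
  rw [h3, cl_mul ℓ h4 (pow_ne_zero _ h5), cl_pow_self, add_zero]

/-- the residue map on classes of units. -/
theorem exists_resmap (W : ValuationSubring K) :
    ∃ r : UC ℓ W →ₗ[ZMod ℓ] V ℓ (IsLocalRing.ResidueField W),
      (∀ (u : K) (hu : W.valuation u = 1), r ⟨cl ℓ u, cl_mem_UC hu⟩ = cl ℓ (rs W u)) ∧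
      Function.Surjective r ∧ ∀ v : UC ℓ W, r v = 0 ↔ (v : V ℓ K) ∈ U1 ℓ W := by
  classical
  have hex : ∀ v : UC ℓ W, ∃ z : K, W.valuation z = 1 ∧ (v : V ℓ K) = cl ℓ z := fun v => v.2
  choose z hz hzv using hex
  let r0 : UC ℓ W →+ V ℓ (IsLocalRing.ResidueField W) :=
    { toFun := fun v => cl ℓ (rs W (z v))
      map_zero' := by
        have h1 : cl ℓ (z 0) = cl ℓ (1 : K) := by
          rw [← hzv 0, cl_one]; rfl
        rw [resA_wd (hz 0) (map_one _) h1, rs_one, cl_one]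
      map_add' := by
        intro v w
        have hzw : W.valuation (z v * z w) = 1 := by rw [map_mul, hz v, hz w, one_mul]
        have h1 : cl ℓ (z (v + w)) = cl ℓ (z v * z w) := by
          rw [cl_mul ℓ (resA_ne_zero (hz v)) (resA_ne_zero (hz w)), ← hzv, ← hzv, ← hzv]
          rfl
        rw [resA_wd (hz (v + w)) hzw h1, rs_mul (mem_of_val (hz v)) (mem_of_val (hz w)),
          cl_mul ℓ ((rs_ne_zero (mem_of_val (hz v))).2 (hz v))
            ((rs_ne_zero (mem_of_val (hz w))).2 (hz w))] }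
  let r : UC ℓ W →ₗ[ZMod ℓ] V ℓ (IsLocalRing.ResidueField W) :=
    AddMonoidHom.toZModLinearMap ℓ r0
  have hr : ∀ v, r v = cl ℓ (rs W (z v)) := fun v => rfl
  have hr1 : ∀ (u : K) (hu : W.valuation u = 1), r ⟨cl ℓ u, cl_mem_UC hu⟩ = cl ℓ (rs W u) := by
    intro u hu
    rw [hr]
    exact resA_wd (hz _) hu (hzv _).symm
  refine ⟨r, hr1, ?_, ?_⟩
  · intro c
    obtain ⟨d, hd0, rfl⟩ := cl_surj ℓ c
    obtain ⟨u, hu, rfl⟩ := rs_surj d
    have hu1 : W.valuation u = 1 := (rs_ne_zero hu).1 hd0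
    exact ⟨⟨cl ℓ u, cl_mem_UC hu1⟩, hr1 u hu1⟩
  · intro v
    rw [hr, ← cl_mem_U1_iff (hz v), hzv v]

end resmap

section one

variable {F : Type*} [Field F] [PerfectField F] {ℓ : ℕ} [Fact ℓ.Prime] [NeZero (ℓ : F)]

theorem noCtr {k : Subfield F} (hk : IsAlgClosed k) (hfg : FG k (⊤ : Subfield F)) {x : F}
    (hx : x ∉ k) : NoCtr ℓ F := by
  intro h hh
  refine LinearMap.ext fun v => ?_
  obtain ⟨z, hz0, rfl⟩ := cl_surj ℓ v
  rw [LinearMap.zero_apply]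
  by_contra hne
  have hzk : z ∉ k := by
    intro hzk
    apply hne
    rw [line_cl_const hk hzk, map_zero]
  haveI : NeZero ℓ := ⟨(Fact.out : ℓ.Prime).ne_zero⟩
  have key : ∀ c ∈ k, c ≠ 0 → ∃ a : ZMod ℓ, cl ℓ (z - c) = a • cl ℓ z := by
    intro c hc hc0
    have e1 : cl ℓ (z / c) = cl ℓ z := by
      rw [cl_div ℓ hz0 hc0, line_cl_const hk hc, sub_zero]
    have h1 : z / c ≠ 1 := by
      intro h1
      rw [div_eq_one_iff_eq hc0] at h1
      exact hzk (h1 ▸ hc)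
    obtain ⟨a, ha⟩ := hh (z / c) (div_ne_zero hz0 hc0) h1 (by rw [e1]; exact hne)
    refine ⟨a, ?_⟩
    have hzc : z - c ≠ 0 := by
      intro h0
      exact hzk (sub_eq_zero.1 h0 ▸ hc)
    have e2 : 1 - z / c = (-(z - c)) / c := by
      field_simp
      ring
    rw [e2, cl_div ℓ (neg_ne_zero.2 hzc) hc0, line_cl_const hk hc, sub_zero,
      finB_cl_neg hk, e1] at ha
    exact ha
  have h1 : {c : F | c ∈ k} ⊆ {0} ∪ ⋃ a : ZMod ℓ, {c : F | c ∈ k ∧ cl ℓ (z - c) = a • cl ℓ z} := by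
    intro c hc
    by_cases hc0 : c = 0
    · exact Or.inl hc0
    · obtain ⟨a, ha⟩ := key c hc hc0
      exact Or.inr (Set.mem_iUnion.2 ⟨a, hc, ha⟩)
  have h2 : {c : F | c ∈ k}.Finite :=
    ((Set.finite_singleton 0).union (Set.finite_iUnion fun a =>
      dist_top (ℓ := ℓ) hk hfg hzk (a • cl ℓ z))).subset h1
  exact infinite_of_isAlgClosed hk h2

/-- `exists_nr` without goodness. -/
theorem exists_nr' {k : Subfield F} (hk : IsAlgClosed k) (hfg : FG k (⊤ : Subfield F)) {y : F}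
    (hy : y ∉ k) {U : Submodule (ZMod ℓ) (V ℓ F)}
    (hfin : ((U ⊓ VS ℓ (adj k y) : Submodule (ZMod ℓ) (V ℓ F)) : Set (V ℓ F)).Finite) :
    ∃ g₀ ∈ adj k y, ∀ i j : ZMod ℓ, i • cl ℓ g₀ + j • cl ℓ (1 - g₀) ∈ U → i = 0 ∧ j = 0 := by
  haveI : NeZero ℓ := ⟨(Fact.out : ℓ.Prime).ne_zero⟩
  set S : Set (V ℓ F) := ((U ⊓ VS ℓ (adj k y) : Submodule (ZMod ℓ) (V ℓ F)) : Set (V ℓ F))
    with hS
  have hyc : ∀ c ∈ k, y - c ≠ 0 := by
    intro c hc h0
    apply hy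
    rw [sub_eq_zero.1 h0]
    exact hc
  have hcl : ∀ c ∈ k, cl ℓ (y - c) ∈ VS ℓ (adj k y) := fun c hc =>
    cl_mem_VS ((adj k y).sub_mem (mem_adj k y) (le_adj k y hc))
  have hinf : {c : F | c ∈ k}.Infinite := infinite_of_isAlgClosed hk
  -- the point `b`
  obtain ⟨b, hb, hb1⟩ : ∃ b ∈ k, ∀ j : ZMod ℓ, j ≠ 0 → j • cl ℓ (y - b) ∉ S := by
    have hf : (⋃ j : ZMod ℓ, ⋃ s ∈ S, {c : F | c ∈ k ∧ cl ℓ (y - c) = j⁻¹ • s}).Finite :=
      Set.finite_iUnion fun j => hfin.biUnion fun s _ => dist_top (ℓ := ℓ) hk hfg hy _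
    obtain ⟨b, hb, hbn⟩ := (hinf.sdiff hf).nonempty
    refine ⟨b, hb, fun j hj hjS => hbn ?_⟩
    refine Set.mem_iUnion.2 ⟨j, Set.mem_biUnion hjS ⟨hb, ?_⟩⟩
    rw [smul_smul, inv_mul_cancel₀ hj, one_smul]
  obtain ⟨a, ha, hab, ha1⟩ : ∃ a ∈ k, a ≠ b ∧ ∀ i j : ZMod ℓ, i ≠ 0 →
      i • cl ℓ (y - a) + j • cl ℓ (y - b) ∉ S := by
    have hf : ({b} ∪ ⋃ i : ZMod ℓ, ⋃ j : ZMod ℓ, ⋃ s ∈ S,
        {c : F | c ∈ k ∧ cl ℓ (y - c) = i⁻¹ • (s - j • cl ℓ (y - b))}).Finite :=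
      (Set.finite_singleton b).union (Set.finite_iUnion fun i => Set.finite_iUnion fun j =>
        hfin.biUnion fun s _ => dist_top (ℓ := ℓ) hk hfg hy _)
    obtain ⟨a, ha, han⟩ := (hinf.sdiff hf).nonempty
    refine ⟨a, ha, fun h => han (Or.inl h), fun i j hi hijS => han (Or.inr ?_)⟩
    refine Set.mem_iUnion.2 ⟨i, Set.mem_iUnion.2 ⟨j, Set.mem_biUnion hijS ⟨ha, ?_⟩⟩⟩
    rw [add_sub_cancel_right, smul_smul, inv_mul_cancel₀ hi, one_smul]
  have hd : b - a ≠ 0 := sub_ne_zero.2 hab.symm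
  have hdk : b - a ∈ k := k.sub_mem hb ha
  have hg : (y - a) / (b - a) ∈ adj k y :=
    (adj k y).div_mem ((adj k y).sub_mem (mem_adj k y) (le_adj k y ha)) (le_adj k y hdk)
  have e1 : cl ℓ ((y - a) / (b - a)) = cl ℓ (y - a) := by
    rw [cl_div ℓ (hyc _ ha) hd, line_cl_const hk hdk, sub_zero]
  have e2 : cl ℓ (1 - (y - a) / (b - a)) = cl ℓ (y - b) := by
    have h3 : 1 - (y - a) / (b - a) = (-(y - b)) / (b - a) := by
      field_simp
      ring
    rw [h3, cl_div ℓ (neg_ne_zero.2 (hyc _ hb)) hd, line_cl_const hk hdk,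
      sub_zero, finB_cl_neg hk]
  refine ⟨_, hg, fun i j hij => ?_⟩
  rw [e1, e2] at hij
  have hijS : i • cl ℓ (y - a) + j • cl ℓ (y - b) ∈ S :=
    ⟨hij, Submodule.add_mem _ (Submodule.smul_mem _ _ (hcl a ha))
      (Submodule.smul_mem _ _ (hcl b hb))⟩
  by_cases hi : i = 0
  · refine ⟨hi, ?_⟩
    by_contra hj
    rw [hi, zero_smul, zero_add] at hijS
    exact hb1 j hj hijS
  · exact absurd hijS (ha1 i j hi)

/-- a class is a unit class iff the functional vanishes. -/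
theorem IsUnif.mem_UC_iff {O : ValuationSubring F} {π : F} (h : IsUnif O π) (v : V ℓ F) :
    v ∈ UC ℓ O ↔ h.fn ℓ v = 0 := by
  constructor
  · rintro ⟨z, hz, rfl⟩
    exact h.fn_unit ℓ z hz
  · intro hv
    exact h.exists_unit_of_fn ℓ v hv

end one

variable {K L : Type*} [Field K] [Field L] [PerfectField K] [PerfectField L] {ℓ : ℕ}
  [Fact ℓ.Prime] [NeZero (ℓ : K)] [NeZero (ℓ : L)] {Θ : V ℓ K ≃ₗ[ZMod ℓ] V ℓ L}

/-- existence of transferred valuations. -/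
theorem exists_tr0 {k : Subfield K} (hk : IsAlgClosed k) (hfgk : FG k (⊤ : Subfield K))
    {l : Subfield L} (hl : IsAlgClosed l) (hΘ : Compatible Θ) {F : Subfield K} (hkF : k ≤ F)
    (hfg : FG k F) {W : ValuationSubring K} {π θ : K} (hW : Nice W F π θ) {y : K} (hy : y ∉ k)
    (hyW : TrivOn W (adj k y)) : ∃ O : ValuationSubring L, Tr Θ W π O := by
  have hfin := hW.finite (ℓ := ℓ) hk hkF hfg (le_adj k y) hyW
  obtain ⟨g₀, -, hg₀⟩ := exists_nr' hk hfgk hy hfin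
  obtain ⟨O, hO1, hO2⟩ := transfer hΘ (exists_neg hk) (exists_neg hl) hW.unif g₀ hg₀
  exact ⟨O, fun _ => hO1, hO2⟩

/-- the kernel of the transferred functional consists of the unit classes. -/
theorem Tr.uc (hΘ : Compatible Θ) (hnegK : ∃ i : K, i ^ ℓ = -1) (hnegL : ∃ i : L, i ^ ℓ = -1)
    {W : ValuationSubring K} {π : K} {O : ValuationSubring L} (hW : IsUnif W π)
    (hT : Tr Θ W π O) (hNC : NoCtr ℓ (IsLocalRing.ResidueField W)) (v : V ℓ L) :
    v ∈ UC ℓ O ↔ hW.fn ℓ (Θ.symm v) = 0 := by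
  constructor
  · rintro ⟨z, hz, rfl⟩
    exact hT.unit hW z hz
  intro hv
  by_contra hvn
  obtain ⟨f', hf'v, hf'U⟩ := Submodule.exists_le_ker_of_notMem hvn
  have hf'1 : ∀ z : L, O.valuation z = 1 → f' (cl ℓ z) = 0 := fun z hz => hf'U (cl_mem_UC hz)
  set f : V ℓ K →ₗ[ZMod ℓ] ZMod ℓ := f' ∘ₗ Θ.toLinearMap with hf
  have hfU1 : ∀ w ∈ U1 ℓ W, f w = 0 := fun w hw =>
    hf'U (U1_le_UC O ((hT.iff w).2 hw))
  have hpair : ∀ g : V ℓ K →ₗ[ZMod ℓ] ZMod ℓ, (∀ w ∈ U1 ℓ W, g w = 0) → CPair f g := by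
    intro g hg
    have h1 : CPair f' (g ∘ₗ Θ.symm.toLinearMap) := by
      refine cpair_of_U1 hnegL O f' _ hf'1 fun w hw => hg _ ?_
      rw [← hT.iff]
      change Θ (Θ.symm w) ∈ _
      rwa [LinearEquiv.apply_symm_apply]
    have h2 := hΘ.cpair h1
    have h3 : (g ∘ₗ Θ.symm.toLinearMap) ∘ₗ Θ.toLinearMap = g := by
      ext w
      simp
    rwa [h3] at h2
  obtain ⟨r, hr1, hrs, hrk⟩ := exists_resmap (ℓ := ℓ) W
  obtain ⟨s, hs⟩ := LinearMap.exists_rightInverse_of_surjective r (LinearMap.range_eq_top.2 hrs)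
  set h : V ℓ (IsLocalRing.ResidueField W) →ₗ[ZMod ℓ] ZMod ℓ :=
    f ∘ₗ (UC ℓ W).subtype ∘ₗ s with hh
  have hhr : ∀ w : UC ℓ W, h (r w) = f w := by
    intro w
    have h1 : r (s (r w) - w) = 0 := by
      rw [map_sub, sub_eq_zero]
      exact LinearMap.congr_fun hs (r w)
    have h2 := hfU1 _ ((hrk _).1 h1)
    have h3 : f ((s (r w) - w : UC ℓ W) : V ℓ K) = f (s (r w) : V ℓ K) - f (w : V ℓ K) := by
      rw [← map_sub]; rfl
    rw [h3, sub_eq_zero] at h2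
    exact h2
  have hh0 : h = 0 := by
    apply hNC
    intro x hx0 hx1 hhx
    obtain ⟨u, hu, rfl⟩ := rs_surj x
    have hu1 : W.valuation u = 1 := (rs_ne_zero hu).1 hx0
    have hu2 : 1 - u ∈ W := sub_mem (one_mem W) hu
    have e1 : rs W (1 - u) = 1 - rs W u := by rw [rs_sub (one_mem W) hu, rs_one]
    have hu3 : W.valuation (1 - u) = 1 := by
      rw [← rs_ne_zero hu2, e1]
      exact sub_ne_zero.2 (Ne.symm hx1)
    have hfu : f (cl ℓ u) = h (cl ℓ (rs W u)) := by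
      rw [← hr1 u hu1, hhr]
    set a : ZMod ℓ := f (cl ℓ (1 - u)) / f (cl ℓ u) with ha
    have hfu0 : f (cl ℓ u) ≠ 0 := by rw [hfu]; exact hhx
    have hw : cl ℓ (1 - u) - a • cl ℓ u ∈ U1 ℓ W := by
      by_contra hwn
      obtain ⟨g, hg1, hg2⟩ := Submodule.exists_le_ker_of_notMem hwn
      apply hg1
      have h4 := hpair g (fun w hw => hg2 hw) u
      rw [map_sub, map_smul, smul_eq_mul, ha]
      field_simp
      linear_combination h4
    refine ⟨a, ?_⟩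
    have h5 := (hrk (⟨cl ℓ (1 - u), cl_mem_UC hu3⟩ - a • ⟨cl ℓ u, cl_mem_UC hu1⟩)).2 hw
    rw [map_sub, map_smul, hr1 _ hu3, hr1 _ hu1, sub_eq_zero, e1] at h5
    exact h5
  have hfunit : ∀ z, W.valuation z = 1 → f (cl ℓ z) = 0 := by
    intro z hz
    have h6 := hhr ⟨cl ℓ z, cl_mem_UC hz⟩
    rw [hh0, LinearMap.zero_apply] at h6
    exact h6.symm
  have h7 := hW.eq_smul_fn ℓ f hfunit (Θ.symm v)
  rw [hv, mul_zero] at h7
  apply hf'v
  have h8 : f (Θ.symm v) = f' v := by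
    rw [hf, LinearMap.comp_apply]
    change f' (Θ (Θ.symm v)) = _
    rw [LinearEquiv.apply_symm_apply]
  rw [← h8, h7]

end Vale.Agent.P019P
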