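import Vale.Agent.P019Q.SA2
import Vale.Agent.P019Q.URac
import Vale.Agent.P019Q.URel

/-!
# Step A: limits of residue fields of bounded degree
-/

namespace Vale.Agent.P019P

open Vale.Agent.P019

set_option linter.style.haveILetI false
set_option linter.unusedSectionVars false

open Polynomial Filter

variable {L : Type*} [Field L] [PerfectField L] {I : Type*} {U : Ultrafilter I}
  {O : I → ValuationSubring L} {l : Subfield L}

theorem Ulu.ev_mem (hu : Ulu U O) (x : L) : ∀ᶠ i in U, x ∈ O i := by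
  by_cases hx : x = 0
  · rw [hx]; exact Eventually.of_forall fun i => (O i).zero_mem
  · exact (hu x hx).mono fun i hi => ((O i).valuation_le_one_iff x).1 hi.le

/-- constants of the limit. -/
theorem Ulu.j_mem_iff (hu : Ulu U O) (hO : ∀ i, TrivOn (O i) l)
    (hlO : ∀ x ∈ uSub U (fun _ => l), x ∈ (ulP U O).O) {h : L} :
    hu.j h ∈ (ulP U O).im (uSub U (fun _ => l)) hlO ↔
      ∃ c : I → L, (∀ i, c i ∈ l) ∧ ∀ᶠ i in U, (O i).valuation (h - c i) < 1 := by
  have key : ∀ c : I → L, (∀ i, c i ∈ l) → (hu.j h = (ulP U O).ev (gm U c) ↔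
      ∀ᶠ i in U, (O i).valuation (h - c i) < 1) := by
    intro c hc
    have h1 := ulP_ev_eq (U := U) (O := O) (f := fun _ => h) (g := c) (hu.ev_mem h)
      (Eventually.of_forall fun i => hO i _ (hc i))
    exact h1
  constructor
  · intro hh
    obtain ⟨y, ⟨f, rfl, hf⟩, hy⟩ := (ulP U O).mem_im.1 hh
    exact ⟨f, hf, (key f hf).1 hy.symm⟩
  · rintro ⟨c, hc, h1⟩
    rw [(key c hc).2 h1]
    exact (ulP U O).ev_mem_im hlO ⟨c, rfl, hc⟩

theorem Ulu.notMem_bar (hu : Ulu U O) (hO : ∀ i, TrivOn (O i) l)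
    (hlO : ∀ x ∈ uSub U (fun _ => l), x ∈ (ulP U O).O) {h : L}
    (hh : hu.j h ∉ (ulP U O).im (uSub U (fun _ => l)) hlO) :
    ∀ᶠ i in U, rs (O i) h ∉ bar (hO i) := by
  by_contra hcon
  rw [Ultrafilter.eventually_not, not_not] at hcon
  apply hh
  rw [hu.j_mem_iff hO]
  have h1 : ∀ i, ∃ c ∈ l, rs (O i) h ∈ bar (hO i) → rs (O i) c = rs (O i) h := by
    intro i
    by_cases hi : rs (O i) h ∈ bar (hO i)
    · obtain ⟨c, hc, hce⟩ := (mem_bar (hO i)).1 hi
      exact ⟨c, hc, fun _ => hce⟩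
    · exact ⟨0, l.zero_mem, fun h' => absurd h' hi⟩
  choose c hc hce using h1
  refine ⟨c, hc, ?_⟩
  filter_upwards [hcon, hu.ev_mem h] with i hi hi'
  exact (rs_eq hi' (hO i _ (hc i))).1 (hce i hi).symm

/-- limits of bounded relations. -/
theorem Ulu.alg_of_brel (hu : Ulu U O) (hl : IsAlgClosed l) (hO : ∀ i, TrivOn (O i) l)
    (hlO : ∀ x ∈ uSub U (fun _ => l), x ∈ (ulP U O).O) {y1 y2 : L}
    (hy : hu.j y1 ∉ (ulP U O).im (uSub U (fun _ => l)) hlO) {d : ℕ}
    (h : ∀ᶠ i in U, BRel (bar (hO i)) d (rs (O i) y1) (rs (O i) y2)) :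
    IsAlgebraic (adj ((ulP U O).im (uSub U (fun _ => l)) hlO) (hu.j y1)) (hu.j y2) := by
  classical
  set P := ulP U O with hP
  set Bs := P.im (uSub U (fun _ => l)) hlO with hBs
  have hBsac : IsAlgClosed Bs := P.isAlgClosed_im hlO (isAlgClosed_uSub fun _ => hl)
  have h1 : ∀ i, ∃ c : ℕ → ℕ → L, (∀ a b, c a b ∈ l) ∧
      (BRel (bar (hO i)) d (rs (O i) y1) (rs (O i) y2) →
      (∃ a ∈ Finset.range (d + 1), ∃ b ∈ Finset.range (d + 1), rs (O i) (c a b) ≠ 0) ∧
      ∑ a ∈ Finset.range (d + 1), ∑ b ∈ Finset.range (d + 1),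
        rs (O i) (c a b) * rs (O i) y1 ^ a * rs (O i) y2 ^ b = 0) := by
    intro i
    by_cases hi : BRel (bar (hO i)) d (rs (O i) y1) (rs (O i) y2)
    · obtain ⟨c, hc, hc0, hcs⟩ := hi
      choose c' hc' hcc using fun a b => (mem_bar (hO i)).1 (hc a b)
      refine ⟨c', hc', fun _ => ?_⟩
      simp only [hcc]
      exact ⟨hc0, hcs⟩
    · exact ⟨fun _ _ => 0, fun _ _ => l.zero_mem, fun h' => absurd h' hi⟩
  choose c hc hcr using h1
  have hcu : ∀ a b, gm U (fun i => c i a b) ∈ uSub U (fun _ => l) :=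
    fun a b => ⟨fun i => c i a b, rfl, fun i => hc i a b⟩
  have hy1 := hu.gc_mem y1
  have hy2 := hu.gc_mem y2
  refine brel_alg (RAC_of_isAlgClosed Bs hBsac) hy (d := d)
    (c := fun a b => P.ev (gm U (fun i => c i a b))) (fun a b => P.ev_mem_im hlO (hcu a b)) ?_ ?_
  · -- one of the coefficients is nonzero
    have h2 : ∀ᶠ i in U, ∃ a ∈ Finset.range (d + 1), ∃ b ∈ Finset.range (d + 1), c i a b ≠ 0 := by
      refine h.mono fun i hi => ?_
      obtain ⟨⟨a, ha, b, hb, hab⟩, -⟩ := hcr i hi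
      refine ⟨a, ha, b, hb, fun h0 => hab ?_⟩
      rw [h0, rs_zero]
    have h3 : ∃ a ∈ Finset.range (d + 1), ∃ b ∈ Finset.range (d + 1), ∀ᶠ i in U, c i a b ≠ 0 := by
      by_contra hcon
      push Not at hcon
      have h4 : ∀ᶠ i in U, ∀ a ∈ Finset.range (d + 1), ∀ b ∈ Finset.range (d + 1),
          c i a b = 0 := by
        rw [Filter.eventually_all_finset]
        intro a ha
        rw [Filter.eventually_all_finset]
        intro b hb
        exact hcon a ha b hb
      obtain ⟨i, hi, a, ha, b, hb, hab⟩ := (h4.and h2).exists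
      exact hab (hi a ha b hb)
    obtain ⟨a, ha, b, hb, hab⟩ := h3
    refine ⟨a, ha, b, hb, fun h0 => ?_⟩
    have h5 : gm U (fun i => c i a b) = 0 := by
      refine P.ev_inj hlO (hcu a b) (Subfield.zero_mem _) ?_
      rw [h0, Pl.ev_zero]
    rw [gm_eq_zero] at h5
    obtain ⟨i, hi1, hi2⟩ := (h5.and hab).exists
    exact hi2 hi1
  · have h2 : ∀ᶠ i in U, (O i).valuation (∑ a ∈ Finset.range (d + 1),
        ∑ b ∈ Finset.range (d + 1), c i a b * y1 ^ a * y2 ^ b) < 1 := by
      filter_upwards [h, hu.ev_mem y1, hu.ev_mem y2] with i hi h1 h2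
      have hm : ∀ a b, c i a b * y1 ^ a * y2 ^ b ∈ O i := fun a b =>
        mul_mem (mul_mem (hO i _ (hc i a b)) (pow_mem h1 a)) (pow_mem h2 b)
      rw [← rs_eq_zero (sum_mem fun a _ => sum_mem fun b _ => hm a b)]
      rw [← (hcr i hi).2]
      have hsum : ∀ (s : Finset ℕ) (f : ℕ → L), (∀ a, f a ∈ O i) →
          rs (O i) (∑ a ∈ s, f a) = ∑ a ∈ s, rs (O i) (f a) := by
        intro s f hf
        induction s using Finset.induction_on with
        | empty => rw [Finset.sum_empty, Finset.sum_empty, rs_zero]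
        | insert a s ha ih =>
          rw [Finset.sum_insert ha, Finset.sum_insert ha,
            rs_add (hf a) (sum_mem fun b _ => hf b), ih]
      rw [hsum _ _ fun a => sum_mem fun b _ => hm a b]
      refine Finset.sum_congr rfl fun a _ => ?_
      rw [hsum _ _ fun b => hm a b]
      refine Finset.sum_congr rfl fun b _ => ?_
      rw [rs_mul (mul_mem (hO i _ (hc i a b)) (pow_mem h1 a)) (pow_mem h2 b),
        rs_mul (hO i _ (hc i a b)) (pow_mem h1 a), rs_pow h1, rs_pow h2]
    rw [← uVal_lt_one (U := U)] at h2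
    have hcO : ∀ a b, gm U (fun i => c i a b) ∈ P.O := fun a b => hlO _ (hcu a b)
    have hterm : ∀ a b, gm U (fun i => c i a b) * gc U y1 ^ a * gc U y2 ^ b ∈ P.O := fun a b =>
      mul_mem (mul_mem (hcO a b) (pow_mem hy1 a)) (pow_mem hy2 b)
    have h3 : gm U (fun i => ∑ a ∈ Finset.range (d + 1), ∑ b ∈ Finset.range (d + 1),
        c i a b * y1 ^ a * y2 ^ b) = ∑ a ∈ Finset.range (d + 1),
        ∑ b ∈ Finset.range (d + 1), gm U (fun i => c i a b) * gc U y1 ^ a * gc U y2 ^ b := by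
      rw [gm_sum]
      refine Finset.sum_congr rfl fun a _ => ?_
      rw [gm_sum]
      refine Finset.sum_congr rfl fun b _ => ?_
      rw [gm_mul, gm_mul, gc_apply, gc_apply, ← gm_pow, ← gm_pow]
    rw [h3] at h2
    have h4 : P.ev (∑ a ∈ Finset.range (d + 1), ∑ b ∈ Finset.range (d + 1),
        gm U (fun i => c i a b) * gc U y1 ^ a * gc U y2 ^ b) = 0 := by
      rw [Pl.ev_eq_zero_iff _ (sum_mem fun a _ => sum_mem fun b _ => hterm a b)]
      exact h2
    rw [Pl.ev_sum _ _ _ fun a _ => sum_mem fun b _ => hterm a b] at h4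
    rw [← h4]
    refine Finset.sum_congr rfl fun a _ => ?_
    rw [Pl.ev_sum _ _ _ fun b _ => hterm a b]
    refine Finset.sum_congr rfl fun b _ => ?_
    rw [Pl.ev_mul _ (mul_mem (hcO a b) (pow_mem hy1 a)) (pow_mem hy2 b),
      Pl.ev_mul _ (hcO a b) (pow_mem hy1 a), Pl.ev_pow _ hy1, Pl.ev_pow _ hy2]
    rfl

/-- the rational function field of the limit is relatively algebraically closed in the limit of
the rational function fields. -/
theorem Ulu.rac_one (hu : Ulu U O) (hl : IsAlgClosed l)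
    (hlO : ∀ x ∈ uSub U (fun _ => l), x ∈ (ulP U O).O) {y : L}
    (hy : hu.j y ∉ (ulP U O).im (uSub U (fun _ => l)) hlO)
    (hRO : ∀ x ∈ uSub U (fun _ => adj l y), x ∈ (ulP U O).O) :
    adj ((ulP U O).im (uSub U (fun _ => l)) hlO) (hu.j y) ≤
      (ulP U O).im (uSub U (fun _ => adj l y)) hRO ∧
    ∀ z ∈ (ulP U O).im (uSub U (fun _ => adj l y)) hRO,
      IsAlgebraic (adj ((ulP U O).im (uSub U (fun _ => l)) hlO) (hu.j y)) z →
      z ∈ adj ((ulP U O).im (uSub U (fun _ => l)) hlO) (hu.j y) := by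
  haveI : PerfectField l := perfect_of_RAC (RAC_of_isAlgClosed l hl)
  set P := ulP U O with hP
  set M := uSub U (fun _ => l) with hM
  set N := uSub U (fun _ => adj l y) with hN
  have hMN : M ≤ N := uSub_mono (le_adj l y)
  have hyN : gc U y ∈ N := gc_mem_uSub (mem_adj l y)
  have hle : adj M (gc U y) ≤ N := adj_le hMN hyN
  have e1 : P.im (adj M (gc U y)) (fun x hx => hRO x (hle hx)) =
      adj (P.im M (fun x hx => hRO x (hMN hx))) (P.ev (gc U y)) :=
    Pl.im_adj P hRO hMN hyN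
  have e2 : adj (P.im M hlO) (hu.j y) = P.im (adj M (gc U y)) (fun x hx => hRO x (hle hx)) :=
    e1.symm
  rw [e2]
  refine ⟨P.im_mono hRO hle, ?_⟩
  intro z hz halg
  obtain ⟨x, hx, rfl⟩ := P.mem_im.1 hz
  have h1 : IsAlgebraic (adj M (gc U y)) x := P.isAlgebraic_of_im hRO hle hx halg
  refine P.ev_mem_im _ ?_
  refine rat_gm (E := fun _ => l) (g := fun _ => y) (Eventually.of_forall fun _ hcon => ?_) hx h1
  apply hy
  refine P.ev_mem_im hlO (gc_mem_uSub ?_)
  exact RAC_of_isAlgClosed l hl y hcon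

/-- the degree of elements of the limit. -/
theorem Ulu.deg_le (hu : Ulu U O) (hl : IsAlgClosed l) (hO : ∀ i, TrivOn (O i) l)
    (hlO : ∀ x ∈ uSub U (fun _ => l), x ∈ (ulP U O).O) {y : L}
    (hy : hu.j y ∉ (ulP U O).im (uSub U (fun _ => l)) hlO) {d : ℕ}
    (hd : ∀ᶠ i in U, Module.Finite (adj (bar (hO i)) (rs (O i) y))
      (IsLocalRing.ResidueField (O i)) ∧
      Module.finrank (adj (bar (hO i)) (rs (O i) y)) (IsLocalRing.ResidueField (O i)) ≤ d)
    {w : I → L} (hw : ∀ᶠ i in U, w i ∈ O i)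
    (halg : IsAlgebraic (adj ((ulP U O).im (uSub U (fun _ => l)) hlO) (hu.j y))
      ((ulP U O).ev (gm U w))) :
    (minpoly (adj ((ulP U O).im (uSub U (fun _ => l)) hlO) (hu.j y))
      ((ulP U O).ev (gm U w))).natDegree ≤ d := by
  classical
  have hTr : ∀ᶠ i in U, ∃ hx : TrivOn (O i) (adj l y), bar hx = adj (bar (hO i)) (rs (O i) y) := by
    filter_upwards [hu.notMem_bar hO hlO hy, hu.ev_mem y] with i hi hi'
    haveI : IsAlgClosed (bar (hO i)) := bar_isAlgClosed (hO i) hl
    have h1 : TrivOn (O i) (adj l y) := rsb_triv (hO i) hi' fun h =>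
      hi (RAC_of_isAlgClosed _ inferInstance _ h)
    exact ⟨h1, bar_adj (hO i) h1⟩
  have hRO : ∀ x ∈ uSub U (fun _ => adj l y), x ∈ (ulP U O).O :=
    ulP_triv (hTr.mono fun i hi => hi.1)
  obtain ⟨hle, hrac⟩ := hu.rac_one hl hlO hy hRO
  refine (ul1_natDegree hle hrac halg).trans ?_
  set P := ulP U O with hP
  set R := P.im (uSub U (fun _ => adj l y)) hRO with hR
  -- the polynomial
  have h1 : ∀ᶠ i in U, ∃ a : ℕ → L, (∀ j, a j ∈ adj l y) ∧ a d = 1 ∧
      (O i).valuation (∑ j ∈ Finset.range (d + 1), a j * w i ^ j) < 1 := by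
    filter_upwards [hTr, hd, hw] with i hi hdi hwi
    obtain ⟨hx, hbar⟩ := hi
    obtain ⟨hfin, hrank⟩ := hdi
    set m := minpoly (adj (bar (hO i)) (rs (O i) y)) (rs (O i) (w i)) with hm
    have hint : IsIntegral (adj (bar (hO i)) (rs (O i) y)) (rs (O i) (w i)) :=
      IsIntegral.of_finite _ _
    have hmd : m.natDegree ≤ d := (minpoly.natDegree_le _).trans hrank
    have hmm : m.Monic := minpoly.monic hint
    set p := m * X ^ (d - m.natDegree) with hp
    have hpm : p.Monic := hmm.mul (monic_X_pow _)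
    have hpd : p.natDegree = d := by
      rw [hp, hmm.natDegree_mul (monic_X_pow _), natDegree_X_pow]
      omega
    have hp0 : aeval (rs (O i) (w i)) p = 0 := by
      rw [hp, map_mul, hm, minpoly.aeval, zero_mul]
    have hcoef : ∀ j, ∃ a ∈ adj l y, rs (O i) a = ((p.coeff j : adj (bar (hO i)) (rs (O i) y)) :
        IsLocalRing.ResidueField (O i)) := by
      intro j
      have h2 : ((p.coeff j : adj (bar (hO i)) (rs (O i) y)) :
        IsLocalRing.ResidueField (O i)) ∈ bar hx := by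
        rw [hbar]
        exact (p.coeff j).2
      exact (mem_bar hx).1 h2
    choose a ha hae using hcoef
    refine ⟨fun j => if j = d then 1 else a j, fun j => ?_, if_pos rfl, ?_⟩
    · change (if j = d then 1 else a j) ∈ adj l y
      split_ifs
      · exact Subfield.one_mem _
      · exact ha j
    · have hmem : ∀ j, (if j = d then 1 else a j) * w i ^ j ∈ O i := fun j => by
        refine mul_mem ?_ (pow_mem hwi j)
        split_ifs
        · exact one_mem _
        · exact hx _ (ha j)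
      rw [← rs_eq_zero (sum_mem fun j _ => hmem j)]
      have hsum : ∀ (s : Finset ℕ) (f : ℕ → L), (∀ a, f a ∈ O i) →
          rs (O i) (∑ a ∈ s, f a) = ∑ a ∈ s, rs (O i) (f a) := by
        intro s f hf
        induction s using Finset.induction_on with
        | empty => rw [Finset.sum_empty, Finset.sum_empty, rs_zero]
        | insert a s ha ih =>
          rw [Finset.sum_insert ha, Finset.sum_insert ha,
            rs_add (hf a) (sum_mem fun b _ => hf b), ih]
      rw [hsum _ _ hmem, ← hp0, aeval_eq_sum_range' (n := d + 1) (by omega)]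
      refine Finset.sum_congr rfl fun j _ => ?_
      rw [Algebra.smul_def]
      split_ifs with hjd
      · subst hjd
        rw [one_mul, rs_pow hwi]
        have h3 : p.coeff j = 1 := by
          rw [← hpd]
          exact hpm.coeff_natDegree
        rw [h3, map_one, one_mul]
      · rw [rs_mul (hx _ (ha j)) (pow_mem hwi j), rs_pow hwi, hae]
        rfl
  have h2 : ∀ i, ∃ a : ℕ → L, (∀ j, a j ∈ adj l y) ∧ a d = 1 ∧ ((∃ a : ℕ → L,
      (∀ j, a j ∈ adj l y) ∧ a d = 1 ∧
      (O i).valuation (∑ j ∈ Finset.range (d + 1), a j * w i ^ j) < 1) →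
      (O i).valuation (∑ j ∈ Finset.range (d + 1), a j * w i ^ j) < 1) := by
    intro i
    by_cases hc : ∃ a : ℕ → L, (∀ j, a j ∈ adj l y) ∧ a d = 1 ∧
      (O i).valuation (∑ j ∈ Finset.range (d + 1), a j * w i ^ j) < 1
    · obtain ⟨a, ha, hd, h⟩ := hc
      exact ⟨a, ha, hd, fun _ => h⟩
    · exact ⟨fun _ => 1, fun _ => Subfield.one_mem _, rfl, fun h' => absurd h' hc⟩
  choose a ha had hav using h2
  have hau : ∀ j, gm U (fun i => a i j) ∈ uSub U (fun _ => adj l y) := fun j =>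
    ⟨fun i => a i j, rfl, fun i => ha i j⟩
  have haO : ∀ j, gm U (fun i => a i j) ∈ P.O := fun j => hRO _ (hau j)
  have hwO : gm U w ∈ P.O := ulP_mem hw
  refine (apd_minpoly (E := R) (n := d)
    (a := fun j => ⟨P.ev (gm U (fun i => a i j)), P.ev_mem_im hRO (hau j)⟩) ?_ ?_).2
  · refine ⟨d, Finset.mem_range.2 (Nat.lt_succ_self d), fun h0 => ?_⟩
    have h3 : P.ev (gm U (fun i => a i d)) = 0 := congrArg Subtype.val h0
    have h4 : gm U (fun i => a i d) = 1 := by
      rw [← map_one (gm U), gm_eq]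
      exact Eventually.of_forall fun i => had i
    rw [h4, Pl.ev_one] at h3
    exact one_ne_zero h3
  · change ∑ j ∈ Finset.range (d + 1), P.ev (gm U (fun i => a i j)) * P.ev (gm U w) ^ j = 0
    have h3 : ∀ᶠ i in U, (O i).valuation (∑ j ∈ Finset.range (d + 1), a i j * w i ^ j) < 1 :=
      h1.mono fun i hi => hav i hi
    rw [← uVal_lt_one (U := U)] at h3
    have h4 : gm U (fun i => ∑ j ∈ Finset.range (d + 1), a i j * w i ^ j) =
        ∑ j ∈ Finset.range (d + 1), gm U (fun i => a i j) * gm U w ^ j := by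
      rw [gm_sum]
      refine Finset.sum_congr rfl fun j _ => ?_
      rw [gm_mul, gm_pow]
    rw [h4] at h3
    have hterm : ∀ j, gm U (fun i => a i j) * gm U w ^ j ∈ P.O := fun j =>
      mul_mem (haO j) (pow_mem hwO j)
    have h5 : P.ev (∑ j ∈ Finset.range (d + 1), gm U (fun i => a i j) * gm U w ^ j) = 0 := by
      rw [Pl.ev_eq_zero_iff _ (sum_mem fun j _ => hterm j)]
      exact h3
    rw [Pl.ev_sum _ _ _ fun j _ => hterm j] at h5
    rw [← h5]
    refine Finset.sum_congr rfl fun j _ => ?_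
    rw [Pl.ev_mul _ (haO j) (pow_mem hwO j), Pl.ev_pow _ hwO]

end Vale.Agent.P019P
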