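import Vale.Agent.P019Q.UFree
import Vale.Agent.P019P.Asm1

/-!
# Killed classes come from a common element
-/

namespace Vale.Agent.P019P

open Vale.Agent.P019

set_option linter.style.haveILetI false
set_option linter.unusedSectionVars false

open Polynomial

section kill

variable {Ω : Type*} [Field Ω] [PerfectField Ω]

theorem FG.sup_right {E L B : Subfield Ω} [PerfectField B] (h : FG E L) (hEB : E ≤ B) :
    FG B (L ⊔ B : Subfield Ω) := by
  haveI := h.perfect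
  obtain ⟨S, hS⟩ := h
  refine ⟨S, le_antisymm ?_ ?_⟩
  · refine sup_le ?_ (le_sup_left.trans (le_pf _))
    rw [hS]
    exact pf_mono (sup_le_sup_right hEB _)
  · refine pf_le (sup_le le_sup_right ?_)
    refine le_trans ?_ (le_sup_left : L ≤ L ⊔ B)
    rw [hS]
    exact le_sup_right.trans (le_pf _)

theorem mem_of_pow_mem {l A B : Subfield Ω} (hl : RAC l) (hlA : l ≤ A) (hlB : l ≤ B)
    (hB : IsAlgClosed B) (hfree : Fre l A B) {ℓ : ℕ} (hℓ : 0 < ℓ) {w : Ω} (hw : w ∈ A ⊔ B)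
    (h : w ^ ℓ ∈ A) : w ∈ A :=
  rac_sup_gen hl hlA hlB hB hfree hw (IsAlgebraic.of_pow hℓ (isAlgebraic_of_mem h))

theorem kill [IsAlgClosed Ω] (ℓ : ℕ) [Fact ℓ.Prime] [NeZero (ℓ : Ω)] {l L Bs : Subfield Ω}
    (hl : IsAlgClosed l) (hfg : FG l L) (hlB : l ≤ Bs) (hBs : IsAlgClosed Bs) {y1 y2 : Ω}
    (hy1 : y1 ∈ L) (hy2 : y2 ∈ L) (hL : ∀ a ∈ L, IsAlgebraic (adj (adj l y1) y2) a)
    (h1 : ¬ IsAlgebraic Bs y1) (h2 : ¬ IsAlgebraic (adj l y1) y2)
    (h3 : IsAlgebraic (adj Bs y1) y2) (X : Set Ω) (hX : ∀ x ∈ X, x ∈ L ∧ x ≠ 0)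
    (hinf : ∀ n : ℕ, ∃ x : Fin n → Ω, (∀ i, x i ∈ X) ∧
      ∀ i j, i ≠ j → ¬ ∃ w ∈ L, x i = x j * w ^ ℓ)
    (hpow : ∀ x ∈ X, ∃ r ∈ L ⊔ Bs, r ^ ℓ = x) : ∃ h ∈ L, h ∈ Bs ∧ h ∉ l := by
  classical
  have hℓ : 0 < ℓ := (Fact.out : ℓ.Prime).pos
  have hlR : RAC l := RAC_of_isAlgClosed l hl
  have hBR : RAC Bs := RAC_of_isAlgClosed Bs hBs
  have hlL : l ≤ L := hfg.le
  haveI : PerfectField L := hfg.perfect
  haveI : PerfectField Bs := perfect_of_RAC hBR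
  haveI : PerfectField l := perfect_of_RAC hlR
  -- finitely many parameters
  obtain ⟨T, hT, hTy⟩ : ∃ T : Finset Ω, (∀ c ∈ T, c ∈ Bs) ∧
      IsAlgebraic (adj (rcl l T) y1) y2 := by
    have h4 : IsAlgebraic (Bs ⊔ Subfield.closure {y1} : Subfield Ω) y2 := isAlgebraic_adj.1 h3
    obtain ⟨C, hC, hCN⟩ := isAlgebraic_sup_finite h4
    refine ⟨C, fun c hc => hC hc, ?_⟩
    exact isAlgebraic_adj.2 (hCN (rcl l C) (fun c hc => mem_rcl hc))
  -- the critical step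
  obtain ⟨T₀, hT₀, b, hb, hbC, hbalg, hCalg⟩ : ∃ T₀ : Finset Ω, (∀ c ∈ T₀, c ∈ Bs) ∧ ∃ b ∈ Bs,
      b ∉ rcl l T₀ ∧ IsAlgebraic (adj (rac (adj (rcl l T₀) b)) y1) y2 ∧
      ¬ IsAlgebraic (adj (rcl l T₀) y1) y2 := by
    by_contra hcon
    push Not at hcon
    exact h2 (chain_down (B := Bs) hlR (fun N => IsAlgebraic (adj N y1) y2)
      (fun T' hT' b hb hbN h => hcon T' hT' b hb hbN h) T hT hTy)
  set C := rcl l T₀ with hCdef
  have hCR : RAC C := rcl_RAC l T₀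
  have hlC : l ≤ C := le_rcl l T₀
  have hCB : C ≤ Bs := rcl_le hBR hlB hT₀
  have hCac : IsAlgClosed C := isAlgClosed_of_RAC hBs hCR hCB
  haveI : PerfectField C := perfect_of_RAC hCR
  set B := rac (adj C b) with hBdef
  have hBBs : B ≤ Bs := RAC_adj_le hBR hCB hb
  have hCB' : C ≤ B := (le_adj _ _).trans (le_rac _)
  have hBac : IsAlgClosed B := isAlgClosed_of_RAC hBs (RAC_rac _) hBBs
  haveI : PerfectField B := perfect_of_RAC (RAC_rac _)
  have hC1 : ¬ IsAlgebraic C y1 := fun h => h1 (isAlgebraic_mono hCB h)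
  have hB1 : ¬ IsAlgebraic B y1 := fun h => h1 (isAlgebraic_mono hBBs h)
  -- `b` is algebraic over `L C`
  have hbLC : IsAlgebraic (L ⊔ C : Subfield Ω) b := by
    have h4 : IsAlgebraic (adj (adj C b) y1) y2 := by
      have h5 : adj B y1 ≤ rac (adj (adj C b) y1) := by
        have h6 : Vale.Agent.P019.adj B y1 ≤ rac (adj (adj C b) y1) :=
          Vale.Agent.P019.adj_le (rac_mono (le_adj _ _)) (le_rac _ (mem_adj _ _))
        have h7 : rac (adj B y1) ≤ rac (adj (adj C b) y1) := by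
          rw [rac_adj B]
          exact (RAC_rac _).le h6
        exact (le_rac _).trans h7
      exact mem_rac.1 (RAC_rac _ _ (isAlgebraic_mono h5 hbalg))
    have h5 := exchange hCalg (adj_comm_alg h4)
    have h6 : adj (adj C y1) y2 ≤ L ⊔ C :=
      adj_le (adj_le le_sup_right ((le_sup_left : L ≤ L ⊔ C) hy1))
        ((le_sup_left : L ≤ L ⊔ C) hy2)
    exact isAlgebraic_mono h6 h5
  have hfreeLC : Fre l L C := Fre.of_two hL hC1 hCalg
  have hLalgB : ∀ a ∈ L, IsAlgebraic (adj B y1) a := by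
    intro a ha
    have h5 : adj (adj l y1) y2 ≤ rac (adj B y1) := by
      have h6 : Vale.Agent.P019.adj (adj l y1) y2 ≤ rac (adj B y1) := by
        refine Vale.Agent.P019.adj_le ?_ (mem_rac.2 hbalg)
        exact (adj_mono (hlC.trans hCB') y1).trans (le_rac _)
      have h7 : rac (adj (adj l y1) y2) ≤ rac (adj B y1) := by
        rw [rac_adj (adj l y1)]
        exact (RAC_rac _).le h6
      exact (le_rac _).trans h7
    exact mem_rac.1 (RAC_rac _ _ (isAlgebraic_mono h5 (hL a ha)))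
  have hfreeB : Fre B (L ⊔ B) Bs := by
    refine Fre.of_one (y := y1) ?_ h1
    intro a ha
    have h5 : L ⊔ B ≤ rac (adj B y1) :=
      sup_le (fun c hc => mem_rac.2 (hLalgB c hc)) ((le_adj _ _).trans (le_rac _))
    exact mem_rac.1 (h5 ha)
  obtain ⟨-, hE⟩ := gal ℓ hCac (FG.sup_right hfg hlC) hbLC hbC X
    (fun x hx => ⟨(le_sup_left : L ≤ L ⊔ C) (hX x hx).1, (hX x hx).2⟩) (by
      intro n
      obtain ⟨x, hxX, hx⟩ := hinf n
      refine ⟨x, hxX, fun i j hij hcon => hx i j hij ?_⟩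
      obtain ⟨w, hw, hwe⟩ := hcon
      refine ⟨w, ?_, hwe⟩
      refine mem_of_pow_mem hlR hlL hlC hCac hfreeLC hℓ hw ?_
      have h5 : w ^ ℓ = x i / x j := by
        rw [hwe]
        field_simp [(hX _ (hxX j)).2]
      rw [h5]
      exact L.div_mem (hX _ (hxX i)).1 (hX _ (hxX j)).1) (by
      intro x hx
      obtain ⟨r, hr, hrx⟩ := hpow x hx
      refine ⟨r, ?_, hrx⟩
      have h5 : r ∈ (L ⊔ B) ⊔ Bs := (sup_le_sup_right le_sup_left Bs : L ⊔ Bs ≤ _) hr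
      have h6 : r ∈ L ⊔ B := by
        refine mem_of_pow_mem (RAC_rac _) le_sup_right hBBs hBs hfreeB hℓ h5 ?_
        rw [hrx]
        exact (le_sup_left : L ≤ L ⊔ B) (hX x hx).1
      exact (sup_le_sup_right le_sup_left B : L ⊔ B ≤ (L ⊔ C) ⊔ B) h6)
  -- specialization
  obtain ⟨E, hlE, hEL, htd, hXE⟩ : ∃ E : Subfield Ω, l ≤ E ∧ E ≤ L ⊔ l ∧ Td1 l E ∧
      ∀ x ∈ X, ∃ e ∈ E, ∃ w ∈ L ⊔ l, x = e * w ^ ℓ := by
    refine chain_down (B := C) hlR (fun N => ∃ E : Subfield Ω, N ≤ E ∧ E ≤ L ⊔ N ∧ Td1 N E ∧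
      ∀ x ∈ X, ∃ e ∈ E, ∃ w ∈ L ⊔ N, x = e * w ^ ℓ) ?_ T₀ (fun c hc => mem_rcl hc) ?_
    · rintro T' hT' c hc hcN ⟨E, hE1, hE2, hE3, hE4⟩
      have hNC : rcl l T' ≤ C := rcl_le hCR hlC hT'
      exact spec_step (A := L) (N := rcl l T') (isAlgClosed_of_RAC hBs (rcl_RAC _ _)
        (hNC.trans hCB)) (fun h => hcN (hfreeLC _ (rcl_RAC _ _) (le_rcl _ _) hNC c hc h)) hX
        hE1 hE2 hE3 hE4
    · refine ⟨B ⊓ (L ⊔ C), le_inf hCB' le_sup_right, inf_le_right, ?_, hE⟩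
      intro u hu v hv
      by_cases huC : u ∈ C
      · exact Or.inl huC
      · right
        exact line_swap hCR (mem_rac.1 (Subfield.mem_inf.1 hu).1) huC
          (mem_rac.1 (Subfield.mem_inf.1 hv).1)
  rw [sup_eq_left.2 hlL] at hEL hXE
  by_contra hcon
  push Not at hcon
  -- a nonconstant element of `E`
  obtain ⟨y0, hy0, hy0l⟩ : ∃ y0 ∈ E, y0 ∉ l := by
    by_contra hno
    push Not at hno
    obtain ⟨x, hxX, hx⟩ := hinf 2
    obtain ⟨e, he, w, hw, hew⟩ := hXE _ (hxX 0)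
    obtain ⟨e', he', w', hw', hew'⟩ := hXE _ (hxX 1)
    have he0 : e ≠ 0 := by
      rintro rfl
      rw [zero_mul] at hew
      exact (hX _ (hxX 0)).2 hew
    have he'0 : e' ≠ 0 := by
      rintro rfl
      rw [zero_mul] at hew'
      exact (hX _ (hxX 1)).2 hew'
    have hw'0 : w' ≠ 0 := by
      rintro rfl
      rw [zero_pow hℓ.ne', mul_zero] at hew'
      exact (hX _ (hxX 1)).2 hew'
    obtain ⟨d, hd, hd'⟩ := asm_pow_eq hl hℓ (l.div_mem (hno e he) (hno e' he'))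
    refine hx 0 1 (by decide) ⟨d * w / w', L.div_mem (L.mul_mem (hlL hd) hw) hw', ?_⟩
    rw [hew, hew', div_pow, mul_pow, hd']
    field_simp
  have hy0B : ¬ IsAlgebraic Bs y0 := fun h => hy0l (hcon y0 (hEL hy0) (hBR y0 h))
  have hEalg : ∀ a ∈ E, IsAlgebraic (adj l y0) a := fun a ha =>
    (htd y0 hy0 a ha).resolve_left hy0l
  have hfreeE : Fre l E Bs := Fre.of_one hEalg hy0B
  obtain ⟨ζ, hζl, hζ⟩ := finK_prim hl ℓ
  have hfgB : FG Bs (L ⊔ Bs : Subfield Ω) := FG.sup_right hfg hlB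
  have hfgE : FG (E ⊔ Bs : Subfield Ω) (L ⊔ Bs : Subfield Ω) :=
    hfgB.mono le_sup_right (sup_le_sup_right hEL Bs)
  obtain ⟨N, hN⟩ := fk ℓ hfgE ((le_sup_left : E ≤ E ⊔ Bs) (hlE hζl)) hζ
  obtain ⟨x, hxX, hx⟩ := hinf (N + 1)
  choose e he w hw hew using fun i => hXE _ (hxX i)
  choose r hr hrx using fun i => hpow _ (hxX i)
  have hx0 : ∀ i, x i ≠ 0 := fun i => (hX _ (hxX i)).2
  have he0 : ∀ i, e i ≠ 0 := by
    intro i h0
    have := hew i
    rw [h0, zero_mul] at this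
    exact hx0 i this
  have hw0 : ∀ i, w i ≠ 0 := by
    intro i h0
    have := hew i
    rw [h0, zero_pow hℓ.ne', mul_zero] at this
    exact hx0 i this
  obtain ⟨i, j, hij, y, hy, hy0', hyij⟩ := hN e (fun i => ⟨(le_sup_left : E ≤ E ⊔ Bs) (he i),
    he0 i, r i / w i, Subfield.div_mem _ (hr i) ((le_sup_left : L ≤ L ⊔ Bs) (hw i)), by
      rw [div_pow, hrx, hew]
      field_simp [hw0 i]⟩)
  have hyE : y ∈ E := by
    refine mem_of_pow_mem hlR hlE hlB hBs hfreeE hℓ hy ?_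
    have h5 : y ^ ℓ = e i / e j := by
      rw [hyij]
      field_simp [he0 j]
    rw [h5]
    exact E.div_mem (he i) (he j)
  refine hx i j hij ⟨y * w i / w j, L.div_mem (L.mul_mem (hEL hyE) (hw i)) (hw j), ?_⟩
  rw [hew i, hew j, hyij, div_pow, mul_pow]
  have h6 := pow_ne_zero ℓ (hw0 j)
  field_simp

end kill

end Vale.Agent.P019P
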