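import Mathlib

/-!
# Logarithmic derivatives of power series
-/

namespace Vale.Agent.P019P

open PowerSeries

variable {R : Type*} [CommRing R]

/-- `S` is the logarithmic derivative `X A' / A` of `A`. -/
def LD (A S : R⟦X⟧) : Prop := X * (d⁄dX R A) = A * S

/-- the power series `∑_{m ≥ 1} s m X^m`. -/
noncomputable def pos (s : ℕ → R) : R⟦X⟧ := PowerSeries.mk fun m => if m = 0 then 0 else s m

theorem LD.mul {A B S T : R⟦X⟧} (h1 : LD A S) (h2 : LD B T) : LD (A * B) (S + T) := by
  unfold LD at *
  rw [Derivation.leibniz, smul_eq_mul, smul_eq_mul]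
  calc X * (A * (d⁄dX R) B + B * (d⁄dX R) A)
      = A * (X * (d⁄dX R) B) + B * (X * (d⁄dX R) A) := by ring
    _ = A * B * (S + T) := by rw [h1, h2]; ring

theorem LD_of_rec (a s : ℕ → R)
    (h : ∀ M : ℕ, (M : R) * a M = ∑ m ∈ Finset.Icc 1 M, s m * a (M - m)) :
    LD (PowerSeries.mk a) (pos s) := by
  unfold LD
  ext M
  have hL : coeff M (X * (d⁄dX R) (PowerSeries.mk a)) = (M : R) * a M := by
    cases M with
    | zero => simp
    | succ k =>
      rw [coeff_succ_X_mul, coeff_derivative, coeff_mk]
      push_cast
      ring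
  rw [hL, h M, mul_comm (PowerSeries.mk a), coeff_mul,
    Finset.Nat.sum_antidiagonal_eq_sum_range_succ_mk]
  have hs : Finset.Icc 1 M ⊆ Finset.range (M + 1) := by
    intro m hm
    rw [Finset.mem_Icc] at hm
    rw [Finset.mem_range]
    omega
  rw [← Finset.sum_subset hs]
  · refine Finset.sum_congr rfl fun m hm => ?_
    rw [Finset.mem_Icc] at hm
    have : m ≠ 0 := by omega
    simp only [pos, coeff_mk, if_neg this]
  · intro m hm1 hm2
    rw [Finset.mem_range] at hm1
    rw [Finset.mem_Icc] at hm2
    have : m = 0 := by omega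
    simp only [pos, coeff_mk, if_pos this, zero_mul]

theorem LD_lin (a : R) : LD (1 - C a * X) (pos fun m => -a ^ m) := by
  unfold LD
  have h1 : (d⁄dX R) (1 - C a * X : R⟦X⟧) = - C a := by
    rw [map_sub, Derivation.leibniz, derivative_X, derivative_C, smul_zero, add_zero,
      smul_eq_mul, mul_one, Derivation.map_one_eq_zero, zero_sub]
  rw [h1, sub_mul, one_mul, mul_assoc]
  ext n
  rw [map_sub, coeff_C_mul]
  rcases n with _ | _ | n
  · simp [pos]
  · rw [coeff_succ_X_mul, coeff_succ_X_mul]
    simp [pos]
  · rw [coeff_succ_X_mul, coeff_succ_X_mul, map_neg, coeff_C, if_neg (Nat.succ_ne_zero n)]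
    simp only [pos, coeff_mk, Nat.add_eq_zero_iff, one_ne_zero, and_false, if_false]
    ring

theorem pos_add (s t : ℕ → R) : pos s + pos t = pos fun m => s m + t m := by
  ext n
  simp only [pos, map_add, coeff_mk]
  split_ifs
  · rw [add_zero]
  · rfl

theorem pos_inj {s t : ℕ → R} (h : pos s = pos t) (m : ℕ) (hm : 0 < m) : s m = t m := by
  have h1 := congrArg (coeff m) h
  simpa only [pos, coeff_mk, if_neg hm.ne'] using h1

theorem pos_congr {s t : ℕ → R} (h : ∀ m, 0 < m → s m = t m) : pos s = pos t := by
  ext n
  simp only [pos, coeff_mk]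
  split_ifs with h0
  · rfl
  · exact h n (Nat.pos_of_ne_zero h0)

theorem LD_prod (A : Multiset R) :
    LD ((A.map fun a => (1 : R⟦X⟧) - C a * X).prod) (pos fun m => -(A.map fun a => a ^ m).sum) := by
  induction A using Multiset.induction_on with
  | empty =>
    unfold LD
    ext n
    simp [pos]
  | cons a A ih =>
    rw [Multiset.map_cons, Multiset.prod_cons]
    have h1 := (LD_lin a).mul ih
    rw [pos_add] at h1
    convert h1 using 2
    funext m
    rw [Multiset.map_cons, Multiset.sum_cons, neg_add]

/-- the logarithmic derivative is unique. -/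
theorem LD.right_unique [IsDomain R] {A S T : R⟦X⟧} (h0 : constantCoeff A = 1)
    (h1 : LD A S) (h2 : LD A T) : S = T := by
  have hA : A ≠ 0 := by
    rintro rfl
    simp at h0
  exact mul_left_cancel₀ hA (h1.symm.trans h2)

/-- a power series with constant coefficient one is determined by its logarithmic derivative. -/
theorem LD.left_unique [IsDomain R] [CharZero R] {A B S : R⟦X⟧} (hA : constantCoeff A = 1)
    (hB : constantCoeff B = 1) (h1 : LD A S) (h2 : LD B S) : A = B := by
  have hS : coeff 0 S = 0 := by
    have h3 := congrArg constantCoeff h1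
    rw [map_mul, map_mul, constantCoeff_X, zero_mul, hA, one_mul] at h3
    rw [coeff_zero_eq_constantCoeff_apply]
    exact h3.symm
  ext n
  induction n using Nat.strong_induction_on with
  | _ n ih =>
    cases n with
    | zero => rw [coeff_zero_eq_constantCoeff_apply, coeff_zero_eq_constantCoeff_apply, hA, hB]
    | succ k =>
      have key : coeff (k + 1) (A * S) = coeff (k + 1) (B * S) := by
        rw [coeff_mul, coeff_mul]
        refine Finset.sum_congr rfl fun p hp => ?_
        have hp' : p.1 + p.2 = k + 1 := Finset.HasAntidiagonal.mem_antidiagonal.1 hp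
        rcases Nat.eq_zero_or_pos p.2 with h0 | h0
        · rw [h0, hS, mul_zero, mul_zero]
        · rw [ih p.1 (by omega)]
      unfold LD at h1 h2
      rw [← h1, ← h2, coeff_succ_X_mul, coeff_succ_X_mul, coeff_derivative,
        coeff_derivative] at key
      exact mul_right_cancel₀ (by exact_mod_cast Nat.succ_ne_zero k) key

end Vale.Agent.P019P
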