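import Vale.Agent.P019Q.ZDef
import Vale.Agent.P019Q.ZLog

/-!
# Effective invariant divisors
-/

namespace Vale.Agent.P019P

open Finsupp

variable {P : Type*}

/-- effective `τ`-invariant divisors of degree `m`. -/
def Eff (τ : Equiv.Perm P) (m : ℕ) : Set (P →₀ ℤ) :=
  {E | 0 ≤ E ∧ E.mapDomain τ = E ∧ dg E = m}

/-- the coefficients of the zeta function with weights `χ`. -/
noncomputable def ac {R : Type*} [CommRing R] (τ : Equiv.Perm P) (χ : (P →₀ ℤ) → R) (m : ℕ) : R :=
  ∑ᶠ E ∈ Eff τ m, χ E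

/-- the coefficients of its logarithmic derivative. -/
noncomputable def sc {R : Type*} [CommRing R] (τ : Equiv.Perm P) (χ : (P →₀ ℤ) → R) (m : ℕ) : R :=
  ∑ᶠ p ∈ {p | (τ ^ m) p = p}, χ (single p 1) ^ m

private theorem dg_eq_sum' (D : P →₀ ℤ) : dg D = ∑ p ∈ D.support, D p := by
  simp only [dg, liftAddHom_apply, Finsupp.sum, AddMonoidHom.id_apply]

private theorem sum_le_dg (E : P →₀ ℤ) (hE : 0 ≤ E) (s : Finset P) : ∑ p ∈ s, E p ≤ dg E := by
  classical
  rw [dg_eq_sum']
  calc ∑ p ∈ s, E p ≤ ∑ p ∈ s ∪ E.support, E p :=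
        Finset.sum_le_sum_of_subset_of_nonneg Finset.subset_union_left fun p _ _ => hE p
    _ = ∑ p ∈ E.support, E p := by
        refine (Finset.sum_subset Finset.subset_union_right fun p _ hp => ?_).symm
        exact notMem_support_iff.1 hp

private theorem val_pow {τ : Equiv.Perm P} {E : P →₀ ℤ} (h : E.mapDomain τ = E) (i : ℕ) (p : P) :
    E ((τ ^ i) p) = E p := by
  induction i with
  | zero => rfl
  | succ n ih =>
    rw [pow_succ', Equiv.Perm.mul_apply, ← ih]
    have h2 := mapDomain_apply τ.injective E ((τ ^ n) p)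
    rw [h] at h2
    exact h2

private theorem per_of_ne {τ : Equiv.Perm P} {E : P →₀ ℤ} {m : ℕ} (hE : E ∈ Eff τ m) {p : P}
    (hp : E p ≠ 0) : (τ ^ m.factorial) p = p := by
  classical
  obtain ⟨h0, h1, h2⟩ := hE
  have hpos : 1 ≤ E p := Int.add_one_le_iff.2 (lt_of_le_of_ne (h0 p) (Ne.symm hp))
  have hninj : ¬ Set.InjOn (fun i => (τ ^ i) p) (Finset.range (m + 1) : Set ℕ) := by
    intro hinj
    have h3 := sum_le_dg E h0 ((Finset.range (m + 1)).image fun i => (τ ^ i) p)
    rw [Finset.sum_image hinj, Finset.sum_congr rfl fun i _ => val_pow h1 i p, Finset.sum_const,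
      Finset.card_range, h2, nsmul_eq_mul] at h3
    push_cast at h3
    nlinarith only [h3, hpos, Int.natCast_nonneg m]
  have hd : ∃ d, 0 < d ∧ d ≤ m ∧ (τ ^ d) p = p := by
    rw [Set.InjOn] at hninj
    push Not at hninj
    obtain ⟨i, hi, j, hj, hij, hne⟩ := hninj
    have key : ∀ i j : ℕ, i < j → j < m + 1 → (τ ^ i) p = (τ ^ j) p →
        ∃ d, 0 < d ∧ d ≤ m ∧ (τ ^ d) p = p := by
      intro i j hij hj he
      refine ⟨j - i, by omega, by omega, ?_⟩
      apply (τ ^ i).injective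
      rw [← Equiv.Perm.mul_apply, ← pow_add, he]
      congr 2
      omega
    have hi' : i < m + 1 := by simpa using hi
    have hj' : j < m + 1 := by simpa using hj
    rcases lt_or_gt_of_ne hne with h | h
    · exact key i j h hj' hij
    · exact key j i h hi' hij.symm
  obtain ⟨d, hd0, hdm, hd⟩ := hd
  obtain ⟨c, hc⟩ := Nat.dvd_factorial hd0 hdm
  rw [hc, pow_mul]
  clear hc
  induction c with
  | zero => rfl
  | succ n ih => rw [pow_succ, Equiv.Perm.mul_apply, hd, ih]

theorem eff_finite (τ : Equiv.Perm P)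
    (hfin : ∀ n : ℕ, 0 < n → {p | (τ ^ n) p = p}.Finite) (m : ℕ) : (Eff τ m).Finite := by
  classical
  have hF := hfin m.factorial m.factorial_pos
  refine (Set.finite_Icc (0 : P →₀ ℤ) (Finsupp.indicator hF.toFinset fun _ _ => (m : ℤ))).subset ?_
  intro E hE
  refine ⟨hE.1, fun p => ?_⟩
  by_cases hp : (τ ^ m.factorial) p = p
  · rw [Finsupp.indicator_of_mem (hF.mem_toFinset.2 hp)]
    have h := sum_le_dg E hE.1 {p}
    rwa [Finset.sum_singleton, hE.2.2] at h
  · rw [Finsupp.indicator_of_notMem (fun h => hp (hF.mem_toFinset.1 h))]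
    by_contra h
    exact hp (per_of_ne hE (fun h0 => h h0.le))

theorem eff_zero (τ : Equiv.Perm P) : Eff τ 0 = {0} := by
  ext E
  rw [Set.mem_singleton_iff]
  constructor
  · rintro ⟨h0, -, h2⟩
    ext p
    have h := sum_le_dg E h0 {p}
    rw [Finset.sum_singleton, h2] at h
    exact le_antisymm h (h0 p)
  · rintro rfl
    exact ⟨le_rfl, mapDomain_zero, by rw [map_zero]; rfl⟩

theorem ac_zero {R : Type*} [CommRing R] (τ : Equiv.Perm P) (χ : (P →₀ ℤ) → R) :
    ac τ χ 0 = χ 0 := by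
  rw [ac, eff_zero, finsum_mem_singleton]

end Vale.Agent.P019P
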