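import Vale.Agent.P019Q.ZPic
import Vale.Agent.P019Q.ZEulA

/-!
# Counting effective divisors in classes
-/

namespace Vale.Agent.P019P

open Finsupp

variable {P : Type*}

namespace ZDat

variable (Z : ZDat P)

theorem fin_pow (n : ℕ) (hn : 0 < n) (m : ℕ) (hm : 0 < m) :
    {p | ((Z.σ ^ n) ^ m) p = p}.Finite := by
  rw [← pow_mul]
  exact Z.fin _ (Nat.mul_pos hn hm)

/-- Frobenius-invariant classes of degree `M`. -/
def PM (n : ℕ) (M : ℤ) : Set Z.Pic := {x | Z.deg x = M ∧ (Z.s ^ n) x = x}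

/-- the number of invariant classes of degree zero. -/
noncomputable def hh (n : ℕ) : ℕ := Nat.card {x : Z.J // (Z.sJ ^ n) x = x}

theorem ZCntA_sigma_pow_P0 (n : ℕ) : (Z.σ ^ n) Z.P0 = Z.P0 := by
  induction n with
  | zero => rfl
  | succ n ih => rw [pow_succ, Equiv.Perm.mul_apply, Z.fix0, ih]

theorem ZCntA_add_mem (n : ℕ) {M : ℤ} {x : Z.Pic} (hx : x ∈ Z.PM n M) (k : ℤ) :
    x + Z.cl (single Z.P0 k) ∈ Z.PM n (M + k) := by
  refine ⟨?_, ?_⟩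
  · rw [map_add, hx.1, Z.deg_cl, dg_single]
  · rw [map_add, hx.2, Z.s_pow_cl, Finsupp.mapDomain_single, ZCntA_sigma_pow_P0]

theorem ZCntA_fibre_set (n : ℕ) (M : ℕ) (D : P →₀ ℤ) (hD : Z.cl D ∈ Z.PM n M) :
    {E | E ∈ Eff (Z.σ ^ n) M ∧ Z.cl E = Z.cl D} =
      {E : P →₀ ℤ | 0 ≤ E ∧ E.mapDomain (Z.σ ^ n) = E ∧ E - D ∈ Z.prin} := by
  ext E
  constructor
  · rintro ⟨⟨h1, h2, _⟩, h4⟩
    exact ⟨h1, h2, Z.cl_eq.1 h4⟩
  · rintro ⟨h1, h2, h3⟩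
    have h4 : Z.cl E = Z.cl D := Z.cl_eq.2 h3
    refine ⟨⟨h1, h2, ?_⟩, h4⟩
    rw [← Z.deg_cl, h4]
    exact hD.1

theorem fibre (n : ℕ) (hn : 0 < n) (M : ℕ) (x : Z.Pic) (hx : x ∈ Z.PM n M) :
    {E | E ∈ Eff (Z.σ ^ n) M ∧ Z.cl E = x}.ncard * (Z.q ^ n - 1) = Z.q ^ (n * Z.ll x) - 1 := by
  obtain ⟨D, rfl⟩ := Z.cl_surj x
  have h1 : D.mapDomain (Z.σ ^ n) - D ∈ Z.prin := by
    have h := hx.2
    rw [Z.s_pow_cl] at h
    exact Z.cl_eq.1 h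
  have h2 := Z.count n hn D h1
  rw [Z.ll_cl, ← h2, Z.ZCntA_fibre_set n M D hx]
  rfl

theorem ZCntA_nonempty (n : ℕ) (hn : 0 < n) (M : ℕ) (hM : Z.g ≤ M) (x : Z.Pic)
    (hx : x ∈ Z.PM n M) : ∃ E ∈ Eff (Z.σ ^ n) M, Z.cl E = x := by
  have h1 := Z.fibre n hn M x hx
  have h2 : 0 < Z.ll x := by
    refine Z.ll_pos x ?_
    rw [hx.1]
    exact_mod_cast hM
  have h3 : 1 < Z.q ^ (n * Z.ll x) :=
    Nat.one_lt_pow (Nat.mul_pos hn h2).ne' (lt_of_lt_of_le one_lt_two Z.two_le)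
  have h4 : {E | E ∈ Eff (Z.σ ^ n) M ∧ Z.cl E = x}.ncard ≠ 0 := by
    intro h
    rw [h, zero_mul] at h1
    omega
  obtain ⟨E, hE⟩ := Set.nonempty_of_ncard_ne_zero h4
  exact ⟨E, hE.1, hE.2⟩

theorem ZCntA_PM_finite_nat (n : ℕ) (hn : 0 < n) (M : ℕ) (hM : Z.g ≤ M) :
    (Z.PM n M).Finite := by
  have h1 : (Eff (Z.σ ^ n) M).Finite := eff_finite _ (Z.fin_pow n hn) M
  refine (h1.image Z.cl).subset ?_
  intro x hx
  obtain ⟨E, hE, h⟩ := Z.ZCntA_nonempty n hn M hM x hx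
  exact ⟨E, hE, h⟩

theorem PM_finite (n : ℕ) (hn : 0 < n) (M : ℤ) : (Z.PM n M).Finite := by
  obtain ⟨k, M', hk, hM'⟩ : ∃ (k : ℤ) (M' : ℕ), M + k = M' ∧ Z.g ≤ M' := by
    refine ⟨(Z.g : ℤ) - M, Z.g, ?_, le_rfl⟩
    ring
  have h1 := Z.ZCntA_PM_finite_nat n hn M' hM'
  rw [← hk] at h1
  refine Set.Finite.of_injOn (f := fun x => x + Z.cl (single Z.P0 k)) ?_ ?_ h1
  · intro x hx
    exact Z.ZCntA_add_mem n hx k
  · intro x _ y _ hxy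
    exact add_right_cancel hxy

theorem sJ_fin (n : ℕ) (hn : 0 < n) : {x : Z.J | (Z.sJ ^ n) x = x}.Finite := by
  refine Set.Finite.of_injOn (f := fun x : Z.J => (x : Z.Pic)) ?_ ?_ (Z.PM_finite n hn 0)
  · intro x hx
    refine ⟨x.2, ?_⟩
    have h : (Z.sJ ^ n) x = x := hx
    change (Z.s ^ n) (x : Z.Pic) = x
    rw [← Z.coe_sJ_pow, h]
  · intro x _ y _ hxy
    exact Subtype.ext hxy

theorem card_PM (n : ℕ) (M : ℤ) : (Z.PM n M).ncard = Z.hh n := by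
  unfold hh
  rw [← Nat.card_coe_set_eq]
  symm
  have hmem : ∀ x : {x : Z.J // (Z.sJ ^ n) x = x},
      ((x.1 : Z.J) : Z.Pic) + Z.cl (single Z.P0 M) ∈ Z.PM n M := by
    intro x
    have h0 : ((x.1 : Z.J) : Z.Pic) ∈ Z.PM n 0 := by
      refine ⟨x.1.2, ?_⟩
      rw [← Z.coe_sJ_pow, x.2]
    have h := Z.ZCntA_add_mem n h0 M
    rwa [zero_add] at h
  refine Nat.card_eq_of_bijective
    (fun x => (⟨((x.1 : Z.J) : Z.Pic) + Z.cl (single Z.P0 M), hmem x⟩ : Z.PM n M)) ⟨?_, ?_⟩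
  · intro x y hxy
    have h := congrArg (fun z : Z.PM n M => (z : Z.Pic)) hxy
    exact Subtype.ext (Subtype.ext (add_right_cancel h))
  · rintro ⟨y, hy⟩
    have h0 := Z.ZCntA_add_mem n hy (-M)
    rw [add_neg_cancel] at h0
    have h1 : Z.deg (y + Z.cl (single Z.P0 (-M))) = 0 := h0.1
    refine ⟨⟨⟨y + Z.cl (single Z.P0 (-M)), h1⟩, ?_⟩, ?_⟩
    · apply Subtype.ext
      rw [Z.coe_sJ_pow]
      exact h0.2
    · apply Subtype.ext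
      change y + Z.cl (single Z.P0 (-M)) + Z.cl (single Z.P0 M) = y
      rw [add_assoc, ← map_add, ← single_add, neg_add_cancel, single_zero, map_zero, add_zero]

theorem hh_pos (n : ℕ) (hn : 0 < n) : 0 < Z.hh n := by
  unfold hh
  have : Nonempty {x : Z.J // (Z.sJ ^ n) x = x} := ⟨⟨0, map_zero _⟩⟩
  have : Finite {x : Z.J // (Z.sJ ^ n) x = x} := (Z.sJ_fin n hn).to_subtype
  exact Nat.card_pos

theorem kappa_mem (n : ℕ) : Z.cl Z.κ ∈ Z.PM n (2 * (Z.g : ℤ) - 2) := by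
  refine ⟨?_, ?_⟩
  · rw [Z.deg_cl, Z.dg_kappa]
  · induction n with
    | zero => rfl
    | succ n ih =>
      rw [pow_succ]
      change (Z.s ^ n) (Z.s (Z.cl Z.κ)) = Z.cl Z.κ
      rw [Z.s_kappa, ih]

theorem ac_eq {R : Type*} [CommRing R] (n : ℕ) (hn : 0 < n) (χ : Z.Pic → R) (M : ℕ) :
    ((Z.q : R) ^ n - 1) * ac (Z.σ ^ n) (fun D => χ (Z.cl D)) M =
      ∑ᶠ x ∈ Z.PM n M, χ x * ((Z.q : R) ^ (n * Z.ll x) - 1) := by
  classical
  have hF : (Eff (Z.σ ^ n) M).Finite := eff_finite _ (Z.fin_pow n hn) M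
  have hG : (Z.PM n M).Finite := Z.PM_finite n hn M
  have hq1 : ∀ m : ℕ, 1 ≤ Z.q ^ m := fun m =>
    Nat.one_le_pow _ _ (lt_of_lt_of_le zero_lt_two Z.two_le)
  unfold ac
  rw [finsum_mem_eq_finite_toFinset_sum _ hF, finsum_mem_eq_finite_toFinset_sum _ hG]
  have hmaps : ∀ E ∈ hF.toFinset, Z.cl E ∈ hG.toFinset := by
    intro E hE
    rw [Set.Finite.mem_toFinset] at hE ⊢
    refine ⟨?_, ?_⟩
    · rw [Z.deg_cl]
      exact hE.2.2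
    · rw [Z.s_pow_cl, hE.2.1]
  rw [← Finset.sum_fiberwise_of_maps_to hmaps, Finset.mul_sum]
  refine Finset.sum_congr rfl fun x hx => ?_
  rw [Set.Finite.mem_toFinset] at hx
  have h1 : ∑ E ∈ hF.toFinset with Z.cl E = x, χ (Z.cl E) =
      ((hF.toFinset.filter (fun E => Z.cl E = x)).card : R) * χ x := by
    rw [Finset.sum_congr rfl (g := fun _ => χ x)
      (fun E hE => by rw [(Finset.mem_filter.1 hE).2]), Finset.sum_const, nsmul_eq_mul]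
  have h2 : (hF.toFinset.filter (fun E => Z.cl E = x)).card =
      {E | E ∈ Eff (Z.σ ^ n) M ∧ Z.cl E = x}.ncard := by
    rw [← Set.ncard_coe_finset]
    congr 1
    ext E
    simp
  have h3 := Z.fibre n hn M x hx
  have h4 : (({E | E ∈ Eff (Z.σ ^ n) M ∧ Z.cl E = x}.ncard : ℕ) : R) * ((Z.q : R) ^ n - 1) =
      (Z.q : R) ^ (n * Z.ll x) - 1 := by
    have h5 := congrArg (fun k : ℕ => (k : R)) h3
    rw [Nat.cast_mul, Nat.cast_sub (hq1 _), Nat.cast_sub (hq1 _)] at h5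
    push_cast at h5
    exact h5
  rw [h1, h2, ← h4]
  ring

end ZDat

end Vale.Agent.P019P
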