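import Vale.Agent.P019Q.ZCntA

/-!
# The coefficients of the zeta functions
-/

namespace Vale.Agent.P019P

open Finsupp

variable {P : Type*}

namespace ZDat

variable (Z : ZDat P)

theorem an_large (n : ℕ) (hn : 0 < n) (M : ℕ) (hM : 2 * Z.g ≤ M + 1) :
    ac (Z.σ ^ n) (fun _ => (1 : ℤ)) M * ((Z.q : ℤ) ^ n - 1) =
      Z.hh n * (((Z.q : ℤ) ^ n) ^ (M + 1 - Z.g) - 1) := by
  have h := Z.ac_eq (R := ℤ) n hn (fun _ => 1) M
  rw [mul_comm, h]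
  have hll : ∀ x ∈ Z.PM n M, Z.ll x = M + 1 - Z.g := by
    intro x hx
    have h1 := Z.ll_large x (by rw [hx.1]; omega)
    rw [hx.1] at h1
    omega
  have h2 : ∑ᶠ x ∈ Z.PM n M, (1 : ℤ) * ((Z.q : ℤ) ^ (n * Z.ll x) - 1) =
      ∑ᶠ x ∈ Z.PM n M, (((Z.q : ℤ) ^ n) ^ (M + 1 - Z.g) - 1) := by
    refine finsum_mem_congr rfl fun x hx => ?_
    rw [one_mul, hll x hx, pow_mul]
  rw [h2, finsum_mem_eq_finite_toFinset_sum _ (Z.PM_finite n hn M), Finset.sum_const,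
    nsmul_eq_mul, ← Set.ncard_eq_toFinset_card _ (Z.PM_finite n hn M), Z.card_PM]

theorem an_crit (n : ℕ) (hn : 0 < n) (hg : 0 < Z.g) :
    ac (Z.σ ^ n) (fun _ => (1 : ℤ)) (2 * Z.g - 2) * ((Z.q : ℤ) ^ n - 1) =
      ((Z.hh n : ℤ) - 1) * (((Z.q : ℤ) ^ n) ^ (Z.g - 1) - 1) + (((Z.q : ℤ) ^ n) ^ Z.g - 1) := by
  classical
  have h := Z.ac_eq (R := ℤ) n hn (fun _ => 1) (2 * Z.g - 2)
  rw [mul_comm, h]
  have hc : ((2 * Z.g - 2 : ℕ) : ℤ) = 2 * (Z.g : ℤ) - 2 := by omega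
  rw [hc]
  have hfin := Z.PM_finite n hn (2 * (Z.g : ℤ) - 2)
  have hk : Z.cl Z.κ ∈ hfin.toFinset := by
    rw [Set.Finite.mem_toFinset]
    exact Z.kappa_mem n
  rw [finsum_mem_eq_finite_toFinset_sum _ hfin, ← Finset.add_sum_erase _ _ hk]
  have h2 : ∀ x ∈ hfin.toFinset.erase (Z.cl Z.κ),
      (1 : ℤ) * ((Z.q : ℤ) ^ (n * Z.ll x) - 1) = ((Z.q : ℤ) ^ n) ^ (Z.g - 1) - 1 := by
    intro x hx
    rw [Finset.mem_erase, Set.Finite.mem_toFinset] at hx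
    have h3 := Z.ll_crit_ne x hx.2.1 hx.1
    have h4 : Z.ll x = Z.g - 1 := by omega
    rw [one_mul, h4, pow_mul]
  rw [Finset.sum_congr rfl h2, Finset.sum_const, nsmul_eq_mul, Finset.card_erase_of_mem hk,
    ← Set.ncard_eq_toFinset_card _ hfin, Z.card_PM, Z.ll_crit_eq, one_mul, pow_mul,
    Nat.cast_sub (Z.hh_pos n hn)]
  push_cast
  ring

theorem tw_large (n : ℕ) (hn : 0 < n) (χ : Z.Pic → ℂ) (hχ : ∀ x y, χ (x + y) = χ x * χ y)
    (j : Z.Pic) (hj : j ∈ Z.PM n 0) (hj1 : χ j ≠ 1) (M : ℕ) (hM : 2 * Z.g ≤ M + 1) :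
    ac (Z.σ ^ n) (fun D => χ (Z.cl D)) M = 0 := by
  have h := Z.ac_eq (R := ℂ) n hn χ M
  have hfin := Z.PM_finite n hn M
  have hll : ∀ x ∈ Z.PM n M, Z.ll x = M + 1 - Z.g := by
    intro x hx
    have h1 := Z.ll_large x (by rw [hx.1]; omega)
    rw [hx.1] at h1
    omega
  have h2 : ∑ᶠ x ∈ Z.PM n M, χ x * ((Z.q : ℂ) ^ (n * Z.ll x) - 1) =
      (∑ x ∈ hfin.toFinset, χ x) * ((Z.q : ℂ) ^ (n * (M + 1 - Z.g)) - 1) := by
    rw [finsum_mem_eq_finite_toFinset_sum _ hfin, Finset.sum_mul]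
    refine Finset.sum_congr rfl fun x hx => ?_
    rw [Set.Finite.mem_toFinset] at hx
    rw [hll x hx]
  have h3 : ∑ x ∈ hfin.toFinset, χ x = χ j * ∑ x ∈ hfin.toFinset, χ x := by
    rw [Finset.mul_sum]
    refine (Finset.sum_bij (fun x _ => j + x) ?_ ?_ ?_ ?_).symm
    · intro x hx
      rw [Set.Finite.mem_toFinset] at hx ⊢
      refine ⟨by rw [map_add, hj.1, hx.1, zero_add], by rw [map_add, hj.2, hx.2]⟩
    · intro x _ y _ hxy
      exact add_left_cancel hxy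
    · intro x hx
      rw [Set.Finite.mem_toFinset] at hx
      refine ⟨-j + x, ?_, by abel⟩
      rw [Set.Finite.mem_toFinset]
      refine ⟨by rw [map_add, map_neg, hj.1, hx.1, neg_zero, zero_add],
        by rw [map_add, map_neg, hj.2, hx.2]⟩
    · intro x _
      rw [hχ]
  have h4 : ∑ x ∈ hfin.toFinset, χ x = 0 := by
    have h5 : (1 - χ j) * ∑ x ∈ hfin.toFinset, χ x = 0 := by
      rw [sub_mul, one_mul, ← h3, sub_self]
    exact (mul_eq_zero.1 h5).resolve_left (sub_ne_zero.2 (Ne.symm hj1))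
  rw [h2, h4, zero_mul] at h
  refine (mul_eq_zero.1 h).resolve_left ?_
  have h6 : (1 : ℕ) < Z.q ^ n := Nat.one_lt_pow hn.ne' (lt_of_lt_of_le one_lt_two Z.two_le)
  intro h7
  have h8 : ((Z.q ^ n : ℕ) : ℂ) = ((1 : ℕ) : ℂ) := by
    push_cast
    exact sub_eq_zero.1 h7
  have h9 := Nat.cast_injective h8
  omega

end ZDat

end Vale.Agent.P019P
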