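import Vale.Agent.P019Q.Dg

/-!
# The abstract zeta theorem: data
-/

namespace Vale.Agent.P019P

/-- the data of a curve over (the closure of) a finite field needed for the zeta function:
`P` is the set of places, `σ` the `q`-Frobenius. -/
structure ZDat (P : Type*) where
  σ : Equiv.Perm P
  q : ℕ
  g : ℕ
  prin : AddSubgroup (P →₀ ℤ)
  l : (P →₀ ℤ) → ℕ
  κ : P →₀ ℤ
  P0 : P
  two_le : 2 ≤ q
  fix0 : σ P0 = P0
  per : ∀ p, ∃ n : ℕ, 0 < n ∧ (σ ^ n) p = p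
  fin : ∀ n : ℕ, 0 < n → {p | (σ ^ n) p = p}.Finite
  deg_prin : ∀ D ∈ prin, dg D = 0
  sig_prin : ∀ D, D ∈ prin ↔ D.mapDomain σ ∈ prin
  rr : ∀ D, (l D : ℤ) - l (κ - D) = dg D + 1 - g
  l_neg : ∀ D, dg D < 0 → l D = 0
  l_prin : ∀ D ∈ prin, l D = 1
  l_zero : ∀ D, dg D = 0 → D ∉ prin → l D = 0
  count : ∀ n : ℕ, 0 < n → ∀ D, D.mapDomain (σ ^ n) - D ∈ prin →
    Nat.card {E : P →₀ ℤ // 0 ≤ E ∧ E.mapDomain (σ ^ n) = E ∧ E - D ∈ prin} * (q ^ n - 1) =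
      q ^ (n * l D) - 1

end Vale.Agent.P019P
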