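import Vale.Agent.P019Q.ZEulA

/-!
# The Euler product of the zeta function, as a counting identity
-/

namespace Vale.Agent.P019P

open Finsupp

variable {P : Type*}

theorem eulB_dg_eq (D : P →₀ ℤ) {S : Finset P} (h : D.support ⊆ S) : dg D = ∑ p ∈ S, D p := by
  unfold dg
  rw [Finsupp.liftAddHom_apply, Finsupp.sum]
  simp only [AddMonoidHom.id_apply]
  exact Finset.sum_subset h (fun p _ hp => by simpa using hp)

theorem eulB_dg_nonneg {D : P →₀ ℤ} (h : 0 ≤ D) : 0 ≤ dg D := by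
  rw [eulB_dg_eq D (Finset.Subset.refl _)]
  exact Finset.sum_nonneg fun p _ => h p

theorem eulB_inv {τ : Equiv.Perm P} {E : P →₀ ℤ} (h : E.mapDomain τ = E) (q : P) :
    E (τ q) = E q := by
  conv_lhs => rw [← h]
  exact Finsupp.mapDomain_apply τ.injective E q

theorem eulB_inv_pow {τ : Equiv.Perm P} {E : P →₀ ℤ} (h : E.mapDomain τ = E) (q : P) (i : ℕ) :
    E ((τ ^ i) q) = E q := by
  induction i with
  | zero => simp
  | succ i ih => rw [pow_succ', Equiv.Perm.mul_apply, eulB_inv h, ih]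

/-- the orbit divisor. -/
noncomputable def eulB_orb (τ : Equiv.Perm P) (p : P) (r : ℕ) : P →₀ ℤ :=
  ∑ i ∈ Finset.range r, single ((τ ^ i) p) 1

theorem eulB_orb_inv (τ : Equiv.Perm P) (p : P) (r : ℕ) (hr : (τ ^ r) p = p) :
    (eulB_orb τ p r).mapDomain τ = eulB_orb τ p r := by
  unfold eulB_orb
  rw [Finsupp.mapDomain_finsetSum]
  simp only [Finsupp.mapDomain_single]
  have h1 : ∀ i, τ ((τ ^ i) p) = (τ ^ (i + 1)) p := fun i => by
    rw [pow_succ', Equiv.Perm.mul_apply]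
  simp only [h1]
  have h2 := Finset.sum_range_succ (fun i => (single ((τ ^ i) p) (1 : ℤ))) r
  have h3 := Finset.sum_range_succ' (fun i => (single ((τ ^ i) p) (1 : ℤ))) r
  rw [h2, hr] at h3
  simp only [pow_zero, Equiv.Perm.one_apply] at h3
  exact (add_right_cancel h3).symm

theorem eulB_orb_self {τ : Equiv.Perm P} {p : P} {r : ℕ} (hr0 : 0 < r)
    (hmin : ∀ i, 0 < i → i < r → (τ ^ i) p ≠ p) : eulB_orb τ p r p = 1 := by
  classical
  unfold eulB_orb
  rw [Finsupp.finsetSum_apply, Finset.sum_eq_single 0]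
  · simp
  · intro i hi h0
    rw [Finsupp.single_apply, if_neg (hmin i (Nat.pos_of_ne_zero h0) (Finset.mem_range.1 hi))]
  · intro h
    exact absurd (Finset.mem_range.2 hr0) h

theorem eulB_orb_nonneg (τ : Equiv.Perm P) (p : P) (r : ℕ) : 0 ≤ eulB_orb τ p r := by
  classical
  intro q
  unfold eulB_orb
  rw [Finsupp.finsetSum_apply]
  refine Finset.sum_nonneg fun i _ => ?_
  rw [Finsupp.single_apply]
  split_ifs <;> simp

theorem eulB_orb_le {τ : Equiv.Perm P} {p : P} {r : ℕ} (hr0 : 0 < r) (hr : (τ ^ r) p = p)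
    (hmin : ∀ i, 0 < i → i < r → (τ ^ i) p ≠ p) {D : P →₀ ℤ} (hD : 0 ≤ D)
    (hDi : D.mapDomain τ = D) (hp : D p ≠ 0) : eulB_orb τ p r ≤ D := by
  classical
  intro q
  by_cases hq : ∃ i : ℕ, (τ ^ i) p = q
  · obtain ⟨i, rfl⟩ := hq
    rw [eulB_inv_pow (eulB_orb_inv τ p r hr), eulB_inv_pow hDi, eulB_orb_self hr0 hmin]
    have h1 : 0 ≤ D p := hD p
    omega
  · have h0 : eulB_orb τ p r q = 0 := by
      unfold eulB_orb
      rw [Finsupp.finsetSum_apply]
      refine Finset.sum_eq_zero fun i _ => ?_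
      rw [Finsupp.single_apply, if_neg (fun h => hq ⟨i, h⟩)]
    rw [h0]
    exact hD q

theorem eulB_dg_orb (τ : Equiv.Perm P) (p : P) (r : ℕ) : dg (eulB_orb τ p r) = r := by
  unfold eulB_orb dg
  rw [map_sum]
  simp

theorem eulB_chi_pow {R : Type*} [CommRing R] {τ : Equiv.Perm P} {χ : (P →₀ ℤ) → R}
    (hχτ : ∀ p, χ (single (τ p) 1) = χ (single p 1)) (p : P) (i : ℕ) :
    χ (single ((τ ^ i) p) 1) = χ (single p 1) := by
  induction i with
  | zero => simp
  | succ i ih => rw [pow_succ', Equiv.Perm.mul_apply, hχτ, ih]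

theorem eulB_chi_orb {R : Type*} [CommRing R] {τ : Equiv.Perm P} {χ : (P →₀ ℤ) → R}
    (hχ0 : χ 0 = 1) (hχ : ∀ D E, χ (D + E) = χ D * χ E)
    (hχτ : ∀ p, χ (single (τ p) 1) = χ (single p 1)) (p : P) (r : ℕ) :
    χ (eulB_orb τ p r) = χ (single p 1) ^ r := by
  induction r with
  | zero => simp [eulB_orb, hχ0]
  | succ r ih =>
    have e : eulB_orb τ p (r + 1) = eulB_orb τ p r + single ((τ ^ r) p) 1 := by
      unfold eulB_orb
      rw [Finset.sum_range_succ]
    rw [e, hχ, ih, eulB_chi_pow hχτ, pow_succ]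

/-- removing an orbit. -/
theorem eulB_sub {τ : Equiv.Perm P} {p : P} {r : ℕ} (hr0 : 0 < r) (hr : (τ ^ r) p = p)
    (hmin : ∀ i, 0 < i → i < r → (τ ^ i) p ≠ p) {M : ℕ} {D : P →₀ ℤ} (hD : D ∈ Eff τ M)
    (hp : D p ≠ 0) : r ≤ M ∧ D - eulB_orb τ p r ∈ Eff τ (M - r) := by
  obtain ⟨h1, h2, h3⟩ := hD
  have h4 : 0 ≤ D - eulB_orb τ p r := sub_nonneg.2 (eulB_orb_le hr0 hr hmin h1 h2 hp)
  have h5 : dg (D - eulB_orb τ p r) = (M : ℤ) - r := by rw [map_sub, h3, eulB_dg_orb]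
  have h6 := eulB_dg_nonneg h4
  rw [h5] at h6
  have h7 : r ≤ M := by omega
  refine ⟨h7, h4, ?_, ?_⟩
  · have e : D - eulB_orb τ p r = D + -(eulB_orb τ p r) := sub_eq_add_neg _ _
    have e2 : (-(eulB_orb τ p r)).mapDomain τ = -(eulB_orb τ p r) := by
      have := eulB_orb_inv τ p r hr
      have h8 : (eulB_orb τ p r + -(eulB_orb τ p r)).mapDomain τ = 0 := by
        rw [add_neg_cancel, Finsupp.mapDomain_zero]
      rw [Finsupp.mapDomain_add, this] at h8
      exact (neg_eq_of_add_eq_zero_right h8).symm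
    rw [e, Finsupp.mapDomain_add, h2, e2]
  · rw [h5, Nat.cast_sub h7]

/-- adding an orbit. -/
theorem eulB_add {τ : Equiv.Perm P} {p : P} {r : ℕ} (hr : (τ ^ r) p = p) {M : ℕ} (hrM : r ≤ M)
    {D : P →₀ ℤ} (hD : D ∈ Eff τ (M - r)) : D + eulB_orb τ p r ∈ Eff τ M := by
  obtain ⟨h1, h2, h3⟩ := hD
  refine ⟨add_nonneg h1 (eulB_orb_nonneg τ p r), ?_, ?_⟩
  · rw [Finsupp.mapDomain_add, h2, eulB_orb_inv τ p r hr]
  · rw [map_add, h3, eulB_dg_orb, Nat.cast_sub hrM, sub_add_cancel]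

/-- the weighted number of points. -/
theorem eulB_step {R : Type*} [CommRing R] {τ : Equiv.Perm P}
    (hfin : ∀ n : ℕ, 0 < n → {p | (τ ^ n) p = p}.Finite) {χ : (P →₀ ℤ) → R} (hχ0 : χ 0 = 1)
    (hχ : ∀ D E, χ (D + E) = χ D * χ E) (hχτ : ∀ p, χ (single (τ p) 1) = χ (single p 1))
    {p : P} {r : ℕ} (hr0 : 0 < r) (hr : (τ ^ r) p = p)
    (hmin : ∀ i, 0 < i → i < r → (τ ^ i) p ≠ p) {M : ℕ} (hrM : r ≤ M) :
    ∑ D ∈ (eff_finite τ hfin M).toFinset, ((D p : ℤ) : R) * χ D =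
      χ (single p 1) ^ r * ((∑ D ∈ (eff_finite τ hfin (M - r)).toFinset, ((D p : ℤ) : R) * χ D) +
        ac τ χ (M - r)) := by
  have hac : ac τ χ (M - r) = ∑ D ∈ (eff_finite τ hfin (M - r)).toFinset, χ D := by
    unfold ac
    exact finsum_mem_eq_finite_toFinset_sum _ _
  rw [hac, ← Finset.sum_add_distrib, Finset.mul_sum]
  symm
  refine Finset.sum_of_injOn (fun D => D + eulB_orb τ p r) ?_ ?_ ?_ ?_
  · intro D _ E _ h
    exact add_right_cancel h
  · intro D hD
    rw [Finset.mem_coe, Set.Finite.mem_toFinset] at hD ⊢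
    exact eulB_add hr hrM hD
  · intro D hD hn
    rw [Set.Finite.mem_toFinset] at hD
    by_cases hp : D p = 0
    · rw [hp]; simp
    · exfalso
      refine hn ⟨D - eulB_orb τ p r, ?_, sub_add_cancel _ _⟩
      rw [Finset.mem_coe, Set.Finite.mem_toFinset]
      exact (eulB_sub hr0 hr hmin hD hp).2
  · intro D _
    rw [hχ, eulB_chi_orb hχ0 hχ hχτ, Finsupp.add_apply, eulB_orb_self hr0 hmin]
    push_cast
    ring

theorem eulB_step0 {R : Type*} [CommRing R] {τ : Equiv.Perm P}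
    (hfin : ∀ n : ℕ, 0 < n → {p | (τ ^ n) p = p}.Finite) {χ : (P →₀ ℤ) → R}
    {p : P} {r : ℕ} (hr0 : 0 < r) (hr : (τ ^ r) p = p)
    (hmin : ∀ i, 0 < i → i < r → (τ ^ i) p ≠ p) {M : ℕ} (hrM : M < r) :
    ∑ D ∈ (eff_finite τ hfin M).toFinset, ((D p : ℤ) : R) * χ D = 0 := by
  refine Finset.sum_eq_zero fun D hD => ?_
  rw [Set.Finite.mem_toFinset] at hD
  by_cases hp : D p = 0
  · rw [hp]; simp
  · exact absurd (eulB_sub hr0 hr hmin hD hp).1 (not_le.2 hrM)

theorem eulB_dvd {τ : Equiv.Perm P} {p : P} {r : ℕ} (hr : (τ ^ r) p = p)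
    (m : ℕ) : (τ ^ (r + m)) p = p ↔ (τ ^ m) p = p := by
  rw [add_comm, pow_add, Equiv.Perm.mul_apply, hr]

open Classical in
/-- the contribution of one point. -/
theorem eulB_point {R : Type*} [CommRing R] {τ : Equiv.Perm P}
    (hfin : ∀ n : ℕ, 0 < n → {p | (τ ^ n) p = p}.Finite) {χ : (P →₀ ℤ) → R} (hχ0 : χ 0 = 1)
    (hχ : ∀ D E, χ (D + E) = χ D * χ E) (hχτ : ∀ p, χ (single (τ p) 1) = χ (single p 1))
    {p : P} {r : ℕ} (hr0 : 0 < r) (hr : (τ ^ r) p = p)
    (hmin : ∀ i, 0 < i → i < r → (τ ^ i) p ≠ p) (M : ℕ) :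
    ∑ D ∈ (eff_finite τ hfin M).toFinset, ((D p : ℤ) : R) * χ D =
      ∑ m ∈ Finset.Icc 1 M, (if (τ ^ m) p = p then χ (single p 1) ^ m else 0) *
        ac τ χ (M - m) := by
  induction M using Nat.strong_induction_on with
  | _ M ih =>
    rcases Nat.lt_or_ge M r with h | h
    · rw [eulB_step0 hfin hr0 hr hmin h]
      symm
      refine Finset.sum_eq_zero fun m hm => ?_
      have h1 := Finset.mem_Icc.1 hm
      rw [if_neg (hmin m (by omega) (by omega)), zero_mul]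
    · rw [eulB_step hfin hχ0 hχ hχτ hr0 hr hmin h, ih (M - r) (by omega)]
      have e1 : Finset.Icc 1 M = Finset.Ico 1 r ∪ Finset.Icc r M := by
        ext x
        simp only [Finset.mem_union, Finset.mem_Icc, Finset.mem_Ico]
        omega
      have e2 : Finset.Icc r M = insert r ((Finset.Icc 1 (M - r)).map (addLeftEmbedding r)) := by
        ext x
        simp only [Finset.mem_insert, Finset.mem_Icc, Finset.mem_map, addLeftEmbedding_apply]
        constructor
        · rintro ⟨h1, h2⟩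
          rcases Nat.eq_or_lt_of_le h1 with h3 | h3
          · exact Or.inl h3.symm
          · exact Or.inr ⟨x - r, ⟨by omega, by omega⟩, by omega⟩
        · rintro (rfl | ⟨y, ⟨h1, h2⟩, rfl⟩)
          · omega
          · omega
      have hd : Disjoint (Finset.Ico 1 r) (Finset.Icc r M) := by
        rw [Finset.disjoint_left]
        intro x hx hx'
        have := Finset.mem_Ico.1 hx
        have := Finset.mem_Icc.1 hx'
        omega
      have hni : r ∉ (Finset.Icc 1 (M - r)).map (addLeftEmbedding r) := by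
        simp only [Finset.mem_map, Finset.mem_Icc, addLeftEmbedding_apply, not_exists]
        omega
      rw [e1, Finset.sum_union hd, e2, Finset.sum_insert hni, Finset.sum_map]
      have z1 : ∑ x ∈ Finset.Ico 1 r, (if (τ ^ x) p = p then χ (single p 1) ^ x else 0) *
          ac τ χ (M - x) = 0 := by
        refine Finset.sum_eq_zero fun m hm => ?_
        have h1 := Finset.mem_Ico.1 hm
        rw [if_neg (hmin m (by omega) (by omega)), zero_mul]
      rw [z1, zero_add, if_pos hr, mul_add, add_comm, Finset.mul_sum]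
      congr 1
      refine Finset.sum_congr rfl fun m _ => ?_
      have e3 : M - (addLeftEmbedding r) m = M - r - m := by
        rw [addLeftEmbedding_apply]; omega
      rw [e3, addLeftEmbedding_apply, eulB_dvd hr, pow_add]
      split_ifs <;> ring

theorem eulB_period {τ : Equiv.Perm P} {M : ℕ} {D : P →₀ ℤ} (hD : D ∈ Eff τ M) {p : P}
    (hp : p ∈ D.support) : ∃ m : ℕ, 0 < m ∧ (τ ^ m) p = p := by
  have h1 : ∀ i : ℕ, (τ ^ i) p ∈ D.support := by
    intro i
    rw [Finsupp.mem_support_iff, eulB_inv_pow hD.2.1]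
    exact Finsupp.mem_support_iff.1 hp
  obtain ⟨i, j, hij, h⟩ := Finite.exists_ne_map_eq_of_infinite
    (fun i : ℕ => (⟨(τ ^ i) p, h1 i⟩ : D.support))
  have h2 : (τ ^ i) p = (τ ^ j) p := congrArg Subtype.val h
  have key : ∀ {i j : ℕ}, i < j → (τ ^ i) p = (τ ^ j) p → ∃ m : ℕ, 0 < m ∧ (τ ^ m) p = p := by
    intro i j hij h
    refine ⟨j - i, by omega, ?_⟩
    have e : j = i + (j - i) := by omega
    rw [e, pow_add, Equiv.Perm.mul_apply] at h
    exact ((τ ^ i).injective h).symm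
  rcases Nat.lt_or_gt_of_ne hij with h3 | h3
  · exact key h3 h2
  · exact key h3 h2.symm

theorem euler {R : Type*} [CommRing R] (τ : Equiv.Perm P)
    (hfin : ∀ n : ℕ, 0 < n → {p | (τ ^ n) p = p}.Finite) (χ : (P →₀ ℤ) → R) (hχ0 : χ 0 = 1)
    (hχ : ∀ D E, χ (D + E) = χ D * χ E) (hχτ : ∀ p, χ (single (τ p) 1) = χ (single p 1)) (M : ℕ) :
    (M : R) * ac τ χ M = ∑ m ∈ Finset.Icc 1 M, sc τ χ m * ac τ χ (M - m) := by
  classical
  set T : ℕ → Finset P := fun m => if h : 0 < m then (hfin m h).toFinset else ∅ with hT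
  set S : Finset P := (eff_finite τ hfin M).toFinset.biUnion (fun D => D.support) ∪
    (Finset.Icc 1 M).biUnion T with hS
  have hac : ac τ χ M = ∑ D ∈ (eff_finite τ hfin M).toFinset, χ D := by
    unfold ac
    exact finsum_mem_eq_finite_toFinset_sum _ _
  have hper : ∀ p ∈ S, ∃ m : ℕ, 0 < m ∧ (τ ^ m) p = p := by
    intro p hp
    rw [hS, Finset.mem_union, Finset.mem_biUnion, Finset.mem_biUnion] at hp
    rcases hp with ⟨D, hD, hp⟩ | ⟨m, hm, hp⟩
    · rw [Set.Finite.mem_toFinset] at hD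
      exact eulB_period hD hp
    · have hm0 : 0 < m := (Finset.mem_Icc.1 hm).1
      simp only [hT, dif_pos hm0, Set.Finite.mem_toFinset, Set.mem_ofPred_eq] at hp
      exact ⟨m, hm0, hp⟩
  have hpt : ∀ p ∈ S, ∑ D ∈ (eff_finite τ hfin M).toFinset, ((D p : ℤ) : R) * χ D =
      ∑ m ∈ Finset.Icc 1 M, (if (τ ^ m) p = p then χ (single p 1) ^ m else 0) *
        ac τ χ (M - m) := by
    intro p hp
    have hex := hper p hp
    exact eulB_point hfin hχ0 hχ hχτ (Nat.find_spec hex).1 (Nat.find_spec hex).2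
      (fun i hi0 hi h => Nat.find_min hex hi ⟨hi0, h⟩) M
  have hsc : ∀ m ∈ Finset.Icc 1 M, sc τ χ m =
      ∑ p ∈ S, if (τ ^ m) p = p then χ (single p 1) ^ m else 0 := by
    intro m hm
    have hm0 : 0 < m := (Finset.mem_Icc.1 hm).1
    have e1 : sc τ χ m = ∑ p ∈ (hfin m hm0).toFinset, χ (single p 1) ^ m := by
      unfold sc
      exact finsum_mem_eq_finite_toFinset_sum _ _
    rw [e1, ← Finset.sum_filter]
    refine Finset.sum_congr ?_ fun _ _ => rfl
    ext p
    rw [Set.Finite.mem_toFinset, Finset.mem_filter, Set.mem_ofPred_eq]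
    constructor
    · intro h
      refine ⟨?_, h⟩
      rw [hS, Finset.mem_union]
      refine Or.inr (Finset.mem_biUnion.2 ⟨m, hm, ?_⟩)
      simp only [hT, dif_pos hm0, Set.Finite.mem_toFinset, Set.mem_ofPred_eq]
      exact h
    · exact fun h => h.2
  calc (M : R) * ac τ χ M = ∑ D ∈ (eff_finite τ hfin M).toFinset, ∑ p ∈ S,
        ((D p : ℤ) : R) * χ D := by
        rw [hac, Finset.mul_sum]
        refine Finset.sum_congr rfl fun D hD => ?_
        have hDS : D.support ⊆ S := by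
          intro p hp
          rw [hS, Finset.mem_union]
          exact Or.inl (Finset.mem_biUnion.2 ⟨D, hD, hp⟩)
        have h1 := eulB_dg_eq D hDS
        rw [Set.Finite.mem_toFinset] at hD
        rw [hD.2.2] at h1
        rw [← Finset.sum_mul]
        congr 1
        have h2 := congrArg (fun z : ℤ => (z : R)) h1
        simpa using h2
    _ = ∑ p ∈ S, ∑ D ∈ (eff_finite τ hfin M).toFinset, ((D p : ℤ) : R) * χ D :=
        Finset.sum_comm
    _ = ∑ p ∈ S, ∑ m ∈ Finset.Icc 1 M, (if (τ ^ m) p = p then χ (single p 1) ^ m else 0) *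
        ac τ χ (M - m) := Finset.sum_congr rfl hpt
    _ = ∑ m ∈ Finset.Icc 1 M, ∑ p ∈ S, (if (τ ^ m) p = p then χ (single p 1) ^ m else 0) *
        ac τ χ (M - m) := Finset.sum_comm
    _ = ∑ m ∈ Finset.Icc 1 M, sc τ χ m * ac τ χ (M - m) := by
        refine Finset.sum_congr rfl fun m hm => ?_
        rw [hsc m hm, Finset.sum_mul]

theorem LD_ac {R : Type*} [CommRing R] (τ : Equiv.Perm P)
    (hfin : ∀ n : ℕ, 0 < n → {p | (τ ^ n) p = p}.Finite) (χ : (P →₀ ℤ) → R) (hχ0 : χ 0 = 1)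
    (hχ : ∀ D E, χ (D + E) = χ D * χ E) (hχτ : ∀ p, χ (single (τ p) 1) = χ (single p 1)) :
    LD (PowerSeries.mk (ac τ χ)) (pos (sc τ χ)) :=
  LD_of_rec _ _ (euler τ hfin χ hχ0 hχ hχτ)

end Vale.Agent.P019P
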