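import Mathlib

/-!
# Locally finite automorphisms: the tower of fixed groups
-/

namespace Vale.Agent.P019P

/-- the orders of the fixed groups grow like those of an abelian variety. -/
structure Grow (ℓ N : ℕ) (h : ℕ → ℕ) : Prop where
  pos : ∀ n, 0 < n → 0 < h n
  ex : ∃ n0 : ℕ, 0 < n0 ∧
    (∀ n, 0 < n → n0 ∣ n → padicValNat ℓ (h (n * ℓ)) = padicValNat ℓ (h n) + N) ∧
    (∀ n r, 0 < n → n0 ∣ n → ¬ ℓ ∣ r → padicValNat ℓ (h (n * r)) = padicValNat ℓ (h n))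

/-- the tower of `ℓ`-primary fixed groups. -/
structure Tower {J : Type*} [AddCommGroup J] (φ : AddMonoid.End J) (ℓ N c : ℕ) : Prop where
  card : ∀ m : ℕ, Nat.card {x : J // (φ ^ ℓ ^ m) x = x ∧ ∃ k : ℕ, ℓ ^ k • x = 0} = ℓ ^ (c + N * m)
  ex : ∀ x : J, (∃ k : ℕ, ℓ ^ k • x = 0) → ∃ m : ℕ, (φ ^ ℓ ^ m) x = x

/-- the `ℓ`-primary part of a finite abelian group has `ℓ ^ v` elements (multiplicative form). -/
theorem zgA_primary_mul {G : Type*} [CommGroup G] [Finite G] {ℓ : ℕ} (hℓ : ℓ.Prime) :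
    Nat.card {x : G // ∃ k : ℕ, x ^ ℓ ^ k = 1} = ℓ ^ padicValNat ℓ (Nat.card G) := by
  have := Fact.mk hℓ
  obtain ⟨P⟩ : Nonempty (Sylow ℓ G) := inferInstance
  have hu := Sylow.unique_of_normal P inferInstance
  have hcard := Sylow.card_eq_multiplicity P
  rw [Nat.factorization_def _ hℓ] at hcard
  rw [← hcard]
  apply Nat.card_congr
  refine Equiv.subtypeEquivRight fun x => ?_
  constructor
  · rintro ⟨k, hk⟩
    have hz : IsPGroup ℓ (Subgroup.zpowers x) := by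
      rintro ⟨y, hy⟩
      obtain ⟨j, rfl⟩ := Subgroup.mem_zpowers_iff.1 hy
      refine ⟨k, ?_⟩
      ext
      simp only [Subgroup.coe_pow, Subgroup.coe_one]
      rw [← zpow_natCast, ← zpow_mul, mul_comm, zpow_mul, zpow_natCast, hk, one_zpow]
    obtain ⟨Q, hQ⟩ := hz.exists_le_sylow
    have hQP : Q = P := Subsingleton.elim _ _
    rw [← hQP]
    exact hQ (Subgroup.mem_zpowers x)
  · intro hx
    obtain ⟨k, hk⟩ := P.isPGroup' ⟨x, hx⟩
    refine ⟨k, ?_⟩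
    have := congrArg Subtype.val hk
    simpa using this

/-- the `ℓ`-primary part of a finite abelian group has `ℓ ^ v` elements. -/
theorem zgA_primary {F : Type*} [AddCommGroup F] [Finite F] {ℓ : ℕ} (hℓ : ℓ.Prime) :
    Nat.card {x : F // ∃ k : ℕ, ℓ ^ k • x = 0} = ℓ ^ padicValNat ℓ (Nat.card F) := by
  have : Finite (Multiplicative F) := inferInstanceAs (Finite F)
  exact zgA_primary_mul (G := Multiplicative F) hℓ

/-- the fixed points of an endomorphism. -/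
def ZgAFixed {J : Type*} [AddCommGroup J] (φ : AddMonoid.End J) : AddSubgroup J where
  carrier := {x | φ x = x}
  zero_mem' := map_zero φ
  add_mem' := by
    intro a b ha hb
    simp only [Set.mem_ofPred_eq] at *
    rw [map_add, ha, hb]
  neg_mem' := by
    intro a ha
    simp only [Set.mem_ofPred_eq] at *
    rw [map_neg, ha]

theorem zgA_fixed_primary {J : Type*} [AddCommGroup J] (φ : AddMonoid.End J) {ℓ : ℕ}
    (hℓ : ℓ.Prime) (hfin : {x : J | φ x = x}.Finite) :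
    Nat.card {x : J // φ x = x ∧ ∃ k : ℕ, ℓ ^ k • x = 0} =
      ℓ ^ padicValNat ℓ (Nat.card {x : J // φ x = x}) := by
  have : Finite (ZgAFixed φ) := hfin
  have h := zgA_primary (F := ZgAFixed φ) hℓ
  have e1 : Nat.card (ZgAFixed φ) = Nat.card {x : J // φ x = x} := rfl
  rw [← e1, ← h]
  refine Nat.card_congr ?_
  refine ⟨fun x => ⟨⟨x.1, x.2.1⟩, ?_⟩, fun y => ⟨y.1.1, y.1.2, ?_⟩, fun x => rfl, fun y => rfl⟩
  · obtain ⟨k, hk⟩ := x.2.2
    exact ⟨k, Subtype.ext hk⟩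
  · obtain ⟨k, hk⟩ := y.2
    exact ⟨k, congrArg Subtype.val hk⟩

theorem zgA_fix_pow {J : Type*} [AddCommGroup J] (φ : AddMonoid.End J) {x : J} (hx : φ x = x)
    (r : ℕ) : (φ ^ r) x = x := by
  induction r with
  | zero => simp
  | succ r ih =>
    rw [pow_succ]
    change (φ ^ r) (φ x) = x
    rw [hx, ih]

theorem exists_tower {J : Type*} [AddCommGroup J] (s : AddMonoid.End J) {ℓ N : ℕ}
    (hℓ : ℓ.Prime) (hper : ∀ x : J, ∃ n : ℕ, 0 < n ∧ (s ^ n) x = x)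
    (hfin : ∀ n : ℕ, 0 < n → {x : J | (s ^ n) x = x}.Finite)
    (hg : Grow ℓ N (fun n => Nat.card {x : J // (s ^ n) x = x})) :
    ∃ n0 c : ℕ, Tower (s ^ n0) ℓ N c := by
  obtain ⟨hpos, n0, hn0, hg1, hg2⟩ := hg
  have hl0 : 0 < ℓ := hℓ.pos
  have hstep : ∀ m : ℕ, padicValNat ℓ (Nat.card {x : J // (s ^ (n0 * ℓ ^ m)) x = x}) =
      padicValNat ℓ (Nat.card {x : J // (s ^ n0) x = x}) + N * m := by
    intro m
    induction m with
    | zero => simp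
    | succ m ih =>
      have h := hg1 (n0 * ℓ ^ m) (by positivity) (Dvd.intro _ rfl)
      rw [pow_succ, ← mul_assoc, h, ih]
      ring
  refine ⟨n0, padicValNat ℓ (Nat.card {x : J // (s ^ n0) x = x}), ?_, ?_⟩
  · intro m
    rw [← pow_mul, zgA_fixed_primary _ hℓ (hfin _ (by positivity)), hstep]
  · rintro x ⟨k, hk⟩
    obtain ⟨n, hn, hx⟩ := hper x
    obtain ⟨m, r, hr, rfl⟩ := Nat.exists_eq_pow_mul_and_not_dvd hn.ne' ℓ hℓ.ne_one
    refine ⟨m, ?_⟩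
    rw [← pow_mul]
    have hr0 : 0 < r := Nat.pos_of_ne_zero fun h => hr (h ▸ dvd_zero ℓ)
    have hv := hg2 (n0 * ℓ ^ m) r (by positivity) (Dvd.intro _ rfl) hr
    have hA := zgA_fixed_primary (s ^ (n0 * ℓ ^ m)) hℓ (hfin _ (by positivity))
    have hB := zgA_fixed_primary (s ^ (n0 * ℓ ^ m * r)) hℓ (hfin _ (by positivity))
    have hsub : {x : J | (s ^ (n0 * ℓ ^ m)) x = x ∧ ∃ k : ℕ, ℓ ^ k • x = 0} ⊆
        {x : J | (s ^ (n0 * ℓ ^ m * r)) x = x ∧ ∃ k : ℕ, ℓ ^ k • x = 0} := by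
      rintro y ⟨hy, hk'⟩
      exact ⟨by rw [pow_mul]; exact zgA_fix_pow _ hy r, hk'⟩
    have hfinB : {x : J | (s ^ (n0 * ℓ ^ m * r)) x = x ∧ ∃ k : ℕ, ℓ ^ k • x = 0}.Finite :=
      (hfin (n0 * ℓ ^ m * r) (by positivity)).subset fun y hy => hy.1
    have heq := Set.eq_of_subset_of_ncard_le hsub (by
      have e1 : {x : J | (s ^ (n0 * ℓ ^ m * r)) x = x ∧ ∃ k : ℕ, ℓ ^ k • x = 0}.ncard =
          Nat.card {x : J // (s ^ (n0 * ℓ ^ m * r)) x = x ∧ ∃ k : ℕ, ℓ ^ k • x = 0} := rfl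
      have e2 : {x : J | (s ^ (n0 * ℓ ^ m)) x = x ∧ ∃ k : ℕ, ℓ ^ k • x = 0}.ncard =
          Nat.card {x : J // (s ^ (n0 * ℓ ^ m)) x = x ∧ ∃ k : ℕ, ℓ ^ k • x = 0} := rfl
      rw [e1, e2, hA, hB, hv]) hfinB
    have hxB : x ∈ {x : J | (s ^ (n0 * ℓ ^ m * r)) x = x ∧ ∃ k : ℕ, ℓ ^ k • x = 0} := by
      refine ⟨?_, k, hk⟩
      have e : n0 * ℓ ^ m * r = (ℓ ^ m * r) * n0 := by ring
      rw [e, pow_mul]
      exact zgA_fix_pow _ hx n0
    rw [← heq] at hxB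
    exact hxB.1

end Vale.Agent.P019P
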