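import Vale.Agent.P019Q.ZGrpA

/-!
# The `ℓ`-torsion is finite
-/

namespace Vale.Agent.P019P

/-- The kernel of `(φ - 1)^j` on the `ℓ`-torsion. -/
private def tK {J : Type*} [AddCommGroup J] (φ : AddMonoid.End J) (ℓ j : ℕ) : AddSubgroup J where
  carrier := {x | ℓ • x = 0 ∧ ((φ - 1) ^ j) x = 0}
  zero_mem' := ⟨smul_zero _, map_zero _⟩
  add_mem' := by
    rintro a b ⟨h1, h2⟩ ⟨h3, h4⟩
    exact ⟨by rw [smul_add, h1, h3, add_zero], by rw [map_add, h2, h4, add_zero]⟩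
  neg_mem' := by
    rintro a ⟨h1, h2⟩
    exact ⟨by rw [smul_neg, h1, neg_zero], by rw [map_neg, h2, neg_zero]⟩

private theorem mem_tK {J : Type*} [AddCommGroup J] {φ : AddMonoid.End J} {ℓ j : ℕ} {x : J} :
    x ∈ tK φ ℓ j ↔ ℓ • x = 0 ∧ ((φ - 1) ^ j) x = 0 := Iff.rfl

private theorem end_mul_apply {J : Type*} [AddCommGroup J] (f g : AddMonoid.End J) (x : J) :
    (f * g) x = f (g x) := rfl

private theorem end_add_apply {J : Type*} [AddCommGroup J] (f g : AddMonoid.End J) (x : J) :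
    (f + g) x = f x + g x := rfl

private theorem tK_succ {J : Type*} [AddCommGroup J] (φ : AddMonoid.End J) (ℓ j : ℕ) :
    tK φ ℓ j ≤ tK φ ℓ (j + 1) := by
  intro x hx
  rw [mem_tK] at hx ⊢
  refine ⟨hx.1, ?_⟩
  rw [pow_succ', end_mul_apply, hx.2, map_zero]

private theorem tK_mono {J : Type*} [AddCommGroup J] (φ : AddMonoid.End J) (ℓ : ℕ) {i j : ℕ}
    (h : i ≤ j) : tK φ ℓ i ≤ tK φ ℓ j :=
  monotone_nat_of_le_succ (tK_succ φ ℓ) h

private theorem pow_apply_tors {J : Type*} [AddCommGroup J] (φ : AddMonoid.End J) {ℓ : ℕ}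
    (hℓ : ℓ.Prime) (m : ℕ) {x : J} (hx : ℓ • x = 0) :
    (φ ^ ℓ ^ m) x = ((φ - 1) ^ ℓ ^ m) x + x := by
  obtain ⟨r, hr⟩ := Commute.exists_add_pow_prime_pow_eq hℓ
    (Commute.sub_left (Commute.one_right φ) (Commute.one_right (1 : AddMonoid.End J))) m
  rw [sub_add_cancel, one_pow, mul_assoc, mul_assoc] at hr
  rw [hr, end_add_apply, end_add_apply, end_mul_apply, AddMonoid.End.natCast_apply,
    ← map_nsmul, hx, map_zero, add_zero, AddMonoid.End.one_apply]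

/-- If the chain stabilises at `j`, every element of `K i` lies in `K j`. -/
private theorem tK_stable {J : Type*} [AddCommGroup J] (φ : AddMonoid.End J) (ℓ j : ℕ)
    (hj : tK φ ℓ (j + 1) ≤ tK φ ℓ j) (i : ℕ) : tK φ ℓ (j + i) ≤ tK φ ℓ j := by
  induction i with
  | zero => exact le_rfl
  | succ i ih =>
    intro x hx
    refine ih ?_
    rw [mem_tK] at hx ⊢
    refine ⟨hx.1, ?_⟩
    have h1 : ((φ - 1) ^ i) x ∈ tK φ ℓ (j + 1) := by
      rw [mem_tK]
      refine ⟨by rw [← map_nsmul, hx.1, map_zero], ?_⟩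
      rw [← end_mul_apply, ← pow_add, show j + 1 + i = j + (i + 1) by ring]
      exact hx.2
    have h2 := (mem_tK.1 (hj h1)).2
    rw [← end_mul_apply, ← pow_add] at h2
    exact h2

private theorem tK_finite {J : Type*} [AddCommGroup J] {φ : AddMonoid.End J} {ℓ N c : ℕ}
    (hℓ : ℓ.Prime) (h : Tower φ ℓ N c) (m : ℕ) :
    Finite (tK φ ℓ (ℓ ^ m)) ∧ Nat.card (tK φ ℓ (ℓ ^ m)) ≤ ℓ ^ (c + N * m) := by
  have hcard := h.card m
  have hpos : 0 < ℓ ^ (c + N * m) := pow_pos hℓ.pos _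
  have hfin : Finite {x : J // (φ ^ ℓ ^ m) x = x ∧ ∃ k : ℕ, ℓ ^ k • x = 0} := by
    apply Nat.finite_of_card_ne_zero
    rw [hcard]
    exact hpos.ne'
  let f : tK φ ℓ (ℓ ^ m) → {x : J // (φ ^ ℓ ^ m) x = x ∧ ∃ k : ℕ, ℓ ^ k • x = 0} :=
    fun x => ⟨x.1, by
      have hx := mem_tK.1 x.2
      refine ⟨?_, 1, by rw [pow_one]; exact hx.1⟩
      rw [pow_apply_tors φ hℓ m hx.1, hx.2, zero_add]⟩
  have hf : Function.Injective f := by
    intro x y hxy
    apply Subtype.ext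
    exact congrArg (fun z => z.1) hxy
  refine ⟨Finite.of_injective f hf, ?_⟩
  rw [← hcard]
  exact Nat.card_le_card_of_injective f hf

private theorem tK_fin {J : Type*} [AddCommGroup J] {φ : AddMonoid.End J} {ℓ N c : ℕ}
    (hℓ : ℓ.Prime) (h : Tower φ ℓ N c) (j : ℕ) : Finite (tK φ ℓ j) := by
  have := (tK_finite hℓ h j).1
  have hle : tK φ ℓ j ≤ tK φ ℓ (ℓ ^ j) := tK_mono φ ℓ (Nat.lt_pow_self hℓ.one_lt).le
  exact Finite.of_injective _ (AddSubgroup.inclusion_injective hle)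

private theorem mem_tK_of_tors {J : Type*} [AddCommGroup J] {φ : AddMonoid.End J} {ℓ N c : ℕ}
    (hℓ : ℓ.Prime) (h : Tower φ ℓ N c) {x : J} (hx : ℓ • x = 0) : ∃ m, x ∈ tK φ ℓ (ℓ ^ m) := by
  obtain ⟨m, hm⟩ := h.ex x ⟨1, by rw [pow_one]; exact hx⟩
  refine ⟨m, mem_tK.2 ⟨hx, ?_⟩⟩
  rw [pow_apply_tors φ hℓ m hx] at hm
  exact left_eq_add.1 (by rw [add_comm]; exact hm.symm)

private theorem two_mul_card_le {J : Type*} [AddCommGroup J] {K L : AddSubgroup J} (h : K < L)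
    [Finite L] : 2 * Nat.card K ≤ Nat.card L := by
  have : Finite K := Finite.of_injective _ (AddSubgroup.inclusion_injective h.le)
  have hdvd : Nat.card K ∣ Nat.card L := AddSubgroup.card_dvd_of_le h.le
  obtain ⟨d, hd⟩ := hdvd
  have hL : 0 < Nat.card L := Nat.card_pos
  have hne : Nat.card K ≠ Nat.card L := by
    intro he
    exact h.ne (AddSubgroup.eq_of_le_of_card_ge h.le he.ge)
  have hd2 : 2 ≤ d := by
    rcases d with _ | _ | d
    · simp at hd; omega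
    · simp at hd; omega
    · omega
  rw [hd, mul_comm 2]
  exact Nat.mul_le_mul_left _ hd2

private theorem arith {ℓ N c : ℕ} (hℓ : ℓ.Prime) : ∃ m : ℕ, ℓ ^ (c + N * m) < 2 ^ ℓ ^ m := by
  set k := ℓ * (c + 2 * N) with hk
  refine ⟨2 * k, ?_⟩
  have h1 : ℓ ^ (c + N * (2 * k)) ≤ 2 ^ (ℓ * (c + N * (2 * k))) := by
    rw [pow_mul]
    exact Nat.pow_le_pow_left Nat.lt_two_pow_self.le _
  refine h1.trans_lt (Nat.pow_lt_pow_right one_lt_two ?_)
  have h2 : k < ℓ ^ k := Nat.lt_pow_self hℓ.one_lt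
  have h3 : ℓ ^ (2 * k) = ℓ ^ k * ℓ ^ k := by rw [two_mul, pow_add]
  rw [h3]
  have h4 : (k + 1) * (k + 1) ≤ ℓ ^ k * ℓ ^ k := Nat.mul_le_mul h2 h2
  refine lt_of_lt_of_le ?_ h4
  have hl : 0 < ℓ := hℓ.pos
  rcases Nat.eq_zero_or_pos (c + 2 * N) with h0 | h0
  · have hc : c = 0 := by omega
    have hN : N = 0 := by omega
    subst hc; subst hN; simp
  · have hk1 : 1 ≤ k := by rw [hk]; exact Nat.mul_pos hl h0
    have h5 : ℓ * (c + N * (2 * k)) ≤ k * k := by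
      calc ℓ * (c + N * (2 * k)) ≤ ℓ * (c * k + N * (2 * k)) := by
            apply Nat.mul_le_mul_left
            have : c * 1 ≤ c * k := Nat.mul_le_mul_left _ hk1
            omega
        _ = (ℓ * (c + 2 * N)) * k := by ring
        _ = k * k := by rw [← hk]
    nlinarith

theorem Tower.finite {J : Type*} [AddCommGroup J] {φ : AddMonoid.End J} {ℓ N c : ℕ}
    (hℓ : ℓ.Prime) (h : Tower φ ℓ N c) : {x : J | ℓ • x = 0}.Finite := by
  by_cases hst : ∃ j, tK φ ℓ (j + 1) ≤ tK φ ℓ j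
  · obtain ⟨j, hj⟩ := hst
    have := tK_fin hℓ h j
    refine Set.Finite.subset (Set.toFinite (tK φ ℓ j : Set J)) ?_
    intro x hx
    obtain ⟨m, hm⟩ := mem_tK_of_tors hℓ h hx
    exact tK_stable φ ℓ j hj (ℓ ^ m) (tK_mono φ ℓ (Nat.le_add_left _ _) hm)
  · exfalso
    push Not at hst
    have hlt : ∀ j, tK φ ℓ j < tK φ ℓ (j + 1) := fun j =>
      lt_of_le_not_ge (tK_succ φ ℓ j) (hst j)
    have hpow : ∀ j, 2 ^ j ≤ Nat.card (tK φ ℓ j) := by
      intro j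
      induction j with
      | zero =>
        have := tK_fin hℓ h 0
        rw [pow_zero]
        exact Nat.card_pos
      | succ j ih =>
        have := tK_fin hℓ h (j + 1)
        rw [pow_succ, mul_comm]
        exact (Nat.mul_le_mul_left 2 ih).trans (two_mul_card_le (hlt j))
    obtain ⟨m, hm⟩ := arith (ℓ := ℓ) (N := N) (c := c) hℓ
    exact absurd ((hpow (ℓ ^ m)).trans (tK_finite hℓ h m).2) (not_le.2 hm)

end Vale.Agent.P019P
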