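import Vale.Agent.P019Q.ZGrpB

/-!
# The order of the `ℓ`-torsion of a divisible group
-/

namespace Vale.Agent.P019P

/-- Order of a subgroup through the kernel and the image of an endomorphism. -/
theorem card_ker_map {J : Type*} [AddCommGroup J] (f : J →+ J) (P : AddSubgroup J) :
    Nat.card P = Nat.card (P ⊓ f.ker : AddSubgroup J) * Nat.card (P.map f) := by
  set g : P →+ J := f.comp P.subtype with hg
  have h1 : Nat.card P = Nat.card (P ⧸ g.ker) * Nat.card g.ker :=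
    AddSubgroup.card_eq_card_quotient_mul_card_addSubgroup _
  have h2 : Nat.card (P ⧸ g.ker) = Nat.card (P.map f) := by
    rw [Nat.card_congr (QuotientAddGroup.quotientKerEquivRange g).toEquiv]
    have h3 : g.range = P.map f := by
      ext x
      constructor
      · rintro ⟨y, rfl⟩
        exact ⟨y, y.2, rfl⟩
      · rintro ⟨y, hy, rfl⟩
        exact ⟨⟨y, hy⟩, rfl⟩
    rw [h3]
  have h4 : Nat.card g.ker = Nat.card (P ⊓ f.ker : AddSubgroup J) := by
    refine Nat.card_congr ⟨fun x => ⟨x.1.1, x.1.2, x.2⟩, fun x => ⟨⟨x.1, x.2.1⟩, x.2.2⟩,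
      fun x => rfl, fun x => rfl⟩
  rw [h1, h2, h4, mul_comm]

theorem Tower.card_tors {J : Type*} [AddCommGroup J] {φ : AddMonoid.End J} {ℓ N c : ℕ}
    (hℓ : ℓ.Prime) (h : Tower φ ℓ N c) (hdiv : ∀ x : J, ∃ y, x = ℓ • y) :
    Nat.card {x : J // ℓ • x = 0} = ℓ ^ N := by
  classical
  -- the primary part
  let Jl : AddSubgroup J :=
    { carrier := {x | ∃ k : ℕ, ℓ ^ k • x = 0}
      zero_mem' := ⟨0, smul_zero _⟩
      add_mem' := by
        rintro x y ⟨k, hk⟩ ⟨l, hl⟩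
        refine ⟨k + l, ?_⟩
        rw [smul_add, pow_add, mul_smul, mul_smul, hl, smul_zero, add_zero,
          ← mul_smul, mul_comm, mul_smul, hk, smul_zero]
      neg_mem' := by
        rintro x ⟨k, hk⟩
        exact ⟨k, by rw [smul_neg, hk, neg_zero]⟩ }
  have hJl : ∀ x, x ∈ Jl ↔ ∃ k : ℕ, ℓ ^ k • x = 0 := fun _ => Iff.rfl
  let A : ℕ → AddSubgroup J := fun m =>
    { carrier := {x | (φ ^ ℓ ^ m) x = x ∧ x ∈ Jl}
      zero_mem' := ⟨map_zero _, Jl.zero_mem⟩
      add_mem' := by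
        rintro x y ⟨h1, h2⟩ ⟨h3, h4⟩
        exact ⟨by rw [map_add, h1, h3], Jl.add_mem h2 h4⟩
      neg_mem' := by
        rintro x ⟨h1, h2⟩
        exact ⟨by rw [map_neg, h1], Jl.neg_mem h2⟩ }
  have hA : ∀ m x, x ∈ A m ↔ (φ ^ ℓ ^ m) x = x ∧ x ∈ Jl := fun _ _ => Iff.rfl
  have hcard : ∀ m, Nat.card (A m) = ℓ ^ (c + N * m) := fun m => h.card m
  let V : AddSubgroup J :=
    { carrier := {x | ℓ • x = 0}
      zero_mem' := smul_zero _
      add_mem' := by
        rintro x y (h1 : ℓ • x = 0) (h2 : ℓ • y = 0)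
        show ℓ • (x + y) = 0
        rw [smul_add, h1, h2, add_zero]
      neg_mem' := by
        rintro x (h1 : ℓ • x = 0)
        show ℓ • (-x) = 0
        rw [smul_neg, h1, neg_zero] }
  have hV : ∀ x, x ∈ V ↔ ℓ • x = 0 := fun _ => Iff.rfl
  have hVfin : (V : Set J).Finite := h.finite hℓ
  have hV2fin : {x : J | ℓ • (ℓ • x) = 0}.Finite := by
    have e : {x : J | ℓ • (ℓ • x) = 0} ⊆ ⋃ v ∈ (V : Set J), {x : J | ℓ • x = v} := by
      intro x hx
      exact Set.mem_biUnion (x := ℓ • x) hx rfl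
    refine (hVfin.biUnion fun v _ => ?_).subset e
    by_cases hv : ∃ x0 : J, ℓ • x0 = v
    · obtain ⟨x0, hx0⟩ := hv
      refine (hVfin.image (fun u => x0 + u)).subset ?_
      intro x hx
      refine ⟨x - x0, ?_, add_sub_cancel _ _⟩
      show ℓ • (x - x0) = 0
      rw [smul_sub, hx0]
      exact sub_eq_zero.2 hx
    · convert Set.finite_empty
      ext x
      simp only [Set.mem_empty_iff_false, iff_false]
      exact fun hx => hv ⟨x, hx⟩
  -- powers fixing a point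
  have hpow : ∀ (f : AddMonoid.End J) (x : J), f x = x → ∀ n : ℕ, (f ^ n) x = x := by
    intro f x hx n
    induction n with
    | zero => rfl
    | succ n ih => rw [pow_succ]; show (f ^ n) (f x) = x; rw [hx, ih]
  have hmono : ∀ (x : J) (a b : ℕ), a ≤ b → (φ ^ ℓ ^ a) x = x → (φ ^ ℓ ^ b) x = x := by
    intro x a b hab hx
    have : (φ ^ ℓ ^ b : AddMonoid.End J) = (φ ^ ℓ ^ a) ^ (ℓ ^ (b - a)) := by
      rw [← pow_mul, ← pow_add, Nat.add_sub_cancel' hab]
    rw [this]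
    exact hpow _ _ hx _
  obtain ⟨m, hm⟩ : ∃ m : ℕ, ∀ x : J, ℓ • (ℓ • x) = 0 → (φ ^ ℓ ^ m) x = x := by
    have h1 : ∀ x ∈ hV2fin.toFinset, ∃ m : ℕ, (φ ^ ℓ ^ m) x = x := by
      intro x hx
      rw [Set.Finite.mem_toFinset] at hx
      exact h.ex x ⟨2, by rw [pow_two, mul_smul]; exact hx⟩
    choose! M hM using h1
    refine ⟨hV2fin.toFinset.sup M, fun x hx => ?_⟩
    have hx' : x ∈ hV2fin.toFinset := (Set.Finite.mem_toFinset _).2 hx
    exact hmono x _ _ (Finset.le_sup hx') (hM x hx')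
  set ψ : AddMonoid.End J := φ ^ ℓ ^ m with hψ
  set δ : AddMonoid.End J := ψ - 1 with hδ
  set NN : AddMonoid.End J := ∑ i ∈ Finset.range ℓ, ψ ^ i with hNN
  let D : J →+ J := AddMonoidHom.mk' (fun x => ψ x - x) fun x y => by
    rw [map_add]; abel
  have hD : ∀ x, D x = ψ x - x := fun x => rfl
  have hψl : ψ ^ ℓ = φ ^ ℓ ^ (m + 1) := by rw [hψ, ← pow_mul, ← pow_succ]
  have hgeom : ∀ x, NN (D x) = (φ ^ ℓ ^ (m + 1)) x - x := by
    intro x
    have e : NN * δ = ψ ^ ℓ - 1 := geom_sum_mul ψ ℓ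
    have e2 : (NN * δ) x = (ψ ^ ℓ - 1) x := by rw [e]
    rw [hψl] at e2
    exact e2
  have hNNfix : ∀ w, ψ w = w → NN w = ℓ • w := by
    intro w hw
    have e : NN w = ∑ i ∈ Finset.range ℓ, (ψ ^ i) w :=
      map_sum (AddMonoidHom.eval w : (J →+ J) →+ J) (fun i => (ψ ^ i : AddMonoid.End J)) _
    rw [e, Finset.sum_congr rfl fun i _ => hpow ψ w hw i, Finset.sum_const, Finset.card_range]
  -- step (2)
  have h2 : ∀ y ∈ Jl, NN y = 0 → ℓ • y = 0 := by
    intro y hy hNy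
    by_contra hne
    have hex : ∃ k : ℕ, ℓ ^ k • y = 0 := hy
    set k := Nat.find hex with hk
    have hk0 : ℓ ^ k • y = 0 := Nat.find_spec hex
    have hkm : ∀ j < k, ℓ ^ j • y ≠ 0 := fun j hj => Nat.find_min hex hj
    have hk2 : 2 ≤ k := by
      by_contra hlt
      push Not at hlt
      have : k = 0 ∨ k = 1 := by omega
      rcases this with h0 | h1
      · rw [h0, pow_zero, one_smul] at hk0
        exact hne (by rw [hk0, smul_zero])
      · rw [h1, pow_one] at hk0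
        exact hne hk0
    have e1 : ℓ • (ℓ • (ℓ ^ (k - 2) • y)) = 0 := by
      rw [← mul_smul, ← mul_smul, mul_assoc, ← pow_succ', ← pow_succ',
        show k - 2 + 1 + 1 = k by omega]
      exact hk0
    have e2 : ℓ • (ℓ ^ (k - 2) • y) ≠ 0 := by
      rw [← mul_smul, ← pow_succ']
      exact hkm _ (by omega)
    apply e2
    rw [← hNNfix _ (hm _ e1), map_nsmul, hNy, smul_zero]
  -- the group `B`
  let B : AddSubgroup J :=
    { carrier := {x | x ∈ Jl ∧ ℓ • x ∈ A m}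
      zero_mem' := ⟨Jl.zero_mem, by rw [smul_zero]; exact (A m).zero_mem⟩
      add_mem' := by
        rintro x y ⟨h1, h3⟩ ⟨h4, h5⟩
        exact ⟨Jl.add_mem h1 h4, by rw [smul_add]; exact (A m).add_mem h3 h5⟩
      neg_mem' := by
        rintro x ⟨h1, h3⟩
        exact ⟨Jl.neg_mem h1, by rw [smul_neg]; exact (A m).neg_mem h3⟩ }
  have hB : ∀ x, x ∈ B ↔ x ∈ Jl ∧ ℓ • x ∈ A m := fun _ => Iff.rfl
  have hδJl : ∀ x ∈ Jl, D x ∈ Jl := by
    rintro x ⟨k, hk⟩
    exact ⟨k, by rw [← map_nsmul, hk, map_zero]⟩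
  have hVJl : ∀ x, ℓ • x = 0 → x ∈ Jl := fun x hx => ⟨1, by rw [pow_one]; exact hx⟩
  have hAfin : Finite (A m) := by
    refine Nat.finite_of_card_ne_zero ?_
    rw [hcard]
    exact pow_ne_zero _ hℓ.ne_zero
  have hVfin' : Finite V := hVfin
  have hApos : 0 < Nat.card (A m) := Nat.card_pos
  -- multiplication by `ℓ` on `B`
  have c1 : Nat.card B = Nat.card V * Nat.card (A m) := by
    have e := card_ker_map (nsmulAddMonoidHom ℓ : J →+ J) B
    have e1 : (B ⊓ (nsmulAddMonoidHom ℓ : J →+ J).ker : AddSubgroup J) = V := by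
      ext x
      rw [AddSubgroup.mem_inf, AddMonoidHom.mem_ker, nsmulAddMonoidHom_apply, hV]
      refine ⟨fun hx => hx.2, fun hx => ⟨⟨hVJl x hx, ?_⟩, hx⟩⟩
      rw [hx]
      exact (A m).zero_mem
    have e2 : B.map (nsmulAddMonoidHom ℓ : J →+ J) = A m := by
      ext x
      rw [AddSubgroup.mem_map]
      constructor
      · rintro ⟨y, hy, rfl⟩
        exact hy.2
      · intro hx
        obtain ⟨y, hy⟩ := hdiv x
        obtain ⟨k, hk⟩ := hx.2
        refine ⟨y, ⟨⟨k + 1, ?_⟩, ?_⟩, hy.symm⟩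
        · rw [pow_succ, mul_smul, ← hy, hk]
        · rw [← hy]; exact hx
    rwa [e1, e2] at e
  -- `δ` on `B`
  have hkerA : ∀ P : AddSubgroup J, (∀ x ∈ P, x ∈ Jl) → A m ≤ P →
      (P ⊓ D.ker : AddSubgroup J) = A m := by
    intro P hP hAP
    ext x
    rw [AddSubgroup.mem_inf, AddMonoidHom.mem_ker, hA]
    constructor
    · rintro ⟨h1, h3⟩
      exact ⟨sub_eq_zero.1 h3, hP x h1⟩
    · intro hx
      exact ⟨hAP hx, sub_eq_zero.2 hx.1⟩
  have hAB : A m ≤ B := fun x hx => ⟨hx.2, (A m).nsmul_mem hx ℓ⟩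
  have c2 : Nat.card B = Nat.card (A m) * Nat.card (B.map D) := by
    have e := card_ker_map D B
    rwa [hkerA B (fun x hx => hx.1) hAB] at e
  have hBV : B.map D ≤ V := by
    rintro _ ⟨x, hx, rfl⟩
    rw [hV]
    rw [← map_nsmul]
    exact sub_eq_zero.2 hx.2.1
  have c3 : Nat.card (B.map D) = Nat.card V := by
    have : Nat.card (A m) * Nat.card (B.map D) = Nat.card (A m) * Nat.card V := by
      rw [← c2, c1, mul_comm]
    exact Nat.eq_of_mul_eq_mul_left hApos this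
  have c4 : B.map D = V := AddSubgroup.eq_of_le_of_card_ge hBV c3.ge
  -- `δ` on `A (m + 1)`
  have hAA : A m ≤ A (m + 1) := fun x hx => ⟨hmono x m (m + 1) (Nat.le_succ m) hx.1, hx.2⟩
  have c5 : (A (m + 1)).map D = V := by
    ext y
    rw [AddSubgroup.mem_map]
    constructor
    · rintro ⟨x, hx, rfl⟩
      rw [hV]
      refine h2 _ (hδJl x hx.2) ?_
      have := hgeom x
      rw [hx.1, sub_self] at this
      exact this
    · intro hy
      have hy' : y ∈ B.map D := by rw [c4]; exact hy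
      obtain ⟨x, hx, rfl⟩ := hy'
      refine ⟨x, ⟨?_, hx.1⟩, rfl⟩
      have e1 : ψ (D x) = D x := hm _ (by
        have : ℓ • D x = 0 := hy
        rw [this, smul_zero])
      have e2 := hNNfix _ e1
      rw [hgeom] at e2
      have e3 : ℓ • D x = 0 := hy
      rw [e3] at e2
      exact sub_eq_zero.1 e2
  have c6 : Nat.card (A (m + 1)) = Nat.card (A m) * Nat.card V := by
    have e := card_ker_map D (A (m + 1))
    rwa [hkerA (A (m + 1)) (fun x hx => hx.2) hAA, c5] at e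
  rw [hcard, hcard, mul_add, mul_one, ← add_assoc, pow_add] at c6
  exact (Nat.eq_of_mul_eq_mul_left (pow_pos hℓ.pos _) c6).symm

end Vale.Agent.P019P
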