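import Vale.Agent.P019Q.ZGrpB

/-!
# The quotient of a tower group by `ℓ` is finite
-/

namespace Vale.Agent.P019P

theorem fq_pow_fix {J : Type*} [AddCommGroup J] {f : AddMonoid.End J} {x : J}
    (h : f x = x) (n : ℕ) : (f ^ n) x = x := by
  induction n with
  | zero => rfl
  | succ n ih =>
    rw [pow_succ]
    show (f ^ n) (f x) = x
    rw [h, ih]

theorem fq_mono {J : Type*} [AddCommGroup J] {φ : AddMonoid.End J} {ℓ : ℕ} {x : J}
    {m m' : ℕ} (hm : m ≤ m') (h : (φ ^ ℓ ^ m) x = x) : (φ ^ ℓ ^ m') x = x := by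
  obtain ⟨d, rfl⟩ := Nat.exists_eq_add_of_le hm
  rw [pow_add ℓ, pow_mul]
  exact fq_pow_fix h _

/-- the `ℓ`-primary fixed group at level `m`. -/
def fqA {J : Type*} [AddCommGroup J] (φ : AddMonoid.End J) (ℓ m : ℕ) : AddSubgroup J where
  carrier := {x | (φ ^ ℓ ^ m) x = x ∧ ∃ k : ℕ, ℓ ^ k • x = 0}
  zero_mem' := ⟨map_zero _, 0, smul_zero _⟩
  add_mem' := by
    rintro a b ⟨ha, k, hk⟩ ⟨hb, k', hk'⟩
    refine ⟨by rw [map_add, ha, hb], k + k', ?_⟩
    rw [smul_add, pow_add, mul_smul, smul_comm, hk, smul_zero, mul_smul, hk', smul_zero, add_zero]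
  neg_mem' := by
    rintro a ⟨ha, k, hk⟩
    exact ⟨by rw [map_neg, ha], k, by rw [smul_neg, hk, neg_zero]⟩

theorem fq_mem {J : Type*} [AddCommGroup J] {φ : AddMonoid.End J} {ℓ m : ℕ} {x : J} :
    x ∈ fqA φ ℓ m ↔ (φ ^ ℓ ^ m) x = x ∧ ∃ k : ℕ, ℓ ^ k • x = 0 := Iff.rfl

/-- the map of the level-`m` group to the quotient. -/
def fqF {J : Type*} [AddCommGroup J] (φ : AddMonoid.End J) (ℓ m : ℕ) :
    fqA φ ℓ m →+ (J ⧸ (nsmulAddMonoidHom ℓ : J →+ J).range) :=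
  (QuotientAddGroup.mk' _).comp (fqA φ ℓ m).subtype

theorem fq_card {J : Type*} [AddCommGroup J] {φ : AddMonoid.End J} {ℓ N c : ℕ}
    (hℓ : ℓ.Prime) (h : Tower φ ℓ N c) (m : ℕ) :
    Nat.card (fqF φ ℓ m).range ≤ Nat.card {x : J // ℓ • x = 0} ∧ Finite (fqF φ ℓ m).range := by
  have hV : Finite {x : J // ℓ • x = 0} := (Tower.finite hℓ h).to_subtype
  have hA : Nat.card (fqA φ ℓ m) = ℓ ^ (c + N * m) := h.card m
  have hAf : Finite (fqA φ ℓ m) := by
    apply Nat.finite_of_card_ne_zero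
    rw [hA]
    exact pow_ne_zero _ hℓ.pos.ne'
  have hfr : Finite (fqF φ ℓ m).range :=
    Finite.of_surjective (fqF φ ℓ m).rangeRestrict (fqF φ ℓ m).rangeRestrict_surjective
  refine ⟨?_, hfr⟩
  set g : fqA φ ℓ m →+ fqA φ ℓ m := nsmulAddMonoidHom ℓ with hg
  have h1 := g.range.card_mul_index
  have h2 := g.ker.card_mul_index
  rw [AddSubgroup.index_ker] at h2
  have h3 : g.range.index = Nat.card g.ker := by
    have hpos : 0 < Nat.card g.range := Nat.card_pos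
    have : Nat.card g.range * g.range.index = Nat.card g.range * Nat.card g.ker := by
      rw [h1, ← h2, mul_comm]
    exact Nat.eq_of_mul_eq_mul_left hpos this
  have h4 : g.range ≤ (fqF φ ℓ m).ker := by
    rintro _ ⟨a, rfl⟩
    rw [AddMonoidHom.mem_ker]
    show (QuotientAddGroup.mk' _) (((g a : fqA φ ℓ m)) : J) = 0
    rw [QuotientAddGroup.mk'_apply, QuotientAddGroup.eq_zero_iff]
    exact ⟨(a : J), by simp [hg]⟩
  have h5 : (fqF φ ℓ m).ker.index ∣ g.range.index := AddSubgroup.index_dvd_of_le h4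
  have h6 : g.range.index ≠ 0 := by
    rw [h3]; exact Nat.card_pos.ne'
  have h7 := Nat.le_of_dvd (Nat.pos_of_ne_zero h6) h5
  rw [AddSubgroup.index_ker, h3] at h7
  refine h7.trans ?_
  refine Nat.card_le_card_of_injective
    (fun a : g.ker => (⟨((a : fqA φ ℓ m) : J), ?_⟩ : {x : J // ℓ • x = 0})) ?_
  · have := a.2
    rw [AddMonoidHom.mem_ker] at this
    have h8 := congrArg (fun z : fqA φ ℓ m => (z : J)) this
    simpa [hg] using h8
  · intro a b hab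
    have := congrArg Subtype.val hab
    exact Subtype.ext (Subtype.ext this)

theorem fq_exists {J : Type*} [AddCommGroup J] {φ : AddMonoid.End J} {ℓ N c : ℕ}
    (hℓ : ℓ.Prime) (h : Tower φ ℓ N c) (htor : ∀ x : J, ∃ n : ℕ, 0 < n ∧ n • x = 0)
    (q : J ⧸ (nsmulAddMonoidHom ℓ : J →+ J).range) :
    ∃ m : ℕ, q ∈ (fqF φ ℓ m).range := by
  obtain ⟨x, rfl⟩ := QuotientAddGroup.mk_surjective q
  obtain ⟨n, hn, hnx⟩ := htor x
  obtain ⟨a, b, hb, rfl⟩ := Nat.exists_eq_pow_mul_and_not_dvd hn.ne' ℓ hℓ.ne_one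
  have hcop : Nat.Coprime b ℓ := ((Nat.Prime.coprime_iff_not_dvd hℓ).2 hb).symm
  have hbez := Nat.gcd_eq_gcd_ab b ℓ
  rw [hcop.gcd_eq_one] at hbez
  set u := Nat.gcdA b ℓ
  set v := Nat.gcdB b ℓ
  set y : J := (b : ℤ) • (u • x) with hy
  have hxy : x = y + ℓ • (v • x) := by
    have : ((1 : ℕ) : ℤ) • x = ((b : ℤ) * u + (ℓ : ℤ) * v) • x := by rw [← hbez]
    rw [add_smul, mul_smul, mul_smul, Nat.cast_one, one_smul] at this
    rw [hy, ← natCast_zsmul (v • x) ℓ]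
    exact this
  have hk : ℓ ^ a • y = 0 := by
    have : ℓ ^ a • y = u • ((ℓ ^ a * b) • x) := by
      rw [hy, ← natCast_zsmul _ (ℓ ^ a), ← natCast_zsmul x, ← mul_smul, ← mul_smul, ← mul_smul]
      congr 1
      push_cast
      ring
    rw [this, hnx, smul_zero]
  obtain ⟨m, hm⟩ := h.ex y ⟨a, hk⟩
  refine ⟨m, ⟨⟨y, hm, a, hk⟩, ?_⟩⟩
  show (QuotientAddGroup.mk' _) y = _
  rw [QuotientAddGroup.mk'_apply, QuotientAddGroup.eq]
  refine ⟨v • x, ?_⟩
  rw [nsmulAddMonoidHom_apply]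
  nth_rewrite 2 [hxy]
  abel

theorem Tower.finite_quotA {J : Type*} [AddCommGroup J] {φ : AddMonoid.End J} {ℓ N c : ℕ}
    (hℓ : ℓ.Prime) (h : Tower φ ℓ N c) (htor : ∀ x : J, ∃ n : ℕ, 0 < n ∧ n • x = 0) :
    Finite (J ⧸ (nsmulAddMonoidHom ℓ : J →+ J).range) := by
  by_contra hinf
  have hinf' : Infinite (J ⧸ (nsmulAddMonoidHom ℓ : J →+ J).range) :=
    not_finite_iff_infinite.1 hinf
  obtain ⟨S, hS⟩ := Infinite.exists_subset_card_eq
    (J ⧸ (nsmulAddMonoidHom ℓ : J →+ J).range) (Nat.card {x : J // ℓ • x = 0} + 1)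
  choose M hM using fun q => fq_exists hℓ h htor q
  set m := S.sup M with hm
  have hsub : ∀ q ∈ S, q ∈ (fqF φ ℓ m).range := by
    intro q hq
    obtain ⟨⟨y, hy1, hy2⟩, hyq⟩ := hM q
    exact ⟨⟨y, fq_mono (Finset.le_sup hq) hy1, hy2⟩, hyq⟩
  obtain ⟨hc, hfin⟩ := fq_card hℓ h m
  have hle : S.card ≤ Nat.card (fqF φ ℓ m).range := by
    have := Nat.card_le_card_of_injective
      (fun q : S => (⟨q.1, hsub q.1 q.2⟩ : (fqF φ ℓ m).range))
      (fun a b hab => Subtype.ext (congrArg (fun z : (fqF φ ℓ m).range => z.1) hab))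
    simpa using this
  omega

end Vale.Agent.P019P
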