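import Vale.Agent.P019Q.ZGrpB
import Vale.Agent.P019Q.ZGrpDa

/-!
# The quotient by `ℓ`, and characters
-/

namespace Vale.Agent.P019P

theorem Tower.finite_quot {J : Type*} [AddCommGroup J] {φ : AddMonoid.End J} {ℓ N c : ℕ}
    (hℓ : ℓ.Prime) (h : Tower φ ℓ N c) (htor : ∀ x : J, ∃ n : ℕ, 0 < n ∧ n • x = 0) :
    Finite (J ⧸ (nsmulAddMonoidHom ℓ : J →+ J).range) :=
  Tower.finite_quotA hℓ h htor

theorem pow_fix {J : Type*} [AddCommGroup J] (s : AddMonoid.End J) {a : ℕ} {x : J}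
    (h : (s ^ a) x = x) (b : ℕ) : (s ^ (a * b)) x = x := by
  induction b with
  | zero => rw [mul_zero, pow_zero]; rfl
  | succ b ih =>
    rw [Nat.mul_succ, pow_add]
    change (s ^ (a * b)) ((s ^ a) x) = x
    rw [h, ih]

theorem exists_char {J : Type*} [AddCommGroup J] (s : AddMonoid.End J) (ℓ : ℕ)
    (hper : ∀ x : J, ∃ n : ℕ, 0 < n ∧ (s ^ n) x = x)
    (hfin : Finite (J ⧸ (nsmulAddMonoidHom ℓ : J →+ J).range)) (x : J)
    (hx : ¬ ∃ y, x = ℓ • y) :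
    ∃ (n : ℕ) (ψ : AddChar J ℂ) (x' : J), 0 < n ∧ (∀ y, ψ ((s ^ n) y) = ψ y) ∧
      (∀ y, ψ (ℓ • y) = 1) ∧ (s ^ n) x' = x' ∧ ψ x' ≠ 1 := by
  classical
  set Q := J ⧸ (nsmulAddMonoidHom ℓ : J →+ J).range with hQ
  have := Fintype.ofFinite Q
  let mk : J →+ Q := QuotientAddGroup.mk' _
  have hmk : ∀ y : J, mk y = 0 ↔ ∃ z, y = ℓ • z := by
    intro y
    change ((y : J) : J ⧸ (nsmulAddMonoidHom ℓ : J →+ J).range) = 0 ↔ _
    rw [QuotientAddGroup.eq_zero_iff]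
    constructor
    · rintro ⟨z, hz⟩
      exact ⟨z, hz.symm⟩
    · rintro ⟨z, hz⟩
      exact ⟨z, hz.symm⟩
  have hsurj : ∀ q : Q, ∃ y : J, mk y = q := QuotientAddGroup.mk'_surjective _
  choose r hr using hsurj
  choose p hp0 hp using fun q => hper (r q)
  set n := ∏ q : Q, p q with hn
  have hfix : ∀ q, (s ^ n) (r q) = r q := by
    intro q
    obtain ⟨m, hm⟩ : p q ∣ n := Finset.dvd_prod_of_mem _ (Finset.mem_univ q)
    rw [hm]
    exact pow_fix s (hp q) m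
  have hinv : ∀ y, mk ((s ^ n) y) = mk y := by
    intro y
    have h1 : mk (y - r (mk y)) = 0 := by rw [map_sub, hr, sub_self]
    obtain ⟨z, hz⟩ := (hmk _).1 h1
    have h2 : y = r (mk y) + ℓ • z := by rw [← hz]; abel
    have h3 : (s ^ n) y = r (mk y) + ℓ • (s ^ n) z := by
      conv_lhs => rw [h2]
      rw [map_add, hfix, map_nsmul]
    rw [h3, map_add, hr, (hmk (ℓ • (s ^ n) z)).2 ⟨_, rfl⟩, add_zero]
  have hx0 : mk x ≠ 0 := fun h => hx ((hmk x).1 h)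
  obtain ⟨ψ0, hψ0⟩ := AddChar.exists_apply_ne_zero.2 hx0
  refine ⟨n, ψ0.compAddMonoidHom mk, r (mk x), Finset.prod_pos fun q _ => hp0 q, ?_, ?_, hfix _, ?_⟩
  · intro y
    rw [AddChar.compAddMonoidHom_apply, AddChar.compAddMonoidHom_apply, hinv]
  · intro y
    rw [AddChar.compAddMonoidHom_apply, (hmk (ℓ • y)).2 ⟨_, rfl⟩, AddChar.map_zero_eq_one]
  · rw [AddChar.compAddMonoidHom_apply, hr]
    exact hψ0

end Vale.Agent.P019P
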