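import Mathlib

/-!
# The numerator of the zeta function is a polynomial
-/

namespace Vale.Agent.P019P

open Polynomial

/-- Coefficients of the numerator. -/
def zpB (A : ℕ → ℤ) (Q : ℤ) : ℕ → ℤ
  | 0 => A 0
  | 1 => A 1 - (Q + 1) * A 0
  | m + 2 => A (m + 2) - (Q + 1) * A (m + 1) + Q * A m

theorem zpB_coeff (A : ℕ → ℤ) (Q : ℤ) (m : ℕ) :
    PowerSeries.coeff m ((1 - PowerSeries.C 1 * PowerSeries.X) *
      (1 - PowerSeries.C Q * PowerSeries.X) * PowerSeries.mk A) = zpB A Q m := by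
  have h : (1 - PowerSeries.C (1 : ℤ) * PowerSeries.X) *
      (1 - PowerSeries.C Q * PowerSeries.X) * PowerSeries.mk A =
      PowerSeries.mk A - PowerSeries.C (Q + 1) * (PowerSeries.X * PowerSeries.mk A) +
        PowerSeries.C Q * (PowerSeries.X * (PowerSeries.X * PowerSeries.mk A)) := by
    rw [map_add, map_one]
    ring
  rw [h, map_add, map_sub, PowerSeries.coeff_C_mul, PowerSeries.coeff_C_mul]
  match m with
  | 0 => simp [zpB]
  | 1 =>
    rw [PowerSeries.coeff_succ_X_mul, PowerSeries.coeff_succ_X_mul, PowerSeries.coeff_mk,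
      PowerSeries.coeff_mk, PowerSeries.coeff_zero_X_mul]
    simp [zpB]
  | m + 2 =>
    rw [PowerSeries.coeff_succ_X_mul, PowerSeries.coeff_succ_X_mul,
      PowerSeries.coeff_succ_X_mul, PowerSeries.coeff_mk,
      PowerSeries.coeff_mk, PowerSeries.coeff_mk]
    simp [zpB]

theorem zpB_sum (A : ℕ → ℤ) (Q : ℤ) (K : ℕ) :
    ∑ m ∈ Finset.range (K + 2), zpB A Q m = A (K + 1) - Q * A K := by
  induction K with
  | zero =>
    rw [Finset.sum_range_succ, Finset.sum_range_one]
    simp only [zpB]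
    ring
  | succ K ih =>
    rw [Finset.sum_range_succ, ih]
    simp only [zpB]
    ring

/-- The three facts on the coefficients. -/
theorem zpB_facts (A : ℕ → ℤ) (g : ℕ) (Q h : ℤ) (hQ : 2 ≤ Q) (h0 : A 0 = 1)
    (h1 : ∀ M : ℕ, 2 * g ≤ M + 1 → A M * (Q - 1) = h * (Q ^ (M + 1 - g) - 1))
    (h2 : 0 < g → A (2 * g - 2) * (Q - 1) = (h - 1) * (Q ^ (g - 1) - 1) + (Q ^ g - 1)) :
    (∀ m, 2 * g < m → zpB A Q m = 0) ∧ zpB A Q (2 * g) = Q ^ g ∧
      ∑ m ∈ Finset.range (2 * g + 1), zpB A Q m = h := by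
  have hQ1 : Q - 1 ≠ 0 := by omega
  rcases g with _ | g
  · have e0 := h1 0 (by omega)
    rw [h0] at e0
    simp only [zero_add, Nat.sub_zero, pow_one, one_mul] at e0
    have hh : h = 1 := by
      have : (h - 1) * (Q - 1) = 0 := by linear_combination -e0
      rcases mul_eq_zero.1 this with h3 | h3
      · omega
      · exact absurd h3 hQ1
    subst hh
    refine ⟨fun m hm => ?_, ?_, ?_⟩
    · apply mul_right_cancel₀ hQ1
      match m, hm with
      | 1, _ =>
        have e1 := h1 1 (by omega)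
        simp only [zpB]
        rw [h0]
        norm_num at e1
        linear_combination e1
      | k + 2, _ =>
        have e1 := h1 k (by omega)
        have e2 := h1 (k + 1) (by omega)
        have e3 := h1 (k + 2) (by omega)
        simp only [Nat.sub_zero] at e1 e2 e3
        simp only [zpB]
        rw [zero_mul]
        have p2 : Q ^ (k + 1 + 1) = Q ^ (k + 1) * Q := pow_succ _ _
        have p3 : Q ^ (k + 2 + 1) = Q ^ (k + 1) * Q * Q := by rw [pow_succ, pow_succ]
        rw [p2] at e2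
        rw [p3] at e3
        linear_combination e3 - (Q + 1) * e2 + Q * e1
    · simp only [zpB, pow_zero]
      exact h0
    · simp only [mul_zero, zero_add, Finset.sum_range_one, zpB]
      exact h0
  · have h2' := h2 (by omega)
    have i1 : 2 * (g + 1) - 2 = 2 * g := by omega
    have i2 : g + 1 - 1 = g := by omega
    rw [i1, i2] at h2'
    have e1 := h1 (2 * g + 1) (by omega)
    have e2 := h1 (2 * g + 2) (by omega)
    have i3 : 2 * g + 1 + 1 - (g + 1) = g + 1 := by omega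
    have i4 : 2 * g + 2 + 1 - (g + 1) = g + 2 := by omega
    rw [i3] at e1
    rw [i4] at e2
    have i5 : 2 * (g + 1) = 2 * g + 2 := by ring
    have p1 : Q ^ (g + 1) = Q ^ g * Q := pow_succ _ _
    have p2 : Q ^ (g + 2) = Q ^ g * Q * Q := by rw [pow_succ, pow_succ]
    rw [p1] at e1 h2'
    rw [p2] at e2
    refine ⟨fun m hm => ?_, ?_, ?_⟩
    · apply mul_right_cancel₀ hQ1
      obtain ⟨k, rfl⟩ : ∃ k, m = k + 2 := ⟨m - 2, by omega⟩
      have e1 := h1 k (by omega)
      have e2 := h1 (k + 1) (by omega)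
      have e3 := h1 (k + 2) (by omega)
      obtain ⟨e, he⟩ : ∃ e, k + 1 - (g + 1) = e := ⟨_, rfl⟩
      have j2 : k + 1 + 1 - (g + 1) = e + 1 := by omega
      have j3 : k + 2 + 1 - (g + 1) = e + 2 := by omega
      rw [he] at e1
      rw [j2, pow_succ] at e2
      rw [j3, pow_succ, pow_succ] at e3
      simp only [zpB]
      linear_combination e3 - (Q + 1) * e2 + Q * e1
    · apply mul_right_cancel₀ hQ1
      rw [i5, p1]
      simp only [zpB]
      linear_combination e2 - (Q + 1) * e1 + Q * h2'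
    · have hs := zpB_sum A Q (2 * g + 1)
      have i6 : 2 * (g + 1) + 1 = 2 * g + 1 + 2 := by ring
      rw [i6, hs]
      apply mul_right_cancel₀ hQ1
      linear_combination e2 - Q * e1

theorem poly_L (A : ℕ → ℤ) (g : ℕ) (Q h : ℤ) (hQ : 2 ≤ Q) (h0 : A 0 = 1)
    (h1 : ∀ M : ℕ, 2 * g ≤ M + 1 → A M * (Q - 1) = h * (Q ^ (M + 1 - g) - 1))
    (h2 : 0 < g → A (2 * g - 2) * (Q - 1) = (h - 1) * (Q ^ (g - 1) - 1) + (Q ^ g - 1)) :
    ∃ L : ℤ[X], L.natDegree ≤ 2 * g ∧ L.coeff 0 = 1 ∧ L.coeff (2 * g) = Q ^ g ∧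
      L.eval 1 = h ∧ (L : PowerSeries ℤ) =
        (1 - PowerSeries.C 1 * PowerSeries.X) * (1 - PowerSeries.C Q * PowerSeries.X) *
          PowerSeries.mk A := by
  obtain ⟨f1, f2, f3⟩ := zpB_facts A g Q h hQ h0 h1 h2
  obtain ⟨S, hS⟩ : ∃ S, S = (1 - PowerSeries.C 1 * PowerSeries.X) *
      (1 - PowerSeries.C Q * PowerSeries.X) * PowerSeries.mk A := ⟨_, rfl⟩
  have hc : ∀ m, PowerSeries.coeff m S = zpB A Q m := fun m => by
    rw [hS]; exact zpB_coeff A Q m
  rw [← hS]
  have hco : ∀ m, (PowerSeries.trunc (2 * g + 1) S).coeff m =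
      if m < 2 * g + 1 then zpB A Q m else 0 := fun m => by
    rw [PowerSeries.coeff_trunc, hc]
  have hlt : (PowerSeries.trunc (2 * g + 1) S).natDegree < 2 * g + 1 :=
    PowerSeries.natDegree_trunc_lt _ _
  refine ⟨PowerSeries.trunc (2 * g + 1) S, by omega, ?_, ?_, ?_, ?_⟩
  · rw [hco, if_pos (by omega)]
    exact h0
  · rw [hco, if_pos (by omega)]
    exact f2
  · rw [Polynomial.eval_eq_sum_range' hlt, ← f3]
    refine Finset.sum_congr rfl fun m hm => ?_
    rw [hco, if_pos (Finset.mem_range.1 hm), one_pow, mul_one]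
  · ext m
    rw [Polynomial.coeff_coe, hco, hc]
    split_ifs with hm
    · rfl
    · exact (f1 m (by omega)).symm

end Vale.Agent.P019P
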