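import Mathlib

/-!
# Reciprocal roots
-/

namespace Vale.Agent.P019P

open Polynomial

theorem exists_roots (f : ℂ[X]) (N : ℕ) (hf : f.natDegree ≤ N) (h0 : f.coeff 0 = 1) :
    ∃ A : Multiset ℂ, Multiset.card A = N ∧ f = (A.map fun a => 1 - C a * X).prod := by
  induction N generalizing f with
  | zero =>
    refine ⟨0, rfl, ?_⟩
    rw [Multiset.map_zero, Multiset.prod_zero, eq_C_of_natDegree_le_zero hf, h0, C_1]
  | succ N ih =>
    by_cases hN : f.natDegree ≤ N
    · obtain ⟨A, hA, h⟩ := ih f hN h0
      refine ⟨0 ::ₘ A, by simp [hA], ?_⟩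
      rw [Multiset.map_cons, Multiset.prod_cons, ← h]
      simp
    · have hd : f.natDegree = N + 1 := by omega
      have hdeg : f.degree ≠ 0 := by
        intro h
        have h' : f.natDegree = 0 := natDegree_eq_of_degree_eq_some h
        omega
      obtain ⟨r, hr⟩ := IsAlgClosed.exists_root f hdeg
      have hr0 : r ≠ 0 := by
        rintro rfl
        rw [IsRoot.def, ← coeff_zero_eq_eval_zero, h0] at hr
        exact one_ne_zero hr
      obtain ⟨g, hg⟩ := dvd_iff_isRoot.2 hr
      have hf0 : f ≠ 0 := by
        rintro rfl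
        simp at h0
      have hg0 : g ≠ 0 := by
        rintro rfl
        rw [mul_zero] at hg
        exact hf0 hg
      have hgd : g.natDegree = N := by
        rw [hg, natDegree_mul (X_sub_C_ne_zero r) hg0, natDegree_X_sub_C] at hd
        omega
      have e : f = (1 - C r⁻¹ * X) * (C (-r) * g) := by
        rw [hg, ← mul_assoc]
        congr 1
        have h1 : (C r⁻¹ : ℂ[X]) * C r = 1 := by
          rw [← C_mul, inv_mul_cancel₀ hr0, C_1]
        rw [C_neg]
        linear_combination (-X : ℂ[X]) * h1
      have hc : (C (-r) * g).coeff 0 = 1 := by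
        have h2 := h0
        rw [e, mul_coeff_zero] at h2
        simpa using h2
      obtain ⟨A, hA, h⟩ := ih (C (-r) * g) ((natDegree_C_mul_le _ _).trans hgd.le) hc
      refine ⟨r⁻¹ ::ₘ A, by simp [hA], ?_⟩
      rw [Multiset.map_cons, Multiset.prod_cons, ← h]
      exact e

/-- evaluation of a polynomial with known power series. -/
theorem coe_prod_lin (A : Multiset ℂ) :
    (((A.map fun a => 1 - C a * X).prod : ℂ[X]) : PowerSeries ℂ) =
      (A.map fun a => (1 : PowerSeries ℂ) - PowerSeries.C a * PowerSeries.X).prod := by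
  induction A using Multiset.induction_on with
  | empty => simp
  | cons a A ih =>
    rw [Multiset.map_cons, Multiset.prod_cons, Multiset.map_cons, Multiset.prod_cons,
      Polynomial.coe_mul, ih, Polynomial.coe_sub, Polynomial.coe_mul, Polynomial.coe_C,
      Polynomial.coe_X, Polynomial.coe_one]

theorem coe_map_int (f : ℤ[X]) :
    ((f.map (Int.castRingHom ℂ) : ℂ[X]) : PowerSeries ℂ) =
      PowerSeries.map (Int.castRingHom ℂ) (f : PowerSeries ℤ) := by
  ext n
  rw [Polynomial.coeff_coe, Polynomial.coeff_map, PowerSeries.coeff_map, Polynomial.coeff_coe]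

theorem eval_prod_lin (A : Multiset ℂ) :
    ((A.map fun a => 1 - C a * X).prod : ℂ[X]).eval 1 = (A.map fun a => 1 - a).prod := by
  induction A using Multiset.induction_on with
  | empty => simp
  | cons a A ih =>
    rw [Multiset.map_cons, Multiset.prod_cons, Multiset.map_cons, Multiset.prod_cons, eval_mul, ih]
    simp

end Vale.Agent.P019P
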