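import Vale.Agent.P019Q.ZCntB
import Vale.Agent.P019Q.ZEulB
import Vale.Agent.P019Q.ZPolyA
import Vale.Agent.P019Q.ZPolyB

/-!
# The class numbers as products over reciprocal roots
-/

namespace Vale.Agent.P019P

open Polynomial

variable {P : Type*}

theorem zhn_ac_cast (τ : Equiv.Perm P)
    (hfin : ∀ n : ℕ, 0 < n → {p | (τ ^ n) p = p}.Finite) (m : ℕ) :
    ((ac τ (fun _ => (1 : ℤ)) m : ℤ) : ℂ) = ac τ (fun _ => (1 : ℂ)) m := by
  have h := (Int.castAddHom ℂ).map_finsum_mem (fun _ : P →₀ ℤ => (1 : ℤ)) (eff_finite τ hfin m)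
  simp only [Int.coe_castAddHom, Int.cast_one] at h
  exact h

theorem zhn_sc_pow (σ : Equiv.Perm P) (n m : ℕ) :
    sc (σ ^ n) (fun _ => (1 : ℂ)) m = sc σ (fun _ => (1 : ℂ)) (n * m) := by
  unfold sc
  rw [pow_mul]
  simp only [one_pow]

/-- the numerator of the zeta function over the extension of degree `n`. -/
theorem ZDat.zhn_L (Z : ZDat P) (n : ℕ) (hn : 0 < n) : ∃ L : ℤ[X], L.natDegree ≤ 2 * Z.g ∧
    L.coeff 0 = 1 ∧ L.coeff (2 * Z.g) = ((Z.q : ℤ) ^ n) ^ Z.g ∧ L.eval 1 = Z.hh n ∧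
    LD (((L.map (Int.castRingHom ℂ) : ℂ[X])) : PowerSeries ℂ)
      (pos fun m => -(1 : ℂ) ^ m + -((Z.q : ℂ) ^ n) ^ m + sc (Z.σ ^ n) (fun _ => (1 : ℂ)) m) := by
  have hQ : (2 : ℤ) ≤ (Z.q : ℤ) ^ n := by
    have h2 : (2 : ℤ) ≤ Z.q := by exact_mod_cast Z.two_le
    calc (2 : ℤ) ≤ (Z.q : ℤ) ^ 1 := by simpa using h2
      _ ≤ (Z.q : ℤ) ^ n := pow_le_pow_right₀ (by linarith) hn
  obtain ⟨L, hd, h0, h1, he, hL⟩ := poly_L (fun m => ac (Z.σ ^ n) (fun _ => (1 : ℤ)) m) Z.g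
    ((Z.q : ℤ) ^ n) (Z.hh n) hQ (ac_zero _ _) (fun M hM => Z.an_large n hn M hM)
    (fun hg => Z.an_crit n hn hg)
  refine ⟨L, hd, h0, h1, he, ?_⟩
  have hmk : PowerSeries.map (Int.castRingHom ℂ)
      (PowerSeries.mk (fun m => ac (Z.σ ^ n) (fun _ => (1 : ℤ)) m)) =
      PowerSeries.mk (ac (Z.σ ^ n) (fun _ => (1 : ℂ))) := by
    ext m
    rw [PowerSeries.coeff_map, PowerSeries.coeff_mk, PowerSeries.coeff_mk]
    exact zhn_ac_cast _ (Z.fin_pow n hn) m
  have e : (((L.map (Int.castRingHom ℂ) : ℂ[X])) : PowerSeries ℂ) =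
      (1 - PowerSeries.C (1 : ℂ) * PowerSeries.X) *
        (1 - PowerSeries.C ((Z.q : ℂ) ^ n) * PowerSeries.X) *
        PowerSeries.mk (ac (Z.σ ^ n) (fun _ => (1 : ℂ))) := by
    rw [coe_map_int, hL, map_mul, map_mul, hmk]
    congr 1
    congr 1
    · simp
    · simp
  rw [e, ← pos_add, ← pos_add]
  exact ((LD_lin (1 : ℂ)).mul (LD_lin ((Z.q : ℂ) ^ n))).mul
    (LD_ac (Z.σ ^ n) (Z.fin_pow n hn) (fun _ => (1 : ℂ)) rfl (fun _ _ => by simp) (fun _ => rfl))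

theorem zhn_const (L : ℤ[X]) (h0 : L.coeff 0 = 1) :
    PowerSeries.constantCoeff (((L.map (Int.castRingHom ℂ) : ℂ[X])) : PowerSeries ℂ) = 1 := by
  rw [← PowerSeries.coeff_zero_eq_constantCoeff_apply, Polynomial.coeff_coe, coeff_map, h0]
  simp

theorem ZDat.zeta (Z : ZDat P) : ∃ (A : Multiset ℂ) (f : ℤ[X]), f.natDegree ≤ 2 * Z.g ∧
    f.coeff 0 = 1 ∧ f.coeff (2 * Z.g) = (Z.q : ℤ) ^ Z.g ∧
    f.map (Int.castRingHom ℂ) = (A.map fun a => 1 - C a * X).prod ∧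
    (∀ n, 0 < n → (Z.hh n : ℂ) = (A.map fun a => 1 - a ^ n).prod) ∧
    ∀ m, 0 < m → sc Z.σ (fun _ => (1 : ℂ)) m = 1 + (Z.q : ℂ) ^ m - (A.map fun a => a ^ m).sum := by
  obtain ⟨f, hd, h0, h1, -, hLD⟩ := Z.zhn_L 1 one_pos
  obtain ⟨A, -, hA⟩ := exists_roots (f.map (Int.castRingHom ℂ)) (2 * Z.g)
    ((natDegree_map_le).trans hd) (by rw [coeff_map, h0]; simp)
  have hsc : ∀ m, 0 < m →
      sc Z.σ (fun _ => (1 : ℂ)) m = 1 + (Z.q : ℂ) ^ m - (A.map fun a => a ^ m).sum := by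
    intro m hm
    have hP := LD_prod (R := ℂ) A
    rw [← coe_prod_lin, ← hA] at hP
    have h := LD.right_unique (zhn_const f h0) hP hLD
    have h2 := pos_inj h m hm
    simp only [pow_one, one_pow] at h2
    linear_combination (-1 : ℂ) * h2
  refine ⟨A, f, hd, h0, ?_, hA, ?_, hsc⟩
  · rw [h1, pow_one]
  · intro n hn
    obtain ⟨L, -, k0, -, ke, kLD⟩ := Z.zhn_L n hn
    have hpos : (pos fun m => -(1 : ℂ) ^ m + -((Z.q : ℂ) ^ n) ^ m +
        sc (Z.σ ^ n) (fun _ => (1 : ℂ)) m) =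
        pos fun m => -((A.map fun a => a ^ n).map fun a => a ^ m).sum := by
      apply pos_congr
      intro m hm
      rw [zhn_sc_pow, hsc (n * m) (Nat.mul_pos hn hm), Multiset.map_map]
      have e1 : (A.map fun a => a ^ (n * m)) = A.map ((fun a => a ^ m) ∘ fun a => a ^ n) := by
        apply Multiset.map_congr rfl
        intro a _
        simp only [Function.comp_apply, pow_mul]
      rw [e1, pow_mul, one_pow]
      ring
    rw [hpos] at kLD
    have hP := LD_prod (R := ℂ) (A.map fun a => a ^ n)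
    rw [← coe_prod_lin] at hP
    have hc : PowerSeries.constantCoeff
        (((((A.map fun a => a ^ n).map fun a => 1 - C a * X).prod : ℂ[X])) : PowerSeries ℂ) = 1 := by
      rw [coe_prod_lin, map_multiset_prod, Multiset.map_map]
      apply Multiset.prod_eq_one
      intro x hx
      obtain ⟨a, -, rfl⟩ := Multiset.mem_map.mp hx
      simp
    have heq := LD.left_unique (zhn_const L k0) hc kLD hP
    have heq2 := Polynomial.coe_injective ℂ heq
    have h3 := congrArg (Polynomial.eval (1 : ℂ)) heq2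
    rw [eval_prod_lin, Multiset.map_map] at h3
    have h4 : (L.map (Int.castRingHom ℂ)).eval (1 : ℂ) = (Z.hh n : ℂ) := by
      have h5 : (L.map (Int.castRingHom ℂ)).eval ((Int.castRingHom ℂ) 1) =
          (Int.castRingHom ℂ) (L.eval 1) := by
        rw [eval_map, eval₂_at_apply]
      rw [ke, map_one] at h5
      rw [h5]
      simp
    rw [h4] at h3
    rw [h3]
    rfl

end Vale.Agent.P019P
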