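import Mathlib

/-!
# A companion matrix
-/

namespace Vale.Agent.P019P

open Polynomial

theorem zm_exists_matrix (N : ℕ) (f : ℤ[X]) (hf : f.natDegree ≤ N) (h0 : f.coeff 0 = 1) :
    ∃ M : Matrix (Fin N) (Fin N) ℤ, M.charpolyRev = f ∧ M.det = (-1) ^ N * f.coeff N := by
  set p : ℤ[X] := reflect N f with hp
  have hpc : p.coeff N = 1 := by
    rw [hp, coeff_reflect, revAt_le (le_refl N), Nat.sub_self, h0]
  have hpd : p.natDegree ≤ N := by
    rw [natDegree_le_iff_coeff_eq_zero]
    intro k hk
    rw [hp, coeff_reflect, revAt_eq_self_of_lt hk]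
    exact coeff_eq_zero_of_natDegree_lt (lt_of_le_of_lt hf hk)
  have hpN : p.natDegree = N :=
    le_antisymm hpd (le_natDegree_of_ne_zero (by rw [hpc]; exact one_ne_zero))
  have hm : p.Monic := by
    rw [Monic, leadingCoeff, hpN, hpc]
  let pb := AdjoinRoot.powerBasis' hm
  have hdim : pb.dim = N := by
    rw [AdjoinRoot.powerBasis'_dim, hpN]
  let b : Module.Basis (Fin N) ℤ (AdjoinRoot p) := pb.basis.reindex (finCongr hdim)
  have : Module.Free ℤ (AdjoinRoot p) := Module.Free.of_basis b
  have : Module.Finite ℤ (AdjoinRoot p) := Module.Finite.of_basis b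
  let T : AdjoinRoot p →ₗ[ℤ] AdjoinRoot p := Algebra.lmul ℤ (AdjoinRoot p) (AdjoinRoot.root p)
  have hTm : T.charpoly.Monic := T.charpoly_monic
  have hTd : T.charpoly.natDegree = N := by
    rw [LinearMap.charpoly_natDegree, Module.finrank_eq_card_basis b, Fintype.card_fin]
  have hT0 : aeval T T.charpoly = 0 := LinearMap.aeval_self_charpoly T
  have hdvd : p ∣ T.charpoly := by
    rw [← AdjoinRoot.mk_eq_zero]
    have h1 : aeval T T.charpoly = Algebra.lmul ℤ (AdjoinRoot p)
        (aeval (AdjoinRoot.root p) T.charpoly) := by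
      rw [← aeval_algHom_apply]
    have h2 : aeval (AdjoinRoot.root p) T.charpoly = 0 := by
      have h3 := congrArg (fun g : AdjoinRoot p →ₗ[ℤ] AdjoinRoot p => g 1) (h1.symm.trans hT0)
      simpa using h3
    rw [← h2, AdjoinRoot.aeval_eq]
  have heq : T.charpoly = p := by
    refine eq_of_monic_of_dvd_of_natDegree_le hm hTm hdvd ?_
    rw [hTd, hpN]
  let M := LinearMap.toMatrix b b T
  have hM : M.charpoly = p := by
    rw [← heq]
    exact LinearMap.charpoly_toMatrix T b
  refine ⟨M, ?_, ?_⟩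
  · rw [← Matrix.reverse_charpoly, hM, reverse, hpN, hp, reflect_reflect]
  · rw [Matrix.det_eq_sign_charpoly_coeff, hM, Fintype.card_fin, hp, coeff_reflect,
      revAt_le (Nat.zero_le N), Nat.sub_zero]

end Vale.Agent.P019P
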