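import Mathlib

/-!
# The determinant of `1 - M ^ n`
-/

namespace Vale.Agent.P019P

open Polynomial

theorem one_sub_pow_eq_prod_roots (n : ℕ) (hn : 0 < n) :
    (1 - X ^ n : ℂ[X]) = ∏ z ∈ nthRootsFinset n (1 : ℂ), (1 - C z * X) := by
  have hζ := Complex.isPrimitiveRoot_exp n hn.ne'
  have hζ' : IsPrimitiveRoot (C (Complex.exp (2 * Real.pi * Complex.I / n))) n :=
    hζ.map_of_injective (f := (C : ℂ →+* ℂ[X])) C_injective
  have h := hζ'.pow_sub_pow_eq_prod_sub_mul (1 : ℂ[X]) X hn
  rw [one_pow] at h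
  rw [h]
  symm
  refine Finset.prod_bij (fun z _ => C z) ?_ ?_ ?_ ?_
  · intro z hz
    rw [mem_nthRootsFinset hn] at hz ⊢
    rw [← C_pow, hz, C_1]
  · intro a _ b _ hab
    exact C_injective hab
  · intro q hq
    rw [mem_nthRootsFinset hn] at hq
    have hdeg : q.natDegree = 0 := by
      have h1 := congrArg natDegree hq
      rw [natDegree_pow, natDegree_one] at h1
      rcases Nat.mul_eq_zero.1 h1 with h2 | h2
      · omega
      · exact h2
    obtain ⟨z, rfl⟩ := natDegree_eq_zero.1 hdeg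
    refine ⟨z, ?_, rfl⟩
    rw [mem_nthRootsFinset hn]
    apply C_injective
    rw [C_pow, hq, C_1]
  · intro z _
    rfl

theorem eval_charpolyRev' {N : ℕ} (M : Matrix (Fin N) (Fin N) ℂ) (z : ℂ) :
    eval z M.charpolyRev = (1 - z • M).det := by
  rw [Matrix.charpolyRev, ← coe_evalRingHom, RingHom.map_det]
  congr 1
  ext i j
  simp [Matrix.one_apply, apply_ite (eval z)]
  exact mul_comm _ _

theorem charpolyRev_map {N : ℕ} (M : Matrix (Fin N) (Fin N) ℤ) :
    M.charpolyRev.map (Int.castRingHom ℂ) = (M.map (Int.castRingHom ℂ)).charpolyRev := by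
  rw [Matrix.charpolyRev, Matrix.charpolyRev, ← coe_mapRingHom, RingHom.map_det]
  congr 1
  ext i j
  simp [Matrix.one_apply, apply_ite (Polynomial.map (Int.castRingHom ℂ))]

theorem det_one_sub_pow {N : ℕ} (M : Matrix (Fin N) (Fin N) ℤ) (A : Multiset ℂ)
    (hA : M.charpolyRev.map (Int.castRingHom ℂ) = (A.map fun a => 1 - C a * X).prod) (n : ℕ)
    (hn : 0 < n) : (((1 - M ^ n).det : ℤ) : ℂ) = (A.map fun a => 1 - a ^ n).prod := by
  set MC := M.map (Int.castRingHom ℂ) with hMC
  have e1 : (((1 - M ^ n).det : ℤ) : ℂ) = (1 - MC ^ n).det := by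
    have := RingHom.map_det (Int.castRingHom ℂ) (1 - M ^ n)
    rw [eq_intCast] at this
    rw [this, map_sub, map_one, map_pow]
    rfl
  have e2 : (1 - MC ^ n) = aeval MC (∏ z ∈ nthRootsFinset n (1 : ℂ), (1 - C z * X)) := by
    rw [← one_sub_pow_eq_prod_roots n hn]
    simp
  let D : ℂ[X] →* ℂ := (Matrix.detMonoidHom : Matrix (Fin N) (Fin N) ℂ →* ℂ).comp
    (aeval MC : ℂ[X] →ₐ[ℂ] Matrix (Fin N) (Fin N) ℂ).toRingHom.toMonoidHom
  have e3 : (1 - MC ^ n).det = ∏ z ∈ nthRootsFinset n (1 : ℂ), D (1 - C z * X) := by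
    rw [e2, ← map_prod]
    rfl
  have e4 : ∀ z : ℂ, D (1 - C z * X) = (A.map fun a => 1 - a * z).prod := by
    intro z
    have h1 : D (1 - C z * X) = (1 - z • MC).det := by
      show (aeval MC (1 - C z * X)).det = _
      congr 1
      simp [Algebra.smul_def]
    rw [h1, ← eval_charpolyRev', ← charpolyRev_map, hA, ← coe_evalRingHom, map_multiset_prod,
      Multiset.map_map]
    congr 1
    refine Multiset.map_congr rfl fun a _ => ?_
    simp
  have hζ := Complex.isPrimitiveRoot_exp n hn.ne'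
  rw [e1, e3]
  simp_rw [e4]
  clear hA e1 e2 e3 e4 D
  induction A using Multiset.induction with
  | empty => simp
  | cons a A ih =>
    simp only [Multiset.map_cons, Multiset.prod_cons, Finset.prod_mul_distrib]
    rw [ih]
    congr 1
    have h := hζ.pow_sub_pow_eq_prod_sub_mul 1 a hn
    rw [one_pow] at h
    rw [h]
    exact Finset.prod_congr rfl fun z _ => by ring

end Vale.Agent.P019P
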