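import Mathlib

/-!
# Growth of `det (1 - M ^ n)`
-/

namespace Vale.Agent.P019P

open Polynomial

/-- Two integer matrices with the same image modulo `m` differ by a multiple of `m`. -/
theorem exists_eq_add_smul {N : ℕ} (m : ℕ) (A B : Matrix (Fin N) (Fin N) ℤ)
    (h : (Int.castRingHom (ZMod m)).mapMatrix A = (Int.castRingHom (ZMod m)).mapMatrix B) :
    ∃ Y : Matrix (Fin N) (Fin N) ℤ, A = B + (m : ℤ) • Y := by
  have key : ∀ i j, ∃ y : ℤ, A i j = B i j + (m : ℤ) * y := by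
    intro i j
    have h1 : ((A i j : ℤ) : ZMod m) = ((B i j : ℤ) : ZMod m) := by
      have h2 := congrFun (congrFun h i) j
      simpa [RingHom.mapMatrix_apply, Matrix.map_apply] using h2
    have h3 : ((B i j : ℤ) : ZMod m) = ((A i j : ℤ) : ZMod m) := h1.symm
    rw [ZMod.intCast_eq_intCast_iff_dvd_sub] at h3
    obtain ⟨y, hy⟩ := h3
    exact ⟨y, by linarith⟩
  choose y hy using key
  refine ⟨Matrix.of y, ?_⟩
  ext i j
  simp [hy i j]

/-- If `A` maps to the scalar `c` modulo `ℓ`, with `c` not divisible by `ℓ`, then `ℓ` does not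
divide the determinant. -/
theorem not_dvd_det_of_map {ℓ : ℕ} (hℓ : ℓ.Prime) {N : ℕ} (A : Matrix (Fin N) (Fin N) ℤ) (c : ℕ)
    (hc : ¬ ℓ ∣ c)
    (h : (Int.castRingHom (ZMod ℓ)).mapMatrix A = (c : ZMod ℓ) • (1 : Matrix (Fin N) (Fin N) (ZMod ℓ))) :
    ¬ (ℓ : ℤ) ∣ A.det := by
  have := Fact.mk hℓ
  intro hd
  have h1 : ((A.det : ℤ) : ZMod ℓ) = 0 := (ZMod.intCast_zmod_eq_zero_iff_dvd _ _).2 hd
  have h2 : (Int.castRingHom (ZMod ℓ)) A.det = ((Int.castRingHom (ZMod ℓ)).mapMatrix A).det :=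
    RingHom.map_det _ _
  rw [h, Matrix.det_smul, Matrix.det_one, mul_one] at h2
  have h3 : (c : ZMod ℓ) ^ Fintype.card (Fin N) = 0 := by
    rw [← h2]; simpa using h1
  have h4 : (c : ZMod ℓ) = 0 := eq_zero_of_pow_eq_zero h3
  exact hc ((ZMod.natCast_eq_zero_iff _ _).1 h4)

theorem det_growth {ℓ : ℕ} (hℓ : ℓ.Prime) {N : ℕ} (M : Matrix (Fin N) (Fin N) ℤ)
    (hM : ¬ (ℓ : ℤ) ∣ M.det) :
    ∃ n0 : ℕ, 0 < n0 ∧
      (∀ n, n0 ∣ n → ∃ u : ℤ, ¬ (ℓ : ℤ) ∣ u ∧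
        (1 - M ^ (n * ℓ)).det = (1 - M ^ n).det * (ℓ ^ N * u)) ∧
      (∀ n r : ℕ, n0 ∣ n → ¬ ℓ ∣ r → ∃ u : ℤ, ¬ (ℓ : ℤ) ∣ u ∧
        (1 - M ^ (n * r)).det = (1 - M ^ n).det * u) := by
  classical
  have : NeZero (ℓ ^ 2) := ⟨pow_ne_zero _ hℓ.ne_zero⟩
  set F := (Int.castRingHom (ZMod (ℓ ^ 2))).mapMatrix (m := Fin N) with hF
  -- the reduction of `M` is a unit
  have hunit : IsUnit (F M) := by
    rw [Matrix.isUnit_iff_isUnit_det]
    have h1 : (F M).det = ((M.det : ℤ) : ZMod (ℓ ^ 2)) := by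
      rw [hF, ← RingHom.map_det]; rfl
    rw [h1, ZMod.coe_int_isUnit_iff_isCoprime]
    have h2 : IsCoprime ((ℓ : ℤ)) M.det :=
      (Nat.prime_iff_prime_int.1 hℓ).coprime_iff_not_dvd.2 hM
    have h3 : IsCoprime ((ℓ : ℤ) ^ 2) M.det := IsCoprime.pow_left h2
    simpa using h3
  obtain ⟨U, hU⟩ := hunit
  have hfin : IsOfFinOrder U := isOfFinOrder_of_finite U
  refine ⟨orderOf U, hfin.orderOf_pos, ?_⟩
  have hpow : ∀ n, orderOf U ∣ n → F (M ^ n) = 1 := by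
    intro n hn
    rw [map_pow, ← hU, ← Units.val_pow_eq_pow_val, orderOf_dvd_iff_pow_eq_one.1 hn, Units.val_one]
  -- geometric sums
  have hgeom : ∀ n r : ℕ, orderOf U ∣ n →
      ∃ Y : Matrix (Fin N) (Fin N) ℤ,
        1 - M ^ (n * r) = (1 - M ^ n) * (((r : ℤ) • (1 : Matrix (Fin N) (Fin N) ℤ))
          + ((ℓ ^ 2 : ℕ) : ℤ) • Y) := by
    intro n r hn
    have h1 : F (∑ i ∈ Finset.range r, (M ^ n) ^ i) = F ((r : ℤ) • (1 : Matrix (Fin N) (Fin N) ℤ)) := by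
      rw [map_sum]
      have h2 : ∀ i ∈ Finset.range r, F ((M ^ n) ^ i) = 1 := by
        intro i _
        rw [map_pow, hpow n hn, one_pow]
      rw [Finset.sum_congr rfl h2]
      simp
    obtain ⟨Y, hY⟩ := exists_eq_add_smul (ℓ ^ 2) _ _ h1
    refine ⟨Y, ?_⟩
    rw [← hY, mul_neg_geom_sum, ← pow_mul]
  refine ⟨?_, ?_⟩
  · intro n hn
    obtain ⟨Y, hY⟩ := hgeom n ℓ hn
    refine ⟨(1 + (ℓ : ℤ) • Y).det, ?_, ?_⟩
    · refine not_dvd_det_of_map hℓ _ 1 (by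
        intro h; exact hℓ.one_lt.ne' (Nat.dvd_one.1 h)) ?_
      ext i j
      rw [RingHom.mapMatrix_apply, Matrix.map_apply, Matrix.add_apply, Matrix.smul_apply,
        Matrix.smul_apply, Matrix.one_apply, Matrix.one_apply]
      split_ifs <;> simp
    · rw [hY, Matrix.det_mul]
      congr 1
      have h1 : ((ℓ : ℤ) • (1 : Matrix (Fin N) (Fin N) ℤ)) + ((ℓ ^ 2 : ℕ) : ℤ) • Y
          = (ℓ : ℤ) • (1 + (ℓ : ℤ) • Y) := by
        rw [smul_add, smul_smul]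
        congr 2
        push_cast
        ring
      rw [h1, Matrix.det_smul]
      simp
  · intro n r hn hr
    obtain ⟨Y, hY⟩ := hgeom n r hn
    refine ⟨_, ?_, by rw [hY, Matrix.det_mul]⟩
    refine not_dvd_det_of_map hℓ _ r hr ?_
    ext i j
    rw [RingHom.mapMatrix_apply, Matrix.map_apply, Matrix.add_apply, Matrix.smul_apply,
      Matrix.smul_apply, Matrix.smul_apply, Matrix.one_apply, Matrix.one_apply]
    split_ifs <;> simp

end Vale.Agent.P019P
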