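import Vale.Agent.P019Q.ZTw
import Vale.Agent.P019Q.ZGrpC
import Vale.Agent.P019Q.ZGrpD
import Vale.Agent.P019Q.ZMatA
import Vale.Agent.P019Q.ZMatB
import Vale.Agent.P019Q.ZMatC

/-!
# The abstract zeta theorem
-/

namespace Vale.Agent.P019P

open Polynomial

variable {P : Type*}

theorem pv_aux {ℓ : ℕ} (hℓ : ℓ.Prime) {N a b : ℕ} {u : ℤ} (ha : 0 < a)
    (hu : ¬ (ℓ : ℤ) ∣ u) (h : (b : ℤ) = a * (ℓ ^ N * u)) :
    padicValNat ℓ b = padicValNat ℓ a + N := by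
  have := Fact.mk hℓ
  have hu0 : u ≠ 0 := by
    rintro rfl
    exact hu (dvd_zero _)
  have h1 : b = a * (ℓ ^ N * u.natAbs) := by
    have h2 := congrArg Int.natAbs h
    rw [Int.natAbs_natCast, Int.natAbs_mul, Int.natAbs_mul, Int.natAbs_natCast, Int.natAbs_pow,
      Int.natAbs_natCast] at h2
    exact h2
  have h3 : u.natAbs ≠ 0 := Int.natAbs_ne_zero.2 hu0
  have h4 : ℓ ^ N ≠ 0 := pow_ne_zero _ hℓ.pos.ne'
  have h5 : padicValNat ℓ u.natAbs = 0 := by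
    apply padicValNat.eq_zero_of_not_dvd
    intro h6
    exact hu (Int.natCast_dvd.2 h6)
  rw [h1, padicValNat.mul ha.ne' (mul_ne_zero h4 h3), padicValNat.mul h4 h3,
    padicValNat.prime_pow, h5, Nat.add_zero]

theorem ZDat.grow (Z : ZDat P) {ℓ : ℕ} (hℓ : ℓ.Prime) (hq : ¬ ℓ ∣ Z.q) :
    Grow ℓ (2 * Z.g) Z.hh := by
  obtain ⟨A, f, hf, h0, h2g, hA, hh, -⟩ := Z.zeta
  obtain ⟨M, hM, hdet⟩ := zm_exists_matrix (2 * Z.g) f hf h0
  have hMd : ¬ (ℓ : ℤ) ∣ M.det := by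
    rw [hdet, h2g, pow_mul, neg_one_sq, one_pow, one_mul]
    intro h
    have h1 := (Nat.prime_iff_prime_int.1 hℓ).dvd_of_dvd_pow h
    exact hq (Int.natCast_dvd_natCast.1 h1)
  have hd : ∀ n, 0 < n → (Z.hh n : ℤ) = (1 - M ^ n).det := by
    intro n hn
    have h1 := det_one_sub_pow M A (by rw [hM]; exact hA) n hn
    have h2 : (((Z.hh n : ℤ)) : ℂ) = (((1 - M ^ n).det : ℤ) : ℂ) := by
      rw [h1, ← hh n hn]
      push_cast
      rfl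
    exact_mod_cast h2
  obtain ⟨n0, hn0, h1, h2⟩ := det_growth hℓ M hMd
  refine ⟨fun n hn => Z.hh_pos n hn, n0, hn0, ?_, ?_⟩
  · intro n hn hd0
    obtain ⟨u, hu, h3⟩ := h1 n hd0
    rw [← hd _ (Nat.mul_pos hn hℓ.pos), ← hd n hn] at h3
    exact pv_aux hℓ (Z.hh_pos n hn) hu h3
  · intro n r hn hd0 hr
    obtain ⟨u, hu, h3⟩ := h2 n r hd0 hr
    have hr0 : 0 < r := by
      rcases Nat.eq_zero_or_pos r with h | h
      · rw [h] at hr
        exact absurd (dvd_zero _) hr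
      · exact h
    rw [← hd _ (Nat.mul_pos hn hr0), ← hd n hn] at h3
    have h4 := pv_aux (N := 0) hℓ (Z.hh_pos n hn) hu (by rw [pow_zero, one_mul]; exact h3)
    rw [h4, Nat.add_zero]

theorem ZDat.exists_tower (Z : ZDat P) {ℓ : ℕ} (hℓ : ℓ.Prime) (hq : ¬ ℓ ∣ Z.q) :
    ∃ n0 c : ℕ, Tower (Z.sJ ^ n0) ℓ (2 * Z.g) c :=
  Vale.Agent.P019P.exists_tower Z.sJ hℓ Z.sJ_per Z.sJ_fin (Z.grow hℓ hq)

theorem ZDat.torsion (Z : ZDat P) (x : Z.J) : ∃ n : ℕ, 0 < n ∧ n • x = 0 := by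
  obtain ⟨n, hn, hx⟩ := Z.sJ_per x
  have hfin := Z.sJ_fin n hn
  -- the multiples of `x` are all fixed, hence not pairwise distinct
  have hfix : ∀ k : ℕ, k • x ∈ {y : Z.J | (Z.sJ ^ n) y = y} := by
    intro k
    change (Z.sJ ^ n) (k • x) = k • x
    rw [map_nsmul, hx]
  have hni : ¬ Function.Injective (fun k : ℕ => k • x) := by
    intro hinj
    have h1 : (Set.range (fun k : ℕ => k • x)).Infinite := Set.infinite_range_of_injective hinj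
    exact h1 (hfin.subset (by rintro _ ⟨k, rfl⟩; exact hfix k))
  rw [Function.Injective] at hni
  push Not at hni
  obtain ⟨a, b, hab, hne⟩ := hni
  rcases lt_or_gt_of_ne hne with h | h
  · refine ⟨b - a, Nat.sub_pos_of_lt h, ?_⟩
    have h2 : (b - a) • x + a • x = 0 + a • x := by
      rw [← add_nsmul, Nat.sub_add_cancel h.le, zero_add]
      exact hab.symm
    exact add_right_cancel h2
  · refine ⟨a - b, Nat.sub_pos_of_lt h, ?_⟩
    have h2 : (a - b) • x + b • x = 0 + b • x := by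
      rw [← add_nsmul, Nat.sub_add_cancel h.le, zero_add]
      exact hab
    exact add_right_cancel h2

theorem ZDat.divJ (Z : ZDat P) {ℓ : ℕ} (hℓ : ℓ.Prime) (hq : ¬ ℓ ∣ Z.q) (x : Z.J) :
    ∃ y, x = ℓ • y := by
  by_contra hx
  obtain ⟨n0, c, ht⟩ := Z.exists_tower hℓ hq
  obtain ⟨n, ψ, x', hn, h1, h2, h3, h4⟩ :=
    exists_char Z.sJ ℓ Z.sJ_per (ht.finite_quot hℓ Z.torsion) x hx
  exact h4 (Z.no_char hℓ.pos n hn ψ h1 h2 x' h3)

/-- every class of degree zero is divisible by `ℓ`. -/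
theorem ZDat.divisible (Z : ZDat P) {ℓ : ℕ} (hℓ : ℓ.Prime) (hq : ¬ ℓ ∣ Z.q) (D : P →₀ ℤ)
    (hD : dg D = 0) : ∃ E : P →₀ ℤ, dg E = 0 ∧ D - ℓ • E ∈ Z.prin := by
  have hx : Z.cl D ∈ Z.deg.ker := by
    rw [AddMonoidHom.mem_ker, Z.deg_cl, hD]
  obtain ⟨y, hy⟩ := Z.divJ hℓ hq ⟨Z.cl D, hx⟩
  obtain ⟨E, hE⟩ := Z.cl_surj y.1
  refine ⟨E, ?_, ?_⟩
  · rw [← Z.deg_cl, hE]
    exact y.2
  · rw [← Z.cl_eq, map_nsmul, hE]
    have h1 := congrArg (fun z : Z.J => (z : Z.Pic)) hy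
    exact h1

/-- the number of `ℓ`-torsion classes. -/
theorem ZDat.card_tors (Z : ZDat P) {ℓ : ℕ} (hℓ : ℓ.Prime) (hq : ¬ ℓ ∣ Z.q) :
    Nat.card {x : (P →₀ ℤ) ⧸ Z.prin // ℓ • x = 0} = ℓ ^ (2 * Z.g) := by
  obtain ⟨n0, c, ht⟩ := Z.exists_tower hℓ hq
  rw [← ht.card_tors hℓ (Z.divJ hℓ hq)]
  have key : ∀ x : Z.Pic, ℓ • x = 0 → x ∈ Z.deg.ker := by
    intro x hx
    rw [AddMonoidHom.mem_ker]
    have h1 := congrArg Z.deg hx
    rw [map_nsmul, map_zero, nsmul_eq_mul] at h1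
    exact (mul_eq_zero.1 h1).resolve_left (by exact_mod_cast hℓ.pos.ne')
  exact Nat.card_congr
    { toFun := fun x => ⟨⟨x.1, key x.1 x.2⟩, Subtype.ext x.2⟩
      invFun := fun x => ⟨x.1.1, congrArg (fun z : Z.J => (z : Z.Pic)) x.2⟩
      left_inv := fun _ => rfl
      right_inv := fun _ => rfl }

end Vale.Agent.P019P
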