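import Vale.Agent.P019Q.ZDef

/-!
# Divisor classes
-/

namespace Vale.Agent.P019P

open Finsupp

variable {P : Type*}

theorem dg_single (p : P) (n : ℤ) : dg (single p n) = n := by
  simp [dg]

theorem dg_mapDomain (τ : Equiv.Perm P) (D : P →₀ ℤ) : dg (D.mapDomain τ) = dg D := by
  induction D using Finsupp.induction_linear with
  | zero => rw [Finsupp.mapDomain_zero]
  | add f g hf hg => rw [Finsupp.mapDomain_add, map_add, map_add, hf, hg]
  | single a b => rw [Finsupp.mapDomain_single, dg_single, dg_single]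

namespace ZDat

variable (Z : ZDat P)

/-- divisor classes. -/
abbrev Pic : Type _ := (P →₀ ℤ) ⧸ Z.prin

/-- the class of a divisor. -/
noncomputable def cl : (P →₀ ℤ) →+ Z.Pic := QuotientAddGroup.mk' Z.prin

theorem cl_surj (x : Z.Pic) : ∃ D, Z.cl D = x := QuotientAddGroup.mk'_surjective _ x

theorem cl_eq {D E : P →₀ ℤ} : Z.cl D = Z.cl E ↔ D - E ∈ Z.prin := by
  rw [cl, QuotientAddGroup.mk'_apply, QuotientAddGroup.mk'_apply, QuotientAddGroup.eq,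
    ← neg_mem_iff, neg_add, neg_neg, sub_eq_add_neg]

/-- the degree of a class. -/
noncomputable def deg : Z.Pic →+ ℤ := QuotientAddGroup.lift Z.prin dg (fun D hD => Z.deg_prin D hD)

@[simp] theorem deg_cl (D : P →₀ ℤ) : Z.deg (Z.cl D) = dg D := rfl

/-- the action of the Frobenius on classes. -/
noncomputable def s : AddMonoid.End Z.Pic :=
  QuotientAddGroup.map Z.prin Z.prin (Finsupp.mapDomain.addMonoidHom Z.σ)
    (fun D hD => (Z.sig_prin D).1 hD)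

theorem s_cl (D : P →₀ ℤ) : Z.s (Z.cl D) = Z.cl (D.mapDomain Z.σ) := rfl

theorem s_pow_cl (n : ℕ) (D : P →₀ ℤ) : (Z.s ^ n) (Z.cl D) = Z.cl (D.mapDomain (Z.σ ^ n)) := by
  induction n with
  | zero =>
    rw [pow_zero, pow_zero, Equiv.Perm.coe_one, Finsupp.mapDomain_id]
    rfl
  | succ n ih =>
    have h : (Z.s ^ (n + 1)) (Z.cl D) = Z.s ((Z.s ^ n) (Z.cl D)) := by
      rw [pow_succ']
      rfl
    rw [h, ih, s_cl, ← Finsupp.mapDomain_comp, pow_succ', Equiv.Perm.coe_mul]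

theorem deg_s (x : Z.Pic) : Z.deg (Z.s x) = Z.deg x := by
  obtain ⟨D, rfl⟩ := Z.cl_surj x
  rw [s_cl, deg_cl, deg_cl, dg_mapDomain]

theorem deg_s_pow (n : ℕ) (x : Z.Pic) : Z.deg ((Z.s ^ n) x) = Z.deg x := by
  obtain ⟨D, rfl⟩ := Z.cl_surj x
  rw [s_pow_cl, deg_cl, deg_cl, dg_mapDomain]

/-- every divisor is fixed by a power of the Frobenius. -/
theorem exists_fix (D : P →₀ ℤ) : ∃ n : ℕ, 0 < n ∧ D.mapDomain (Z.σ ^ n) = D := by
  have h1 : ∀ p : P, ∃ n : ℕ, 0 < n ∧ (Z.σ ^ n) p = p := fun p => Z.per p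
  choose f hf0 hf using h1
  refine ⟨∏ p ∈ D.support, f p, Finset.prod_pos fun p _ => hf0 p, ?_⟩
  have h2 : ∀ p ∈ D.support, (Z.σ ^ (∏ p ∈ D.support, f p)) p = p := by
    intro p hp
    obtain ⟨c, hc⟩ := Finset.dvd_prod_of_mem f hp
    rw [hc, pow_mul]
    exact Function.IsFixedPt.perm_pow (hf p) c
  conv_rhs => rw [← Finsupp.mapDomain_id (v := D)]
  exact Finsupp.mapDomain_congr h2

theorem fix_mul {D : P →₀ ℤ} {n : ℕ} (h : D.mapDomain (Z.σ ^ n) = D) (m : ℕ) :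
    D.mapDomain (Z.σ ^ (n * m)) = D := by
  induction m with
  | zero => rw [mul_zero, pow_zero, Equiv.Perm.coe_one, Finsupp.mapDomain_id]
  | succ m ih =>
    rw [Nat.mul_succ, pow_add, Equiv.Perm.coe_mul, Finsupp.mapDomain_comp, h, ih]

/-- `l` depends only on the class. -/
theorem l_congr {D E : P →₀ ℤ} (h : D - E ∈ Z.prin) : Z.l D = Z.l E := by
  obtain ⟨n₁, hn₁, h₁⟩ := Z.exists_fix D
  obtain ⟨n₂, hn₂, h₂⟩ := Z.exists_fix E
  have hn : 0 < n₁ * n₂ := Nat.mul_pos hn₁ hn₂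
  have hD : D.mapDomain (Z.σ ^ (n₁ * n₂)) = D := Z.fix_mul h₁ n₂
  have hE : E.mapDomain (Z.σ ^ (n₁ * n₂)) = E := by
    rw [Nat.mul_comm]
    exact Z.fix_mul h₂ n₁
  have cD := Z.count (n₁ * n₂) hn D (by rw [hD, sub_self]; exact zero_mem _)
  have cE := Z.count (n₁ * n₂) hn E (by rw [hE, sub_self]; exact zero_mem _)
  have hset : ∀ F : P →₀ ℤ, (0 ≤ F ∧ F.mapDomain (Z.σ ^ (n₁ * n₂)) = F ∧ F - D ∈ Z.prin) ↔
      (0 ≤ F ∧ F.mapDomain (Z.σ ^ (n₁ * n₂)) = F ∧ F - E ∈ Z.prin) := by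
    intro F
    refine and_congr_right fun _ => and_congr_right fun _ => ?_
    have e1 : F - E = (F - D) + (D - E) := by abel
    rw [e1]
    exact (AddSubgroup.add_mem_cancel_right _ h).symm
  have hc : Nat.card {F : P →₀ ℤ // 0 ≤ F ∧ F.mapDomain (Z.σ ^ (n₁ * n₂)) = F ∧
      F - D ∈ Z.prin} = Nat.card {F : P →₀ ℤ // 0 ≤ F ∧
        F.mapDomain (Z.σ ^ (n₁ * n₂)) = F ∧ F - E ∈ Z.prin} :=
    Nat.card_congr (Equiv.subtypeEquivRight hset)
  rw [hc, cE] at cD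
  have hq : 0 < Z.q := lt_of_lt_of_le two_pos Z.two_le
  have p1 : 0 < Z.q ^ (n₁ * n₂ * Z.l D) := Nat.pow_pos hq
  have p2 : 0 < Z.q ^ (n₁ * n₂ * Z.l E) := Nat.pow_pos hq
  have e2 : Z.q ^ (n₁ * n₂ * Z.l D) = Z.q ^ (n₁ * n₂ * Z.l E) := by omega
  exact Nat.eq_of_mul_eq_mul_left hn (Nat.pow_right_injective Z.two_le e2)

theorem mapDomain_sig_comm (n : ℕ) (F : P →₀ ℤ) :
    (F.mapDomain Z.σ).mapDomain (Z.σ ^ n) = (F.mapDomain (Z.σ ^ n)).mapDomain Z.σ := by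
  rw [← Finsupp.mapDomain_comp, ← Finsupp.mapDomain_comp, ← Equiv.Perm.coe_mul,
    ← Equiv.Perm.coe_mul, ← pow_succ, ← pow_succ']

theorem mapDomain_sig_inj {F G : P →₀ ℤ} (h : F.mapDomain Z.σ = G.mapDomain Z.σ) : F = G :=
  Finsupp.mapDomain_injective Z.σ.injective h

theorem l_sig (D : P →₀ ℤ) : Z.l (D.mapDomain Z.σ) = Z.l D := by
  obtain ⟨n, hn, hD⟩ := Z.exists_fix D
  have hS : (D.mapDomain Z.σ).mapDomain (Z.σ ^ n) = D.mapDomain Z.σ := by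
    rw [Z.mapDomain_sig_comm, hD]
  have cD := Z.count n hn D (by rw [hD, sub_self]; exact zero_mem _)
  have cS := Z.count n hn (D.mapDomain Z.σ) (by rw [hS, sub_self]; exact zero_mem _)
  have happ : ∀ F : P →₀ ℤ, (Finsupp.domCongr (M := ℤ) Z.σ) F = F.mapDomain Z.σ := fun F => by
    rw [Finsupp.domCongr_apply, Finsupp.equivMapDomain_eq_mapDomain]
  have hc : Nat.card {F : P →₀ ℤ // 0 ≤ F ∧ F.mapDomain (Z.σ ^ n) = F ∧ F - D ∈ Z.prin} =
      Nat.card {F : P →₀ ℤ // 0 ≤ F ∧ F.mapDomain (Z.σ ^ n) = F ∧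
        F - D.mapDomain Z.σ ∈ Z.prin} := by
    refine Nat.card_congr (Equiv.subtypeEquiv (Finsupp.domCongr (M := ℤ) Z.σ).toEquiv ?_)
    intro F
    have e0 : (Finsupp.domCongr (M := ℤ) Z.σ).toEquiv F = F.mapDomain Z.σ := happ F
    rw [e0]
    refine and_congr ?_ (and_congr ?_ ?_)
    · constructor
      · intro h p
        rw [← Finsupp.equivMapDomain_eq_mapDomain, Finsupp.equivMapDomain_apply]
        exact h _
      · intro h p
        have h1 := h (Z.σ p)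
        rw [← Finsupp.equivMapDomain_eq_mapDomain, Finsupp.equivMapDomain_apply,
          Equiv.symm_apply_apply] at h1
        exact h1
    · rw [Z.mapDomain_sig_comm]
      constructor
      · intro h
        rw [h]
      · intro h
        exact Z.mapDomain_sig_inj h
    · have e1 : F.mapDomain Z.σ - D.mapDomain Z.σ = (F - D).mapDomain Z.σ :=
        ((Finsupp.mapDomain.addMonoidHom (M := ℤ) Z.σ).map_sub F D).symm
      rw [e1]
      exact Z.sig_prin _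
  rw [hc, cS] at cD
  have hq : 0 < Z.q := lt_of_lt_of_le two_pos Z.two_le
  have p1 : 0 < Z.q ^ (n * Z.l D) := Nat.pow_pos hq
  have p2 : 0 < Z.q ^ (n * Z.l (D.mapDomain Z.σ)) := Nat.pow_pos hq
  have e2 : Z.q ^ (n * Z.l (D.mapDomain Z.σ)) = Z.q ^ (n * Z.l D) := by omega
  exact Nat.eq_of_mul_eq_mul_left hn (Nat.pow_right_injective Z.two_le e2)

/-- the dimension of a class. -/
noncomputable def ll : Z.Pic → ℕ :=
  Quotient.lift Z.l (fun D E h => Z.l_congr (by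
    have h1 : Z.cl D = Z.cl E := Quotient.sound h
    exact (Z.cl_eq).1 h1))

@[simp] theorem ll_cl (D : P →₀ ℤ) : Z.ll (Z.cl D) = Z.l D := rfl

theorem ll_s (x : Z.Pic) : Z.ll (Z.s x) = Z.ll x := by
  obtain ⟨D, rfl⟩ := Z.cl_surj x
  rw [Z.s_cl, Z.ll_cl, Z.ll_cl, Z.l_sig]

theorem l_zero' : Z.l 0 = 1 := Z.l_prin 0 (zero_mem _)

theorem l_kappa : Z.l Z.κ = Z.g := by
  have h := Z.rr 0
  rw [sub_zero, Z.l_zero', map_zero] at h
  push_cast at h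
  omega

theorem dg_kappa : dg Z.κ = 2 * (Z.g : ℤ) - 2 := by
  have h := Z.rr Z.κ
  rw [sub_self, Z.l_zero', Z.l_kappa] at h
  push_cast at h
  omega

/-- Riemann-Roch in large degree. -/
theorem ll_large (x : Z.Pic) (h : 2 * (Z.g : ℤ) - 1 ≤ Z.deg x) :
    (Z.ll x : ℤ) = Z.deg x + 1 - Z.g := by
  obtain ⟨D, rfl⟩ := Z.cl_surj x
  rw [Z.deg_cl] at h ⊢
  have h1 := Z.rr D
  have h2 : Z.l (Z.κ - D) = 0 := Z.l_neg _ (by
    rw [map_sub, Z.dg_kappa]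
    omega)
  rw [h2] at h1
  rw [Z.ll_cl]
  push_cast at h1
  omega

theorem ll_crit_eq : Z.ll (Z.cl Z.κ) = Z.g := by
  rw [Z.ll_cl, Z.l_kappa]

theorem ll_crit_ne (x : Z.Pic) (h : Z.deg x = 2 * (Z.g : ℤ) - 2) (hx : x ≠ Z.cl Z.κ) :
    (Z.ll x : ℤ) = Z.g - 1 := by
  obtain ⟨D, rfl⟩ := Z.cl_surj x
  rw [Z.deg_cl] at h
  have h1 := Z.rr D
  have h2 : Z.l (Z.κ - D) = 0 := Z.l_zero _ (by
    rw [map_sub, Z.dg_kappa]
    omega) (fun hm => hx (Z.cl_eq.2 hm).symm)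
  rw [h2] at h1
  rw [Z.ll_cl]
  push_cast at h1
  omega

theorem ll_pos (x : Z.Pic) (h : (Z.g : ℤ) ≤ Z.deg x) : 0 < Z.ll x := by
  obtain ⟨D, rfl⟩ := Z.cl_surj x
  rw [Z.deg_cl] at h
  have h1 := Z.rr D
  rw [Z.ll_cl]
  omega

theorem s_kappa : Z.s (Z.cl Z.κ) = Z.cl Z.κ := by
  by_contra hne
  have h1 := Z.ll_crit_ne (Z.s (Z.cl Z.κ)) (by rw [Z.deg_s, Z.deg_cl, Z.dg_kappa]) hne
  rw [Z.ll_s, Z.ll_crit_eq] at h1
  omega

/-- the classes of degree zero. -/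
abbrev J : Type _ := Z.deg.ker

/-- the action of the Frobenius on classes of degree zero. -/
noncomputable def sJ : AddMonoid.End Z.J :=
  (Z.s.comp (AddSubgroup.subtype _)).codRestrict _ (fun x => by
    have h := x.2
    rw [AddMonoidHom.mem_ker] at h ⊢
    exact (Z.deg_s _).trans h)

theorem coe_sJ (x : Z.J) : ((Z.sJ x : Z.J) : Z.Pic) = Z.s x := rfl

theorem coe_sJ_pow (n : ℕ) (x : Z.J) : (((Z.sJ ^ n) x : Z.J) : Z.Pic) = (Z.s ^ n) x := by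
  induction n with
  | zero => rfl
  | succ n ih =>
    have h1 : (Z.sJ ^ (n + 1)) x = Z.sJ ((Z.sJ ^ n) x) := by
      rw [pow_succ']
      rfl
    have h2 : (Z.s ^ (n + 1)) (x : Z.Pic) = Z.s ((Z.s ^ n) (x : Z.Pic)) := by
      rw [pow_succ']
      rfl
    rw [h1, h2, coe_sJ, ih]

theorem sJ_per (x : Z.J) : ∃ n : ℕ, 0 < n ∧ (Z.sJ ^ n) x = x := by
  obtain ⟨D, hD⟩ := Z.cl_surj (x : Z.Pic)
  obtain ⟨n, hn, h⟩ := Z.exists_fix D
  refine ⟨n, hn, Subtype.ext ?_⟩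
  rw [coe_sJ_pow, ← hD, s_pow_cl, h]

end ZDat

end Vale.Agent.P019P
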