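import Vale.Agent.P019Q.ZHn

/-!
# Twisted zeta functions
-/

namespace Vale.Agent.P019P

variable {P : Type*}

open Finsupp

theorem ZTw.constantCoeff_prod_lin (A : Multiset ℂ) :
    PowerSeries.constantCoeff
      ((A.map fun a => (1 : PowerSeries ℂ) - PowerSeries.C a * PowerSeries.X).prod) = 1 := by
  rw [map_multiset_prod, Multiset.map_map]
  apply Multiset.prod_eq_one
  intro x hx
  obtain ⟨a, -, rfl⟩ := Multiset.mem_map.1 hx
  simp

/-- Equality of multisets of reciprocal roots from equality of power sums. -/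
theorem ZTw.prod_eq {A B : Multiset ℂ}
    (h : ∀ m, 0 < m → (A.map fun a => a ^ m).sum = (B.map fun a => a ^ m).sum) :
    (A.map fun a => 1 - a).prod = (B.map fun a => 1 - a).prod := by
  have h1 := LD_prod A
  have h2 := LD_prod B
  have h3 : pos (fun m => -(A.map fun a => a ^ m).sum) = pos (fun m => -(B.map fun a => a ^ m).sum)
      := pos_congr fun m hm => by rw [h m hm]
  rw [h3] at h1
  have h4 := LD.left_unique (ZTw.constantCoeff_prod_lin A) (ZTw.constantCoeff_prod_lin B) h1 h2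
  rw [← coe_prod_lin, ← coe_prod_lin] at h4
  have h5 := Polynomial.coe_injective ℂ h4
  rw [← eval_prod_lin, ← eval_prod_lin, h5]

theorem ZDat.no_char (Z : ZDat P) {ℓ : ℕ} (hℓ : 0 < ℓ) (n : ℕ) (hn : 0 < n) (ψ : AddChar Z.J ℂ)
    (hs : ∀ y, ψ ((Z.sJ ^ n) y) = ψ y) (hl : ∀ y, ψ (ℓ • y) = 1) (x : Z.J)
    (hx : (Z.sJ ^ n) x = x) : ψ x = 1 := by
  by_contra hne
  -- the projection
  have hc0 : Z.deg (Z.cl (single Z.P0 1)) = 1 := by rw [ZDat.deg_cl, dg_single]
  have hP0 : (Z.σ ^ n) Z.P0 = Z.P0 := Equiv.Perm.pow_apply_eq_self_of_apply_eq_self Z.fix0 n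
  have hsc0 : (Z.s ^ n) (Z.cl (single Z.P0 1)) = Z.cl (single Z.P0 1) := by
    rw [ZDat.s_pow_cl, mapDomain_single, hP0]
  have hker : ∀ y : Z.Pic, y - Z.deg y • Z.cl (single Z.P0 1) ∈ Z.deg.ker := by
    intro y
    rw [AddMonoidHom.mem_ker, map_sub, map_zsmul, hc0, smul_eq_mul, mul_one, sub_self]
  let pr : Z.Pic → Z.J := fun y => ⟨y - Z.deg y • Z.cl (single Z.P0 1), hker y⟩
  have pr_add : ∀ y z, pr (y + z) = pr y + pr z := by
    intro y z
    apply Subtype.ext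
    change y + z - Z.deg (y + z) • Z.cl (single Z.P0 1) =
      (y - Z.deg y • Z.cl (single Z.P0 1)) + (z - Z.deg z • Z.cl (single Z.P0 1))
    rw [map_add, add_zsmul]
    abel
  have pr_coe : ∀ j : Z.J, pr (j : Z.Pic) = j := by
    intro j
    apply Subtype.ext
    change (j : Z.Pic) - Z.deg (j : Z.Pic) • Z.cl (single Z.P0 1) = j
    have : Z.deg (j : Z.Pic) = 0 := j.2
    rw [this, zero_zsmul, sub_zero]
  have pr_s : ∀ y, pr ((Z.s ^ n) y) = (Z.sJ ^ n) (pr y) := by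
    intro y
    apply Subtype.ext
    rw [ZDat.coe_sJ_pow]
    change (Z.s ^ n) y - Z.deg ((Z.s ^ n) y) • Z.cl (single Z.P0 1) =
      (Z.s ^ n) (y - Z.deg y • Z.cl (single Z.P0 1))
    rw [map_sub, map_zsmul, hsc0, ZDat.deg_s_pow]
  let χ : Z.Pic → ℂ := fun y => ψ (pr y)
  have χ_mul : ∀ y z, χ (y + z) = χ y * χ z := by
    intro y z
    change ψ (pr (y + z)) = _
    rw [pr_add, AddChar.map_add_eq_mul]
  have χ_zero : χ 0 = 1 := by
    have h0 : pr 0 = 0 := by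
      have := pr_add 0 0
      rw [add_zero] at this
      exact left_eq_add.1 this
    change ψ (pr 0) = 1
    rw [h0, AddChar.map_zero_eq_one]
  have χ_s : ∀ y, χ ((Z.s ^ n) y) = χ y := by
    intro y
    change ψ (pr ((Z.s ^ n) y)) = ψ (pr y)
    rw [pr_s, hs]
  have χ_pow : ∀ y, χ y ^ ℓ = 1 := by
    intro y
    change ψ (pr y) ^ ℓ = 1
    rw [← AddChar.map_nsmul_eq_pow, hl]
  have χ_x : χ (x : Z.Pic) ≠ 1 := by
    change ψ (pr (x : Z.Pic)) ≠ 1
    rw [pr_coe]; exact hne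
  have hxPM : (x : Z.Pic) ∈ Z.PM n 0 := by
    refine ⟨x.2, ?_⟩
    rw [← ZDat.coe_sJ_pow, hx]
  have hfin : ∀ m : ℕ, 0 < m → {p | ((Z.σ ^ n) ^ m) p = p}.Finite := Z.fin_pow n hn
  -- the coefficients
  have hlarge := fun M (hM : 2 * Z.g ≤ M + 1) => Z.tw_large n hn χ χ_mul (x : Z.Pic) hxPM χ_x M hM
  have hLD : LD (PowerSeries.mk (ac (Z.σ ^ n) fun D => χ (Z.cl D)))
      (pos (sc (Z.σ ^ n) fun D => χ (Z.cl D))) := by
    apply LD_ac (Z.σ ^ n) hfin
    · rw [map_zero, χ_zero]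
    · intro D E
      rw [map_add, χ_mul]
    · intro p
      have : Z.cl (single ((Z.σ ^ n) p) 1) = (Z.s ^ n) (Z.cl (single p 1)) := by
        rw [ZDat.s_pow_cl, mapDomain_single]
      rw [this, χ_s]
  set a : ℕ → ℂ := ac (Z.σ ^ n) (fun D => χ (Z.cl D)) with ha
  have ha0 : a 0 = 1 := by rw [ha, ac_zero, map_zero, χ_zero]
  let F : Polynomial ℂ := PowerSeries.trunc (2 * Z.g + 1) (PowerSeries.mk a)
  have hFc : ((F : Polynomial ℂ) : PowerSeries ℂ) = PowerSeries.mk a := by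
    ext m
    rw [Polynomial.coeff_coe, PowerSeries.coeff_trunc, PowerSeries.coeff_mk]
    split_ifs with h
    · rfl
    · exact (hlarge m (by omega)).symm
  have hF0 : F.coeff 0 = 1 := by
    rw [PowerSeries.coeff_trunc, if_pos (by omega), PowerSeries.coeff_mk, ha0]
  have hFd : F.natDegree ≤ 2 * Z.g :=
    Nat.lt_succ_iff.1 (PowerSeries.natDegree_trunc_lt (PowerSeries.mk a) (2 * Z.g))
  obtain ⟨B, -, hB⟩ := exists_roots F (2 * Z.g) hFd hF0
  have hB' : PowerSeries.mk a =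
      (B.map fun a => (1 : PowerSeries ℂ) - PowerSeries.C a * PowerSeries.X).prod := by
    rw [← hFc, hB, coe_prod_lin]
  have hsum : ∀ m, 0 < m → sc (Z.σ ^ n) (fun D => χ (Z.cl D)) m = -(B.map fun b => b ^ m).sum := by
    intro m hm
    rw [hB'] at hLD
    exact pos_inj (LD.right_unique (ZTw.constantCoeff_prod_lin B) hLD (LD_prod B)) m hm
  -- the untwisted zeta function
  obtain ⟨A, f, -, -, -, -, hA1, hA2⟩ := Z.zeta
  have hsc : ∀ m, 0 < m → sc (Z.σ ^ n) (fun D => χ (Z.cl D)) (ℓ * m) =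
      sc Z.σ (fun _ => (1 : ℂ)) (n * ℓ * m) := by
    intro m _
    unfold sc
    rw [← pow_mul, ← mul_assoc]
    refine finsum_congr fun p => finsum_congr fun _ => ?_
    rw [pow_mul, χ_pow, one_pow, one_pow]
  have key : ∀ m, 0 < m → (((1 : ℂ) ::ₘ ((Z.q : ℂ) ^ (n * ℓ)) ::ₘ (B.map fun b => b ^ ℓ)).map
      fun a => a ^ m).sum = ((A.map fun a => a ^ (n * ℓ)).map fun a => a ^ m).sum := by
    intro m hm
    have h1 := hsum (ℓ * m) (Nat.mul_pos hℓ hm)
    rw [hsc m hm, hA2 _ (Nat.mul_pos (Nat.mul_pos hn hℓ) hm)] at h1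
    rw [Multiset.map_cons, Multiset.map_cons, Multiset.sum_cons, Multiset.sum_cons,
      Multiset.map_map, Multiset.map_map]
    simp only [Function.comp_def, ← pow_mul, one_pow]
    linear_combination h1
  have h2 := ZTw.prod_eq key
  rw [Multiset.map_cons, Multiset.prod_cons, sub_self, zero_mul, Multiset.map_map] at h2
  have h3 := hA1 (n * ℓ) (Nat.mul_pos hn hℓ)
  have h4 : (Z.hh (n * ℓ) : ℂ) = 0 := by
    rw [h3, h2]
    rfl
  have h5 := Z.hh_pos (n * ℓ) (Nat.mul_pos hn hℓ)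
  rw [Nat.cast_eq_zero] at h4
  omega

end Vale.Agent.P019P
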